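import Vale.Agent.P157.Defs

open MeasureTheory ProbabilityTheory

namespace Vale.Agent.P157.Par

/-- One step of the Parisi cascade: `x ↦ (1/m) log E exp(m F(x + √v z))`, `z` standard Gaussian. -/
noncomputable def gstep (m v : ℝ) (F : ℝ → ℝ) : ℝ → ℝ := fun x =>
  1 / m * Real.log (∫ z, Real.exp (m * F (x + √v * z)) ∂(gaussianReal 0 1))

/-- The steps `k, k-1, …, 1` of the cascade with exponents `m l` and increments
`q l - q (l-1)`, applied in this order. -/
noncomputable def cascade (m q : ℕ → ℝ) : ℕ → (ℝ → ℝ) → ℝ → ℝ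
  | 0, F => F
  | l + 1, F => cascade m q l (gstep (m (l + 1)) (q (l + 1) - q l) F)

theorem cascade_succ_def (m q : ℕ → ℝ) (l : ℕ) (F : ℝ → ℝ) :
    cascade m q (l + 1) F = cascade m q l (gstep (m (l + 1)) (q (l + 1) - q l) F) := by
  have h1 := @cascade.eq_1
  have h2 := @cascade.eq_def
  simp only [cascade]

/-- The pattern part `Ψ(m, q)` of the Parisi functional. -/
noncomputable def patternPart (f : ℝ → ℝ) (k : ℕ) (m q : ℕ → ℝ) : ℝ :=
  ∫ z, cascade m q k (fun x => Real.log (∫ y, Real.exp (f (x + √(1 - q k) * y))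
    ∂(gaussianReal 0 1))) (√(q 0) * z) ∂(gaussianReal 0 1)

/-- The spin part `Γ(m, r)` of the Parisi functional on the cube. -/
noncomputable def spinPart (k : ℕ) (m r : ℕ → ℝ) : ℝ :=
  ∫ z, cascade m r k (fun x => Real.log (Real.cosh x)) (√(r 0) * z) ∂(gaussianReal 0 1) - r k / 2

/-- The Parisi functional of the Ising perceptron. -/
noncomputable def parisi (α : ℝ) (f : ℝ → ℝ) (k : ℕ) (m q r : ℕ → ℝ) : ℝ :=
  α * patternPart f k m q + spinPart k m r +
    1 / 2 * ∑ l ∈ Finset.range (k + 1), (m (l + 1) - m l) * r l * q l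

/-- Admissible exponents: `0 = m 0 < m 1 < ⋯ < m (k+1) = 1`. -/
def Exponents (k : ℕ) (m : ℕ → ℝ) : Prop :=
  m 0 = 0 ∧ m (k + 1) = 1 ∧ ∀ l ≤ k, m l < m (l + 1)

/-- Admissible paths: `0 ≤ r 0 ≤ ⋯ ≤ r k`. -/
def Path (k : ℕ) (r : ℕ → ℝ) : Prop := 0 ≤ r 0 ∧ ∀ l < k, r l ≤ r (l + 1)

end Vale.Agent.P157.Par
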