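import Mathlib

open MeasureTheory ProbabilityTheory

namespace Vale.Agent.P157

/-- The law of `M` independent standard Gaussian vectors in `ℝ^N` (the patterns). -/
noncomputable def patterns (M N : ℕ) : Measure (Fin M → Fin N → ℝ) :=
  Measure.pi fun _ => Measure.pi fun _ => gaussianReal 0 1

/-- The uniform probability measure on the Ising cube `{-1,1}^N`, as a measure on `ℝ^N`. -/
noncomputable def cube (N : ℕ) : Measure (Fin N → ℝ) :=
  Measure.pi fun _ => (1 / 2 : ENNReal) • (Measure.dirac (1 : ℝ) + Measure.dirac (-1 : ℝ))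

/-- The uniform probability measure on the sphere of radius `√N` in `ℝ^N`: Mathlib's surface
measure of the unit sphere, normalized to total mass one and scaled by `√N`. -/
noncomputable def sphere (N : ℕ) : Measure (Fin N → ℝ) :=
  (((volume : Measure (EuclideanSpace ℝ (Fin N))).toSphere Set.univ)⁻¹ •
    (volume : Measure (EuclideanSpace ℝ (Fin N))).toSphere).map
      fun u i => √(N : ℝ) * u.1.ofLp i

/-- The pressure `p_N(f)` for the reference probability measure `μ` and the patterns `g`. -/
noncomputable def pressure {M N : ℕ} (μ : Measure (Fin N → ℝ)) (f : ℝ → ℝ)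
    (g : Fin M → Fin N → ℝ) : ℝ :=
  1 / N * Real.log (∫ x, Real.exp (∑ a, f ((∑ i, g a i * x i) / √(N : ℝ))) ∂μ)

/-- The mean pressure `E p_N(f)` at pattern density `α`, with `M = ⌊α N⌋` patterns. -/
noncomputable def meanPressure (μ : (N : ℕ) → Measure (Fin N → ℝ)) (α : ℝ) (f : ℝ → ℝ)
    (N : ℕ) : ℝ :=
  ∫ g, pressure (μ N) f g ∂(patterns ⌊α * N⌋₊ N)

end Vale.Agent.P157
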