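import Mathlib

namespace Vale.Agent.P157

/-- The cube point coded by a Boolean vector. -/
def spin {N : ℕ} (σ : Fin N → Bool) : Fin N → ℝ := fun i => if σ i then 1 else -1

/-- The overlap of two cube points. -/
noncomputable def ovl {N : ℕ} (σ τ : Fin N → Bool) : ℝ := (∑ i, spin σ i * spin τ i) / N

end Vale.Agent.P157
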