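import Vale.Agent.P157.ParUBasic
import Vale.Agent.P157.SpinDefs

/-!
Tensorization of the spin cascade (module U of the Parisi plan).
-/

open MeasureTheory ProbabilityTheory Filter Topology

namespace Vale.Agent.P157.Par

variable {N : ℕ}

/-- Lipschitz functions of one real variable. -/
def Lip1 (F : ℝ → ℝ) : Prop := ∃ L : ℝ, 0 ≤ L ∧ ∀ x x', |F x - F x'| ≤ L * |x - x'|

lemma Lip1.continuous {F : ℝ → ℝ} (h : Lip1 F) : Continuous F := by
  obtain ⟨L, hL, h⟩ := h
  refine (LipschitzWith.of_dist_le_mul (K := ⟨L, hL⟩) fun y y' => ?_).continuous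
  rw [Real.dist_eq, Real.dist_eq]; exact h y y'

lemma integrable_exp_abs (a : ℝ) :
    Integrable (fun x : ℝ => Real.exp (a * |x|)) (gaussianReal 0 1) :=
  ProbabilityTheory.integrable_exp_mul_abs (X := fun x => x) (t := a)
    (by simpa using integrable_exp_mul_gaussianReal (μ := 0) (v := 1) a)
    (by simpa using integrable_exp_mul_gaussianReal (μ := 0) (v := 1) (-a))

lemma Lip1.abs_le {F : ℝ → ℝ} {L : ℝ} (_hL : 0 ≤ L) (h : ∀ x x', |F x - F x'| ≤ L * |x - x'|)
    (x s z : ℝ) : |F (x + s * z)| ≤ |F x| + L * |s| * |z| := by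
  have h1 := h (x + s * z) x
  rw [add_sub_cancel_left, abs_mul] at h1
  calc |F (x + s * z)| = |(F (x + s * z) - F x) + F x| := by ring_nf
    _ ≤ |F (x + s * z) - F x| + |F x| := abs_add_le _ _
    _ ≤ _ := by linarith

lemma Lip1.integrable {F : ℝ → ℝ} (h : Lip1 F) (x s : ℝ) :
    Integrable (fun z => F (x + s * z)) (gaussianReal 0 1) := by
  obtain ⟨L, hL, hl⟩ := id h
  have hz : Integrable (fun z : ℝ => z) (gaussianReal 0 1) :=
    (memLp_id_gaussianReal 1).integrable le_rfl
  refine ((integrable_const |F x|).add (hz.abs.const_mul (L * |s|))).mono'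
    (h.continuous.comp (by fun_prop)).aestronglyMeasurable (Filter.Eventually.of_forall fun z => ?_)
  rw [Real.norm_eq_abs]
  exact Lip1.abs_le hL hl x s z

lemma Lip1.integrable_exp {F : ℝ → ℝ} (h : Lip1 F) (m x s : ℝ) :
    Integrable (fun z => Real.exp (m * F (x + s * z))) (gaussianReal 0 1) := by
  obtain ⟨L, hL, hl⟩ := id h
  refine ((integrable_exp_abs (|m| * (L * |s|))).const_mul (Real.exp (|m| * |F x|))).mono'
    ((Real.continuous_exp.comp (continuous_const.mul
      (h.continuous.comp (by fun_prop)))).aestronglyMeasurable)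
    (Filter.Eventually.of_forall fun z => ?_)
  rw [Real.norm_eq_abs, abs_of_pos (Real.exp_pos _), ← Real.exp_add, Real.exp_le_exp]
  have h1 := Lip1.abs_le hL hl x s z
  calc m * F (x + s * z) ≤ |m * F (x + s * z)| := le_abs_self _
    _ = |m| * |F (x + s * z)| := abs_mul _ _
    _ ≤ |m| * (|F x| + L * |s| * |z|) := mul_le_mul_of_nonneg_left h1 (abs_nonneg m)
    _ = _ := by ring

lemma Lip1.int_exp_pos {F : ℝ → ℝ} (h : Lip1 F) (m x s : ℝ) :
    0 < ∫ z, Real.exp (m * F (x + s * z)) ∂(gaussianReal 0 1) :=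
  integral_exp_pos (h.integrable_exp m x s)

lemma Lip1.gstep {F : ℝ → ℝ} (h : Lip1 F) {m : ℝ} (hm : 0 < m) (v : ℝ) : Lip1 (gstep m v F) := by
  obtain ⟨L, hL, hl⟩ := id h
  have key : ∀ y y', Par.gstep m v F y ≤ Par.gstep m v F y' + L * |y - y'| := by
    intro y y'
    unfold Par.gstep
    have h1 : ∫ z, Real.exp (m * F (y + √v * z)) ∂(gaussianReal 0 1) ≤
        Real.exp (m * (L * |y - y'|)) * ∫ z, Real.exp (m * F (y' + √v * z)) ∂(gaussianReal 0 1) := by
      rw [← integral_const_mul]
      refine integral_mono (h.integrable_exp m y (√v))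
        ((h.integrable_exp m y' (√v)).const_mul _) fun z => ?_
      dsimp only
      rw [← Real.exp_add, Real.exp_le_exp, ← mul_add]
      refine mul_le_mul_of_nonneg_left ?_ hm.le
      have := (_root_.abs_le.1 (hl (y + √v * z) (y' + √v * z))).2
      rw [add_sub_add_right_eq_sub] at this
      linarith
    have h2 := Real.log_le_log (h.int_exp_pos m y (√v)) h1
    rw [Real.log_mul (Real.exp_pos _).ne' (h.int_exp_pos m y' (√v)).ne', Real.log_exp] at h2
    calc 1 / m * Real.log (∫ z, Real.exp (m * F (y + √v * z)) ∂(gaussianReal 0 1)) ≤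
        1 / m * (m * (L * |y - y'|) +
          Real.log (∫ z, Real.exp (m * F (y' + √v * z)) ∂(gaussianReal 0 1))) :=
          mul_le_mul_of_nonneg_left h2 (by positivity)
      _ = _ := by field_simp; ring
  refine ⟨L, hL, fun y y' => _root_.abs_le.2 ⟨?_, ?_⟩⟩
  · have := key y' y
    rw [abs_sub_comm] at this
    linarith
  · have := key y y'
    linarith

/-- One cascade step of a sum of functions of the coordinates. -/
lemma gstepN_sum {F : ℝ → ℝ} (hF : Lip1 F) (m v : ℝ) :
    gstepN (N := N) m v (fun y => ∑ i, F (y i)) = fun y => ∑ i, gstep m v F (y i) := by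
  funext y
  unfold gstepN gstep
  have h1 : ∀ z : Fin N → ℝ, Real.exp (m * ∑ i, F ((y + √v • z) i)) =
      ∏ i, Real.exp (m * F (y i + √v * z i)) := by
    intro z
    rw [← Real.exp_sum, Finset.mul_sum]
    simp
  simp only [h1]
  rw [integral_fintype_prod_eq_prod (fun (i : Fin N) (x : ℝ) => Real.exp (m * F (y i + √v * x))),
    Real.log_prod (fun i _ => (hF.int_exp_pos m (y i) (√v)).ne'), Finset.mul_sum]

lemma topN_sum {m r : ℕ → ℝ} {l : ℕ} (hm : ∀ j < l, 0 < m (j + 1)) {F : ℝ → ℝ} (hF : Lip1 F) :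
    topN (N := N) m r l (fun y => ∑ i, F (y i)) =
      N * ∫ z, cascade m r l F (√(r 0) * z) ∂(gaussianReal 0 1) := by
  induction l generalizing F with
  | zero =>
    unfold topN cascade
    have h0 : Integrable (fun x => F (√(r 0) * x)) (gaussianReal 0 1) := by
      simpa using hF.integrable 0 (√(r 0))
    have hi : ∀ i : Fin N, ∫ z : Fin N → ℝ, F (√(r 0) * z i) ∂(gN N) =
        ∫ x, F (√(r 0) * x) ∂(gaussianReal 0 1) := fun i =>
      integral_comp_eval (μ := fun _ : Fin N => gaussianReal 0 1) (i := i)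
        (f := fun x => F (√(r 0) * x)) h0.aestronglyMeasurable
    simp only [Pi.smul_apply, smul_eq_mul]
    rw [integral_finsetSum _ (fun i _ => integrable_comp_eval
      (μ := fun _ : Fin N => gaussianReal 0 1) (i := i) (f := fun x => F (√(r 0) * x)) h0)]
    simp only [hi]
    simp
  | succ l ih =>
    unfold topN cascade
    rw [gstepN_sum hF]
    exact ih (fun j hj => hm j (by omega)) (hF.gstep (hm l (by omega)) _)

/-- `log cosh` is Lipschitz. -/
lemma lip1_log_cosh : Lip1 (fun x => Real.log (Real.cosh x)) := by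
  have key : ∀ x x' : ℝ, Real.log (Real.cosh x) ≤ Real.log (Real.cosh x') + |x - x'| := by
    intro x x'
    rw [← Real.log_exp |x - x'|, ← Real.log_mul (Real.cosh_pos x').ne' (Real.exp_pos _).ne']
    refine Real.log_le_log (Real.cosh_pos x) ?_
    rw [Real.cosh_eq, Real.cosh_eq]
    have h1 : Real.exp x ≤ Real.exp x' * Real.exp |x - x'| := by
      rw [← Real.exp_add, Real.exp_le_exp]
      linarith [le_abs_self (x - x')]
    have h2 : Real.exp (-x) ≤ Real.exp (-x') * Real.exp |x - x'| := by
      rw [← Real.exp_add, Real.exp_le_exp]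
      linarith [neg_abs_le (x - x')]
    calc (Real.exp x + Real.exp (-x)) / 2 ≤
        (Real.exp x' * Real.exp |x - x'| + Real.exp (-x') * Real.exp |x - x'|) / 2 := by linarith
      _ = _ := by ring
  refine ⟨1, zero_le_one, fun x x' => _root_.abs_le.2 ⟨?_, ?_⟩⟩
  · have := key x' x
    rw [abs_sub_comm] at this
    linarith
  · have := key x x'
    linarith

lemma lw_spin (y : Fin N → ℝ) :
    lw (X := Fin N → Bool) spin 1 (fun _ => -(N * Real.log 2)) y =
      ∑ i, Real.log (Real.cosh (y i)) := by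
  unfold lw
  have h1 : ∀ x : Fin N → Bool, Real.exp (-(N * Real.log 2) + 1 * ∑ i, y i * spin x i) =
      ∏ i, (Real.exp (y i * (if x i then 1 else -1)) / 2) := by
    intro x
    rw [Real.exp_add, one_mul, Real.exp_sum, Finset.prod_div_distrib, Real.exp_neg]
    have : Real.exp (N * Real.log 2) = ∏ _i : Fin N, (2 : ℝ) := by
      rw [Finset.prod_const, Finset.card_univ, Fintype.card_fin, Real.exp_nat_mul,
        Real.exp_log (by norm_num)]
    rw [this]
    unfold spin
    field_simp
  simp only [h1]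
  have h2 := Finset.prod_univ_sum (fun _ : Fin N => (Finset.univ : Finset Bool))
    (fun (i : Fin N) (b : Bool) => Real.exp (y i * (if b then 1 else -1)) / 2)
  rw [Fintype.piFinset_univ] at h2
  rw [← h2, Real.log_prod]
  · refine Finset.sum_congr rfl fun i _ => ?_
    congr 1
    rw [Real.cosh_eq, Fintype.sum_bool]
    simp
    ring
  · intro i _
    refine (Finset.sum_pos (fun b _ => by positivity) Finset.univ_nonempty).ne'

lemma Exponents.pos {k : ℕ} {m : ℕ → ℝ} (hm : Exponents k m) : ∀ j ≤ k, 0 < m (j + 1) := by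
  intro j hj
  induction j with
  | zero => have := hm.2.2 0 hj; rw [hm.1] at this; exact this
  | succ j ih => exact (ih (by omega)).trans (hm.2.2 (j + 1) hj)

theorem topN_spin {k : ℕ} {m r : ℕ → ℝ} (hm : Exponents k m) (N : ℕ) :
    topN m r k (lw (X := Fin N → Bool) spin 1 (fun _ => -(N * Real.log 2))) =
      N * (spinPart k m r + r k / 2) := by
  rw [funext (lw_spin (N := N)), topN_sum (fun j hj => hm.pos j hj.le) lip1_log_cosh]
  unfold spinPart
  ring

lemma gstepN_const {m : ℝ} (hm : m ≠ 0) (v c : ℝ) :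
    gstepN (N := N) m v (fun _ => c) = fun _ => c := by
  funext y
  unfold gstepN
  simp
  field_simp

lemma topN_const {m r : ℕ → ℝ} {l : ℕ} (hm : ∀ j < l, 0 < m (j + 1)) (c : ℝ) :
    topN (N := N) m r l (fun _ => c) = c := by
  induction l with
  | zero => simp [topN]
  | succ l ih =>
    unfold topN
    rw [gstepN_const (hm l (by omega)).ne']
    exact ih fun j hj => hm j (by omega)

theorem topN_zero {k : ℕ} {m r : ℕ → ℝ} (hm : Exponents k m) {X : Type} [Fintype X]
    (φ : X → Fin N → ℝ) (u : X → ℝ) :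
    topN m r k (lw φ 0 u) = Real.log (∑ x, Real.exp (u x)) := by
  have h : lw φ 0 u = fun _ => Real.log (∑ x, Real.exp (u x)) := by
    funext y
    unfold lw
    simp
  rw [h, topN_const fun j hj => hm.pos j hj.le]

end Vale.Agent.P157.Par
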