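import Vale.Agent.P157.ParSpDefs
import Vale.Agent.P157.ParClose
import Vale.Agent.P157.ParUTens

/-! One step of the tilted chain on the line. -/

open MeasureTheory ProbabilityTheory Filter Topology Set

namespace Vale.Agent.P157.Par

theorem Ec.abs_M {F M D : ℝ → ℝ} (h : Ec F M D) (x : ℝ) : |M x| ≤ 1 := by
  have h1 := h.D0 x
  have h2 := h.D1 x
  exact (sq_le_one_iff_abs_le_one (M x)).1 (by linarith)

theorem Ec.sm {F M D : ℝ → ℝ} (h : Ec F M D) : Sm 1 1 F M D :=
  ⟨h.d1, h.d2, h.cD, h.abs_M, fun x => by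
    rw [abs_of_nonneg (h.D0 x)]
    have := h.D1 x
    have := sq_nonneg (M x)
    linarith⟩

theorem Ec.odd {F M D : ℝ → ℝ} (h : Ec F M D) (x : ℝ) : M (-x) = -M x := by
  have h1 : HasDerivAt (fun x => F (-x)) (M (-x) * -1) x :=
    (h.d1 (-x)).comp x (hasDerivAt_neg x)
  have h2 : (fun x => F (-x)) = F := funext h.even
  rw [h2] at h1
  have := h1.unique (h.d1 x)
  linarith

theorem Ec.mono {F M D : ℝ → ℝ} (h : Ec F M D) : Monotone M :=
  monotone_of_hasDerivAt_nonneg h.d2 h.D0

theorem ec_logcosh : Ec (fun x => Real.log (Real.cosh x)) Real.tanh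
    (fun x => 1 - Real.tanh x ^ 2) := by
  have hd : ∀ x, HasDerivAt Real.tanh (1 - Real.tanh x ^ 2) x := by
    intro x
    have h1 := (Real.hasDerivAt_sinh x).div (Real.hasDerivAt_cosh x) (Real.cosh_pos x).ne'
    have h2 : (Real.sinh / Real.cosh : ℝ → ℝ) = Real.tanh := by
      funext y
      rw [Pi.div_apply, Real.tanh_eq_sinh_div_cosh]
    rw [h2] at h1
    refine h1.congr_deriv ?_
    rw [Real.tanh_eq_sinh_div_cosh]
    have := (Real.cosh_pos x).ne'
    field_simp
  refine ⟨fun x => ?_, hd, ?_, fun x => by rw [Real.cosh_neg], fun x => ?_, fun x => ?_⟩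
  · rw [Real.tanh_eq_sinh_div_cosh]
    exact (Real.hasDerivAt_cosh x).log (Real.cosh_pos x).ne'
  · have : Continuous Real.tanh := continuous_iff_continuousAt.2 fun x => (hd x).continuousAt
    fun_prop
  · have := (Real.tanh_sq_lt_one x).le
    linarith
  · linarith

theorem Sm.cont {L B : ℝ} {F M D : ℝ → ℝ} (h : Sm L B F M D) : Continuous F :=
  continuous_iff_continuousAt.2 fun x => (h.d1 x).continuousAt

theorem Sm.cont1 {L B : ℝ} {F M D : ℝ → ℝ} (h : Sm L B F M D) : Continuous M :=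
  continuous_iff_continuousAt.2 fun x => (h.d2 x).continuousAt

lemma Sm.L0 {L B : ℝ} {F M D : ℝ → ℝ} (h : Sm L B F M D) : 0 ≤ L :=
  (abs_nonneg _).trans (h.bM 0)

lemma Sm.lip {L B : ℝ} {F M D : ℝ → ℝ} (h : Sm L B F M D) (x y : ℝ) :
    |F x - F y| ≤ L * |x - y| := by
  have := convex_univ.norm_image_sub_le_of_norm_hasDerivWithin_le (f := F) (f' := M)
    (s := Set.univ) (fun x _ => (h.d1 x).hasDerivWithinAt) (fun x _ => h.bM x)
    (mem_univ y) (mem_univ x)
  simpa only [Real.norm_eq_abs] using this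

lemma Sm.lip1 {L B : ℝ} {F M D : ℝ → ℝ} (h : Sm L B F M D) : Lip1 F := ⟨L, h.L0, h.lip⟩

theorem Sm.integrable_exp {L B : ℝ} {F M D : ℝ → ℝ} (h : Sm L B F M D) (m v x : ℝ) :
    Integrable (fun z => Real.exp (m * F (x + √v * z))) (gaussianReal 0 1) :=
  h.lip1.integrable_exp m x (√v)

theorem Sm.int_exp_pos {L B : ℝ} {F M D : ℝ → ℝ} (h : Sm L B F M D) (m v x : ℝ) :
    0 < ∫ z, Real.exp (m * F (x + √v * z)) ∂(gaussianReal 0 1) :=
  h.lip1.int_exp_pos m x (√v)

/-- Integrability of bounded functions times the exponential weight. -/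
theorem Sm.integrable {L B : ℝ} {F M D : ℝ → ℝ} (h : Sm L B F M D) {g : ℝ → ℝ}
    (hg : Continuous g) {K : ℝ} (hK : ∀ x, |g x| ≤ K) (m v x : ℝ) :
    Integrable (fun z => g (x + √v * z) * Real.exp (m * F (x + √v * z))) (gaussianReal 0 1) := by
  have hF := h.cont
  refine ((h.integrable_exp m v x).const_mul K).mono'
    (by fun_prop : Continuous fun z => g (x + √v * z) *
      Real.exp (m * F (x + √v * z))).aestronglyMeasurable (ae_of_all _ fun z => ?_)
  rw [norm_mul, Real.norm_eq_abs, Real.norm_eq_abs, abs_of_pos (Real.exp_pos _)]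
  exact mul_le_mul_of_nonneg_right (hK _) (Real.exp_pos _).le

theorem Sm.tlt_const {L B : ℝ} {F M D : ℝ → ℝ} (h : Sm L B F M D) (m v c x : ℝ) :
    tlt m v F (fun _ => c) x = c := by
  unfold tlt
  rw [integral_const_mul]
  exact mul_div_cancel_right₀ _ (h.int_exp_pos m v x).ne'

theorem Sm.tlt_add {L B : ℝ} {F M D : ℝ → ℝ} (h : Sm L B F M D) {g g' : ℝ → ℝ}
    (hg : Continuous g) {K : ℝ} (hK : ∀ x, |g x| ≤ K) (hg' : Continuous g') {K' : ℝ}
    (hK' : ∀ x, |g' x| ≤ K') (m v x : ℝ) :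
    tlt m v F (fun y => g y + g' y) x = tlt m v F g x + tlt m v F g' x := by
  unfold tlt
  rw [← add_div, ← integral_add (h.integrable hg hK m v x) (h.integrable hg' hK' m v x)]
  congr 1
  refine integral_congr_ae (ae_of_all _ fun z => ?_)
  simp only []
  ring

theorem tlt_const_mul (m v c : ℝ) (F g : ℝ → ℝ) (x : ℝ) :
    tlt m v F (fun y => c * g y) x = c * tlt m v F g x := by
  unfold tlt
  rw [← mul_div_assoc, ← integral_const_mul]
  congr 1
  refine integral_congr_ae (ae_of_all _ fun z => ?_)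
  simp only []
  ring

theorem Sm.tlt_mono {L B : ℝ} {F M D : ℝ → ℝ} (h : Sm L B F M D) {g g' : ℝ → ℝ}
    (hg : Continuous g) {K : ℝ} (hK : ∀ x, |g x| ≤ K) (hg' : Continuous g') {K' : ℝ}
    (hK' : ∀ x, |g' x| ≤ K') (hle : ∀ x, g x ≤ g' x) (m v x : ℝ) :
    tlt m v F g x ≤ tlt m v F g' x := by
  unfold tlt
  refine div_le_div_of_nonneg_right (integral_mono (h.integrable hg hK m v x)
    (h.integrable hg' hK' m v x) fun z => ?_) (h.int_exp_pos m v x).le
  exact mul_le_mul_of_nonneg_right (hle _) (Real.exp_pos _).le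

theorem Sm.abs_tlt_le {L B : ℝ} {F M D : ℝ → ℝ} (h : Sm L B F M D) {g : ℝ → ℝ}
    (hg : Continuous g) {K : ℝ} (hK : ∀ x, |g x| ≤ K) (m v x : ℝ) :
    |tlt m v F g x| ≤ K := by
  have h1 := h.tlt_mono (g := g) (g' := fun _ => K) hg hK continuous_const
    (K' := |K|) (fun _ => le_rfl) (fun y => (abs_le.1 (hK y)).2) m v x
  have h2 := h.tlt_mono (g := fun _ => -K) (g' := g) continuous_const
    (K := |K|) (fun _ => by rw [abs_neg]) hg hK (fun y => (abs_le.1 (hK y)).1) m v x
  rw [h.tlt_const] at h1 h2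
  exact abs_le.2 ⟨h2, h1⟩

theorem Sm.tlt_sq_le {L B : ℝ} {F M D : ℝ → ℝ} (h : Sm L B F M D) {g : ℝ → ℝ}
    (hg : Continuous g) {K : ℝ} (hK : ∀ x, |g x| ≤ K) (m v x : ℝ) :
    tlt m v F g x ^ 2 ≤ tlt m v F (fun y => g y ^ 2) x := by
  set w := tlt m v F g x with hw
  have hK2 : ∀ y, |g y ^ 2| ≤ K ^ 2 := fun y => by
    rw [abs_pow]
    exact pow_le_pow_left₀ (abs_nonneg _) (hK y) 2
  have hc : ∀ y, |2 * w * g y + -w ^ 2| ≤ |2 * w| * K + w ^ 2 := fun y => by
    refine (abs_add_le _ _).trans (add_le_add ?_ ?_)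
    · rw [abs_mul]
      exact mul_le_mul_of_nonneg_left (hK y) (abs_nonneg _)
    · rw [abs_neg, abs_of_nonneg (sq_nonneg w)]
  have h1 := h.tlt_mono (g := fun y => 2 * w * g y + -w ^ 2) (g' := fun y => g y ^ 2)
    (by fun_prop) hc (by fun_prop) hK2 (fun y => by nlinarith [sq_nonneg (g y - w)]) m v x
  rw [h.tlt_add (g := fun y => 2 * w * g y) (g' := fun _ => -w ^ 2) (by fun_prop)
    (K := |2 * w| * K) (fun y => by
      rw [abs_mul]; exact mul_le_mul_of_nonneg_left (hK y) (abs_nonneg _))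
    continuous_const (K' := |-w ^ 2|) (fun _ => le_rfl), tlt_const_mul, h.tlt_const, ← hw] at h1
  nlinarith

/-- Local domination of the exponential weight. -/
lemma Sm.exp_le {L B : ℝ} {F M D : ℝ → ℝ} (h : Sm L B F M D) (m v x : ℝ) {y : ℝ}
    (hy : |y - x| ≤ 1) (z : ℝ) : Real.exp (m * F (y + √v * z)) ≤
      Real.exp (|m| * (|F x| + L)) * Real.exp (|m| * (L * √v) * |z|) := by
  rw [← Real.exp_add, Real.exp_le_exp]
  have h1 : |F (y + √v * z)| ≤ |F x| + L * (1 + √v * |z|) := by
    have h2 := h.lip (y + √v * z) x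
    have h3 : |y + √v * z - x| ≤ 1 + √v * |z| := by
      calc |y + √v * z - x| = |(y - x) + √v * z| := by ring_nf
        _ ≤ |y - x| + |√v * z| := abs_add_le _ _
        _ ≤ 1 + √v * |z| := by
          rw [abs_mul, abs_of_nonneg (Real.sqrt_nonneg v)]
          linarith
    have h4 := abs_sub_abs_le_abs_sub (F (y + √v * z)) (F x)
    have h5 := mul_le_mul_of_nonneg_left h3 h.L0
    linarith
  calc m * F (y + √v * z) ≤ |m * F (y + √v * z)| := le_abs_self _
    _ = |m| * |F (y + √v * z)| := abs_mul _ _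
    _ ≤ |m| * (|F x| + L * (1 + √v * |z|)) := mul_le_mul_of_nonneg_left h1 (abs_nonneg m)
    _ = _ := by ring

lemma Sm.num_cont {L B : ℝ} {F M D : ℝ → ℝ} (h : Sm L B F M D) {g : ℝ → ℝ}
    (hg : Continuous g) {K : ℝ} (hK : ∀ x, |g x| ≤ K) (m v : ℝ) :
    Continuous fun x => ∫ z, g (x + √v * z) * Real.exp (m * F (x + √v * z))
      ∂(gaussianReal 0 1) := by
  have hF := h.cont
  rw [continuous_iff_continuousAt]
  intro x
  refine continuousAt_of_dominated (bound := fun z => K * (Real.exp (|m| * (|F x| + L)) *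
    Real.exp (|m| * (L * √v) * |z|))) (Filter.Eventually.of_forall fun y =>
      (by fun_prop : Continuous fun z => g (y + √v * z) *
        Real.exp (m * F (y + √v * z))).aestronglyMeasurable) ?_ ?_ ?_
  · have hnb : ∀ᶠ y in 𝓝 x, |y - x| ≤ 1 := by
      filter_upwards [Metric.closedBall_mem_nhds x one_pos] with y hy
      rwa [Metric.mem_closedBall, Real.dist_eq] at hy
    filter_upwards [hnb] with y hy
    refine ae_of_all _ fun z => ?_
    rw [norm_mul, Real.norm_eq_abs, Real.norm_eq_abs, abs_of_pos (Real.exp_pos _)]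
    exact mul_le_mul (hK _) (h.exp_le m v x hy z) (Real.exp_pos _).le
      ((abs_nonneg _).trans (hK 0))
  · exact ((integrable_exp_abs _).const_mul _).const_mul K
  · refine ae_of_all _ fun z => ?_
    exact (by fun_prop : Continuous fun y => g (y + √v * z) *
      Real.exp (m * F (y + √v * z))).continuousAt

theorem Sm.tlt_cont {L B : ℝ} {F M D : ℝ → ℝ} (h : Sm L B F M D) {g : ℝ → ℝ}
    (hg : Continuous g) {K : ℝ} (hK : ∀ x, |g x| ≤ K) (m v : ℝ) :
    Continuous (tlt m v F g) := by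
  have h1 := h.num_cont hg hK m v
  have h2 := h.num_cont (g := fun _ => 1) continuous_const (K := 1) (fun _ => by simp) m v
  simp only [one_mul] at h2
  exact h1.div h2 fun x => (h.int_exp_pos m v x).ne'

/-- The derivative of the numerators. -/
lemma Sm.num_deriv {L B : ℝ} {F M D : ℝ → ℝ} (h : Sm L B F M D) {g g' : ℝ → ℝ}
    (hg : ∀ x, HasDerivAt g (g' x) x) {K : ℝ} (hK : ∀ x, |g x| ≤ K) (hc : Continuous g')
    {K' : ℝ} (hK' : ∀ x, |g' x| ≤ K') (m v x : ℝ) :
    HasDerivAt (fun x => ∫ z, g (x + √v * z) * Real.exp (m * F (x + √v * z))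
      ∂(gaussianReal 0 1))
      (∫ z, (fun y => g' y + m * M y * g y) (x + √v * z) * Real.exp (m * F (x + √v * z))
        ∂(gaussianReal 0 1)) x := by
  have hF := h.cont
  have hM := h.cont1
  have hgc : Continuous g := continuous_iff_continuousAt.2 fun x => (hg x).continuousAt
  have hK0 : 0 ≤ K := (abs_nonneg _).trans (hK 0)
  have hK0' : 0 ≤ K' := (abs_nonneg _).trans (hK' 0)
  have hb : ∀ y, |g' y + m * M y * g y| ≤ K' + |m| * L * K := fun y => by
    refine (abs_add_le _ _).trans (add_le_add (hK' y) ?_)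
    rw [abs_mul, abs_mul]
    exact mul_le_mul (mul_le_mul_of_nonneg_left (h.bM y) (abs_nonneg _)) (hK y) (abs_nonneg _)
      (mul_nonneg (abs_nonneg _) h.L0)
  refine (hasDerivAt_integral_of_dominated_loc_of_deriv_le
    (s := Metric.closedBall x 1) (μ := gaussianReal 0 1)
    (F := fun y z => g (y + √v * z) * Real.exp (m * F (y + √v * z)))
    (F' := fun y z => (g' (y + √v * z) + m * M (y + √v * z) * g (y + √v * z)) *
      Real.exp (m * F (y + √v * z)))
    (bound := fun z => (K' + |m| * L * K) * (Real.exp (|m| * (|F x| + L)) *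
      Real.exp (|m| * (L * √v) * |z|)))
    (Metric.closedBall_mem_nhds x one_pos)
    (Filter.Eventually.of_forall fun y => (by fun_prop : Continuous fun z => g (y + √v * z) *
        Real.exp (m * F (y + √v * z))).aestronglyMeasurable)
    (h.integrable hgc hK m v x)
    (by fun_prop : Continuous fun z => (g' (x + √v * z) + m * M (x + √v * z) *
      g (x + √v * z)) * Real.exp (m * F (x + √v * z))).aestronglyMeasurable
    (ae_of_all _ fun z y hy => ?_)
    (((integrable_exp_abs _).const_mul _).const_mul _)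
    (ae_of_all _ fun z y hy => ?_)).2
  · rw [Metric.mem_closedBall, Real.dist_eq] at hy
    rw [norm_mul, Real.norm_eq_abs, Real.norm_eq_abs, abs_of_pos (Real.exp_pos _)]
    exact mul_le_mul (hb _) (h.exp_le m v x hy z) (Real.exp_pos _).le
      (add_nonneg hK0' (mul_nonneg (mul_nonneg (abs_nonneg _) h.L0) hK0))
  · have h1 : HasDerivAt (fun y => y + √v * z) 1 y := (hasDerivAt_id y).add_const _
    have h2 : HasDerivAt (fun y => g (y + √v * z)) (g' (y + √v * z) * 1) y :=
      (hg (y + √v * z)).comp y h1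
    have h3 : HasDerivAt (fun y => F (y + √v * z)) (M (y + √v * z) * 1) y :=
      (h.d1 (y + √v * z)).comp y h1
    refine (h2.fun_mul ((h3.const_mul m).exp)).congr_deriv ?_
    ring

/-- The derivative of the tilted averages. -/
lemma Sm.tlt_deriv {L B : ℝ} {F M D : ℝ → ℝ} (h : Sm L B F M D) {g g' : ℝ → ℝ}
    (hg : ∀ x, HasDerivAt g (g' x) x) {K : ℝ} (hK : ∀ x, |g x| ≤ K) (hc : Continuous g')
    {K' : ℝ} (hK' : ∀ x, |g' x| ≤ K') (m v x : ℝ) :
    HasDerivAt (tlt m v F g)
      (tlt m v F (fun y => g' y + m * M y * g y) x - tlt m v F g x * (m * tlt m v F M x)) x := by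
  have h1 := h.num_deriv hg hK hc hK' m v x
  have h2 := h.num_deriv (g := fun _ => 1) (g' := fun _ => 0) (fun x => hasDerivAt_const x 1)
    (K := 1) (fun _ => by simp) continuous_const (K' := 0) (fun _ => by simp) m v x
  simp only [one_mul, zero_add, mul_one] at h2
  have hZ := (h.int_exp_pos m v x).ne'
  have h4 : (∫ z, m * M (x + √v * z) * Real.exp (m * F (x + √v * z)) ∂(gaussianReal 0 1)) =
      m * ∫ z, M (x + √v * z) * Real.exp (m * F (x + √v * z)) ∂(gaussianReal 0 1) := by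
    rw [← integral_const_mul]
    refine integral_congr_ae (ae_of_all _ fun z => ?_)
    simp only []
    ring
  rw [h4] at h2
  have h3 := h1.fun_div h2 hZ
  refine h3.congr_deriv ?_
  unfold tlt
  field_simp

theorem Sm.step {L B : ℝ} {F M D : ℝ → ℝ} (h : Sm L B F M D) {m : ℝ} (hm : 0 < m) (v : ℝ) :
    Sm L (B + m * L ^ 2) (gstep m v F) (tlt m v F M)
      (fun x => tlt m v F (fun y => D y + m * M y ^ 2) x - m * tlt m v F M x ^ 2) := by
  have hM := h.cont1
  have hD := h.cD
  have hL := h.L0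
  have hM2 : ∀ y, |M y ^ 2| ≤ L ^ 2 := fun y => by
    rw [abs_pow]
    exact pow_le_pow_left₀ (abs_nonneg _) (h.bM y) 2
  have hmM2 : ∀ y, |m * M y ^ 2| ≤ m * L ^ 2 := fun y => by
    rw [abs_mul, abs_of_pos hm]
    exact mul_le_mul_of_nonneg_left (hM2 y) hm.le
  refine ⟨fun x => ?_, fun x => ?_, ?_, h.abs_tlt_le hM h.bM m v, fun x => ?_⟩
  · have h2 := h.num_deriv (g := fun _ => 1) (g' := fun _ => 0) (fun x => hasDerivAt_const x 1)
      (K := 1) (fun _ => by simp) continuous_const (K' := 0) (fun _ => by simp) m v x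
    simp only [one_mul, zero_add, mul_one] at h2
    have h4 : (∫ z, m * M (x + √v * z) * Real.exp (m * F (x + √v * z)) ∂(gaussianReal 0 1)) =
        m * ∫ z, M (x + √v * z) * Real.exp (m * F (x + √v * z)) ∂(gaussianReal 0 1) := by
      rw [← integral_const_mul]
      refine integral_congr_ae (ae_of_all _ fun z => ?_)
      simp only []
      ring
    rw [h4] at h2
    have h3 := (h2.log (h.int_exp_pos m v x).ne').const_mul (1 / m)
    have hZ := (h.int_exp_pos m v x).ne'
    refine h3.congr_deriv ?_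
    unfold tlt
    field_simp
  · refine (h.tlt_deriv h.d2 h.bM hD h.bD m v x).congr_deriv ?_
    have e : (fun y => D y + m * M y ^ 2) = fun y => D y + m * M y * M y := by
      funext y; ring
    rw [e]
    ring
  · have h1 := h.tlt_cont (g := fun y => D y + m * M y ^ 2) (by fun_prop) (K := B + m * L ^ 2)
      (fun y => (abs_add_le _ _).trans (add_le_add (h.bD y) (hmM2 y))) m v
    have h2 := h.tlt_cont hM h.bM m v
    fun_prop
  · have e : tlt m v F (fun y => D y + m * M y ^ 2) x =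
        tlt m v F D x + m * tlt m v F (fun y => M y ^ 2) x := by
      rw [h.tlt_add hD h.bD (g' := fun y => m * M y ^ 2) (by fun_prop) hmM2, tlt_const_mul]
    rw [e]
    have h1 := h.tlt_sq_le hM h.bM m v x
    have h2 := abs_le.1 (h.abs_tlt_le hD h.bD m v x)
    have h3 := abs_le.1 (h.abs_tlt_le (g := fun y => M y ^ 2) (by fun_prop) hM2 m v x)
    have h4 := sq_nonneg (tlt m v F M x)
    rw [abs_le]
    constructor
    · nlinarith [h2.1, mul_le_mul_of_nonneg_left h1 hm.le, mul_nonneg hm.le (sq_nonneg L)]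
    · nlinarith [h2.2, h3.2, mul_le_mul_of_nonneg_left h3.2 hm.le, mul_nonneg hm.le h4]

lemma integral_gauss_neg (g : ℝ → ℝ) :
    ∫ z, g (-z) ∂(gaussianReal 0 1) = ∫ z, g z ∂(gaussianReal 0 1) := by
  have h : (gaussianReal 0 1).map (fun z : ℝ => -z) = gaussianReal 0 1 := by
    have := gaussianReal_map_neg (μ := 0) (v := 1)
    simpa using this
  conv_rhs => rw [← h]
  exact (integral_map_equiv (MeasurableEquiv.neg ℝ) g).symm

lemma gstep_even {F : ℝ → ℝ} (hF : ∀ x, F (-x) = F x) (m v x : ℝ) :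
    gstep m v F (-x) = gstep m v F x := by
  unfold gstep
  rw [← integral_gauss_neg]
  congr 2
  refine integral_congr_ae (ae_of_all _ fun z => ?_)
  simp only []
  rw [← hF (x + √v * z)]
  congr 3
  ring

theorem Ec.step {F M D : ℝ → ℝ} (h : Ec F M D) {m : ℝ} (hm : 0 < m) (hm1 : m ≤ 1) (v : ℝ) :
    Ec (gstep m v F) (tlt m v F M)
      (fun x => tlt m v F (fun y => D y + m * M y ^ 2) x - m * tlt m v F M x ^ 2) := by
  have hs := h.sm
  have hst := hs.step hm v
  have hM := hs.cont1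
  have hD := h.cD
  have hM2 : ∀ y, |M y ^ 2| ≤ 1 := fun y => by
    rw [abs_pow]
    exact pow_le_one₀ (abs_nonneg _) (h.abs_M y)
  have hmM2 : ∀ y, |m * M y ^ 2| ≤ m * 1 := fun y => by
    rw [abs_mul, abs_of_pos hm]
    exact mul_le_mul_of_nonneg_left (hM2 y) hm.le
  have e : ∀ x, tlt m v F (fun y => D y + m * M y ^ 2) x =
      tlt m v F D x + m * tlt m v F (fun y => M y ^ 2) x := fun x => by
    rw [hs.tlt_add hD hs.bD (g' := fun y => m * M y ^ 2) (by fun_prop) hmM2, tlt_const_mul]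
  have h0 : ∀ x, 0 ≤ tlt m v F D x := fun x => by
    have := hs.tlt_mono (g := fun _ => 0) (g' := D) continuous_const (K := 0) (fun _ => by simp)
      hD hs.bD h.D0 m v x
    rwa [hs.tlt_const] at this
  refine ⟨hst.d1, hst.d2, hst.cD, gstep_even h.even m v, fun x => ?_, fun x => ?_⟩
  · rw [e]
    have h1 := hs.tlt_sq_le hM hs.bM m v x
    have h2 := h0 x
    have h3 := mul_le_mul_of_nonneg_left h1 hm.le
    linarith
  · rw [e]
    have h1 := hs.tlt_sq_le hM hs.bM m v x
    have h2 : tlt m v F D x + tlt m v F (fun y => M y ^ 2) x ≤ 1 := by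
      rw [← hs.tlt_add hD hs.bD (g' := fun y => M y ^ 2) (by fun_prop) hM2]
      have := hs.tlt_mono (g := fun y => D y + M y ^ 2) (g' := fun _ => 1) (by fun_prop) (K := 2)
        (fun y => by
          rw [abs_of_nonneg (add_nonneg (h.D0 y) (sq_nonneg _))]
          linarith [h.D1 y]) continuous_const (K' := 1) (fun _ => by simp) h.D1 m v x
      rwa [hs.tlt_const] at this
    have h3 := mul_le_mul_of_nonneg_left h1 (sub_nonneg.2 hm1)
    nlinarith

end Vale.Agent.P157.Par
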