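import Vale.Agent.P157.ParUBasic
import Vale.Agent.P367.GT.Stein

/-!
Calculus for the tilted chain: Gaussian integration by parts and differentiation under the
integral for functions of exponential growth on `ℝ^N`.
-/

open MeasureTheory ProbabilityTheory

namespace Vale.Agent.P157.Par

open Vale.Agent.P367.GT (map_update measurable_upd)

variable {N : ℕ}

theorem integrable_gaussianReal_iff (g : ℝ → ℝ) :
    Integrable g (gaussianReal 0 1) ↔ Integrable (fun x => gaussianPDFReal 0 1 x * g x) := by
  rw [gaussianReal_of_var_ne_zero _ one_ne_zero,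
    integrable_withDensity_iff_integrable_smul' (measurable_gaussianPDF 0 1)
      (Filter.Eventually.of_forall fun x => gaussianPDF_lt_top)]
  simp only [smul_eq_mul, gaussianPDF, ENNReal.toReal_ofReal (gaussianPDFReal_nonneg 0 1 _)]

/-- One-dimensional Gaussian integration by parts. -/
theorem stein_one_int (g g' : ℝ → ℝ) (hd : ∀ x, HasDerivAt g (g' x) x)
    (h0 : Integrable g (gaussianReal 0 1)) (h1 : Integrable (fun x => x * g x) (gaussianReal 0 1))
    (h2 : Integrable g' (gaussianReal 0 1)) :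
    ∫ x, x * g x ∂(gaussianReal 0 1) = ∫ x, g' x ∂(gaussianReal 0 1) := by
  set φ : ℝ → ℝ := gaussianPDFReal 0 1 with hφ
  have hφd : ∀ x, HasDerivAt φ (-(x * φ x)) x := by
    intro x
    have h1 : HasDerivAt (fun y : ℝ => -(y - 0) ^ 2 / (2 * ((1 : NNReal) : ℝ))) (-x) x := by
      have h2 : HasDerivAt (fun y : ℝ => -(y ^ 2) / 2) (-(2 * x) / 2) x := by
        have h0 := ((hasDerivAt_pow 2 x).neg).div_const (2 : ℝ)
        simpa using h0
      have h2' : (fun y : ℝ => -(y - 0) ^ 2 / (2 * ((1 : NNReal) : ℝ))) = fun y => -(y ^ 2) / 2 := by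
        funext y
        simp
      rw [h2']
      have h2'' : -x = -(2 * x) / 2 := by ring
      rw [h2'']
      exact h2
    have h3 := (h1.exp).const_mul ((Real.sqrt (2 * Real.pi * ((1 : NNReal) : ℝ)))⁻¹)
    have h4 : φ = fun y => (Real.sqrt (2 * Real.pi * ((1 : NNReal) : ℝ)))⁻¹
        * Real.exp (-(y - 0) ^ 2 / (2 * ((1 : NNReal) : ℝ))) := by
      funext y
      rw [hφ, gaussianPDFReal_def]
    have h5 : -(x * φ x) = (Real.sqrt (2 * Real.pi * ((1 : NNReal) : ℝ)))⁻¹
        * (Real.exp (-(x - 0) ^ 2 / (2 * ((1 : NNReal) : ℝ))) * -x) := by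
      rw [h4]
      ring
    rw [h5, h4]
    exact h3
  have e1 : ∫ x, x * g x ∂(gaussianReal 0 1) = ∫ x, φ x * (x * g x) := by
    rw [integral_gaussianReal_eq_integral_smul one_ne_zero]
    rfl
  have e2 : ∫ x, g' x ∂(gaussianReal 0 1) = ∫ x, φ x * g' x := by
    rw [integral_gaussianReal_eq_integral_smul one_ne_zero]
    rfl
  rw [integrable_gaussianReal_iff] at h0 h1 h2
  have i1 : Integrable (g * fun x => -(x * φ x)) := by
    refine h1.neg.congr (Filter.Eventually.of_forall fun x => ?_)
    simp only [Pi.neg_apply, Pi.mul_apply]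
    ring
  have i2 : Integrable (g' * φ) := by
    refine h2.congr (Filter.Eventually.of_forall fun x => ?_)
    simp only [Pi.mul_apply]
    ring
  have i3 : Integrable (g * φ) := by
    refine h0.congr (Filter.Eventually.of_forall fun x => ?_)
    simp only [Pi.mul_apply]
    ring
  have key := integral_mul_deriv_eq_deriv_mul_of_integrable (u := g) (v := φ) (u' := g')
    (v' := fun x => -(x * φ x)) (fun x _ => hd x) (fun x _ => hφd x) i1 i2 i3
  rw [e1, e2]
  have h5 : ∫ x, φ x * (x * g x) = - ∫ x, g x * -(x * φ x) := by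
    rw [← integral_neg]
    congr 1
    funext x
    ring
  rw [h5, key, neg_neg]
  congr 1
  funext x
  ring

/-- Gaussian integration by parts in the coordinate `e`. -/
theorem stein_pi_int (e : Fin N) (G G' : (Fin N → ℝ) → ℝ)
    (hd : ∀ J x, HasDerivAt (fun y => G (Function.update J e y)) (G' (Function.update J e x)) x)
    (h0 : Integrable G (gN N)) (h1 : Integrable (fun J => J e * G J) (gN N))
    (h2 : Integrable G' (gN N)) :
    ∫ J, J e * G J ∂(gN N) = ∫ J, G' J ∂(gN N) := by
  have hupd : ((gN N).prod (gaussianReal 0 1)).map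
      (fun q : (Fin N → ℝ) × ℝ => Function.update q.1 e q.2) = gN N := map_update e
  have hprod : ∀ F : (Fin N → ℝ) → ℝ, Integrable F (gN N) →
      Integrable (fun q : (Fin N → ℝ) × ℝ => F (Function.update q.1 e q.2))
        ((gN N).prod (gaussianReal 0 1)) := by
    intro F hF
    have hF' : Integrable F (((gN N).prod (gaussianReal 0 1)).map
        (fun q : (Fin N → ℝ) × ℝ => Function.update q.1 e q.2)) := by
      rw [hupd]; exact hF
    exact (integrable_map_measure hF'.aestronglyMeasurable
      (measurable_upd e).aemeasurable).mp hF'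
  have hres : ∀ F : (Fin N → ℝ) → ℝ, Integrable F (gN N) →
      ∫ J, F J ∂(gN N) = ∫ J, ∫ x, F (Function.update J e x) ∂(gaussianReal 0 1) ∂(gN N) := by
    intro F hF
    have hF' : Integrable F (((gN N).prod (gaussianReal 0 1)).map
        (fun q : (Fin N → ℝ) × ℝ => Function.update q.1 e q.2)) := by
      rw [hupd]; exact hF
    conv_lhs => rw [← hupd]
    rw [integral_map (measurable_upd e).aemeasurable hF'.aestronglyMeasurable]
    rw [integral_prod]
    exact hprod F hF
  rw [hres _ h1, hres _ h2]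
  apply integral_congr_ae
  have a0 := (hprod _ h0).prod_right_ae
  have a1 := (hprod _ h1).prod_right_ae
  have a2 := (hprod _ h2).prod_right_ae
  filter_upwards [a0, a1, a2] with J b0 b1 b2
  simp only [Function.update_self] at b1 ⊢
  exact stein_one_int (fun x => G (Function.update J e x)) (fun x => G' (Function.update J e x))
    (hd J) b0 b1 b2

/-! ### Partial derivatives -/

/-- `H'` is the partial derivative of `H` in the coordinate `i`. -/
def PD (i : Fin N) (H H' : (Fin N → ℝ) → ℝ) : Prop :=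
  ∀ y x, HasDerivAt (fun t => H (Function.update y i t)) (H' (Function.update y i x)) x

theorem update_add_smul (y z : Fin N → ℝ) (i : Fin N) (t s : ℝ) :
    Function.update y i t + s • z = Function.update (y + s • z) i (t + s * z i) := by
  funext j
  by_cases hj : j = i
  · subst hj; simp
  · simp [Function.update_of_ne hj]

theorem PD.shift {i : Fin N} {H H' : (Fin N → ℝ) → ℝ} (hd : PD i H H') (y z : Fin N → ℝ)
    (s x : ℝ) : HasDerivAt (fun t => H (Function.update y i t + s • z))
      (H' (Function.update y i x + s • z)) x := by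
  simp only [update_add_smul]
  exact (hd (y + s • z) (x + s * z i)).comp_add_const x (s * z i)

theorem norm_update_le (y : Fin N → ℝ) (i : Fin N) (t : ℝ) :
    ‖Function.update y i t‖ ≤ ‖y‖ + |t| := by
  rw [pi_norm_le_iff_of_nonneg (by positivity)]
  intro j
  by_cases hj : j = i
  · subst hj
    rw [Function.update_self, Real.norm_eq_abs]
    linarith [norm_nonneg y]
  · rw [Function.update_of_ne hj]
    linarith [norm_le_pi_norm y j, abs_nonneg t]

/-- Differentiation under the integral. -/
theorem PD.integral {i : Fin N} {H H' : (Fin N → ℝ) → ℝ} (hd : PD i H H') (hg : EG H)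
    (hg' : EG H') (s : ℝ) :
    PD i (fun y => ∫ z, H (y + s • z) ∂(gN N)) (fun y => ∫ z, H' (y + s • z) ∂(gN N)) := by
  intro y x
  have hm := hg.meas
  have hm' := hg'.meas
  obtain ⟨C, a, hC, ha, h1⟩ := hg'.bdd
  refine (hasDerivAt_integral_of_dominated_loc_of_deriv_le
    (F := fun t z => H (Function.update y i t + s • z))
    (F' := fun t z => H' (Function.update y i t + s • z))
    (bound := fun z => C * Real.exp (a * (‖y‖ + |x| + 1)) * Real.exp (a * |s| * ‖z‖))
    (Metric.ball_mem_nhds x one_pos) ?_ ?_ ?_ ?_ ?_ ?_).2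
  · exact Filter.Eventually.of_forall fun t => (hg.integrable _ s).aestronglyMeasurable
  · exact hg.integrable _ s
  · exact (hg'.integrable _ s).aestronglyMeasurable
  · refine Filter.Eventually.of_forall fun z t ht => ?_
    rw [Metric.mem_ball, Real.dist_eq] at ht
    have h2 : ‖Function.update y i t + s • z‖ ≤ (‖y‖ + |x| + 1) + |s| * ‖z‖ := by
      refine (norm_add_le _ _).trans ?_
      rw [norm_smul, Real.norm_eq_abs]
      have h3 := norm_update_le y i t
      have h4 : |t| ≤ |x| + 1 := by
        have := abs_add_le (t - x) x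
        rw [sub_add_cancel] at this
        linarith
      linarith
    rw [Real.norm_eq_abs]
    calc |H' (Function.update y i t + s • z)|
        ≤ C * Real.exp (a * ‖Function.update y i t + s • z‖) := h1 _
      _ ≤ C * Real.exp (a * ((‖y‖ + |x| + 1) + |s| * ‖z‖)) := by gcongr
      _ = C * Real.exp (a * (‖y‖ + |x| + 1)) * Real.exp (a * |s| * ‖z‖) := by
          rw [mul_assoc, ← Real.exp_add]
          congr 2
          ring
  · exact (integrable_exp_norm (a * |s|)).const_mul _
  · refine Filter.Eventually.of_forall fun z t _ => hd.shift y z s t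

theorem integrable_coord_mul {h : (Fin N → ℝ) → ℝ} (hh : EG h) (i : Fin N) (y : Fin N → ℝ)
    (s : ℝ) : Integrable (fun z => z i * h (y + s • z)) (gN N) := by
  obtain ⟨C, a, hC, ha, hb⟩ := hh.bdd
  refine ((integrable_exp_norm (N := N) (a * |s| + 1)).const_mul
    (C * Real.exp (a * ‖y‖))).mono'
    ((measurable_pi_apply i).mul (hh.meas.comp (by fun_prop))).aestronglyMeasurable
    (Filter.Eventually.of_forall fun z => ?_)
  rw [Real.norm_eq_abs, abs_mul]
  have h0 : |z i| ≤ Real.exp ‖z‖ := by
    rw [← Real.norm_eq_abs]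
    exact (norm_le_pi_norm z i).trans ((Real.add_one_le_exp ‖z‖).trans' (by linarith))
  have h1 : |h (y + s • z)| ≤ C * Real.exp (a * ‖y‖) * Real.exp (a * |s| * ‖z‖) := by
    refine (hb _).trans ?_
    rw [mul_assoc, ← Real.exp_add]
    gcongr
    calc a * ‖y + s • z‖ ≤ a * (‖y‖ + ‖s • z‖) := by gcongr; exact norm_add_le _ _
      _ = _ := by rw [norm_smul, Real.norm_eq_abs]; ring
  calc |z i| * |h (y + s • z)|
      ≤ Real.exp ‖z‖ * (C * Real.exp (a * ‖y‖) * Real.exp (a * |s| * ‖z‖)) := by gcongr
    _ = _ := by rw [add_mul, Real.exp_add, one_mul]; ring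

/-- Integration by parts with a shift. -/
theorem PD.stein {i : Fin N} {H H' : (Fin N → ℝ) → ℝ} (hd : PD i H H') (hg : EG H)
    (hg' : EG H') (s : ℝ) (y : Fin N → ℝ) :
    ∫ z, z i * H (y + s • z) ∂(gN N) = s * ∫ z, H' (y + s • z) ∂(gN N) := by
  rw [← integral_const_mul]
  refine stein_pi_int i (fun z => H (y + s • z)) (fun z => s * H' (y + s • z)) ?_
    (hg.integrable y s) (integrable_coord_mul hg i y s) ((hg'.integrable y s).const_mul s)
  intro z x
  have h1 : ∀ t, y + s • Function.update z i t =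
      Function.update (y + s • z) i (s * t + y i) := by
    intro t
    funext j
    by_cases hj : j = i
    · subst hj; simp [add_comm]
    · simp [Function.update_of_ne hj]
  simp only [h1]
  have h2 : HasDerivAt (fun t : ℝ => s * t + y i) s x := by
    simpa using ((hasDerivAt_id x).const_mul s).add_const (y i)
  have h3 := (hd (y + s • z) (s * x + y i)).comp x h2
  rw [mul_comm] at h3
  exact h3

theorem PD.congr {i : Fin N} {H H' K' : (Fin N → ℝ) → ℝ} (hd : PD i H H')
    (h : ∀ y, H' y = K' y) : PD i H K' := by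
  intro y x
  rw [← h]
  exact hd y x

theorem PD.add {i : Fin N} {H H' K K' : (Fin N → ℝ) → ℝ} (hd : PD i H H') (hk : PD i K K') :
    PD i (fun y => H y + K y) (fun y => H' y + K' y) := fun y x => (hd y x).add (hk y x)

theorem PD.mul {i : Fin N} {H H' K K' : (Fin N → ℝ) → ℝ} (hd : PD i H H') (hk : PD i K K') :
    PD i (fun y => H y * K y) (fun y => H' y * K y + H y * K' y) :=
  fun y x => (hd y x).mul (hk y x)

theorem PD.const_mul {i : Fin N} {H H' : (Fin N → ℝ) → ℝ} (hd : PD i H H') (c : ℝ) :
    PD i (fun y => c * H y) (fun y => c * H' y) := fun y x => (hd y x).const_mul c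

theorem PD.exp {i : Fin N} {H H' : (Fin N → ℝ) → ℝ} (hd : PD i H H') :
    PD i (fun y => Real.exp (H y)) (fun y => Real.exp (H y) * H' y) :=
  fun y x => (hd y x).exp

theorem PD.log {i : Fin N} {H H' : (Fin N → ℝ) → ℝ} (hd : PD i H H') (h0 : ∀ y, H y ≠ 0) :
    PD i (fun y => Real.log (H y)) (fun y => H' y / H y) :=
  fun y x => (hd y x).log (h0 _)

theorem PD.div {i : Fin N} {H H' K K' : (Fin N → ℝ) → ℝ} (hd : PD i H H') (hk : PD i K K')
    (h0 : ∀ y, K y ≠ 0) :
    PD i (fun y => H y / K y) (fun y => (H' y * K y - H y * K' y) / (K y) ^ 2) :=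
  fun y x => (hd y x).div (hk y x) (h0 _)

theorem PD.sum {i : Fin N} {ι : Type*} (s : Finset ι) {H H' : ι → (Fin N → ℝ) → ℝ}
    (hd : ∀ a ∈ s, PD i (H a) (H' a)) :
    PD i (fun y => ∑ a ∈ s, H a y) (fun y => ∑ a ∈ s, H' a y) :=
  fun y x => HasDerivAt.fun_sum fun a ha => hd a ha y x

/-! ### The data of a level of the tilted chain -/

/-- `G` is Lipschitz with gradient `c B`, and `∂_i B_i = d_i`, everything bounded. -/
structure Lvl (c : ℝ) (G : (Fin N → ℝ) → ℝ) (B d : (Fin N → ℝ) → Fin N → ℝ) : Prop where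
  lip : Lip G
  pd : ∀ i, PD i G (fun y => c * B y i)
  pd2 : ∀ i, PD i (fun y => B y i) (fun y => d y i)
  mB : ∀ i, Measurable (fun y => B y i)
  md : ∀ i, Measurable (fun y => d y i)
  bB : ∃ K : ℝ, ∀ y i, |B y i| ≤ K
  bd : ∃ K : ℝ, ∀ y i, |d y i| ≤ K

namespace Lvl

variable {c : ℝ} {G : (Fin N → ℝ) → ℝ} {B d : (Fin N → ℝ) → Fin N → ℝ}

theorem egB (H : Lvl c G B d) (i : Fin N) : EG (fun y => B y i) := by
  obtain ⟨K, hK⟩ := H.bB
  exact EG.of_bdd (H.mB i) fun y => hK y i

theorem egd (H : Lvl c G B d) (i : Fin N) : EG (fun y => d y i) := by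
  obtain ⟨K, hK⟩ := H.bd
  exact EG.of_bdd (H.md i) fun y => hK y i

theorem pd_exp (H : Lvl c G B d) (m : ℝ) (i : Fin N) :
    PD i (fun y => Real.exp (m * G y)) (fun y => m * c * B y i * Real.exp (m * G y)) :=
  ((H.pd i).const_mul m).exp.congr fun y => by ring

theorem eg_pd_exp (H : Lvl c G B d) (m : ℝ) (i : Fin N) :
    EG (fun y => m * c * B y i * Real.exp (m * G y)) :=
  ((H.egB i).const_mul (m * c)).mul (H.lip.exp_eg m)

theorem pd_int (H : Lvl c G B d) (m v : ℝ) (i : Fin N) :
    PD i (fun y => ∫ z, Real.exp (m * G (y + √v • z)) ∂(gN N))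
      (fun y => ∫ z, m * c * B (y + √v • z) i * Real.exp (m * G (y + √v • z)) ∂(gN N)) :=
  (H.pd_exp m i).integral (H.lip.exp_eg m) (H.eg_pd_exp m i) (√v)

theorem pd_gstep (H : Lvl c G B d) {m : ℝ} (hm : m ≠ 0) (v : ℝ) (i : Fin N) :
    PD i (gstepN m v G) (fun y => c * tiltN m v G (fun y => B y i) y) := by
  have h1 := ((H.pd_int m v i).log fun y => (int_exp_pos H.lip m v y).ne').const_mul (1 / m)
  refine h1.congr fun y => ?_
  unfold tiltN
  have h2 : ∫ z, m * c * B (y + √v • z) i * Real.exp (m * G (y + √v • z)) ∂(gN N) =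
      m * c * ∫ z, B (y + √v • z) i * Real.exp (m * G (y + √v • z)) ∂(gN N) := by
    rw [← integral_const_mul]
    refine integral_congr_ae (Filter.Eventually.of_forall fun z => ?_)
    ring
  rw [h2]
  field_simp

/-- derivative of the tilted average of `B_i`. -/
theorem pd_tilt (H : Lvl c G B d) (m v : ℝ) (i : Fin N) :
    PD i (tiltN m v G (fun y => B y i)) (fun y => tiltN m v G (fun y => d y i + m * c * B y i ^ 2) y
      - m * c * (tiltN m v G (fun y => B y i) y) ^ 2) := by
  have hP := H.pd_int m v i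
  have hQ0 : PD i (fun y => B y i * Real.exp (m * G y))
      (fun y => (d y i + m * c * B y i ^ 2) * Real.exp (m * G y)) :=
    ((H.pd2 i).mul (H.pd_exp m i)).congr fun y => by ring
  have egd2 : EG (fun y => d y i + m * c * B y i ^ 2) :=
    (H.egd i).add (((H.egB i).pow 2).const_mul _)
  have hQ := hQ0.integral ((H.egB i).mul (H.lip.exp_eg m)) (egd2.mul (H.lip.exp_eg m)) (√v)
  have h3 := hQ.div hP fun y => (int_exp_pos H.lip m v y).ne'
  refine h3.congr fun y => ?_
  unfold tiltN
  have h2 : ∫ z, m * c * B (y + √v • z) i * Real.exp (m * G (y + √v • z)) ∂(gN N) =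
      m * c * ∫ z, B (y + √v • z) i * Real.exp (m * G (y + √v • z)) ∂(gN N) := by
    rw [← integral_const_mul]
    refine integral_congr_ae (Filter.Eventually.of_forall fun z => ?_)
    ring
  rw [h2]
  have hpos := int_exp_pos H.lip m v y
  field_simp

theorem step (H : Lvl c G B d) {m : ℝ} (hm : 0 < m) (v : ℝ) :
    Lvl c (gstepN m v G) (fun y i => tiltN m v G (fun y => B y i) y)
      (fun y i => tiltN m v G (fun y => d y i + m * c * B y i ^ 2) y
        - m * c * (tiltN m v G (fun y => B y i) y) ^ 2) := by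
  have egd2 : ∀ i, EG (fun y => d y i + m * c * B y i ^ 2) := fun i =>
    (H.egd i).add (((H.egB i).pow 2).const_mul _)
  obtain ⟨K, hK⟩ := H.bB
  obtain ⟨K', hK'⟩ := H.bd
  refine ⟨H.lip.gstep hm v, H.pd_gstep hm.ne' v, H.pd_tilt m v, fun i =>
    (H.egB i).measurable_tilt H.lip m v, fun i => ?_, ⟨K, fun y i =>
      abs_tiltN_le_of_bdd H.lip (H.mB i) (fun y => hK y i) m v y⟩,
      ⟨(K' + |m * c| * K ^ 2) + |m * c| * K ^ 2, fun y i => ?_⟩⟩
  · exact ((egd2 i).measurable_tilt H.lip m v).sub
      ((((H.egB i).measurable_tilt H.lip m v).pow_const 2).const_mul _)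
  · have h1 : |tiltN m v G (fun y => d y i + m * c * B y i ^ 2) y| ≤ K' + |m * c| * K ^ 2 := by
      refine abs_tiltN_le_of_bdd H.lip (egd2 i).meas (fun y => ?_) m v y
      refine (abs_add_le _ _).trans (add_le_add (hK' y i) ?_)
      rw [abs_mul, abs_pow]
      gcongr
      exact hK y i
    have h2 : |tiltN m v G (fun y => B y i) y| ≤ K :=
      abs_tiltN_le_of_bdd H.lip (H.mB i) (fun y => hK y i) m v y
    refine (abs_sub _ _).trans (add_le_add h1 ?_)
    rw [abs_mul, abs_pow]
    gcongr

/-- Gaussian integration by parts at one level. -/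
theorem tilt_field (H : Lvl c G B d) (m : ℝ) {v : ℝ} (hv : 0 ≤ v) (y : Fin N → ℝ) :
    tiltN m v G (fun y => ∑ i, y i * B y i) y =
      ∑ i, y i * tiltN m v G (fun y => B y i) y +
        v * ∑ i, tiltN m v G (fun y => d y i + m * c * B y i ^ 2) y := by
  have hyB : ∀ i, EG (fun y : Fin N → ℝ => y i * B y i) := fun i => (EG.coord i).mul (H.egB i)
  rw [tiltN_sum Finset.univ H.lip (fun i _ => hyB i), Finset.mul_sum, ← Finset.sum_add_distrib]
  refine Finset.sum_congr rfl fun i _ => ?_
  have egd2 : EG (fun y => d y i + m * c * B y i ^ 2) :=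
    (H.egd i).add (((H.egB i).pow 2).const_mul _)
  have hQ0 : PD i (fun y => B y i * Real.exp (m * G y))
      (fun y => (d y i + m * c * B y i ^ 2) * Real.exp (m * G y)) :=
    ((H.pd2 i).mul (H.pd_exp m i)).congr fun y => by ring
  have hst := hQ0.stein ((H.egB i).mul (H.lip.exp_eg m)) (egd2.mul (H.lip.exp_eg m)) (√v) y
  have hpos := int_exp_pos H.lip m v y
  unfold tiltN
  rw [← mul_div_assoc, ← mul_div_assoc, ← add_div]
  congr 1
  have e1 : ∀ z : Fin N → ℝ, (y + √v • z) i * B (y + √v • z) i * Real.exp (m * G (y + √v • z)) =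
      y i * (B (y + √v • z) i * Real.exp (m * G (y + √v • z))) +
        √v * (z i * (B (y + √v • z) i * Real.exp (m * G (y + √v • z)))) := by
    intro z
    simp only [Pi.add_apply, Pi.smul_apply, smul_eq_mul]
    ring
  simp only [e1]
  rw [integral_add (((H.egB i).integrable_tilt H.lip m v y).const_mul _)
    ((integrable_coord_mul ((H.egB i).mul (H.lip.exp_eg m)) i y (√v)).const_mul _),
    integral_const_mul, integral_const_mul, hst, ← mul_assoc, Real.mul_self_sqrt hv]

end Lvl

end Vale.Agent.P157.Par
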