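import Vale.Agent.P157.ParSp1
import Vale.Agent.P157.ParUCalc

/-! SP2: derivative in the parameter of a family of log-weights. -/

open MeasureTheory ProbabilityTheory Filter Topology Set

namespace Vale.Agent.P157.Par

/-! ### exponential bounds -/

theorem sp2_integrable_exp_abs (c : ℝ) :
    Integrable (fun z => Real.exp (c * |z|)) (gaussianReal 0 1) :=
  integrable_exp_mul_abs (X := fun z : ℝ => z) (integrable_exp_mul_gaussianReal c)
    (integrable_exp_mul_gaussianReal (-c))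

theorem sp2_abs_le_exp (z : ℝ) : |z| ≤ Real.exp |z| := by
  have := Real.add_one_le_exp |z|
  linarith

theorem sp2_integrable_abs_mul_exp (c : ℝ) :
    Integrable (fun z => |z| * Real.exp (c * |z|)) (gaussianReal 0 1) := by
  refine (sp2_integrable_exp_abs (1 + c)).mono' (by fun_prop) (Eventually.of_forall fun z => ?_)
  rw [Real.norm_eq_abs, abs_of_nonneg (mul_nonneg (abs_nonneg _) (Real.exp_pos _).le), add_mul,
    one_mul, Real.exp_add]
  exact mul_le_mul_of_nonneg_right (sp2_abs_le_exp z) (Real.exp_pos _).le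

/-- exponential bound, uniform for parameters in `S`. -/
def sp2_EB (S : Set ℝ) (G : ℝ → ℝ → ℝ) : Prop :=
  ∃ C c : ℝ, 0 ≤ C ∧ 0 ≤ c ∧ ∀ s ∈ S, ∀ x, |G s x| ≤ C * Real.exp (c * |x|)

theorem sp2_EB_of_bdd {S : Set ℝ} {G : ℝ → ℝ → ℝ} {B : ℝ} (h : ∀ s ∈ S, ∀ x, |G s x| ≤ B) :
    sp2_EB S G :=
  ⟨|B|, 0, abs_nonneg _, le_rfl, fun s hs x => by simpa using (h s hs x).trans (le_abs_self B)⟩

theorem sp2_EB.mono {S S' : Set ℝ} {G : ℝ → ℝ → ℝ} (h : sp2_EB S G) (hs : S' ⊆ S) :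
    sp2_EB S' G := by
  obtain ⟨C, c, hC, hc, h⟩ := h
  exact ⟨C, c, hC, hc, fun s hs' x => h s (hs hs') x⟩

theorem sp2_EB.mul {S : Set ℝ} {G H : ℝ → ℝ → ℝ} (hG : sp2_EB S G) (hH : sp2_EB S H) :
    sp2_EB S (fun s x => G s x * H s x) := by
  obtain ⟨C, c, hC, hc, h⟩ := hG
  obtain ⟨D, d, hD, hd, h'⟩ := hH
  refine ⟨C * D, c + d, by positivity, by positivity, fun s hs x => ?_⟩
  calc |G s x * H s x| = |G s x| * |H s x| := abs_mul _ _
    _ ≤ (C * Real.exp (c * |x|)) * (D * Real.exp (d * |x|)) :=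
        mul_le_mul (h s hs x) (h' s hs x) (abs_nonneg _) (by positivity)
    _ = C * D * Real.exp ((c + d) * |x|) := by rw [add_mul, Real.exp_add]; ring

theorem sp2_EB.add {S : Set ℝ} {G H : ℝ → ℝ → ℝ} (hG : sp2_EB S G) (hH : sp2_EB S H) :
    sp2_EB S (fun s x => G s x + H s x) := by
  obtain ⟨C, c, hC, hc, h⟩ := hG
  obtain ⟨D, d, hD, hd, h'⟩ := hH
  refine ⟨C + D, c + d, by positivity, by positivity, fun s hs x => ?_⟩
  have e1 : Real.exp (c * |x|) ≤ Real.exp ((c + d) * |x|) :=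
    Real.exp_le_exp.2 (mul_le_mul_of_nonneg_right (by linarith) (abs_nonneg _))
  have e2 : Real.exp (d * |x|) ≤ Real.exp ((c + d) * |x|) :=
    Real.exp_le_exp.2 (mul_le_mul_of_nonneg_right (by linarith) (abs_nonneg _))
  calc |G s x + H s x| ≤ |G s x| + |H s x| := abs_add_le _ _
    _ ≤ C * Real.exp (c * |x|) + D * Real.exp (d * |x|) := add_le_add (h s hs x) (h' s hs x)
    _ ≤ C * Real.exp ((c + d) * |x|) + D * Real.exp ((c + d) * |x|) :=
        add_le_add (mul_le_mul_of_nonneg_left e1 hC) (mul_le_mul_of_nonneg_left e2 hD)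
    _ = _ := by ring

theorem sp2_sqrt_le {a b s : ℝ} (hs : s ∈ Icc a b) (v₀ d : ℝ) :
    √(v₀ + s * d) ≤ √(|v₀| + (|a| + |b|) * |d|) := by
  apply Real.sqrt_le_sqrt
  have h1 : |s| ≤ |a| + |b| := by
    rcases le_total 0 s with h | h
    · rw [abs_of_nonneg h]
      linarith [hs.2, le_abs_self b, abs_nonneg a]
    · rw [abs_of_nonpos h]
      linarith [hs.1, neg_abs_le a, abs_nonneg b]
  have h2 : s * d ≤ |s| * |d| := by rw [← abs_mul]; exact le_abs_self _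
  have h3 : |s| * |d| ≤ (|a| + |b|) * |d| := mul_le_mul_of_nonneg_right h1 (abs_nonneg _)
  linarith [le_abs_self v₀]

/-- the pointwise bound along a Gaussian line. -/
theorem sp2_bound {a b C c : ℝ} {S : Set ℝ} (hS : S ⊆ Icc a b) {G : ℝ → ℝ → ℝ} (hC : 0 ≤ C)
    (hc : 0 ≤ c) (h : ∀ s ∈ S, ∀ x, |G s x| ≤ C * Real.exp (c * |x|)) (v₀ d : ℝ) {s x R : ℝ}
    (hs : s ∈ S) (hx : |x| ≤ R) (z : ℝ) :
    |G s (x + √(v₀ + s * d) * z)| ≤
      C * Real.exp (c * R) * Real.exp (c * √(|v₀| + (|a| + |b|) * |d|) * |z|) := by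
  refine (h s hs _).trans ?_
  rw [mul_assoc, ← Real.exp_add]
  refine mul_le_mul_of_nonneg_left (Real.exp_le_exp.2 ?_) hC
  have h1 : |x + √(v₀ + s * d) * z| ≤ R + √(|v₀| + (|a| + |b|) * |d|) * |z| := by
    refine (abs_add_le _ _).trans (add_le_add hx ?_)
    rw [abs_mul, abs_of_nonneg (Real.sqrt_nonneg _)]
    exact mul_le_mul_of_nonneg_right (sp2_sqrt_le (hS hs) v₀ d) (abs_nonneg _)
  calc c * |x + √(v₀ + s * d) * z| ≤ c * (R + √(|v₀| + (|a| + |b|) * |d|) * |z|) :=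
        mul_le_mul_of_nonneg_left h1 hc
    _ = _ := by ring

theorem sp2_slice {S : Set ℝ} {G : ℝ → ℝ → ℝ}
    (hG : ContinuousOn (fun p : ℝ × ℝ => G p.1 p.2) (S ×ˢ univ)) {s : ℝ} (hs : s ∈ S) :
    Continuous (G s) := by
  have h1 : ContinuousOn (fun y : ℝ => (s, y)) univ := by fun_prop
  have h2 := hG.comp h1 (fun y _ => ⟨hs, mem_univ _⟩)
  exact continuousOn_univ.1 h2

/-- Continuity of Gaussian averages. -/
theorem sp2_cont {a b : ℝ} {S : Set ℝ} (hS : S ⊆ Icc a b) {G : ℝ → ℝ → ℝ}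
    (hG : ContinuousOn (fun p : ℝ × ℝ => G p.1 p.2) (S ×ˢ univ)) (hE : sp2_EB S G) (v₀ d : ℝ) :
    ContinuousOn (fun p : ℝ × ℝ => ∫ z, G p.1 (p.2 + √(v₀ + p.1 * d) * z) ∂(gaussianReal 0 1))
      (S ×ˢ univ) := by
  obtain ⟨C, c, hC, hc, h⟩ := hE
  intro p₀ hp₀
  refine continuousWithinAt_of_dominated (bound := fun z => C * Real.exp (c * (|p₀.2| + 1)) *
    Real.exp (c * √(|v₀| + (|a| + |b|) * |d|) * |z|)) ?_ ?_ ?_ ?_
  · refine eventually_nhdsWithin_of_forall fun p hp => ?_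
    have := sp2_slice hG hp.1
    exact (this.comp (by fun_prop : Continuous fun z : ℝ => p.2 + √(v₀ + p.1 * d) * z)).aestronglyMeasurable
  · have h1 : ∀ᶠ p : ℝ × ℝ in 𝓝[S ×ˢ univ] p₀, |p.2| ≤ |p₀.2| + 1 := by
      have h2 : ∀ᶠ p : ℝ × ℝ in 𝓝 p₀, |p.2| < |p₀.2| + 1 :=
        (continuous_snd.abs.tendsto p₀).eventually_lt_const (by linarith)
      exact (h2.filter_mono nhdsWithin_le_nhds).mono fun p hp => hp.le
    filter_upwards [h1, self_mem_nhdsWithin] with p hp1 hp2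
    refine Eventually.of_forall fun z => ?_
    rw [Real.norm_eq_abs]
    exact sp2_bound hS hC hc h v₀ d hp2.1 hp1 z
  · exact (sp2_integrable_exp_abs _).const_mul _
  · refine Eventually.of_forall fun z => ?_
    have h1 : ContinuousOn (fun p : ℝ × ℝ => (p.1, p.2 + √(v₀ + p.1 * d) * z)) (S ×ˢ univ) := by
      fun_prop
    exact (hG.comp h1 (fun p hp => ⟨hp.1, mem_univ _⟩)) p₀ hp₀

theorem sp2_integrable {a b : ℝ} {S : Set ℝ} (hS : S ⊆ Icc a b) {G : ℝ → ℝ → ℝ}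
    (hG : ContinuousOn (fun p : ℝ × ℝ => G p.1 p.2) (S ×ˢ univ)) (hE : sp2_EB S G) (v₀ d : ℝ)
    {s : ℝ} (hs : s ∈ S) (x : ℝ) :
    Integrable (fun z => G s (x + √(v₀ + s * d) * z)) (gaussianReal 0 1) := by
  obtain ⟨C, c, hC, hc, h⟩ := hE
  refine ((sp2_integrable_exp_abs (c * √(|v₀| + (|a| + |b|) * |d|))).const_mul
    (C * Real.exp (c * |x|))).mono' ?_ (Eventually.of_forall fun z => ?_)
  · have := sp2_slice hG hs
    exact (this.comp (by fun_prop : Continuous fun z : ℝ => x + √(v₀ + s * d) * z)).aestronglyMeasurable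
  · rw [Real.norm_eq_abs]
    exact sp2_bound hS hC hc h v₀ d hs le_rfl z

theorem sp2_integrable_mul {a b : ℝ} {S : Set ℝ} (hS : S ⊆ Icc a b) {G : ℝ → ℝ → ℝ}
    (hG : ContinuousOn (fun p : ℝ × ℝ => G p.1 p.2) (S ×ˢ univ)) (hE : sp2_EB S G) (v₀ d : ℝ)
    {s : ℝ} (hs : s ∈ S) (x : ℝ) :
    Integrable (fun z => z * G s (x + √(v₀ + s * d) * z)) (gaussianReal 0 1) := by
  obtain ⟨C, c, hC, hc, h⟩ := hE
  refine ((sp2_integrable_abs_mul_exp (c * √(|v₀| + (|a| + |b|) * |d|))).const_mul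
    (C * Real.exp (c * |x|))).mono' ?_ (Eventually.of_forall fun z => ?_)
  · have := sp2_slice hG hs
    exact (continuous_id.mul (this.comp
      (by fun_prop : Continuous fun z : ℝ => x + √(v₀ + s * d) * z))).aestronglyMeasurable
  · rw [Real.norm_eq_abs, abs_mul]
    calc |z| * |G s (x + √(v₀ + s * d) * z)| ≤ |z| * (C * Real.exp (c * |x|) *
          Real.exp (c * √(|v₀| + (|a| + |b|) * |d|) * |z|)) :=
          mul_le_mul_of_nonneg_left (sp2_bound hS hC hc h v₀ d hs le_rfl z) (abs_nonneg _)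
      _ = _ := by ring

/-! ### the derivative in the parameter -/

theorem sp2_cont_span : Continuous fun r : ℝ => ContinuousLinearMap.toSpanSingleton ℝ r := by
  have h : (fun r : ℝ => ContinuousLinearMap.toSpanSingleton ℝ r) =
      fun r : ℝ => r • ContinuousLinearMap.id ℝ ℝ := by
    funext r
    ext
    simp
  rw [h]
  fun_prop

/-- Chain rule along a curve. -/
theorem sp2_chain {a b : ℝ} {G G1 Gs : ℝ → ℝ → ℝ}
    (d1 : ∀ s ∈ Icc a b, ∀ x, HasDerivAt (G s) (G1 s x) x)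
    (ds : ∀ s ∈ Ioo a b, ∀ x, HasDerivAt (fun s => G s x) (Gs s x) s)
    (c1 : ContinuousOn (fun p : ℝ × ℝ => G1 p.1 p.2) (Icc a b ×ˢ univ))
    (cs : ContinuousOn (fun p : ℝ × ℝ => Gs p.1 p.2) (Ioo a b ×ˢ univ))
    {v₀ d : ℝ} {s : ℝ} (hs : s ∈ Ioo a b) (hv : 0 < v₀ + s * d) (x z : ℝ) :
    HasDerivAt (fun s => G s (x + √(v₀ + s * d) * z))
      (Gs s (x + √(v₀ + s * d) * z) +
        d / (2 * √(v₀ + s * d)) * (z * G1 s (x + √(v₀ + s * d) * z))) s := by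
  set y := x + √(v₀ + s * d) * z with hy
  have hopen : IsOpen (Ioo a b ×ˢ (univ : Set ℝ)) := isOpen_Ioo.prod isOpen_univ
  have hmem : ((s, y) : ℝ × ℝ) ∈ Ioo a b ×ˢ (univ : Set ℝ) := ⟨hs, mem_univ _⟩
  have hnh : Ioo a b ×ˢ (univ : Set ℝ) ∈ 𝓝 ((s, y) : ℝ × ℝ) := hopen.mem_nhds hmem
  set f₁ : ℝ → ℝ → ℝ →L[ℝ] ℝ := fun s' y' => ContinuousLinearMap.toSpanSingleton ℝ (Gs s' y')
    with hf₁
  set f₂ : ℝ → ℝ → ℝ →L[ℝ] ℝ := fun s' y' => ContinuousLinearMap.toSpanSingleton ℝ (G1 s' y')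
    with hf₂
  have key : HasStrictFDerivAt ↿G ((↿f₁ (s, y)).coprod (↿f₂ (s, y))) (s, y) := by
    refine hasStrictFDerivAt_uncurry_coprod (f₁ := f₁) (f₂ := f₂) ?_ ?_ ?_ ?_
    · filter_upwards [hnh] with v hv'
      exact (ds v.1 hv'.1 v.2).hasFDerivAt
    · filter_upwards [hnh] with v hv'
      exact (d1 v.1 (Ioo_subset_Icc_self hv'.1) v.2).hasFDerivAt
    · have h1 : ContinuousAt (fun p : ℝ × ℝ => Gs p.1 p.2) (s, y) := cs.continuousAt hnh
      have h2 := sp2_cont_span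
      exact h2.continuousAt.comp h1
    · have h1 : ContinuousAt (fun p : ℝ × ℝ => G1 p.1 p.2) (s, y) :=
        (c1.mono (prod_mono Ioo_subset_Icc_self subset_rfl)).continuousAt hnh
      have h2 := sp2_cont_span
      exact h2.continuousAt.comp h1
  have hsq : HasDerivAt (fun s' : ℝ => √(v₀ + s' * d)) (d / (2 * √(v₀ + s * d))) s := by
    have h1 : HasDerivAt (fun s' : ℝ => v₀ + s' * d) d s := by
      simpa using ((hasDerivAt_id s).mul_const d).const_add v₀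
    exact h1.sqrt hv.ne'
  have hcur : HasDerivAt (fun s' : ℝ => ((s', x + √(v₀ + s' * d) * z) : ℝ × ℝ))
      (1, d / (2 * √(v₀ + s * d)) * z) s :=
    (hasDerivAt_id s).prodMk ((hsq.mul_const z).const_add x)
  have h3 := key.hasFDerivAt.comp_hasDerivAt s hcur
  have h4 : ((↿f₁ (s, y)).coprod (↿f₂ (s, y))) (1, d / (2 * √(v₀ + s * d)) * z) =
      Gs s y + d / (2 * √(v₀ + s * d)) * (z * G1 s y) := by
    show (1 : ℝ) • Gs s y + (d / (2 * √(v₀ + s * d)) * z) • G1 s y = _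
    rw [smul_eq_mul, smul_eq_mul]
    ring
  rw [h4] at h3
  exact h3

/-- The derivative in the parameter of a Gaussian average. -/
theorem sp2_deriv {a b : ℝ} {G G1 G2 Gs : ℝ → ℝ → ℝ}
    (d1 : ∀ s ∈ Icc a b, ∀ x, HasDerivAt (G s) (G1 s x) x)
    (d2 : ∀ s ∈ Icc a b, ∀ x, HasDerivAt (G1 s) (G2 s x) x)
    (ds : ∀ s ∈ Ioo a b, ∀ x, HasDerivAt (fun s => G s x) (Gs s x) s)
    (c0 : ContinuousOn (fun p : ℝ × ℝ => G p.1 p.2) (Icc a b ×ˢ univ))
    (c1 : ContinuousOn (fun p : ℝ × ℝ => G1 p.1 p.2) (Icc a b ×ˢ univ))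
    (c2 : ContinuousOn (fun p : ℝ × ℝ => G2 p.1 p.2) (Icc a b ×ˢ univ))
    (cs : ContinuousOn (fun p : ℝ × ℝ => Gs p.1 p.2) (Ioo a b ×ˢ univ))
    (e0 : sp2_EB (Icc a b) G) (e1 : sp2_EB (Icc a b) G1) (e2 : sp2_EB (Icc a b) G2)
    (es : sp2_EB (Ioo a b) Gs)
    {v₀ d : ℝ} (hv : ∀ s ∈ Ioo a b, 0 < v₀ + s * d) {s : ℝ} (hs : s ∈ Ioo a b) (x : ℝ) :
    HasDerivAt (fun s => ∫ z, G s (x + √(v₀ + s * d) * z) ∂(gaussianReal 0 1))
      (∫ z, (Gs s (x + √(v₀ + s * d) * z) + d / 2 * G2 s (x + √(v₀ + s * d) * z))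
        ∂(gaussianReal 0 1)) s := by
  have hIoo : Ioo a b ⊆ Icc a b := Ioo_subset_Icc_self
  have hvs := hv s hs
  have hw : 0 < √(v₀ + s * d) := Real.sqrt_pos.2 hvs
  obtain ⟨C1, k1, hC1, hk1, hb1⟩ := e1
  obtain ⟨Cs, ks, hCs, hks, hbs⟩ := es
  set Sg : ℝ := √(|v₀| + (|a| + |b|) * |d|) with hSg
  -- neighbourhood with a lower bound for the variance
  have hnh : ∀ᶠ s' in 𝓝 s, s' ∈ Ioo a b ∧ √(v₀ + s * d) / 2 < √(v₀ + s' * d) := by
    refine (show ∀ᶠ s' in 𝓝 s, s' ∈ Ioo a b from isOpen_Ioo.mem_nhds hs).and ?_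
    have h1 : ContinuousAt (fun s' : ℝ => √(v₀ + s' * d)) s := by fun_prop
    exact h1.eventually_const_lt (by linarith)
  obtain ⟨ε, hε, hball⟩ := Metric.eventually_nhds_iff_ball.1 hnh
  have hder := hasDerivAt_integral_of_dominated_loc_of_deriv_le
    (μ := gaussianReal 0 1)
    (F := fun s z => G s (x + √(v₀ + s * d) * z))
    (F' := fun s z => Gs s (x + √(v₀ + s * d) * z) +
      d / (2 * √(v₀ + s * d)) * (z * G1 s (x + √(v₀ + s * d) * z)))
    (x₀ := s) (s := Metric.ball s ε)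
    (bound := fun z => Cs * Real.exp (ks * |x|) * Real.exp (ks * Sg * |z|) +
      |d| / √(v₀ + s * d) * (C1 * Real.exp (k1 * |x|) * (|z| * Real.exp (k1 * Sg * |z|))))
    (Metric.ball_mem_nhds s hε) ?_ ?_ ?_ ?_ ?_ ?_
  · have h1 := hder.2
    have hI1 : Integrable (fun z => Gs s (x + √(v₀ + s * d) * z)) (gaussianReal 0 1) :=
      sp2_integrable hIoo cs ⟨Cs, ks, hCs, hks, hbs⟩ v₀ d hs x
    have hI2 : Integrable (fun z => z * G1 s (x + √(v₀ + s * d) * z)) (gaussianReal 0 1) :=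
      sp2_integrable_mul subset_rfl c1 ⟨C1, k1, hC1, hk1, hb1⟩ v₀ d (hIoo hs) x
    have hI3 : Integrable (fun z => G2 s (x + √(v₀ + s * d) * z)) (gaussianReal 0 1) :=
      sp2_integrable subset_rfl c2 e2 v₀ d (hIoo hs) x
    have hst : ∫ z, z * G1 s (x + √(v₀ + s * d) * z) ∂(gaussianReal 0 1) =
        ∫ z, √(v₀ + s * d) * G2 s (x + √(v₀ + s * d) * z) ∂(gaussianReal 0 1) := by
      refine stein_one_int (fun z => G1 s (x + √(v₀ + s * d) * z))
        (fun z => √(v₀ + s * d) * G2 s (x + √(v₀ + s * d) * z)) ?_ ?_ hI2 (hI3.const_mul _)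
      · intro z
        have h2 : HasDerivAt (fun z : ℝ => x + √(v₀ + s * d) * z) (√(v₀ + s * d)) z := by
          simpa using ((hasDerivAt_id z).const_mul (√(v₀ + s * d))).const_add x
        have h3 := (d2 s (hIoo hs) (x + √(v₀ + s * d) * z)).comp z h2
        rw [mul_comm (G2 s _) (√(v₀ + s * d))] at h3
        exact h3
      · exact sp2_integrable subset_rfl c1 ⟨C1, k1, hC1, hk1, hb1⟩ v₀ d (hIoo hs) x
    have h4 : ∫ z, (Gs s (x + √(v₀ + s * d) * z) +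
        d / (2 * √(v₀ + s * d)) * (z * G1 s (x + √(v₀ + s * d) * z))) ∂(gaussianReal 0 1) =
        ∫ z, (Gs s (x + √(v₀ + s * d) * z) + d / 2 * G2 s (x + √(v₀ + s * d) * z))
          ∂(gaussianReal 0 1) := by
      rw [integral_add hI1 (hI2.const_mul _), integral_add hI1 (hI3.const_mul _),
        integral_const_mul, integral_const_mul, hst, integral_const_mul]
      field_simp
    rw [← h4]
    exact h1
  · filter_upwards [Metric.ball_mem_nhds s hε] with s' hs'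
    exact (sp2_integrable subset_rfl c0 e0 v₀ d (hIoo (hball s' hs').1) x).aestronglyMeasurable
  · exact sp2_integrable subset_rfl c0 e0 v₀ d (hIoo hs) x
  · exact ((sp2_integrable hIoo cs ⟨Cs, ks, hCs, hks, hbs⟩ v₀ d hs x).add
      ((sp2_integrable_mul subset_rfl c1 ⟨C1, k1, hC1, hk1, hb1⟩ v₀ d (hIoo hs)
        x).const_mul _)).aestronglyMeasurable
  · refine Eventually.of_forall fun z s' hs' => ?_
    obtain ⟨h1, h2⟩ := hball s' hs'
    rw [Real.norm_eq_abs]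
    refine (abs_add_le _ _).trans (add_le_add ?_ ?_)
    · exact sp2_bound hIoo hCs hks hbs v₀ d h1 le_rfl z
    · rw [abs_mul, abs_mul, abs_div, abs_of_pos (by linarith : 0 < 2 * √(v₀ + s' * d))]
      have h3 : |d| / (2 * √(v₀ + s' * d)) ≤ |d| / √(v₀ + s * d) :=
        div_le_div_of_nonneg_left (abs_nonneg _) hw (by linarith)
      have h4 : |z| * |G1 s' (x + √(v₀ + s' * d) * z)| ≤
          C1 * Real.exp (k1 * |x|) * (|z| * Real.exp (k1 * Sg * |z|)) := by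
        calc |z| * |G1 s' (x + √(v₀ + s' * d) * z)| ≤ |z| * (C1 * Real.exp (k1 * |x|) *
              Real.exp (k1 * Sg * |z|)) :=
              mul_le_mul_of_nonneg_left (sp2_bound subset_rfl hC1 hk1 hb1 v₀ d (hIoo h1) le_rfl z)
                (abs_nonneg _)
          _ = _ := by ring
      exact mul_le_mul h3 h4 (by positivity) (by positivity)
  · exact ((sp2_integrable_exp_abs _).const_mul _).add
      (((sp2_integrable_abs_mul_exp _).const_mul _).const_mul _)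
  · refine Eventually.of_forall fun z s' hs' => ?_
    exact sp2_chain d1 ds c1 cs (hball s' hs').1 (hv s' (hball s' hs').1) x z

/-! ### families -/

section SP2

variable {a b : ℝ} {u u1 u2 us : ℝ → ℝ → ℝ}

/-- a common bound for the first two derivatives. -/
theorem Fam.sp2_sm (h : Fam a b u u1 u2 us) :
    ∃ L B : ℝ, 0 ≤ L ∧ 0 ≤ B ∧ ∀ s ∈ Icc a b, Sm L B (u s) (u1 s) (u2 s) := by
  obtain ⟨L, hL⟩ := h.b1
  obtain ⟨B, hB⟩ := h.b2
  refine ⟨|L|, |B|, abs_nonneg _, abs_nonneg _, fun s hs => ⟨h.d1 s hs, h.d2 s hs,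
    sp2_slice h.c2 hs, fun x => (hL s hs x).trans (le_abs_self _),
    fun x => (hB s hs x).trans (le_abs_self _)⟩⟩

theorem Fam.sp2_lin (h : Fam a b u u1 u2 us) :
    ∃ K L : ℝ, 0 ≤ K ∧ 0 ≤ L ∧ ∀ s ∈ Icc a b, ∀ x, |u s x| ≤ K + L * |x| := by
  obtain ⟨L, B, hL, hB, hsm⟩ := h.sp2_sm
  have hc : ContinuousOn (fun s => u s 0) (Icc a b) :=
    h.c0.comp (f := fun s : ℝ => ((s, (0 : ℝ)) : ℝ × ℝ)) (by fun_prop)
      (fun s hs => ⟨hs, mem_univ _⟩)
  obtain ⟨K, hK⟩ := isCompact_Icc.exists_bound_of_continuousOn hc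
  refine ⟨|K|, L, abs_nonneg _, hL, fun s hs x => ?_⟩
  have h1 : |u s x - u s 0| ≤ L * |x - 0| := by
    have := Convex.norm_image_sub_le_of_norm_hasDerivWithin_le (f := u s) (f' := u1 s)
      (s := univ) (C := L) (x := 0) (y := x) (fun y _ => ((hsm s hs).d1 y).hasDerivWithinAt)
      (fun y _ => (hsm s hs).bM y) convex_univ (mem_univ _) (mem_univ _)
    exact this
  have h2 : |u s 0| ≤ |K| := (hK s hs).trans (le_abs_self _)
  rw [sub_zero] at h1
  have h3 : u s x = (u s x - u s 0) + u s 0 := by ring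
  rw [h3]
  refine (abs_add_le _ _).trans ?_
  linarith

theorem Fam.sp2_ebd (h : Fam a b u u1 u2 us) : sp2_EB (Icc a b) u := by
  obtain ⟨K, L, hK, hL, hb⟩ := h.sp2_lin
  refine ⟨K + L, 1, by positivity, zero_le_one, fun s hs x => (hb s hs x).trans ?_⟩
  have h1 : (1 : ℝ) ≤ Real.exp (1 * |x|) := by
    rw [one_mul]; exact Real.one_le_exp (abs_nonneg _)
  have h2 : |x| ≤ Real.exp (1 * |x|) := by
    rw [one_mul]; exact sp2_abs_le_exp x
  nlinarith [mul_le_mul_of_nonneg_left h1 hK, mul_le_mul_of_nonneg_left h2 hL]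

theorem Fam.sp2_ebd_exp (h : Fam a b u u1 u2 us) (m : ℝ) :
    sp2_EB (Icc a b) (fun s x => Real.exp (m * u s x)) := by
  obtain ⟨K, L, hK, hL, hb⟩ := h.sp2_lin
  refine ⟨Real.exp (|m| * K), |m| * L, (Real.exp_pos _).le, by positivity, fun s hs x => ?_⟩
  rw [abs_of_pos (Real.exp_pos _), ← Real.exp_add]
  refine Real.exp_le_exp.2 ?_
  calc m * u s x ≤ |m * u s x| := le_abs_self _
    _ = |m| * |u s x| := abs_mul _ _
    _ ≤ |m| * (K + L * |x|) := mul_le_mul_of_nonneg_left (hb s hs x) (abs_nonneg _)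
    _ = |m| * K + |m| * L * |x| := by ring

theorem Fam.sp2_cexp (h : Fam a b u u1 u2 us) (m : ℝ) :
    ContinuousOn (fun p : ℝ × ℝ => Real.exp (m * u p.1 p.2)) (Icc a b ×ˢ univ) :=
  (h.c0.const_mul m).rexp

/-- continuity of tilted averages, for parameters in a subset of the segment. -/
theorem Fam.sp2_tlt_cont (h : Fam a b u u1 u2 us) {S : Set ℝ} (hS : S ⊆ Icc a b)
    {g : ℝ → ℝ → ℝ}
    (hg : ContinuousOn (fun p : ℝ × ℝ => g p.1 p.2) (S ×ˢ univ)) {B : ℝ}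
    (hB : ∀ s ∈ S, ∀ x, |g s x| ≤ B) (m v₀ d : ℝ) :
    ContinuousOn (fun p : ℝ × ℝ => tlt m (v₀ + p.1 * d) (u p.1) (g p.1) p.2) (S ×ˢ univ) := by
  have hsub : S ×ˢ (univ : Set ℝ) ⊆ Icc a b ×ˢ univ := prod_mono hS subset_rfl
  obtain ⟨L, B', -, -, hsm⟩ := h.sp2_sm
  unfold tlt
  refine ContinuousOn.div ?_ ?_ ?_
  · exact sp2_cont hS (G := fun s x => g s x * Real.exp (m * u s x))
      (hg.mul ((h.sp2_cexp m).mono hsub)) ((sp2_EB_of_bdd hB).mul ((h.sp2_ebd_exp m).mono hS)) v₀ d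
  · exact sp2_cont hS (G := fun s x => Real.exp (m * u s x)) ((h.sp2_cexp m).mono hsub)
      ((h.sp2_ebd_exp m).mono hS) v₀ d
  · intro p hp
    exact ((hsm p.1 (hS hp.1)).int_exp_pos m (v₀ + p.1 * d) p.2).ne'

theorem Fam.tlt_cont (h : Fam a b u u1 u2 us) {g : ℝ → ℝ → ℝ}
    (hg : ContinuousOn (fun p : ℝ × ℝ => g p.1 p.2) (Set.Icc a b ×ˢ Set.univ)) {B : ℝ}
    (hB : ∀ s ∈ Set.Icc a b, ∀ x, |g s x| ≤ B) (m v₀ d : ℝ) :
    ContinuousOn (fun p : ℝ × ℝ => tlt m (v₀ + p.1 * d) (u p.1) (g p.1) p.2)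
      (Set.Icc a b ×ˢ Set.univ) :=
  h.sp2_tlt_cont subset_rfl hg hB m v₀ d

theorem Fam.step (h : Fam a b u u1 u2 us) {m : ℝ} (hm : 0 < m) {v₀ d : ℝ}
    (hv : ∀ s ∈ Set.Ioo a b, 0 < v₀ + s * d) :
    Fam a b (fun s => gstep m (v₀ + s * d) (u s))
      (fun s => tlt m (v₀ + s * d) (u s) (u1 s))
      (fun s x => tlt m (v₀ + s * d) (u s) (fun y => u2 s y + m * u1 s y ^ 2) x -
        m * tlt m (v₀ + s * d) (u s) (u1 s) x ^ 2)
      (fun s => tlt m (v₀ + s * d) (u s)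
        (fun y => us s y + d / 2 * (u2 s y + m * u1 s y ^ 2))) := by
  obtain ⟨L, B, hL, hB, hsm⟩ := h.sp2_sm
  obtain ⟨Bs, hBs⟩ := h.bs
  have hIoo : Ioo a b ⊆ Icc a b := Ioo_subset_Icc_self
  have hsubp : Ioo a b ×ˢ (univ : Set ℝ) ⊆ Icc a b ×ˢ univ := prod_mono hIoo subset_rfl
  have hc2 : ContinuousOn (fun p : ℝ × ℝ => u2 p.1 p.2 + m * u1 p.1 p.2 ^ 2)
      (Icc a b ×ˢ univ) := h.c2.add ((h.c1.pow 2).const_mul m)
  have hb2 : ∀ s ∈ Icc a b, ∀ x, |u2 s x + m * u1 s x ^ 2| ≤ B + m * L ^ 2 := by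
    intro s hs x
    refine (abs_add_le _ _).trans (add_le_add ((hsm s hs).bD x) ?_)
    rw [abs_mul, abs_of_pos hm, abs_pow]
    exact mul_le_mul_of_nonneg_left (pow_le_pow_left₀ (abs_nonneg _) ((hsm s hs).bM x) 2) hm.le
  have hcs : ContinuousOn (fun p : ℝ × ℝ => us p.1 p.2 + d / 2 * (u2 p.1 p.2 +
      m * u1 p.1 p.2 ^ 2)) (Ioo a b ×ˢ univ) := h.cs.add ((hc2.mono hsubp).const_mul _)
  have hbs : ∀ s ∈ Ioo a b, ∀ x, |us s x + d / 2 * (u2 s x + m * u1 s x ^ 2)| ≤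
      Bs + |d / 2| * (B + m * L ^ 2) := by
    intro s hs x
    refine (abs_add_le _ _).trans (add_le_add (hBs s hs x) ?_)
    rw [abs_mul]
    exact mul_le_mul_of_nonneg_left (hb2 s (hIoo hs) x) (abs_nonneg _)
  have hgc : ContinuousOn (fun p : ℝ × ℝ =>
      ∫ z, Real.exp (m * u p.1 (p.2 + √(v₀ + p.1 * d) * z)) ∂(gaussianReal 0 1))
      (Icc a b ×ˢ univ) :=
    sp2_cont subset_rfl (G := fun s x => Real.exp (m * u s x)) (h.sp2_cexp m) (h.sp2_ebd_exp m)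
      v₀ d
  refine ⟨fun s hs => ((hsm s hs).step hm _).d1, fun s hs => ((hsm s hs).step hm _).d2, ?_, ?_,
    ?_, ?_, ?_, ⟨L, fun s hs => ((hsm s hs).step hm _).bM⟩,
    ⟨B + m * L ^ 2, fun s hs => ((hsm s hs).step hm _).bD⟩,
    ⟨Bs + |d / 2| * (B + m * L ^ 2), fun s hs x => ?_⟩⟩
  · -- the derivative in the parameter
    intro s hs x
    have hb1 : ∀ s ∈ Icc a b, ∀ x, |u1 s x| ≤ L := fun s hs => (hsm s hs).bM
    have hder := sp2_deriv (a := a) (b := b) (G := fun s x => Real.exp (m * u s x))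
      (G1 := fun s x => (m * u1 s x) * Real.exp (m * u s x))
      (G2 := fun s x => (m * (u2 s x + m * u1 s x ^ 2)) * Real.exp (m * u s x))
      (Gs := fun s x => (m * us s x) * Real.exp (m * u s x)) (v₀ := v₀) (d := d)
      (fun s hs x => by
        have h1 := ((h.d1 s hs x).const_mul m).exp
        rw [mul_comm] at h1
        exact h1)
      (fun s hs x => by
        have h1 := ((h.d2 s hs x).const_mul m).mul ((h.d1 s hs x).const_mul m).exp
        have e : m * u2 s x * Real.exp (m * u s x) + m * u1 s x *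
            (Real.exp (m * u s x) * (m * u1 s x)) =
            (m * (u2 s x + m * u1 s x ^ 2)) * Real.exp (m * u s x) := by ring
        rw [e] at h1
        exact h1)
      (fun s hs x => by
        have h1 := ((h.ds s hs x).const_mul m).exp
        rw [mul_comm] at h1
        exact h1)
      (h.sp2_cexp m) ((h.c1.const_mul m).mul (h.sp2_cexp m))
      ((hc2.const_mul m).mul (h.sp2_cexp m))
      ((h.cs.const_mul m).mul ((h.sp2_cexp m).mono hsubp))
      (h.sp2_ebd_exp m)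
      ((sp2_EB_of_bdd (B := m * L) fun s hs x => by
        rw [abs_mul, abs_of_pos hm]
        exact mul_le_mul_of_nonneg_left (hb1 s hs x) hm.le).mul (h.sp2_ebd_exp m))
      ((sp2_EB_of_bdd (B := m * (B + m * L ^ 2)) fun s hs x => by
        rw [abs_mul, abs_of_pos hm]
        exact mul_le_mul_of_nonneg_left (hb2 s hs x) hm.le).mul (h.sp2_ebd_exp m))
      ((sp2_EB_of_bdd (B := m * Bs) fun s hs x => by
        rw [abs_mul, abs_of_pos hm]
        exact mul_le_mul_of_nonneg_left (hBs s hs x) hm.le).mul ((h.sp2_ebd_exp m).mono hIoo))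
      hv hs x
    have hpos := (hsm s (hIoo hs)).int_exp_pos m (v₀ + s * d) x
    have h2 := (hder.log hpos.ne').const_mul (1 / m)
    have h3 : ∫ z, (m * us s (x + √(v₀ + s * d) * z) * Real.exp (m * u s (x + √(v₀ + s * d) * z)) +
        d / 2 * (m * (u2 s (x + √(v₀ + s * d) * z) + m * u1 s (x + √(v₀ + s * d) * z) ^ 2) *
          Real.exp (m * u s (x + √(v₀ + s * d) * z)))) ∂(gaussianReal 0 1) =
        m * ∫ z, (us s (x + √(v₀ + s * d) * z) + d / 2 * (u2 s (x + √(v₀ + s * d) * z) +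
          m * u1 s (x + √(v₀ + s * d) * z) ^ 2)) * Real.exp (m * u s (x + √(v₀ + s * d) * z))
          ∂(gaussianReal 0 1) := by
      rw [← integral_const_mul]
      refine integral_congr_ae (Eventually.of_forall fun z => ?_)
      ring
    rw [h3] at h2
    have h4 : 1 / m * (m * (∫ z, (us s (x + √(v₀ + s * d) * z) + d / 2 *
        (u2 s (x + √(v₀ + s * d) * z) + m * u1 s (x + √(v₀ + s * d) * z) ^ 2)) *
        Real.exp (m * u s (x + √(v₀ + s * d) * z)) ∂(gaussianReal 0 1)) /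
        ∫ z, Real.exp (m * u s (x + √(v₀ + s * d) * z)) ∂(gaussianReal 0 1)) =
        tlt m (v₀ + s * d) (u s) (fun y => us s y + d / 2 * (u2 s y + m * u1 s y ^ 2)) x := by
      unfold tlt
      rw [mul_div_assoc, ← mul_assoc, one_div, inv_mul_cancel₀ hm.ne', one_mul]
    rw [h4] at h2
    exact h2
  · -- continuity of the log-weight
    have : ContinuousOn (fun p : ℝ × ℝ => 1 / m * Real.log
        (∫ z, Real.exp (m * u p.1 (p.2 + √(v₀ + p.1 * d) * z)) ∂(gaussianReal 0 1)))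
        (Icc a b ×ˢ univ) :=
      (hgc.log fun p hp => ((hsm p.1 hp.1).int_exp_pos m (v₀ + p.1 * d) p.2).ne').const_mul _
    exact this
  · exact h.tlt_cont h.c1 (fun s hs => (hsm s hs).bM) m v₀ d
  · exact (h.tlt_cont hc2 hb2 m v₀ d).sub
      (((h.tlt_cont h.c1 (fun s hs => (hsm s hs).bM) m v₀ d).pow 2).const_mul m)
  · exact h.sp2_tlt_cont hIoo hcs hbs m v₀ d
  · exact (hsm s (hIoo hs)).abs_tlt_le
      (g := fun y => us s y + d / 2 * (u2 s y + m * u1 s y ^ 2))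
      (sp2_slice (G := fun s y => us s y + d / 2 * (u2 s y + m * u1 s y ^ 2)) hcs hs)
      (hbs s hs) m (v₀ + s * d) x

theorem Fam.bottom_cont (h : Fam a b u u1 u2 us) {g : ℝ → ℝ → ℝ}
    (hg : ContinuousOn (fun p : ℝ × ℝ => g p.1 p.2) (Set.Icc a b ×ˢ Set.univ)) {B : ℝ}
    (hB : ∀ s ∈ Set.Icc a b, ∀ x, |g s x| ≤ B) (v₀ d : ℝ) :
    ContinuousOn (fun s => ∫ z, g s (√(v₀ + s * d) * z) ∂(gaussianReal 0 1)) (Set.Icc a b) := by
  have h1 := sp2_cont subset_rfl hg (sp2_EB_of_bdd hB) v₀ d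
  have h2 := h1.comp (f := fun s : ℝ => ((s, (0 : ℝ)) : ℝ × ℝ)) (s := Icc a b) (by fun_prop)
    (fun s hs => ⟨hs, mem_univ _⟩)
  simpa [Function.comp_def] using h2

theorem Fam.bottom (h : Fam a b u u1 u2 us) {v₀ d : ℝ}
    (hv : ∀ s ∈ Set.Ioo a b, 0 < v₀ + s * d) :
    ContinuousOn (fun s => ∫ z, u s (√(v₀ + s * d) * z) ∂(gaussianReal 0 1)) (Set.Icc a b) ∧
      ∀ s ∈ Set.Ioo a b,
        HasDerivAt (fun s => ∫ z, u s (√(v₀ + s * d) * z) ∂(gaussianReal 0 1))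
          (∫ z, (us s (√(v₀ + s * d) * z) + d / 2 * u2 s (√(v₀ + s * d) * z))
            ∂(gaussianReal 0 1)) s := by
  obtain ⟨L, B, hL, hB, hsm⟩ := h.sp2_sm
  obtain ⟨Bs, hBs⟩ := h.bs
  constructor
  · have h1 := sp2_cont subset_rfl h.c0 h.sp2_ebd v₀ d
    have h2 := h1.comp (f := fun s : ℝ => ((s, (0 : ℝ)) : ℝ × ℝ)) (s := Icc a b) (by fun_prop)
      (fun s hs => ⟨hs, mem_univ _⟩)
    simpa [Function.comp_def] using h2
  · intro s hs
    have h1 := sp2_deriv h.d1 h.d2 h.ds h.c0 h.c1 h.c2 h.cs h.sp2_ebd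
      (sp2_EB_of_bdd fun s hs => (hsm s hs).bM) (sp2_EB_of_bdd fun s hs => (hsm s hs).bD)
      (sp2_EB_of_bdd hBs) hv hs 0
    simpa only [zero_add] using h1

end SP2

end Vale.Agent.P157.Par
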