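import Vale.Agent.P157.ParDefs

/-!
The tilted chain on the line and its overlaps, for the spin part of the Parisi functional.
-/

open MeasureTheory ProbabilityTheory

namespace Vale.Agent.P157.Par

/-- One step of the tilted chain on the line. -/
noncomputable def tlt (m v : ℝ) (F h : ℝ → ℝ) : ℝ → ℝ := fun x =>
  (∫ z, h (x + √v * z) * Real.exp (m * F (x + √v * z)) ∂(gaussianReal 0 1)) /
    ∫ z, Real.exp (m * F (x + √v * z)) ∂(gaussianReal 0 1)

/-- The average of `h` at the level `l` of the tilted chain, with the log-weight `F` there. -/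
noncomputable def chn (m r : ℕ → ℝ) : ℕ → (ℝ → ℝ) → (ℝ → ℝ) → ℝ
  | 0, _, h => ∫ z, h (√(r 0) * z) ∂(gaussianReal 0 1)
  | l + 1, F, h => chn m r l (gstep (m (l + 1)) (r (l + 1) - r l) F)
      (tlt (m (l + 1)) (r (l + 1) - r l) F h)

/-- The overlaps of the tilted chain: with the log-weight `F` and the observable `M` at the level
`l`, the second moment of the conditional average of `M` at the level `j ≤ l`. -/
noncomputable def Rc (m r : ℕ → ℝ) : ℕ → (ℝ → ℝ) → (ℝ → ℝ) → ℕ → ℝ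
  | 0, F, M, _ => chn m r 0 F (fun x => M x ^ 2)
  | l + 1, F, M, j => if j ≤ l then
      Rc m r l (gstep (m (l + 1)) (r (l + 1) - r l) F) (tlt (m (l + 1)) (r (l + 1) - r l) F M) j
      else chn m r (l + 1) F (fun x => M x ^ 2)

theorem chn_zero_def (m r : ℕ → ℝ) (F h : ℝ → ℝ) :
    chn m r 0 F h = ∫ z, h (√(r 0) * z) ∂(gaussianReal 0 1) := by
  have h1 := @chn.eq_1
  have h2 := @chn.eq_def
  simp only [chn]

theorem chn_succ_def (m r : ℕ → ℝ) (l : ℕ) (F h : ℝ → ℝ) :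
    chn m r (l + 1) F h = chn m r l (gstep (m (l + 1)) (r (l + 1) - r l) F)
      (tlt (m (l + 1)) (r (l + 1) - r l) F h) := by
  have h1 := @chn.eq_1
  have h2 := @chn.eq_def
  simp only [chn]

theorem Rc_zero_def (m r : ℕ → ℝ) (F M : ℝ → ℝ) (j : ℕ) :
    Rc m r 0 F M j = chn m r 0 F (fun x => M x ^ 2) := by
  have h1 := @Rc.eq_1
  have h2 := @Rc.eq_def
  simp only [Rc]

theorem Rc_succ_le (m r : ℕ → ℝ) (l : ℕ) (F M : ℝ → ℝ) {j : ℕ} (hj : j ≤ l) :
    Rc m r (l + 1) F M j = Rc m r l (gstep (m (l + 1)) (r (l + 1) - r l) F)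
      (tlt (m (l + 1)) (r (l + 1) - r l) F M) j := by
  have h1 := @Rc.eq_1
  have h2 := @Rc.eq_def
  simp only [Rc, if_pos hj]

theorem Rc_succ_self (m r : ℕ → ℝ) (l : ℕ) (F M : ℝ → ℝ) :
    Rc m r (l + 1) F M (l + 1) = chn m r (l + 1) F (fun x => M x ^ 2) := by
  have h1 := @Rc.eq_1
  have h2 := @Rc.eq_def
  simp only [Rc, if_neg (Nat.not_succ_le_self l)]

theorem Rc_self (m r : ℕ → ℝ) (l : ℕ) (F M : ℝ → ℝ) :
    Rc m r l F M l = chn m r l F (fun x => M x ^ 2) := by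
  cases l with
  | zero => exact Rc_zero_def m r F M 0
  | succ l => exact Rc_succ_self m r l F M

/-- The overlap at the level `j` of the spin chain. -/
noncomputable def spR (k : ℕ) (m r : ℕ → ℝ) (j : ℕ) : ℝ :=
  Rc m r k (fun x => Real.log (Real.cosh x)) Real.tanh j

/-- Regular log-weights with their first two derivatives. -/
structure Sm (L B : ℝ) (F M D : ℝ → ℝ) : Prop where
  d1 : ∀ x, HasDerivAt F (M x) x
  d2 : ∀ x, HasDerivAt M (D x) x
  cD : Continuous D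
  bM : ∀ x, |M x| ≤ L
  bD : ∀ x, |D x| ≤ B

/-- Regular even convex log-weights. -/
structure Ec (F M D : ℝ → ℝ) : Prop where
  d1 : ∀ x, HasDerivAt F (M x) x
  d2 : ∀ x, HasDerivAt M (D x) x
  cD : Continuous D
  even : ∀ x, F (-x) = F x
  D0 : ∀ x, 0 ≤ D x
  D1 : ∀ x, D x + M x ^ 2 ≤ 1

/-- A smooth family of log-weights, on a segment: `u1, u2` are the derivatives in `x` and `us` is
the derivative in the parameter. -/
structure Fam (a b : ℝ) (u u1 u2 us : ℝ → ℝ → ℝ) : Prop where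
  d1 : ∀ s ∈ Set.Icc a b, ∀ x, HasDerivAt (u s) (u1 s x) x
  d2 : ∀ s ∈ Set.Icc a b, ∀ x, HasDerivAt (u1 s) (u2 s x) x
  ds : ∀ s ∈ Set.Ioo a b, ∀ x, HasDerivAt (fun s => u s x) (us s x) s
  c0 : ContinuousOn (fun p : ℝ × ℝ => u p.1 p.2) (Set.Icc a b ×ˢ Set.univ)
  c1 : ContinuousOn (fun p : ℝ × ℝ => u1 p.1 p.2) (Set.Icc a b ×ˢ Set.univ)
  c2 : ContinuousOn (fun p : ℝ × ℝ => u2 p.1 p.2) (Set.Icc a b ×ˢ Set.univ)
  cs : ContinuousOn (fun p : ℝ × ℝ => us p.1 p.2) (Set.Ioo a b ×ˢ Set.univ)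
  b1 : ∃ B, ∀ s ∈ Set.Icc a b, ∀ x, |u1 s x| ≤ B
  b2 : ∃ B, ∀ s ∈ Set.Icc a b, ∀ x, |u2 s x| ≤ B
  bs : ∃ B, ∀ s ∈ Set.Ioo a b, ∀ x, |us s x| ≤ B

/-- Even functions which are nondecreasing on the half line. -/
def Evm (g : ℝ → ℝ) : Prop := (∀ x, g (-x) = g x) ∧ MonotoneOn g (Set.Ici 0)

/-- Strictly increasing paths with a positive first value. -/
def SPath (k : ℕ) (r : ℕ → ℝ) : Prop := 0 < r 0 ∧ ∀ l < k, r l < r (l + 1)

end Vale.Agent.P157.Par
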