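import Vale.Agent.P157.ParSpDefs

/-!
Monotone likelihood ratio comparisons for even convex log-weights (task SP3).
-/

open MeasureTheory ProbabilityTheory Filter Topology Set

namespace Vale.Agent.P157.Par

variable {F M D F' M' D' : ℝ → ℝ}

/-! ### Basic facts -/

theorem sp3_abs_M (h : Ec F M D) (x : ℝ) : |M x| ≤ 1 := by
  have h1 := h.D0 x
  have h2 := h.D1 x
  rw [← sq_le_one_iff_abs_le_one]
  linarith

theorem sp3_odd (h : Ec F M D) (x : ℝ) : M (-x) = - M x := by
  have h1 : HasDerivAt (fun y => F (-y)) (M (-x) * (-1)) x :=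
    HasDerivAt.comp x (h.d1 (-x)) (hasDerivAt_neg x)
  have h2 : (fun y => F (-y)) = F := funext h.even
  rw [h2] at h1
  have := h1.unique (h.d1 x)
  linarith

theorem sp3_mono (h : Ec F M D) : Monotone M :=
  monotone_of_deriv_nonneg (fun x => (h.d2 x).differentiableAt)
    (fun x => by rw [(h.d2 x).deriv]; exact h.D0 x)

theorem sp3_nonneg (h : Ec F M D) {x : ℝ} (hx : 0 ≤ x) : 0 ≤ M x := by
  have h0 : M 0 = 0 := by
    have := sp3_odd h 0
    rw [neg_zero] at this
    linarith only [this]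
  rw [← h0]
  exact sp3_mono h hx

theorem sp3_contF (h : Ec F M D) : Continuous F :=
  continuous_iff_continuousAt.2 fun x => (h.d1 x).continuousAt

theorem sp3_contM (h : Ec F M D) : Continuous M :=
  continuous_iff_continuousAt.2 fun x => (h.d2 x).continuousAt

theorem sp3_lip (h : Ec F M D) (x : ℝ) : |F x| ≤ |F 0| + |x| := by
  have h1 := Convex.norm_image_sub_le_of_norm_hasDerivWithin_le (f := F) (f' := M) (s := univ)
    (C := 1) (x := 0) (y := x) (fun y _ => (h.d1 y).hasDerivWithinAt)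
    (fun y _ => sp3_abs_M h y) convex_univ (mem_univ _) (mem_univ _)
  rw [sub_zero, one_mul, Real.norm_eq_abs, Real.norm_eq_abs] at h1
  have h2 := abs_sub_abs_le_abs_sub (F x) (F 0)
  linarith

/-! ### Integrability -/

theorem sp3_exp_abs (c : ℝ) : Integrable (fun y : ℝ => Real.exp (c * |y|)) (gaussianReal 0 1) := by
  have h1 := (integrable_exp_mul_gaussianReal (μ := 0) (v := 1) c).add
    (integrable_exp_mul_gaussianReal (μ := 0) (v := 1) (-c))
  refine h1.mono' (by fun_prop) (ae_of_all _ fun y => ?_)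
  rw [Real.norm_eq_abs, abs_of_pos (Real.exp_pos _), Pi.add_apply]
  rcases abs_cases y with ⟨h, -⟩ | ⟨h, -⟩ <;> rw [h]
  · linarith [Real.exp_pos (-c * y)]
  · rw [show c * -y = -c * y by ring]
    linarith [Real.exp_pos (c * y)]

theorem sp3_int (h : Ec F M D) {G : ℝ → ℝ} (hG : Continuous G) {K : ℝ} (hK : ∀ y, |G y| ≤ K)
    (m s c : ℝ) : Integrable (fun y => G y * (Real.exp (m * F (s * y)) * Real.exp (c * y)))
      (gaussianReal 0 1) := by
  have hF := sp3_contF h
  have h1 := (sp3_exp_abs (|m| * |s| + |c|)).const_mul (K * Real.exp (|m| * |F 0|))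
  refine h1.mono' (by fun_prop) (ae_of_all _ fun y => ?_)
  have hK0 : 0 ≤ K := (abs_nonneg _).trans (hK 0)
  rw [norm_mul, norm_mul, Real.norm_eq_abs, Real.norm_eq_abs, Real.norm_eq_abs,
    abs_of_pos (Real.exp_pos _), abs_of_pos (Real.exp_pos _), mul_assoc, ← Real.exp_add,
    ← Real.exp_add]
  refine mul_le_mul (hK y) (Real.exp_le_exp.2 ?_) (Real.exp_pos _).le hK0
  have e1 : m * F (s * y) ≤ |m| * (|F 0| + |s| * |y|) := by
    refine (le_abs_self _).trans ?_
    rw [abs_mul]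
    refine mul_le_mul_of_nonneg_left ?_ (abs_nonneg m)
    rw [← abs_mul]
    exact sp3_lip h _
  have e2 : c * y ≤ |c| * |y| := by
    rw [← abs_mul]
    exact le_abs_self _
  nlinarith

/-- the symmetrised weight -/
noncomputable def sp3_W (m s c : ℝ) (F : ℝ → ℝ) (y : ℝ) : ℝ :=
  Real.exp (m * F (s * y)) * Real.cosh (c * y)

theorem sp3_W_pos (m s c : ℝ) (F : ℝ → ℝ) (y : ℝ) : 0 < sp3_W m s c F y :=
  mul_pos (Real.exp_pos _) (Real.cosh_pos _)

theorem sp3_W_int (h : Ec F M D) {G : ℝ → ℝ} (hG : Continuous G) {K : ℝ}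
    (hK : ∀ y, |G y| ≤ K) (m s c : ℝ) :
    Integrable (fun y => G y * sp3_W m s c F y) (gaussianReal 0 1) := by
  have h1 := ((sp3_int h hG hK m s c).add (sp3_int h hG hK m s (-c))).const_mul (1 / 2)
  refine h1.congr (ae_of_all _ fun y => ?_)
  simp only [Pi.add_apply, sp3_W]
  rw [Real.cosh_eq, show -(c * y) = -c * y by ring]
  ring

theorem sp3_W_int1 (h : Ec F M D) (m s c : ℝ) :
    Integrable (fun y => sp3_W m s c F y) (gaussianReal 0 1) := by
  have h1 := sp3_W_int h (G := fun _ => 1) continuous_const (K := 1) (fun _ => by simp) m s c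
  simpa using h1

theorem sp3_W_ipos (h : Ec F M D) (m s c : ℝ) :
    0 < ∫ y, sp3_W m s c F y ∂(gaussianReal 0 1) := by
  rw [integral_pos_iff_support_of_nonneg (fun y => (sp3_W_pos m s c F y).le) (sp3_W_int1 h m s c)]
  have : Function.support (fun y => sp3_W m s c F y) = univ := by
    ext y
    simp [(sp3_W_pos m s c F y).ne']
  rw [this]
  simp

/-! ### Shift and symmetrisation -/

theorem sp3_shift (f : ℝ → ℝ) (c : ℝ) : ∫ z, f (z + c) ∂(gaussianReal 0 1) =
    Real.exp (-c ^ 2 / 2) * ∫ z, f z * Real.exp (c * z) ∂(gaussianReal 0 1) := by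
  rw [integral_gaussianReal_eq_integral_smul one_ne_zero,
    integral_gaussianReal_eq_integral_smul one_ne_zero, ← integral_const_mul]
  rw [← integral_sub_right_eq_self (fun z => gaussianPDFReal 0 1 z • f (z + c)) c]
  refine integral_congr_ae (ae_of_all _ fun z => ?_)
  simp only [smul_eq_mul, gaussianPDFReal, sub_add_cancel, sub_zero]
  have : Real.exp (-(z - c) ^ 2 / (2 * ((1 : NNReal) : ℝ))) =
      Real.exp (-c ^ 2 / 2) * Real.exp (-z ^ 2 / (2 * ((1 : NNReal) : ℝ))) * Real.exp (c * z) := by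
    rw [← Real.exp_add, ← Real.exp_add]
    congr 1
    simp only [NNReal.coe_one]
    ring
  rw [this]
  ring

theorem sp3_neg (φ : ℝ → ℝ) : ∫ z, φ (-z) ∂(gaussianReal 0 1) = ∫ z, φ z ∂(gaussianReal 0 1) := by
  have h1 : (gaussianReal 0 1).map (fun x : ℝ => -x) = gaussianReal 0 1 := by
    have := gaussianReal_map_neg (μ := 0) (v := 1)
    rw [neg_zero] at this
    exact this
  conv_rhs => rw [← h1]
  exact ((MeasurableEquiv.neg ℝ).measurableEmbedding.integral_map φ).symm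

theorem sp3_num (h : Ec F M D) {G : ℝ → ℝ} {s : ℝ} (hs : 0 < s) (m x : ℝ) :
    ∫ z, G (x + s * z) * Real.exp (m * F (x + s * z)) ∂(gaussianReal 0 1) =
      Real.exp (-(x / s) ^ 2 / 2) *
        ∫ z, G (s * z) * (Real.exp (m * F (s * z)) * Real.exp (x / s * z)) ∂(gaussianReal 0 1) := by
  have h1 := sp3_shift (fun z => G (s * z) * Real.exp (m * F (s * z))) (x / s)
  have h2 : ∀ z, s * (z + x / s) = x + s * z := by
    intro z
    field_simp
    ring
  simp only [h2] at h1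
  rw [h1]
  congr 1
  refine integral_congr_ae (ae_of_all _ fun z => ?_)
  simp only
  ring

theorem sp3_num_even (h : Ec F M D) {G : ℝ → ℝ} (hG : Continuous G) {K : ℝ}
    (hK : ∀ y, |G y| ≤ K) (hev : ∀ y, G (-y) = G y) {s : ℝ} (hs : 0 < s) (m x : ℝ) :
    ∫ z, G (x + s * z) * Real.exp (m * F (x + s * z)) ∂(gaussianReal 0 1) =
      Real.exp (-(x / s) ^ 2 / 2) * ∫ z, G (s * z) * sp3_W m s (x / s) F z ∂(gaussianReal 0 1) := by
  rw [sp3_num h hs m x]
  congr 1
  have hG' : Continuous fun y => G (s * y) := by fun_prop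
  have i1 := sp3_int h hG' (fun y => hK (s * y)) m s (x / s)
  have i2 := sp3_int h hG' (fun y => hK (s * y)) m s (-(x / s))
  have e1 : ∫ z, G (s * z) * (Real.exp (m * F (s * z)) * Real.exp (-(x / s) * z))
      ∂(gaussianReal 0 1) =
      ∫ z, G (s * z) * (Real.exp (m * F (s * z)) * Real.exp (x / s * z)) ∂(gaussianReal 0 1) := by
    rw [← sp3_neg (fun z => G (s * z) * (Real.exp (m * F (s * z)) * Real.exp (x / s * z)))]
    refine integral_congr_ae (ae_of_all _ fun z => ?_)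
    simp only
    rw [show s * -z = -(s * z) by ring, hev, h.even, show x / s * -z = -(x / s) * z by ring]
  have e2 : ∀ z, G (s * z) * sp3_W m s (x / s) F z =
      1 / 2 * (G (s * z) * (Real.exp (m * F (s * z)) * Real.exp (x / s * z))) +
      1 / 2 * (G (s * z) * (Real.exp (m * F (s * z)) * Real.exp (-(x / s) * z))) := by
    intro z
    rw [sp3_W, Real.cosh_eq, show -(x / s * z) = -(x / s) * z by ring]
    ring
  simp_rw [e2]
  rw [integral_add (i1.const_mul _) (i2.const_mul _), integral_const_mul, integral_const_mul, e1]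
  ring

theorem sp3_num_odd (h : Ec F M D) {G : ℝ → ℝ} (hG : Continuous G) {K : ℝ}
    (hK : ∀ y, |G y| ≤ K) (hev : ∀ y, G (-y) = -G y) {s : ℝ} (hs : 0 < s) (m x : ℝ) :
    ∫ z, G (x + s * z) * Real.exp (m * F (x + s * z)) ∂(gaussianReal 0 1) =
      Real.exp (-(x / s) ^ 2 / 2) * ∫ z, (G (s * z) * Real.tanh (x / s * z)) *
        sp3_W m s (x / s) F z ∂(gaussianReal 0 1) := by
  rw [sp3_num h hs m x]
  congr 1
  have hG' : Continuous fun y => G (s * y) := by fun_prop
  have i1 := sp3_int h hG' (fun y => hK (s * y)) m s (x / s)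
  have i2 := sp3_int h hG' (fun y => hK (s * y)) m s (-(x / s))
  have e1 : ∫ z, G (s * z) * (Real.exp (m * F (s * z)) * Real.exp (-(x / s) * z))
      ∂(gaussianReal 0 1) =
      - ∫ z, G (s * z) * (Real.exp (m * F (s * z)) * Real.exp (x / s * z)) ∂(gaussianReal 0 1) := by
    rw [← sp3_neg (fun z => G (s * z) * (Real.exp (m * F (s * z)) * Real.exp (x / s * z))),
      ← integral_neg]
    refine integral_congr_ae (ae_of_all _ fun z => ?_)
    simp only
    rw [show s * -z = -(s * z) by ring, hev, h.even, show x / s * -z = -(x / s) * z by ring]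
    ring
  have e2 : ∀ z, (G (s * z) * Real.tanh (x / s * z)) * sp3_W m s (x / s) F z =
      1 / 2 * (G (s * z) * (Real.exp (m * F (s * z)) * Real.exp (x / s * z))) -
      1 / 2 * (G (s * z) * (Real.exp (m * F (s * z)) * Real.exp (-(x / s) * z))) := by
    intro z
    have hc := (Real.cosh_pos (x / s * z)).ne'
    rw [sp3_W, Real.tanh_eq_sinh_div_cosh]
    have : G (s * z) * (Real.sinh (x / s * z) / Real.cosh (x / s * z)) *
        (Real.exp (m * F (s * z)) * Real.cosh (x / s * z)) =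
        G (s * z) * Real.exp (m * F (s * z)) * Real.sinh (x / s * z) := by
      field_simp
    rw [this, Real.sinh_eq, show -(x / s * z) = -(x / s) * z by ring]
    ring
  simp_rw [e2]
  rw [integral_sub (i1.const_mul _) (i2.const_mul _), integral_const_mul, integral_const_mul, e1]
  ring

theorem sp3_den (h : Ec F M D) {s : ℝ} (hs : 0 < s) (m x : ℝ) :
    ∫ z, Real.exp (m * F (x + s * z)) ∂(gaussianReal 0 1) =
      Real.exp (-(x / s) ^ 2 / 2) * ∫ z, sp3_W m s (x / s) F z ∂(gaussianReal 0 1) := by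
  have h1 := sp3_num_even h (G := fun _ => 1) continuous_const (K := 1) (fun _ => by simp)
    (fun _ => rfl) hs m x
  simpa using h1

theorem sp3_tlt_even (h : Ec F M D) {G : ℝ → ℝ} (hG : Continuous G) {K : ℝ}
    (hK : ∀ y, |G y| ≤ K) (hev : ∀ y, G (-y) = G y) {v : ℝ} (hv : 0 < v) (m x : ℝ) :
    tlt m v F G x = (∫ z, G (√v * z) * sp3_W m (√v) (x / √v) F z ∂(gaussianReal 0 1)) /
      ∫ z, sp3_W m (√v) (x / √v) F z ∂(gaussianReal 0 1) := by
  have hs : 0 < √v := Real.sqrt_pos.2 hv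
  rw [tlt, sp3_num_even h hG hK hev hs, sp3_den h hs, mul_div_mul_left _ _ (Real.exp_pos _).ne']

theorem sp3_tlt_odd (h : Ec F M D) {G : ℝ → ℝ} (hG : Continuous G) {K : ℝ}
    (hK : ∀ y, |G y| ≤ K) (hev : ∀ y, G (-y) = -G y) {v : ℝ} (hv : 0 < v) (m x : ℝ) :
    tlt m v F G x = (∫ z, (G (√v * z) * Real.tanh (x / √v * z)) *
      sp3_W m (√v) (x / √v) F z ∂(gaussianReal 0 1)) /
      ∫ z, sp3_W m (√v) (x / √v) F z ∂(gaussianReal 0 1) := by
  have hs : 0 < √v := Real.sqrt_pos.2 hv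
  rw [tlt, sp3_num_odd h hG hK hev hs, sp3_den h hs, mul_div_mul_left _ _ (Real.exp_pos _).ne']

theorem sp3_tlt_triv {v : ℝ} (hv : v ≤ 0) (m x : ℝ) (F G : ℝ → ℝ) : tlt m v F G x = G x := by
  rw [tlt, Real.sqrt_eq_zero_of_nonpos hv]
  simp only [zero_mul, add_zero, integral_const, probReal_univ, one_smul]
  rw [mul_div_assoc, div_self (Real.exp_pos _).ne', mul_one]

/-! ### Chebyshev association -/

theorem sp3_cheb {μ : Measure ℝ} [SFinite μ] {W f g : ℝ → ℝ} (hW : ∀ x, 0 ≤ W x)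
    (hfg : ∀ x y, 0 ≤ (f x - f y) * (g x - g y)) (i1 : Integrable W μ)
    (i2 : Integrable (fun x => f x * W x) μ) (i3 : Integrable (fun x => g x * W x) μ)
    (i4 : Integrable (fun x => f x * (g x * W x)) μ) :
    (∫ x, f x * W x ∂μ) * (∫ x, g x * W x ∂μ) ≤ (∫ x, W x ∂μ) * ∫ x, f x * (g x * W x) ∂μ := by
  have h0 : 0 ≤ ∫ p : ℝ × ℝ, (f p.1 - f p.2) * (g p.1 - g p.2) * (W p.1 * W p.2) ∂(μ.prod μ) :=
    integral_nonneg fun p => mul_nonneg (hfg _ _) (mul_nonneg (hW _) (hW _))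
  have j1 : Integrable (fun p : ℝ × ℝ => (f p.1 * (g p.1 * W p.1)) * W p.2) (μ.prod μ) :=
    i4.mul_prod i1
  have j2 : Integrable (fun p : ℝ × ℝ => W p.1 * (f p.2 * (g p.2 * W p.2))) (μ.prod μ) :=
    i1.mul_prod i4
  have j3 : Integrable (fun p : ℝ × ℝ => (f p.1 * W p.1) * (g p.2 * W p.2)) (μ.prod μ) :=
    i2.mul_prod i3
  have j4 : Integrable (fun p : ℝ × ℝ => (g p.1 * W p.1) * (f p.2 * W p.2)) (μ.prod μ) :=
    i3.mul_prod i2
  have e : ∀ p : ℝ × ℝ, (f p.1 - f p.2) * (g p.1 - g p.2) * (W p.1 * W p.2) =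
      ((f p.1 * (g p.1 * W p.1)) * W p.2 + W p.1 * (f p.2 * (g p.2 * W p.2))) -
      ((f p.1 * W p.1) * (g p.2 * W p.2) + (g p.1 * W p.1) * (f p.2 * W p.2)) := by
    intro p
    ring
  rw [integral_congr_ae (ae_of_all _ e)] at h0
  have j12 : Integrable (fun p : ℝ × ℝ => (f p.1 * (g p.1 * W p.1)) * W p.2 +
      W p.1 * (f p.2 * (g p.2 * W p.2))) (μ.prod μ) := j1.add j2
  have j34 : Integrable (fun p : ℝ × ℝ => (f p.1 * W p.1) * (g p.2 * W p.2) +
      (g p.1 * W p.1) * (f p.2 * W p.2)) (μ.prod μ) := j3.add j4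
  rw [integral_sub j12 j34, integral_add j1 j2, integral_add j3 j4] at h0
  have k1 : ∫ p : ℝ × ℝ, (f p.1 * (g p.1 * W p.1)) * W p.2 ∂(μ.prod μ) =
      (∫ x, f x * (g x * W x) ∂μ) * ∫ x, W x ∂μ :=
    integral_prod_mul (fun x => f x * (g x * W x)) W
  have k2 : ∫ p : ℝ × ℝ, W p.1 * (f p.2 * (g p.2 * W p.2)) ∂(μ.prod μ) =
      (∫ x, W x ∂μ) * ∫ x, f x * (g x * W x) ∂μ :=
    integral_prod_mul W (fun x => f x * (g x * W x))
  have k3 : ∫ p : ℝ × ℝ, (f p.1 * W p.1) * (g p.2 * W p.2) ∂(μ.prod μ) =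
      (∫ x, f x * W x ∂μ) * ∫ x, g x * W x ∂μ :=
    integral_prod_mul (fun x => f x * W x) (fun x => g x * W x)
  have k4 : ∫ p : ℝ × ℝ, (g p.1 * W p.1) * (f p.2 * W p.2) ∂(μ.prod μ) =
      (∫ x, g x * W x ∂μ) * ∫ x, f x * W x ∂μ :=
    integral_prod_mul (fun x => g x * W x) (fun x => f x * W x)
  rw [k1, k2, k3, k4] at h0
  linarith only [h0]

theorem sp3_evm_le {g : ℝ → ℝ} (hg : Evm g) {x y : ℝ} (h : |x| ≤ |y|) : g x ≤ g y := by
  have h1 : ∀ z, g |z| = g z := by
    intro z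
    rcases abs_cases z with ⟨h, -⟩ | ⟨h, -⟩ <;> rw [h]
    exact hg.1 z
  rw [← h1 x, ← h1 y]
  exact hg.2 (abs_nonneg x) (abs_nonneg y) h

theorem sp3_evm_prod {f g : ℝ → ℝ} (hf : Evm f) (hg : Evm g) (x y : ℝ) :
    0 ≤ (f x - f y) * (g x - g y) := by
  rcases le_total |x| |y| with h | h
  · exact mul_nonneg_of_nonpos_of_nonpos (sub_nonpos.2 (sp3_evm_le hf h))
      (sub_nonpos.2 (sp3_evm_le hg h))
  · exact mul_nonneg (sub_nonneg.2 (sp3_evm_le hf h)) (sub_nonneg.2 (sp3_evm_le hg h))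

/-- comparison of two weights with a monotone ratio -/
theorem sp3_ratio {W W' k : ℝ → ℝ} (hW : ∀ x, 0 < W x) (hk : Evm k)
    (hr : Evm fun x => W' x / W x) (i1 : Integrable W (gaussianReal 0 1))
    (i2 : Integrable W' (gaussianReal 0 1))
    (i3 : Integrable (fun x => k x * W x) (gaussianReal 0 1))
    (i4 : Integrable (fun x => k x * W' x) (gaussianReal 0 1))
    (p1 : 0 < ∫ x, W x ∂(gaussianReal 0 1)) (p2 : 0 < ∫ x, W' x ∂(gaussianReal 0 1)) :
    (∫ x, k x * W x ∂(gaussianReal 0 1)) / ∫ x, W x ∂(gaussianReal 0 1) ≤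
      (∫ x, k x * W' x ∂(gaussianReal 0 1)) / ∫ x, W' x ∂(gaussianReal 0 1) := by
  have e1 : ∀ x, W' x / W x * W x = W' x := fun x => div_mul_cancel₀ _ (hW x).ne'
  have h := sp3_cheb (μ := gaussianReal 0 1) (W := W) (f := k) (g := fun x => W' x / W x)
    (fun x => (hW x).le) (sp3_evm_prod hk hr) i1 i3 (by simpa only [e1] using i2)
    (by simpa only [e1] using i4)
  simp only [e1] at h
  rw [div_le_div_iff₀ p1 p2]
  linarith

/-! ### The two ratios -/

theorem sp3_cosh {a b y y' : ℝ} (ha : 0 ≤ a) (hab : a ≤ b) (hy : 0 ≤ y) (hyy : y ≤ y') :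
    Real.cosh (b * y) * Real.cosh (a * y') ≤ Real.cosh (b * y') * Real.cosh (a * y) := by
  have e : ∀ u w : ℝ, Real.cosh u * Real.cosh w =
      (Real.cosh (u + w) + Real.cosh (u - w)) / 2 := by
    intro u w
    rw [Real.cosh_add, Real.cosh_sub]
    ring
  have hb : 0 ≤ b := ha.trans hab
  have hy' : 0 ≤ y' := hy.trans hyy
  have h1 : 0 ≤ b * y := mul_nonneg hb hy
  have h2 : 0 ≤ a * y' := mul_nonneg ha hy'
  have h3 : 0 ≤ a * y := mul_nonneg ha hy
  have h4 : 0 ≤ b * y' := mul_nonneg hb hy'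
  have h5 : 0 ≤ (b - a) * (y' - y) := mul_nonneg (by linarith) (by linarith)
  have h6 : 0 ≤ (b + a) * (y' - y) := mul_nonneg (by linarith) (by linarith)
  have h7 : 0 ≤ (b - a) * (y' + y) := mul_nonneg (by linarith) (by linarith)
  have c1 : Real.cosh (b * y + a * y') ≤ Real.cosh (b * y' + a * y) := by
    rw [Real.cosh_le_cosh, abs_of_nonneg (by linarith), abs_of_nonneg (by linarith)]
    linarith only [h5]
  have c2 : Real.cosh (b * y - a * y') ≤ Real.cosh (b * y' - a * y) := by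
    rw [Real.cosh_le_cosh]
    refine le_trans ?_ (le_abs_self _)
    rw [abs_le]
    constructor <;> nlinarith only [h7, h6]
  rw [e, e]
  linarith

theorem sp3_evm_cosh {a b : ℝ} (ha : 0 ≤ a) (hab : a ≤ b) :
    Evm fun y => Real.cosh (b * y) / Real.cosh (a * y) := by
  constructor
  · intro y
    simp only [mul_neg, Real.cosh_neg]
  · intro y hy y' _ hyy
    simp only
    rw [div_le_div_iff₀ (Real.cosh_pos _) (Real.cosh_pos _)]
    exact sp3_cosh ha hab hy hyy

theorem sp3_W_ratio1 (m s a b : ℝ) (F : ℝ → ℝ) (y : ℝ) :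
    sp3_W m s b F y / sp3_W m s a F y = Real.cosh (b * y) / Real.cosh (a * y) := by
  rw [sp3_W, sp3_W, mul_div_mul_left _ _ (Real.exp_pos _).ne']

theorem sp3_W_ratio2 (m s a : ℝ) (F F' : ℝ → ℝ) (y : ℝ) :
    sp3_W m s a F y / sp3_W m s a F' y = Real.exp (m * (F (s * y) - F' (s * y))) := by
  rw [sp3_W, sp3_W, mul_div_mul_right _ _ (Real.cosh_pos _).ne', ← Real.exp_sub]
  congr 1
  ring

theorem sp3_evm_exp (h : Ec F M D) (h' : Ec F' M' D') (hle : ∀ x, 0 ≤ x → M' x ≤ M x) {m s : ℝ}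
    (hm : 0 < m) (hs : 0 ≤ s) : Evm fun y => Real.exp (m * (F (s * y) - F' (s * y))) := by
  have hmono : MonotoneOn (fun x => F x - F' x) (Ici 0) := by
    refine monotoneOn_of_deriv_nonneg (convex_Ici 0)
      ((sp3_contF h).sub (sp3_contF h')).continuousOn
      (fun x _ => ((h.d1 x).sub (h'.d1 x)).differentiableAt.differentiableWithinAt) ?_
    intro x hx
    rw [interior_Ici] at hx
    have : deriv (fun x => F x - F' x) x = M x - M' x := ((h.d1 x).sub (h'.d1 x)).deriv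
    rw [this]
    exact sub_nonneg.2 (hle x (le_of_lt hx))
  constructor
  · intro y
    simp only [mul_neg, h.even, h'.even]
  · intro y hy y' hy' hyy
    simp only
    refine Real.exp_le_exp.2 (mul_le_mul_of_nonneg_left ?_ hm.le)
    exact hmono (mul_nonneg hs hy) (mul_nonneg hs hy') (mul_le_mul_of_nonneg_left hyy hs)

theorem sp3_evm_scale {g : ℝ → ℝ} (hg : Evm g) {s : ℝ} (hs : 0 ≤ s) : Evm fun y => g (s * y) := by
  constructor
  · intro y
    simp only [mul_neg, hg.1]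
  · intro y hy y' hy' hyy
    exact hg.2 (mul_nonneg hs hy) (mul_nonneg hs hy') (mul_le_mul_of_nonneg_left hyy hs)

/-! ### The statements -/

theorem Ec.tlt_evm (h : Ec F M D) {g : ℝ → ℝ} (hg : Continuous g) {K : ℝ}
    (hK : ∀ x, |g x| ≤ K) (hev : Evm g) {m : ℝ} (hm : 0 < m) (v : ℝ) :
    Evm (tlt m v F g) := by
  have _ := hm
  rcases le_or_gt v 0 with hv | hv
  · have : tlt m v F g = g := funext fun x => sp3_tlt_triv hv m x F g
    rw [this]
    exact hev
  · have hs : 0 < √v := Real.sqrt_pos.2 hv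
    have hG : Continuous fun y => g (√v * y) := by fun_prop
    constructor
    · intro x
      rw [sp3_tlt_even h hg hK hev.1 hv, sp3_tlt_even h hg hK hev.1 hv]
      have e : sp3_W m (√v) (-x / √v) F = sp3_W m (√v) (x / √v) F := by
        funext y
        rw [sp3_W, sp3_W, neg_div, neg_mul, Real.cosh_neg]
      rw [e]
    · intro x hx x' _ hxx
      rw [sp3_tlt_even h hg hK hev.1 hv, sp3_tlt_even h hg hK hev.1 hv]
      refine sp3_ratio (k := fun y => g (√v * y)) (fun y => sp3_W_pos _ _ _ _ _)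
        (sp3_evm_scale hev hs.le) ?_ (sp3_W_int1 h _ _ _) (sp3_W_int1 h _ _ _)
        (sp3_W_int h hG (fun y => hK _) _ _ _) (sp3_W_int h hG (fun y => hK _) _ _ _)
        (sp3_W_ipos h _ _ _) (sp3_W_ipos h _ _ _)
      simp_rw [sp3_W_ratio1]
      exact sp3_evm_cosh (div_nonneg hx hs.le) (div_le_div_of_nonneg_right hxx hs.le)

theorem tlt_cmp (h : Ec F M D) (h' : Ec F' M' D') (hle : ∀ x, 0 ≤ x → M' x ≤ M x)
    {g g' : ℝ → ℝ} (hg : Continuous g) {K : ℝ} (hK : ∀ x, |g x| ≤ K) (hg' : Continuous g')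
    {K' : ℝ} (hK' : ∀ x, |g' x| ≤ K') (hge : ∀ x, g (-x) = g x) (hev : Evm g')
    (hgg : ∀ x, g' x ≤ g x) {m : ℝ} (hm : 0 < m) (v x : ℝ) :
    tlt m v F' g' x ≤ tlt m v F g x := by
  rcases le_or_gt v 0 with hv | hv
  · rw [sp3_tlt_triv hv, sp3_tlt_triv hv]
    exact hgg x
  · have hs : 0 < √v := Real.sqrt_pos.2 hv
    have hG : Continuous fun y => g (√v * y) := by fun_prop
    have hG' : Continuous fun y => g' (√v * y) := by fun_prop
    rw [sp3_tlt_even h' hg' hK' hev.1 hv, sp3_tlt_even h hg hK hge hv]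
    refine (sp3_ratio (k := fun y => g' (√v * y)) (W' := sp3_W m (√v) (x / √v) F)
      (fun y => sp3_W_pos _ _ _ _ _)
      (sp3_evm_scale hev hs.le) ?_ (sp3_W_int1 h' _ _ _) (sp3_W_int1 h _ _ _)
      (sp3_W_int h' hG' (fun y => hK' _) _ _ _) (sp3_W_int h hG' (fun y => hK' _) _ _ _)
      (sp3_W_ipos h' _ _ _) (sp3_W_ipos h _ _ _)).trans ?_
    · simp_rw [sp3_W_ratio2]
      exact sp3_evm_exp h h' hle hm hs.le
    · refine div_le_div_of_nonneg_right ?_ (sp3_W_ipos h _ _ _).le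
      refine integral_mono (sp3_W_int h hG' (fun y => hK' _) _ _ _)
        (sp3_W_int h hG (fun y => hK _) _ _ _) fun y => ?_
      exact mul_le_mul_of_nonneg_right (hgg _) (sp3_W_pos _ _ _ _ _).le

theorem sp3_tanh_nonneg {a y : ℝ} (ha : 0 ≤ a) (hy : 0 ≤ y) : 0 ≤ Real.tanh (a * y) := by
  rw [Real.tanh_eq_sinh_div_cosh]
  exact div_nonneg (Real.sinh_nonneg_iff.2 (mul_nonneg ha hy)) (Real.cosh_pos _).le

theorem sp3_tanh_cont : Continuous Real.tanh := by
  have : Real.tanh = fun x => Real.sinh x / Real.cosh x := funext Real.tanh_eq_sinh_div_cosh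
  rw [this]
  exact Real.continuous_sinh.div Real.continuous_cosh fun x => (Real.cosh_pos x).ne'

theorem sp3_tanh_mono {x y : ℝ} (h : x ≤ y) : Real.tanh x ≤ Real.tanh y := by
  rw [Real.tanh_eq_sinh_div_cosh, Real.tanh_eq_sinh_div_cosh,
    div_le_div_iff₀ (Real.cosh_pos _) (Real.cosh_pos _)]
  have h1 : Real.sinh (y - x) = Real.sinh y * Real.cosh x - Real.cosh y * Real.sinh x :=
    Real.sinh_sub y x
  have h2 : 0 ≤ Real.sinh (y - x) := Real.sinh_nonneg_iff.2 (by linarith)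
  linarith only [h1, h2]

theorem sp3_abs_tanh (x : ℝ) : |Real.tanh x| ≤ 1 := by
  rw [Real.tanh_eq_sinh_div_cosh, abs_div, abs_of_pos (Real.cosh_pos x),
    div_le_one (Real.cosh_pos x)]
  have h1 := Real.cosh_sq x
  refine abs_le_of_sq_le_sq ?_ (Real.cosh_pos x).le
  linarith

theorem tlt_cmp_odd (h : Ec F M D) (h' : Ec F' M' D') (hle : ∀ x, 0 ≤ x → M' x ≤ M x)
    {m : ℝ} (hm : 0 < m) (v : ℝ) {x : ℝ} (hx : 0 ≤ x) :
    tlt m v F' M' x ≤ tlt m v F M x := by
  rcases le_or_gt v 0 with hv | hv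
  · rw [sp3_tlt_triv hv, sp3_tlt_triv hv]
    exact hle x hx
  · have hs : 0 < √v := Real.sqrt_pos.2 hv
    have ha : 0 ≤ x / √v := div_nonneg hx hs.le
    have cM := sp3_contM h
    have cM' := sp3_contM h'
    have ct := sp3_tanh_cont
    have hG : Continuous fun y => M (√v * y) * Real.tanh (x / √v * y) := by fun_prop
    have hG' : Continuous fun y => M' (√v * y) * Real.tanh (x / √v * y) := by fun_prop
    have bG : ∀ y, |M (√v * y) * Real.tanh (x / √v * y)| ≤ 1 := by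
      intro y
      rw [abs_mul]
      exact mul_le_one₀ (sp3_abs_M h _) (abs_nonneg _) (sp3_abs_tanh _)
    have bG' : ∀ y, |M' (√v * y) * Real.tanh (x / √v * y)| ≤ 1 := by
      intro y
      rw [abs_mul]
      exact mul_le_one₀ (sp3_abs_M h' _) (abs_nonneg _) (sp3_abs_tanh _)
    have hev' : Evm fun y => M' (√v * y) * Real.tanh (x / √v * y) := by
      constructor
      · intro y
        simp only [mul_neg, sp3_odd h', Real.tanh_neg, neg_mul, neg_neg]
      · intro y hy y' hy' hyy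
        refine mul_le_mul (sp3_mono h' (mul_le_mul_of_nonneg_left hyy hs.le))
          (sp3_tanh_mono (mul_le_mul_of_nonneg_left hyy ha)) (sp3_tanh_nonneg ha hy)
          (sp3_nonneg h' (mul_nonneg hs.le hy'))
    rw [sp3_tlt_odd h' cM' (sp3_abs_M h') (sp3_odd h') hv,
      sp3_tlt_odd h cM (sp3_abs_M h) (sp3_odd h) hv]
    refine (sp3_ratio (k := fun y => M' (√v * y) * Real.tanh (x / √v * y))
      (W' := sp3_W m (√v) (x / √v) F) (fun y => sp3_W_pos _ _ _ _ _)
      hev' ?_ (sp3_W_int1 h' _ _ _) (sp3_W_int1 h _ _ _)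
      (sp3_W_int h' hG' bG' _ _ _) (sp3_W_int h hG' bG' _ _ _)
      (sp3_W_ipos h' _ _ _) (sp3_W_ipos h _ _ _)).trans ?_
    · simp_rw [sp3_W_ratio2]
      exact sp3_evm_exp h h' hle hm hs.le
    · refine div_le_div_of_nonneg_right ?_ (sp3_W_ipos h _ _ _).le
      refine integral_mono (sp3_W_int h hG' bG' _ _ _) (sp3_W_int h hG bG _ _ _) fun y => ?_
      refine mul_le_mul_of_nonneg_right ?_ (sp3_W_pos _ _ _ _ _).le
      rcases le_total 0 y with hy | hy
      · exact mul_le_mul_of_nonneg_right (hle _ (mul_nonneg hs.le hy)) (sp3_tanh_nonneg ha hy)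
      · have h1 : ∀ G : ℝ → ℝ, (∀ z, G (-z) = -G z) → G (√v * y) * Real.tanh (x / √v * y) =
            G (√v * -y) * Real.tanh (x / √v * -y) := by
          intro G hG
          rw [mul_neg, mul_neg, hG, Real.tanh_neg]
          ring
        rw [h1 M' (sp3_odd h'), h1 M (sp3_odd h)]
        have hy' : 0 ≤ -y := by linarith
        exact mul_le_mul_of_nonneg_right (hle _ (mul_nonneg hs.le hy')) (sp3_tanh_nonneg ha hy')

theorem evm_gauss_mono {g : ℝ → ℝ} (hg : Continuous g) {K : ℝ} (hK : ∀ x, |g x| ≤ K)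
    (hev : Evm g) {v v' : ℝ} (hv : v ≤ v') :
    ∫ z, g (√v * z) ∂(gaussianReal 0 1) ≤ ∫ z, g (√v' * z) ∂(gaussianReal 0 1) := by
  have hint : ∀ s : ℝ, Integrable (fun z => g (s * z)) (gaussianReal 0 1) := by
    intro s
    refine Integrable.of_bound (by fun_prop) K (ae_of_all _ fun z => ?_)
    rw [Real.norm_eq_abs]
    exact hK _
  refine integral_mono (hint _) (hint _) fun z => ?_
  refine sp3_evm_le hev ?_
  rw [abs_mul, abs_mul]
  refine mul_le_mul_of_nonneg_right ?_ (abs_nonneg z)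
  rw [abs_of_nonneg (Real.sqrt_nonneg _), abs_of_nonneg (Real.sqrt_nonneg _)]
  exact Real.sqrt_le_sqrt hv

end Vale.Agent.P157.Par
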