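import Vale.Agent.P157.ParSp1
import Vale.Agent.P157.ParSp2
import Vale.Agent.P157.ParSp3

/-!
Monotonicity of the overlaps of the spin chain.
-/

open MeasureTheory ProbabilityTheory Filter Topology Set

namespace Vale.Agent.P157.Par

/-! ### Elementary facts -/

theorem sp5_deriv_nonneg {w : ℝ → ℝ} {w' x : ℝ} (hw : HasDerivAt w w' x)
    (h : ∀ y, x ≤ y → w x ≤ w y) : 0 ≤ w' := by
  have h1 : Tendsto (slope w x) (𝓝[>] x) (𝓝 w') := by
    have h2 := hw.hasDerivWithinAt (s := Ioi x)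
    rw [hasDerivWithinAt_iff_tendsto_slope'] at h2
    · exact h2
    · exact self_notMem_Ioi
  refine ge_of_tendsto h1 ?_
  filter_upwards [self_mem_nhdsWithin] with y hy
  have hy' : x < y := hy
  rw [slope_def_field]
  exact div_nonneg (sub_nonneg.2 (h y hy'.le)) (sub_nonneg.2 hy'.le)

theorem sp5_sq_evm {F M D : ℝ → ℝ} (h : Ec F M D) : Evm (fun x => M x ^ 2) := by
  have h0 : M 0 = 0 := by
    have h1 := h.odd 0
    rw [neg_zero] at h1
    linarith
  refine ⟨fun x => ?_, fun x hx y hy hxy => ?_⟩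
  · show M (-x) ^ 2 = M x ^ 2
    rw [h.odd]; ring
  · show M x ^ 2 ≤ M y ^ 2
    have h1 : 0 ≤ M x := by
      rw [← h0]; exact h.mono hx
    have h2 : M x ≤ M y := h.mono hxy
    exact pow_le_pow_left₀ h1 h2 2

theorem sp5_sq_cont {F M D : ℝ → ℝ} (h : Ec F M D) : Continuous (fun x => M x ^ 2) :=
  h.sm.cont1.pow 2

theorem sp5_sq_bdd {F M D : ℝ → ℝ} (h : Ec F M D) (x : ℝ) : |M x ^ 2| ≤ 1 := by
  have h1 := h.abs_M x
  rw [abs_pow]
  exact pow_le_one₀ (abs_nonneg _) h1

theorem sp5_sq_le {F M D F' M' D' : ℝ → ℝ} (h : Ec F M D) (h' : Ec F' M' D')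
    (hle : ∀ x, 0 ≤ x → M' x ≤ M x) (x : ℝ) : M' x ^ 2 ≤ M x ^ 2 := by
  have key : ∀ y, 0 ≤ y → M' y ^ 2 ≤ M y ^ 2 := by
    intro y hy
    have h0 : M' 0 = 0 := by
      have h1 := h'.odd 0
      rw [neg_zero] at h1
      linarith
    have h1 : 0 ≤ M' y := by
      rw [← h0]; exact h'.mono hy
    exact pow_le_pow_left₀ h1 (hle y hy) 2
  rcases le_total 0 x with hx | hx
  · exact key x hx
  · have h1 := key (-x) (by linarith)
    rw [h.odd, h'.odd, neg_sq, neg_sq] at h1
    exact h1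

/-! ### Two steps -/

theorem sp5_fam_const {F M D : ℝ → ℝ} (h : Ec F M D) (a b : ℝ) :
    Fam a b (fun _ => F) (fun _ => M) (fun _ => D) (fun _ _ => 0) where
  d1 := fun _ _ x => h.d1 x
  d2 := fun _ _ x => h.d2 x
  ds := fun _ _ x => hasDerivAt_const _ _
  c0 := (h.sm.cont.comp continuous_snd).continuousOn
  c1 := (h.sm.cont1.comp continuous_snd).continuousOn
  c2 := (h.cD.comp continuous_snd).continuousOn
  cs := continuousOn_const
  b1 := ⟨1, fun _ _ x => h.abs_M x⟩
  b2 := ⟨1, fun _ _ x => h.sm.bD x⟩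
  bs := ⟨0, fun _ _ x => by simp⟩

theorem two_step_cmp {F M D : ℝ → ℝ} (h : Ec F M D) {m m' : ℝ} (hm : 0 < m) (hmm : m ≤ m')
    (hm' : m' ≤ 1) {v v' s : ℝ} (hv : 0 ≤ v) (hs : 0 ≤ s) (hv' : s ≤ v') {x : ℝ} (hx : 0 ≤ x) :
    tlt m (v + s) (gstep m' (v' - s) F) (tlt m' (v' - s) F M) x ≤
      tlt m v (gstep m' v' F) (tlt m' v' F M) x := by
  have hm'0 : 0 < m' := hm.trans_le hmm
  rcases hs.eq_or_lt with hs0 | hs0
  · rw [← hs0, add_zero, sub_zero]
  have f0 := sp5_fam_const h 0 s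
  have f1 := f0.step (m := m') hm'0 (v₀ := v') (d := -1) (fun t ht => by
    have h1 := ht.2
    linarith)
  have f2 := f1.step (m := m) hm (v₀ := v) (d := 1) (fun t ht => by
    have h1 := ht.1
    linarith)
  -- the derivative in the parameter
  have hus : ∀ t x, tlt m (v + t * 1) (gstep m' (v' + t * -1) F)
      (fun y => tlt m' (v' + t * -1) F (fun y => 0 + -1 / 2 * (D y + m' * M y ^ 2)) y + 1 / 2 *
        ((tlt m' (v' + t * -1) F (fun y => D y + m' * M y ^ 2) y -
        m' * tlt m' (v' + t * -1) F M y ^ 2) + m * tlt m' (v' + t * -1) F M y ^ 2)) x =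
      -(1 / 2) * (m' - m) * tlt m (v + t * 1) (gstep m' (v' + t * -1) F)
        (fun y => tlt m' (v' + t * -1) F M y ^ 2) x := by
    intro t x
    rw [← tlt_const_mul]
    congr 1
    funext y
    have h1 : tlt m' (v' + t * -1) F (fun y => 0 + -1 / 2 * (D y + m' * M y ^ 2)) y =
        -1 / 2 * tlt m' (v' + t * -1) F (fun y => D y + m' * M y ^ 2) y := by
      rw [← tlt_const_mul]
      congr 1
      funext y
      ring
    rw [h1]
    ring
  -- monotonicity of the increments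
  have hinc : ∀ x y, 0 ≤ x → x ≤ y →
      gstep m (v + s * 1) (gstep m' (v' + s * -1) F) y -
        gstep m (v + s * 1) (gstep m' (v' + s * -1) F) x ≤
      gstep m (v + 0 * 1) (gstep m' (v' + 0 * -1) F) y -
        gstep m (v + 0 * 1) (gstep m' (v' + 0 * -1) F) x := by
    intro x y hx hxy
    have hderiv : ∀ t ∈ Ioo 0 s, HasDerivAt
        (fun t => gstep m (v + t * 1) (gstep m' (v' + t * -1) F) y -
          gstep m (v + t * 1) (gstep m' (v' + t * -1) F) x)
        (-(1 / 2) * (m' - m) * tlt m (v + t * 1) (gstep m' (v' + t * -1) F)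
          (fun y => tlt m' (v' + t * -1) F M y ^ 2) y -
          -(1 / 2) * (m' - m) * tlt m (v + t * 1) (gstep m' (v' + t * -1) F)
          (fun y => tlt m' (v' + t * -1) F M y ^ 2) x) t := by
      intro t ht
      rw [← hus, ← hus]
      exact (f2.ds t ht y).sub (f2.ds t ht x)
    have hcont : ContinuousOn (fun t => gstep m (v + t * 1) (gstep m' (v' + t * -1) F) y -
          gstep m (v + t * 1) (gstep m' (v' + t * -1) F) x) (Icc 0 s) := by
      have hc : ∀ z : ℝ, ContinuousOn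
          (fun t => gstep m (v + t * 1) (gstep m' (v' + t * -1) F) z) (Icc 0 s) := by
        intro z
        exact f2.c0.comp (f := fun t : ℝ => (t, z)) (by fun_prop)
          (fun t ht => ⟨ht, mem_univ _⟩)
      exact (hc y).sub (hc x)
    have hanti : AntitoneOn (fun t => gstep m (v + t * 1) (gstep m' (v' + t * -1) F) y -
          gstep m (v + t * 1) (gstep m' (v' + t * -1) F) x) (Icc 0 s) := by
      refine antitoneOn_of_deriv_nonpos (convex_Icc 0 s) hcont ?_ ?_
      · rw [interior_Icc]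
        exact fun t ht => (hderiv t ht).differentiableAt.differentiableWithinAt
      · rw [interior_Icc]
        intro t ht
        rw [(hderiv t ht).deriv]
        have hE := h.step hm'0 hm' (v' + t * -1)
        have hev := hE.tlt_evm (sp5_sq_cont hE) (sp5_sq_bdd hE) (sp5_sq_evm hE) hm (v + t * 1)
        have h1 := hev.2 (mem_Ici.2 hx) (mem_Ici.2 (hx.trans hxy)) hxy
        have h2 : 0 ≤ m' - m := sub_nonneg.2 hmm
        nlinarith
    exact hanti (left_mem_Icc.2 hs0.le) (right_mem_Icc.2 hs0.le) hs0.le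
  have hd0 := f2.d1 0 (left_mem_Icc.2 hs0.le) x
  have hds := f2.d1 s (right_mem_Icc.2 hs0.le) x
  have hfin := sp5_deriv_nonneg (hd0.sub hds) (fun y hy => by
    have h1 := hinc x y hx hy
    simp only [Pi.sub_apply]
    linarith)
  simp only [add_zero, mul_one, mul_neg, ← sub_eq_add_neg, sub_zero] at hfin
  linarith

/-! ### Comparison of two chains -/

theorem sp5_chn_cmp {m r r' : ℕ → ℝ} : ∀ (l : ℕ), (∀ i ≤ l, r' i = r i) →
    (∀ i, 1 ≤ i → i ≤ l → 0 < m i ∧ m i ≤ 1) → ∀ {F M D F' M' D' g g' : ℝ → ℝ} {K K' : ℝ},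
    Ec F M D → Ec F' M' D' → (∀ x, 0 ≤ x → M' x ≤ M x) → Continuous g → (∀ x, |g x| ≤ K) →
    Continuous g' → (∀ x, |g' x| ≤ K') → Evm g → Evm g' → (∀ x, g' x ≤ g x) →
    chn m r' l F' g' ≤ chn m r l F g := by
  intro l
  induction l with
  | zero =>
    intro hr hm F M D F' M' D' g g' K K' hE hE' hle hg hK hg' hK' hev hev' hgg
    rw [chn_zero_def, chn_zero_def, hr 0 le_rfl]
    refine integral_mono ?_ ?_ (fun z => hgg _)
    · exact Integrable.of_bound (hg'.comp (by fun_prop)).aestronglyMeasurable K'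
        (Eventually.of_forall fun z => hK' _)
    · exact Integrable.of_bound (hg.comp (by fun_prop)).aestronglyMeasurable K
        (Eventually.of_forall fun z => hK _)
  | succ l ih =>
    intro hr hm F M D F' M' D' g g' K K' hE hE' hle hg hK hg' hK' hev hev' hgg
    obtain ⟨hm0, hm1⟩ := hm (l + 1) (by omega) le_rfl
    rw [chn_succ_def, chn_succ_def, hr (l + 1) le_rfl, hr l (by omega)]
    exact ih (fun i hi => hr i (by omega)) (fun i h1 h2 => hm i h1 (by omega))
      (hE.step hm0 hm1 _) (hE'.step hm0 hm1 _)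
      (fun x hx => tlt_cmp_odd hE hE' hle hm0 _ hx)
      (hE.sm.tlt_cont hg hK _ _) (fun x => hE.sm.abs_tlt_le hg hK _ _ x)
      (hE'.sm.tlt_cont hg' hK' _ _) (fun x => hE'.sm.abs_tlt_le hg' hK' _ _ x)
      (hE.tlt_evm hg hK hev hm0 _) (hE'.tlt_evm hg' hK' hev' hm0 _)
      (fun x => tlt_cmp hE hE' hle hg hK hg' hK' hev.1 hev' hgg hm0 _ x)

theorem sp5_Rc_cmp {m r r' : ℕ → ℝ} {i : ℕ} : ∀ (l : ℕ), i ≤ l → (∀ i ≤ l, r' i = r i) →
    (∀ i, 1 ≤ i → i ≤ l → 0 < m i ∧ m i ≤ 1) → ∀ {F M D F' M' D' : ℝ → ℝ},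
    Ec F M D → Ec F' M' D' → (∀ x, 0 ≤ x → M' x ≤ M x) →
    Rc m r' l F' M' i ≤ Rc m r l F M i := by
  intro l
  induction l with
  | zero =>
    intro hi hr hm F M D F' M' D' hE hE' hle
    rw [Rc_zero_def, Rc_zero_def]
    exact sp5_chn_cmp 0 hr hm hE hE' hle (sp5_sq_cont hE) (sp5_sq_bdd hE) (sp5_sq_cont hE')
      (sp5_sq_bdd hE') (sp5_sq_evm hE) (sp5_sq_evm hE') (sp5_sq_le hE hE' hle)
  | succ l ih =>
    intro hi hr hm F M D F' M' D' hE hE' hle
    obtain ⟨hm0, hm1⟩ := hm (l + 1) (by omega) le_rfl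
    rcases Nat.lt_or_ge i (l + 1) with h | h
    · rw [Rc_succ_le m r l F M (by omega), Rc_succ_le m r' l F' M' (by omega),
        hr (l + 1) le_rfl, hr l (by omega)]
      exact ih (by omega) (fun i hi => hr i (by omega)) (fun i h1 h2 => hm i h1 (by omega))
        (hE.step hm0 hm1 _) (hE'.step hm0 hm1 _)
        (fun x hx => tlt_cmp_odd hE hE' hle hm0 _ hx)
    · obtain rfl : i = l + 1 := le_antisymm hi h
      rw [Rc_succ_self, Rc_succ_self]
      exact sp5_chn_cmp (l + 1) hr hm hE hE' hle (sp5_sq_cont hE) (sp5_sq_bdd hE)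
        (sp5_sq_cont hE') (sp5_sq_bdd hE') (sp5_sq_evm hE) (sp5_sq_evm hE')
        (sp5_sq_le hE hE' hle)

/-! ### The exponents -/

theorem sp5_exp_pos {k : ℕ} {m : ℕ → ℝ} (hm : Exponents k m) : ∀ i, 1 ≤ i → i ≤ k + 1 → 0 < m i := by
  intro i hi
  induction i, hi using Nat.le_induction with
  | base =>
    intro _
    have h1 := hm.2.2 0 (Nat.zero_le _)
    rw [hm.1] at h1
    exact h1
  | succ n hn ih =>
    intro h
    exact (ih (by omega)).trans (hm.2.2 n (by omega))

theorem sp5_exp_le {k : ℕ} {m : ℕ → ℝ} (hm : Exponents k m) : ∀ i, i ≤ k + 1 → m i ≤ 1 := by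
  intro i hi
  induction hi using Nat.decreasingInduction with
  | self => exact hm.2.1.le
  | of_succ n hn ih => exact (hm.2.2 n (by omega)).le.trans ih

/-! ### The overlaps decrease -/

theorem sp5_Rc_anti {m r : ℕ → ℝ} {i j : ℕ} (hij : i < j) {s : ℝ} (hs : 0 ≤ s) :
    ∀ (l : ℕ), j < l → (∀ i < l, r i < r (i + 1)) →
    (∀ i < l, Function.update r j (r j + s) i < Function.update r j (r j + s) (i + 1)) →
    (∀ i, 1 ≤ i → i ≤ l → 0 < m i ∧ m i ≤ 1) → (m j ≤ m (j + 1)) →
    ∀ {F M D : ℝ → ℝ}, Ec F M D →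
    Rc m (Function.update r j (r j + s)) l F M i ≤ Rc m r l F M i := by
  intro l
  induction l with
  | zero => intro h; omega
  | succ l ih =>
    intro hjl hr hr' hm hmj F M D hE
    obtain ⟨hm0, hm1⟩ := hm (l + 1) (by omega) le_rfl
    rcases Nat.lt_or_ge j l with h | h
    · rw [Rc_succ_le m r l F M (by omega), Rc_succ_le m _ l F M (by omega),
        Function.update_of_ne (by omega), Function.update_of_ne (by omega)]
      exact ih h (fun i hi => hr i (by omega)) (fun i hi => hr' i (by omega))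
        (fun i h1 h2 => hm i h1 (by omega)) hmj (hE.step hm0 hm1 _)
    · obtain rfl : j = l := by omega
      obtain ⟨j, rfl⟩ : ∃ j', j = j' + 1 := ⟨j - 1, by omega⟩
      rw [Rc_succ_le m r (j + 1) F M (by omega), Rc_succ_le m _ (j + 1) F M (by omega),
        Rc_succ_le m r j _ _ (by omega), Rc_succ_le m _ j _ _ (by omega),
        Function.update_self, Function.update_of_ne (by omega), Function.update_of_ne (by omega)]
      obtain ⟨hn0, hn1⟩ := hm (j + 1) (by omega) (by omega)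
      have hr1 := hr j (by omega)
      have hr2 := hr' (j + 1) (by omega)
      rw [Function.update_self, Function.update_of_ne (by omega)] at hr2
      have e1 : r (j + 1 + 1) - (r (j + 1) + s) = (r (j + 1 + 1) - r (j + 1)) - s := by ring
      have e2 : r (j + 1) + s - r j = (r (j + 1) - r j) + s := by ring
      rw [e1, e2]
      refine sp5_Rc_cmp j (by omega) (fun i hi => Function.update_of_ne (by omega) _ _)
        (fun i h1 h2 => hm i h1 (by omega)) ((hE.step hm0 hm1 _).step hn0 hn1 _)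
        ((hE.step hm0 hm1 _).step hn0 hn1 _) (fun x hx => ?_)
      exact two_step_cmp hE hn0 hmj hm1 (by linarith) hs (by linarith) hx

/-- Adding a constant to the log-weight does not change the tilted chain. -/
theorem sp5_tlt_add_const (m v c : ℝ) (F h : ℝ → ℝ) (x : ℝ) :
    tlt m v (fun y => F y + c) h x = tlt m v F h x := by
  have h1 : ∀ y : ℝ, Real.exp (m * (F y + c)) = Real.exp (m * c) * Real.exp (m * F y) := by
    intro y
    rw [← Real.exp_add]
    ring_nf
  simp only [tlt]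
  have h2 : (fun z => h (x + √v * z) * Real.exp (m * (F (x + √v * z) + c))) =
      fun z => Real.exp (m * c) * (h (x + √v * z) * Real.exp (m * F (x + √v * z))) := by
    funext z
    rw [h1]; ring
  have h3 : (fun z => Real.exp (m * (F (x + √v * z) + c))) =
      fun z => Real.exp (m * c) * Real.exp (m * F (x + √v * z)) := by
    funext z
    rw [h1]
  rw [h2, h3, integral_const_mul, integral_const_mul,
    mul_div_mul_left _ _ (Real.exp_pos _).ne']

theorem sp5_tlt_one_logcosh {s : ℝ} (hs : 0 ≤ s) (x : ℝ) :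
    tlt 1 s (fun x => Real.log (Real.cosh x)) Real.tanh x = Real.tanh x := by
  have h1 := (ec_logcosh.step one_pos le_rfl s).d1 x
  have h2 : gstep 1 s (fun x => Real.log (Real.cosh x)) =
      fun x => Real.log (Real.cosh x) + s / 2 := by
    funext x
    exact gstep_one_logcosh hs x
  rw [h2] at h1
  exact h1.unique ((ec_logcosh.d1 x).add_const _)

theorem sp5_one_step_cmp {m : ℝ} (hm : 0 < m) (hm1 : m ≤ 1) {v s : ℝ} (hv : 0 ≤ v) (hs : 0 ≤ s)
    {x : ℝ} (hx : 0 ≤ x) :
    tlt m (v + s) (fun x => Real.log (Real.cosh x)) Real.tanh x ≤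
      tlt m v (fun x => Real.log (Real.cosh x)) Real.tanh x := by
  have h1 := two_step_cmp ec_logcosh hm hm1 le_rfl hv hs (le_refl s) hx
  have e1 : ∀ t, 0 ≤ t → gstep 1 t (fun x => Real.log (Real.cosh x)) =
      fun x => Real.log (Real.cosh x) + t / 2 := by
    intro t ht
    funext x
    exact gstep_one_logcosh ht x
  have e2 : ∀ t, 0 ≤ t → tlt 1 t (fun x => Real.log (Real.cosh x)) Real.tanh = Real.tanh := by
    intro t ht
    funext x
    exact sp5_tlt_one_logcosh ht x
  rw [sub_self, e1 0 le_rfl, e1 s hs, e2 0 le_rfl, e2 s hs, sp5_tlt_add_const,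
    sp5_tlt_add_const] at h1
  exact h1

theorem spR_anti {k : ℕ} {m r : ℕ → ℝ} (hm : Exponents k m) (hr : SPath k r) {i j : ℕ}
    (hij : i < j) (hj : j ≤ k) {s : ℝ} (hs : 0 ≤ s)
    (hr' : SPath k (Function.update r j (r j + s))) :
    spR k m (Function.update r j (r j + s)) i ≤ spR k m r i := by
  have hmm : ∀ i, 1 ≤ i → i ≤ k → 0 < m i ∧ m i ≤ 1 := fun i h1 h2 =>
    ⟨sp5_exp_pos hm i h1 (by omega), sp5_exp_le hm i (by omega)⟩
  unfold spR
  rcases hj.lt_or_eq with h | h
  · exact sp5_Rc_anti hij hs k h hr.2 hr'.2 hmm (hm.2.2 j hj).le ec_logcosh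
  · subst h
    obtain ⟨j, rfl⟩ : ∃ j', j = j' + 1 := ⟨j - 1, by omega⟩
    obtain ⟨hm0, hm1⟩ := hmm (j + 1) (by omega) le_rfl
    have hr1 := hr.2 j (by omega)
    rw [Rc_succ_le m r j _ _ (by omega), Rc_succ_le m _ j _ _ (by omega),
      Function.update_self, Function.update_of_ne (by omega)]
    have e2 : r (j + 1) + s - r j = (r (j + 1) - r j) + s := by ring
    rw [e2]
    exact sp5_Rc_cmp j (by omega) (fun i hi => Function.update_of_ne (by omega) _ _)
      (fun i h1 h2 => hmm i h1 (by omega)) (ec_logcosh.step hm0 hm1 _)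
      (ec_logcosh.step hm0 hm1 _)
      (fun x hx => sp5_one_step_cmp hm0 hm1 (by linarith) hs hx)

/-! ### The overlaps increase along the diagonal -/

theorem sp5_chn_diag {m r : ℕ → ℝ} {c : ℝ} (hc : 0 ≤ c) : ∀ (l : ℕ),
    (∀ i, 1 ≤ i → i ≤ l → 0 < m i ∧ m i ≤ 1) → ∀ {F M D g : ℝ → ℝ} {K : ℝ},
    Ec F M D → Continuous g → (∀ x, |g x| ≤ K) → Evm g →
    chn m r l F g ≤ chn m (fun l => r l + c) l F g := by
  intro l
  induction l with
  | zero =>
    intro hm F M D g K hE hg hK hev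
    rw [chn_zero_def, chn_zero_def]
    exact evm_gauss_mono hg hK hev (by linarith)
  | succ l ih =>
    intro hm F M D g K hE hg hK hev
    obtain ⟨hm0, hm1⟩ := hm (l + 1) (by omega) le_rfl
    rw [chn_succ_def, chn_succ_def]
    have e : r (l + 1) + c - (r l + c) = r (l + 1) - r l := by ring
    simp only [e]
    exact ih (fun i h1 h2 => hm i h1 (by omega)) (hE.step hm0 hm1 _)
      (hE.sm.tlt_cont hg hK _ _) (fun x => hE.sm.abs_tlt_le hg hK _ _ x)
      (hE.tlt_evm hg hK hev hm0 _)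

theorem sp5_Rc_diag {m r : ℕ → ℝ} {c : ℝ} (hc : 0 ≤ c) {j : ℕ} : ∀ (l : ℕ), j ≤ l →
    (∀ i, 1 ≤ i → i ≤ l → 0 < m i ∧ m i ≤ 1) → ∀ {F M D : ℝ → ℝ}, Ec F M D →
    Rc m r l F M j ≤ Rc m (fun l => r l + c) l F M j := by
  intro l
  induction l with
  | zero =>
    intro hj hm F M D hE
    rw [Rc_zero_def, Rc_zero_def]
    exact sp5_chn_diag hc 0 hm hE (sp5_sq_cont hE) (sp5_sq_bdd hE) (sp5_sq_evm hE)
  | succ l ih =>
    intro hj hm F M D hE
    obtain ⟨hm0, hm1⟩ := hm (l + 1) (by omega) le_rfl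
    rcases Nat.lt_or_ge j (l + 1) with h | h
    · rw [Rc_succ_le m r l F M (by omega), Rc_succ_le m _ l F M (by omega)]
      have e : r (l + 1) + c - (r l + c) = r (l + 1) - r l := by ring
      simp only [e]
      exact ih (by omega) (fun i h1 h2 => hm i h1 (by omega)) (hE.step hm0 hm1 _)
    · obtain rfl : j = l + 1 := le_antisymm hj h
      rw [Rc_succ_self, Rc_succ_self]
      exact sp5_chn_diag hc (l + 1) hm hE (sp5_sq_cont hE) (sp5_sq_bdd hE) (sp5_sq_evm hE)

theorem spR_diag {k : ℕ} {m r : ℕ → ℝ} (hm : Exponents k m) (hr : SPath k r) {c : ℝ}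
    (hc : 0 ≤ c) {j : ℕ} (hj : j ≤ k) :
    spR k m r j ≤ spR k m (fun l => r l + c) j := by
  unfold spR
  exact sp5_Rc_diag hc k hj (fun i h1 h2 =>
    ⟨sp5_exp_pos hm i h1 (by omega), sp5_exp_le hm i (by omega)⟩) ec_logcosh

end Vale.Agent.P157.Par
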