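import Vale.Agent.P157.ParSpDefs

/-!
The tangent inequality for functions on the cone of strictly increasing paths whose gradient is
nonincreasing in the other coordinates and nondecreasing along the diagonal.
-/

open Set Filter Topology

namespace Vale.Agent.P157.Par

/-- The hypotheses of `lnat_tangent`. -/
structure Sp6H (k : ℕ) (w : ℕ → ℝ) (G : (ℕ → ℝ) → ℝ) (R : (ℕ → ℝ) → ℕ → ℝ) : Prop where
  hw : ∀ l ≤ k, 0 < w l
  hder : ∀ (r η : ℕ → ℝ) (a : ℝ), 0 < a →
      (∀ s ∈ Set.Ico 0 a, SPath k (fun l => r l + s * η l)) → Path k (fun l => r l + a * η l) →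
      ContinuousOn (fun s => G (fun l => r l + s * η l)) (Set.Icc 0 a) ∧
      (∀ s ∈ Set.Ioo 0 a, HasDerivAt (fun s => G (fun l => r l + s * η l))
        (-(1 / 2) * ∑ l ∈ Finset.range (k + 1), w l * η l *
          R (fun l => r l + s * η l) l) s) ∧
      ∀ j ≤ k, ContinuousOn (fun s => R (fun l => r l + s * η l) j) (Set.Icc 0 a)
  hanti : ∀ (r : ℕ → ℝ) (i j : ℕ) (s : ℝ), SPath k r → i < j → j ≤ k → 0 ≤ s →
      SPath k (Function.update r j (r j + s)) → R (Function.update r j (r j + s)) i ≤ R r i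
  hdiag : ∀ (r : ℕ → ℝ) (c : ℝ) (j : ℕ), SPath k r → 0 ≤ c → j ≤ k →
      R r j ≤ R (fun l => r l + c) j

variable {k : ℕ} {w : ℕ → ℝ} {G : (ℕ → ℝ) → ℝ} {R : (ℕ → ℝ) → ℕ → ℝ}

theorem sp6_lt {r : ℕ → ℝ} (h : SPath k r) {i j : ℕ} (hij : i < j) (hj : j ≤ k) : r i < r j := by
  induction j with
  | zero => exact absurd hij (Nat.not_lt_zero i)
  | succ j ih =>
    rcases Nat.lt_succ_iff_lt_or_eq.1 hij with h1 | h1
    · exact (ih h1 (Nat.le_of_succ_le hj)).trans (h.2 j hj)
    · rw [h1]; exact h.2 j hj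

theorem sp6_path {r : ℕ → ℝ} (h : SPath k r) : Path k r :=
  ⟨h.1.le, fun l hl => (h.2 l hl).le⟩

theorem sp6_congr {r r' : ℕ → ℝ} (h : SPath k r) (he : ∀ l ≤ k, r l = r' l) : SPath k r' := by
  refine ⟨?_, fun l hl => ?_⟩
  · rw [← he 0 (Nat.zero_le k)]; exact h.1
  · rw [← he l hl.le, ← he (l + 1) hl]; exact h.2 l hl

theorem sp6_conv {r r' : ℕ → ℝ} (h : SPath k r) (h' : Path k r') {s : ℝ} (hs : 0 ≤ s)
    (hs1 : s < 1) : SPath k (fun l => r l + s * (r' l - r l)) := by
  refine ⟨?_, fun l hl => ?_⟩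
  · have h1 := h.1
    have h2 := h'.1
    have h3 : 0 < (1 - s) * r 0 := mul_pos (by linarith) h1
    have h4 : 0 ≤ s * r' 0 := mul_nonneg hs h2
    change 0 < r 0 + s * (r' 0 - r 0)
    nlinarith
  · have h1 := h.2 l hl
    have h2 := h'.2 l hl
    have h3 : 0 < (1 - s) * (r (l + 1) - r l) := mul_pos (by linarith) (by linarith)
    have h4 : 0 ≤ s * (r' (l + 1) - r' l) := mul_nonneg hs (by linarith)
    change r l + s * (r' l - r l) < r (l + 1) + s * (r' (l + 1) - r (l + 1))
    nlinarith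

theorem sp6_line {r r' : ℕ → ℝ} (h : SPath k r) (h' : SPath k r') {s : ℝ} (hs : 0 ≤ s)
    (hs1 : s ≤ 1) : SPath k (fun l => r l + s * (r' l - r l)) := by
  rcases hs1.lt_or_eq with h1 | h1
  · exact sp6_conv h (sp6_path h') hs h1
  · refine sp6_congr h' (fun l _ => ?_)
    rw [h1]; ring

theorem sp6_small {x : ℕ → ℝ} (hx : SPath k x) (η : ℕ → ℝ) :
    ∃ a : ℝ, 0 < a ∧ ∀ s ∈ Icc 0 a, SPath k (fun l => x l + s * η l) := by
  have h1 : ∀ᶠ s in 𝓝 (0 : ℝ), 0 < x 0 + s * η 0 := by
    have hc : Continuous (fun s : ℝ => x 0 + s * η 0) := by fun_prop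
    have := hc.tendsto 0
    refine this.eventually (lt_mem_nhds ?_)
    have := hx.1
    linarith
  have h2 : ∀ᶠ s in 𝓝 (0 : ℝ), ∀ l ∈ Finset.range k, x l + s * η l < x (l + 1) + s * η (l + 1) := by
    refine (Filter.eventually_all_finset (Finset.range k)).2 (fun l hl => ?_)
    have hc : Continuous (fun s : ℝ => x (l + 1) + s * η (l + 1) - (x l + s * η l)) := by fun_prop
    have := hc.tendsto 0
    have h3 : ∀ᶠ s in 𝓝 (0 : ℝ), 0 < x (l + 1) + s * η (l + 1) - (x l + s * η l) := by
      refine this.eventually (lt_mem_nhds ?_)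
      have := hx.2 l (Finset.mem_range.1 hl)
      linarith
    filter_upwards [h3] with s hs
    linarith
  obtain ⟨ε, hε, hb⟩ := Metric.eventually_nhds_iff.1 (h1.and h2)
  refine ⟨ε / 2, by linarith, fun s hs => ?_⟩
  have h3 : dist s 0 < ε := by
    rw [Real.dist_eq, sub_zero, abs_of_nonneg hs.1]
    have := hs.2
    linarith
  have h4 := hb h3
  exact ⟨h4.1, fun l hl => h4.2 l (Finset.mem_range.2 hl)⟩

/-- The function whose monotonicity along the path is used. -/
noncomputable def sp6F (k : ℕ) (w : ℕ → ℝ) (G : (ℕ → ℝ) → ℝ) (ρ x : ℕ → ℝ) : ℝ :=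
  -2 * G x - ∑ l ∈ Finset.range (k + 1), w l * ρ l * x l

theorem sp6_seg (H : Sp6H k w G R) {x η : ℕ → ℝ} {c : ℝ} (hc : 0 < c)
    (hs : ∀ s ∈ Icc 0 c, SPath k (fun l => x l + s * η l)) (ρ : ℕ → ℝ)
    (hpos : ∀ s ∈ Ioo 0 c, ∀ l ≤ k, 0 ≤ η l * (R (fun l => x l + s * η l) l - ρ l)) :
    sp6F k w G ρ x ≤ sp6F k w G ρ (fun l => x l + c * η l) := by
  obtain ⟨h1, h2, -⟩ := H.hder x η c hc (fun s h => hs s ⟨h.1, h.2.le⟩)
    (sp6_path (hs c ⟨hc.le, le_refl c⟩))
  have hcont : ContinuousOn (fun s => sp6F k w G ρ (fun l => x l + s * η l)) (Icc 0 c) := by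
    have h3 : Continuous (fun s : ℝ => ∑ l ∈ Finset.range (k + 1), w l * ρ l * (x l + s * η l)) := by
      fun_prop
    exact (h1.const_mul (-2)).sub h3.continuousOn
  have hd : ∀ s ∈ Ioo 0 c, HasDerivAt (fun s => sp6F k w G ρ (fun l => x l + s * η l))
      (∑ l ∈ Finset.range (k + 1), w l * (η l * (R (fun l => x l + s * η l) l - ρ l))) s := by
    intro s h
    have h3 := (h2 s h).const_mul (-2)
    have h4 : HasDerivAt (fun s : ℝ => ∑ l ∈ Finset.range (k + 1), w l * ρ l * (x l + s * η l))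
        (∑ l ∈ Finset.range (k + 1), w l * ρ l * η l) s := by
      refine HasDerivAt.fun_sum (fun l _ => ?_)
      have h5 : HasDerivAt (fun s : ℝ => x l + s * η l) (η l) s := by
        have := ((hasDerivAt_id s).mul_const (η l)).const_add (x l)
        simpa using this
      exact h5.const_mul (w l * ρ l)
    have h6 := h3.sub h4
    have h7 : -2 * (-(1 / 2) * ∑ l ∈ Finset.range (k + 1), w l * η l *
        R (fun l => x l + s * η l) l) - ∑ l ∈ Finset.range (k + 1), w l * ρ l * η l =
        ∑ l ∈ Finset.range (k + 1), w l * (η l * (R (fun l => x l + s * η l) l - ρ l)) := by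
      rw [← mul_assoc, show (-2 : ℝ) * -(1 / 2) = 1 by norm_num, one_mul,
        ← Finset.sum_sub_distrib]
      refine Finset.sum_congr rfl (fun l _ => ?_)
      ring
    rw [← h7]
    exact h6
  have hmono : MonotoneOn (fun s => sp6F k w G ρ (fun l => x l + s * η l)) (Icc 0 c) := by
    refine monotoneOn_of_deriv_nonneg (convex_Icc 0 c) hcont ?_ ?_
    · rw [interior_Icc]
      exact fun s h => (hd s h).differentiableAt.differentiableWithinAt
    · rw [interior_Icc]
      intro s h
      rw [(hd s h).deriv]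
      refine Finset.sum_nonneg (fun l hl => ?_)
      have hl' : l ≤ k := Nat.lt_succ_iff.1 (Finset.mem_range.1 hl)
      exact mul_nonneg (H.hw l hl').le (hpos s h l hl')
  have h8 := hmono ⟨le_refl 0, hc.le⟩ ⟨hc.le, le_refl c⟩ hc.le
  have e2 : (fun l => x l + 0 * η l) = x := by
    funext l; ring
  simp only [e2] at h8
  exact h8

theorem sp6_indepG (H : Sp6H k w G R) {x y : ℕ → ℝ} (hx : SPath k x)
    (he : ∀ l ≤ k, x l = y l) : G x = G y := by
  have key : ∀ x y : ℕ → ℝ, SPath k x → (∀ l ≤ k, x l = y l) → G y ≤ G x := by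
    intro x y hx he
    have h1 := sp6_seg H (x := x) (η := fun l => y l - x l) one_pos (fun s _ =>
      sp6_congr hx (fun l hl => by rw [he l hl]; ring)) (fun _ => 0)
      (fun s _ l hl => by rw [he l hl]; simp)
    have e1 : (fun l => x l + 1 * (y l - x l)) = y := by
      funext l; ring
    rw [e1] at h1
    unfold sp6F at h1
    simp only [mul_zero, zero_mul, Finset.sum_const_zero, sub_zero] at h1
    linarith
  exact le_antisymm (key y x (sp6_congr hx he) (fun l hl => (he l hl).symm)) (key x y hx he)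

/-- The one-sided derivative along a direction. -/
theorem sp6_right (H : Sp6H k w G R) {x η : ℕ → ℝ} {a : ℝ} (ha : 0 < a)
    (hs : ∀ s ∈ Icc 0 a, SPath k (fun l => x l + s * η l)) :
    HasDerivWithinAt (fun s => G (fun l => x l + s * η l))
      (-(1 / 2) * ∑ l ∈ Finset.range (k + 1), w l * η l * R x l) (Ici 0) 0 := by
  obtain ⟨h1, h2, h3⟩ := H.hder x η a ha (fun s h => hs s ⟨h.1, h.2.le⟩)
    (sp6_path (hs a ⟨ha.le, le_refl a⟩))
  refine hasDerivWithinAt_Ici_of_tendsto_deriv (s := Ioo 0 a) ?_ ?_ (Ioo_mem_nhdsGT ha) ?_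
  · exact fun s h => (h2 s h).differentiableAt.differentiableWithinAt
  · exact (h1 0 ⟨le_refl 0, ha.le⟩).mono Ioo_subset_Icc_self
  · have h4 : Tendsto (fun s => -(1 / 2) * ∑ l ∈ Finset.range (k + 1), w l * η l *
          R (fun l => x l + s * η l) l) (𝓝[>] 0)
        (𝓝 (-(1 / 2) * ∑ l ∈ Finset.range (k + 1), w l * η l * R x l)) := by
      refine Tendsto.const_mul _ (tendsto_finsetSum _ (fun l hl => ?_))
      have hl' : l ≤ k := Nat.lt_succ_iff.1 (Finset.mem_range.1 hl)
      refine Tendsto.const_mul _ ?_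
      have h5 := (h3 l hl') 0 ⟨le_refl 0, ha.le⟩
      have h6 : Tendsto (fun s => R (fun l => x l + s * η l) l) (𝓝[Ioo 0 a] 0)
          (𝓝 (R (fun l => x l + 0 * η l) l)) := h5.mono Ioo_subset_Icc_self
      have e2 : (fun l => x l + 0 * η l) = x := by
        funext l; ring
      rw [e2, nhdsWithin_Ioo_eq_nhdsGT ha] at h6
      exact h6
    refine h4.congr' ?_
    filter_upwards [Ioo_mem_nhdsGT ha] with s h
    exact ((h2 s h).deriv).symm

theorem sp6_single_sum (i : ℕ) (hi : i ≤ k) (ρ : ℕ → ℝ) :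
    ∑ l ∈ Finset.range (k + 1), w l * (Pi.single i (1 : ℝ) : ℕ → ℝ) l * ρ l = w i * ρ i := by
  rw [Finset.sum_eq_single i]
  · rw [Pi.single_eq_same, mul_one]
  · intro l _ hl
    rw [Pi.single_eq_of_ne hl, mul_zero, zero_mul]
  · intro h
    exact absurd (Finset.mem_range.2 (Nat.lt_succ_of_le hi)) h

/-- Comparison of the components of the gradient from the comparison of small increments. -/
theorem sp6_cmp (H : Sp6H k w G R) {x y : ℕ → ℝ} (hx : SPath k x) (hy : SPath k y) {i : ℕ}
    (hi : i ≤ k) {a : ℝ} (ha : 0 < a)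
    (h : ∀ s ∈ Ioo 0 a, G (fun l => x l + s * (Pi.single i (1 : ℝ) : ℕ → ℝ) l) - G x ≤
      G (fun l => y l + s * (Pi.single i (1 : ℝ) : ℕ → ℝ) l) - G y) : R y i ≤ R x i := by
  obtain ⟨a1, ha1, hs1⟩ := sp6_small hx (Pi.single i (1 : ℝ))
  obtain ⟨a2, ha2, hs2⟩ := sp6_small hy (Pi.single i (1 : ℝ))
  have h1 := sp6_right H ha1 hs1
  have h2 := sp6_right H ha2 hs2
  rw [sp6_single_sum i hi] at h1 h2
  have h0 : (0 : ℝ) ∉ Ioi (0 : ℝ) := fun h => lt_irrefl (0 : ℝ) (mem_Ioi.1 h)
  have g1 := (hasDerivWithinAt_iff_tendsto_slope' h0).1 (h1.mono Ioi_subset_Ici_self)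
  have g2 := (hasDerivWithinAt_iff_tendsto_slope' h0).1 (h2.mono Ioi_subset_Ici_self)
  have h3 : -(1 / 2) * (w i * R x i) ≤ -(1 / 2) * (w i * R y i) := by
    refine le_of_tendsto_of_tendsto g1 g2 ?_
    filter_upwards [Ioo_mem_nhdsGT ha] with s hs
    have e1 : (fun l => x l + 0 * (Pi.single i (1 : ℝ) : ℕ → ℝ) l) = x := by
      funext l; ring
    have e2 : (fun l => y l + 0 * (Pi.single i (1 : ℝ) : ℕ → ℝ) l) = y := by
      funext l; ring
    rw [slope_def_field, slope_def_field, e1, e2, sub_zero]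
    exact div_le_div_of_nonneg_right (h s hs) hs.1.le
  have h4 := H.hw i hi
  have h5 : w i * R y i ≤ w i * R x i := by linarith
  exact le_of_mul_le_mul_left h5 h4

theorem sp6_indepR (H : Sp6H k w G R) {x y : ℕ → ℝ} (hx : SPath k x)
    (he : ∀ l ≤ k, x l = y l) {i : ℕ} (hi : i ≤ k) : R x i = R y i := by
  have hy : SPath k y := sp6_congr hx he
  have key : ∀ x y : ℕ → ℝ, SPath k x → SPath k y → (∀ l ≤ k, x l = y l) → R y i ≤ R x i := by
    intro x y hx hy he
    obtain ⟨a1, ha1, hs1⟩ := sp6_small hx (Pi.single i (1 : ℝ))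
    refine sp6_cmp H hx hy hi ha1 (fun s hs => ?_)
    rw [sp6_indepG H hx he, sp6_indepG H (hs1 s ⟨hs.1.le, hs.2.le⟩)
      (y := fun l => y l + s * (Pi.single i (1 : ℝ) : ℕ → ℝ) l)
      (fun l hl => by rw [he l hl])]
  exact le_antisymm (key y x hy hx (fun l hl => (he l hl).symm)) (key x y hx hy he)

/-- The components of the gradient are nonincreasing in the other coordinates. -/
theorem sp6_anti (H : Sp6H k w G R) {r : ℕ → ℝ} {i j : ℕ} {s : ℝ} (hr : SPath k r) (hij : i ≠ j)
    (hi : i ≤ k) (hj : j ≤ k) (hs : 0 ≤ s) (hy : SPath k (Function.update r j (r j + s))) :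
    R (Function.update r j (r j + s)) i ≤ R r i := by
  rcases lt_or_gt_of_ne hij with h1 | h1
  · exact H.hanti r i j s hr h1 hj hs hy
  set y := Function.update r j (r j + s) with hydef
  obtain ⟨a1, ha1, hs1⟩ := sp6_small hr (Pi.single i (1 : ℝ))
  obtain ⟨a2, ha2, hs2⟩ := sp6_small hy (Pi.single i (1 : ℝ))
  refine sp6_cmp H hr hy hi (lt_min ha1 ha2) (fun h hh => ?_)
  have b1 : SPath k (fun l => r l + h * (Pi.single i (1 : ℝ) : ℕ → ℝ) l) :=
    hs1 h ⟨hh.1.le, hh.2.le.trans (min_le_left _ _)⟩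
  have b2 : SPath k (fun l => y l + h * (Pi.single i (1 : ℝ) : ℕ → ℝ) l) :=
    hs2 h ⟨hh.1.le, hh.2.le.trans (min_le_right _ _)⟩
  have l1 : ∀ u ∈ Icc (0 : ℝ) 1, SPath k (fun l => r l + u * (s * (Pi.single j (1 : ℝ) : ℕ → ℝ) l)) := by
    intro u hu
    refine sp6_congr (sp6_line hr hy hu.1 hu.2) (fun l _ => ?_)
    by_cases hl : l = j
    · rw [hydef, hl, Function.update_self, Pi.single_eq_same]; ring
    · rw [hydef, Function.update_of_ne hl, Pi.single_eq_of_ne hl]; ring
  have l2 : ∀ u ∈ Icc (0 : ℝ) 1, SPath k (fun l => (r l + h * (Pi.single i (1 : ℝ) : ℕ → ℝ) l) +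
      u * (s * (Pi.single j (1 : ℝ) : ℕ → ℝ) l)) := by
    intro u hu
    refine sp6_congr (sp6_line b1 b2 hu.1 hu.2) (fun l _ => ?_)
    by_cases hl : l = j
    · rw [hydef, hl, Function.update_self, Pi.single_eq_same]; ring
    · rw [hydef, Function.update_of_ne hl, Pi.single_eq_of_ne hl]; ring
  obtain ⟨c1, d1, -⟩ := H.hder r (fun l => s * (Pi.single j (1 : ℝ) : ℕ → ℝ) l) 1 one_pos
    (fun u hu => l1 u ⟨hu.1, hu.2.le⟩) (sp6_path (l1 1 ⟨zero_le_one, le_refl 1⟩))
  obtain ⟨c2, d2, -⟩ := H.hder (fun l => r l + h * (Pi.single i (1 : ℝ) : ℕ → ℝ) l)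
    (fun l => s * (Pi.single j (1 : ℝ) : ℕ → ℝ) l) 1 one_pos
    (fun u hu => l2 u ⟨hu.1, hu.2.le⟩) (sp6_path (l2 1 ⟨zero_le_one, le_refl 1⟩))
  have sumj : ∀ ρ : ℕ → ℝ, ∑ l ∈ Finset.range (k + 1),
      w l * (s * (Pi.single j (1 : ℝ) : ℕ → ℝ) l) * ρ l = s * (w j * ρ j) := by
    intro ρ
    rw [← sp6_single_sum j hj ρ, Finset.mul_sum]
    refine Finset.sum_congr rfl (fun l _ => ?_)
    ring
  have hmono : MonotoneOn (fun u => G (fun l => (r l + h * (Pi.single i (1 : ℝ) : ℕ → ℝ) l) +
      u * (s * (Pi.single j (1 : ℝ) : ℕ → ℝ) l)) -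
      G (fun l => r l + u * (s * (Pi.single j (1 : ℝ) : ℕ → ℝ) l))) (Icc 0 1) := by
    refine monotoneOn_of_deriv_nonneg (convex_Icc 0 1) (c2.sub c1) ?_ ?_
    · rw [interior_Icc]
      exact fun u hu => ((d2 u hu).sub (d1 u hu)).differentiableAt.differentiableWithinAt
    · rw [interior_Icc]
      intro u hu
      have h2 := ((d2 u hu).sub (d1 u hu)).deriv
      rw [sumj, sumj] at h2
      refine h2.ge.trans' ?_
      have p1 := l1 u ⟨hu.1.le, hu.2.le⟩
      have p2 := l2 u ⟨hu.1.le, hu.2.le⟩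
      have e3 : (fun l => (r l + h * (Pi.single i (1 : ℝ) : ℕ → ℝ) l) +
          u * (s * (Pi.single j (1 : ℝ) : ℕ → ℝ) l)) =
          Function.update (fun l => r l + u * (s * (Pi.single j (1 : ℝ) : ℕ → ℝ) l)) i
            ((fun l => r l + u * (s * (Pi.single j (1 : ℝ) : ℕ → ℝ) l)) i + h) := by
        funext l
        by_cases hl : l = i
        · rw [hl, Function.update_self, Pi.single_eq_same]; ring
        · rw [Function.update_of_ne hl, Pi.single_eq_of_ne hl]; ring
      rw [e3] at p2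
      have h3 := H.hanti _ j i h p1 h1 hi hh.1.le p2
      rw [← e3] at h3
      have h4 : 0 ≤ s * w j := mul_nonneg hs (H.hw j hj).le
      have h5 := mul_le_mul_of_nonneg_left h3 h4
      linarith
  have h6 := hmono ⟨le_refl 0, zero_le_one⟩ ⟨zero_le_one, le_refl 1⟩ zero_le_one
  have e4 : (fun l => (r l + h * (Pi.single i (1 : ℝ) : ℕ → ℝ) l) +
      0 * (s * (Pi.single j (1 : ℝ) : ℕ → ℝ) l)) =
      (fun l => (r l + h * (Pi.single i (1 : ℝ) : ℕ → ℝ) l)) := by
    funext l; ring
  have e5 : (fun l => r l + 0 * (s * (Pi.single j (1 : ℝ) : ℕ → ℝ) l)) = r := by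
    funext l; ring
  have e6 : (fun l => (r l + h * (Pi.single i (1 : ℝ) : ℕ → ℝ) l) +
      1 * (s * (Pi.single j (1 : ℝ) : ℕ → ℝ) l)) =
      (fun l => (y l + h * (Pi.single i (1 : ℝ) : ℕ → ℝ) l)) := by
    funext l
    by_cases hl : l = j
    · rw [hydef, hl, Function.update_self, Pi.single_eq_same]; ring
    · rw [hydef, Function.update_of_ne hl, Pi.single_eq_of_ne hl]; ring
  have e7 : (fun l => r l + 1 * (s * (Pi.single j (1 : ℝ) : ℕ → ℝ) l)) = y := by
    funext l
    by_cases hl : l = j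
    · rw [hydef, hl, Function.update_self, Pi.single_eq_same]; ring
    · rw [hydef, Function.update_of_ne hl, Pi.single_eq_of_ne hl]; ring
  simp only [e4, e5, e6, e7] at h6
  linarith

/-- Raising other coordinates decreases a component of the gradient. -/
theorem sp6_comp (H : Sp6H k w G R) {x y : ℕ → ℝ} (hx : SPath k x) (hy : SPath k y)
    (hxy : ∀ l ≤ k, x l ≤ y l) {i : ℕ} (hi : i ≤ k) (hxi : x i = y i) : R y i ≤ R x i := by
  have hz : ∀ m, SPath k (fun l => if m ≤ l then y l else x l) := by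
    intro m
    refine ⟨?_, fun l hl => ?_⟩
    · change 0 < if m ≤ 0 then y 0 else x 0
      split_ifs
      · exact hy.1
      · exact hx.1
    · change (if m ≤ l then y l else x l) < if m ≤ l + 1 then y (l + 1) else x (l + 1)
      by_cases h1 : m ≤ l
      · rw [if_pos h1, if_pos (Nat.le_succ_of_le h1)]; exact hy.2 l hl
      · rw [if_neg h1]
        by_cases h2 : m ≤ l + 1
        · rw [if_pos h2]; exact (hx.2 l hl).trans_le (hxy (l + 1) hl)
        · rw [if_neg h2]; exact hx.2 l hl
  have hstep : ∀ m ≤ k, R (fun l => if m ≤ l then y l else x l) i ≤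
      R (fun l => if m + 1 ≤ l then y l else x l) i := by
    intro m hm
    have e1 : (fun l => if m ≤ l then y l else x l) =
        Function.update (fun l => if m + 1 ≤ l then y l else x l) m
          ((fun l => if m + 1 ≤ l then y l else x l) m + (y m - x m)) := by
      funext l
      by_cases hl : l = m
      · rw [hl, Function.update_self]
        simp
      · rw [Function.update_of_ne hl]
        by_cases h2 : m ≤ l
        · have h3 : m + 1 ≤ l := Nat.succ_le_of_lt (lt_of_le_of_ne h2 (Ne.symm hl))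
          rw [if_pos h2, if_pos h3]
        · rw [if_neg h2, if_neg (fun h => h2 (Nat.le_of_succ_le h))]
    by_cases him : i = m
    · have e2 : (fun l => if m ≤ l then y l else x l) =
          (fun l => if m + 1 ≤ l then y l else x l) := by
        rw [e1, ← him, hxi, sub_self, add_zero, Function.update_eq_self]
      rw [e2]
    · have h3 := hz m
      rw [e1] at h3
      rw [e1]
      exact sp6_anti H (hz (m + 1)) him hi hm (sub_nonneg.2 (hxy m hm)) h3
  have hind : ∀ m ≤ k + 1, R (fun l => if 0 ≤ l then y l else x l) i ≤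
      R (fun l => if m ≤ l then y l else x l) i := by
    intro m
    induction m with
    | zero => exact fun _ => le_refl _
    | succ m ih => exact fun hm => (ih (Nat.le_of_succ_le hm)).trans (hstep m (Nat.le_of_succ_le_succ hm))
  have h4 := hind (k + 1) (le_refl _)
  have e0 : (fun l => if 0 ≤ l then y l else x l) = y := by
    funext l; rw [if_pos (Nat.zero_le l)]
  rw [e0, sp6_indepR H (hz (k + 1)) (y := x) (fun l hl => by
    rw [if_neg (fun h => Nat.not_succ_le_self l (le_trans (Nat.succ_le_succ hl) h))]) hi] at h4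
  exact h4

theorem sp6_min {r r' : ℕ → ℝ} (h : SPath k r) (h' : SPath k r') {t : ℝ} (ht : 0 ≤ t) :
    SPath k (fun l => min (r' l) (r l + t)) := by
  refine ⟨lt_min h'.1 (by have := h.1; linarith), fun l hl => ?_⟩
  have h1 := h.2 l hl
  have h2 := h'.2 l hl
  exact lt_min ((min_le_left _ _).trans_lt h2) ((min_le_right _ _).trans_lt (by linarith))

theorem sp6_max {r y : ℕ → ℝ} (h : SPath k r) (h' : SPath k y) {t : ℝ} :
    SPath k (fun l => max (y l) (r l - t)) := by
  refine ⟨lt_max_of_lt_left h'.1, fun l hl => ?_⟩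
  have h1 := h.2 l hl
  have h2 := h'.2 l hl
  exact max_lt (lt_max_of_lt_left h2) (lt_max_of_lt_right (by linarith))

theorem sp6_shift {r : ℕ → ℝ} (h : SPath k r) {t : ℝ} (ht : 0 ≤ t) :
    SPath k (fun l => r l + t) :=
  ⟨by have := h.1; linarith, fun l hl => by have := h.2 l hl; linarith⟩

theorem sp6_up (H : Sp6H k w G R) {r r' : ℕ → ℝ} (hr : SPath k r) (hr' : SPath k r')
    (hb : ∀ l, k < l → r' l = r l) : ∀ (n : ℕ) (t : ℝ), 0 ≤ t →
      ((Finset.range (k + 1)).filter (fun l => r l + t < r' l)).card = n →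
      sp6F k w G (R r) (fun l => min (r' l) (r l + t)) ≤ sp6F k w G (R r) r' := by
  intro n
  induction n using Nat.strong_induction_on with
  | _ n ih =>
  intro t ht hn
  set A := (Finset.range (k + 1)).filter (fun l => r l + t < r' l) with hA
  rcases A.eq_empty_or_nonempty with he | hne
  · have e1 : (fun l => min (r' l) (r l + t)) = r' := by
      funext l
      refine min_eq_left ?_
      by_cases hl : l ≤ k
      · by_contra hcon
        have : l ∈ A := Finset.mem_filter.2 ⟨Finset.mem_range.2 (Nat.lt_succ_of_le hl),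
          not_le.1 hcon⟩
        rw [he] at this
        exact absurd this (Finset.notMem_empty l)
      · rw [hb l (not_le.1 hl)]; linarith
    rw [e1]
  · obtain ⟨l0, hl0, hmin⟩ := Finset.exists_min_image A (fun l => r' l - r l - t) hne
    set c := r' l0 - r l0 - t with hc
    have hc0 : 0 < c := by
      have := (Finset.mem_filter.1 hl0).2
      rw [hc]; linarith
    have hX : ∀ s ∈ Icc 0 c, (fun l => min (r' l) (r l + t) + s * (if l ∈ A then (1 : ℝ) else 0)) =
        (fun l => min (r' l) (r l + (t + s))) := by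
      intro s hs
      funext l
      by_cases hl : l ∈ A
      · have h1 := hmin l hl
        have h2 := hs.2
        rw [if_pos hl, min_eq_right (by linarith [hs.1]), min_eq_right (by linarith)]
        ring
      · rw [if_neg hl, mul_zero, add_zero]
        have h1 : r' l ≤ r l + t := by
          by_cases hlk : l ≤ k
          · by_contra hcon
            exact hl (Finset.mem_filter.2 ⟨Finset.mem_range.2 (Nat.lt_succ_of_le hlk),
              not_le.1 hcon⟩)
          · rw [hb l (not_le.1 hlk)]; linarith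
        rw [min_eq_left h1, min_eq_left (by linarith [hs.1])]
    have hseg := sp6_seg H (x := fun l => min (r' l) (r l + t))
      (η := fun l => if l ∈ A then (1 : ℝ) else 0) hc0
      (fun s hs => by
        rw [hX s hs]
        exact sp6_min hr hr' (by linarith [hs.1])) (R r)
      (fun s hs l hl => by
        by_cases hlA : l ∈ A
        · rw [if_pos hlA, one_mul, hX s ⟨hs.1.le, hs.2.le⟩, sub_nonneg]
          have h1 := hmin l hlA
          have h2 : 0 ≤ t + s := by linarith [hs.1]
          have h3 := H.hdiag r (t + s) l hr h2 hl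
          refine h3.trans (sp6_comp H (sp6_min hr hr' h2) (sp6_shift hr h2)
            (fun j _ => min_le_right _ _) hl ?_)
          exact min_eq_right (by linarith [hs.2])
        · rw [if_neg hlA, zero_mul])
    rw [hX c ⟨hc0.le, le_refl c⟩] at hseg
    refine hseg.trans (ih _ ?_ (t + c) (by linarith) rfl)
    rw [← hn]
    refine Finset.card_lt_card ?_
    rw [Finset.ssubset_iff_of_subset]
    · refine ⟨l0, hl0, fun h => ?_⟩
      have := (Finset.mem_filter.1 h).2
      rw [hc] at this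
      linarith
    · intro l hl
      have h1 := Finset.mem_filter.1 hl
      exact Finset.mem_filter.2 ⟨h1.1, by linarith [h1.2]⟩

theorem sp6_down (H : Sp6H k w G R) {r y : ℕ → ℝ} (hr : SPath k r) (hy : SPath k y)
    (hb : ∀ l, k < l → y l = r l) : ∀ (n : ℕ) (t : ℝ), 0 ≤ t →
      ((Finset.range (k + 1)).filter (fun l => y l < r l - t)).card = n →
      sp6F k w G (R r) (fun l => max (y l) (r l - t)) ≤ sp6F k w G (R r) y := by
  intro n
  induction n using Nat.strong_induction_on with
  | _ n ih =>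
  intro t ht hn
  set A := (Finset.range (k + 1)).filter (fun l => y l < r l - t) with hA
  rcases A.eq_empty_or_nonempty with he | hne
  · have e1 : (fun l => max (y l) (r l - t)) = y := by
      funext l
      refine max_eq_left ?_
      by_cases hl : l ≤ k
      · by_contra hcon
        have : l ∈ A := Finset.mem_filter.2 ⟨Finset.mem_range.2 (Nat.lt_succ_of_le hl),
          not_le.1 hcon⟩
        rw [he] at this
        exact absurd this (Finset.notMem_empty l)
      · rw [hb l (not_le.1 hl)]; linarith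
    rw [e1]
  · obtain ⟨l0, hl0, hmin⟩ := Finset.exists_min_image A (fun l => r l - t - y l) hne
    set c := r l0 - t - y l0 with hc
    have hc0 : 0 < c := by
      have := (Finset.mem_filter.1 hl0).2
      rw [hc]; linarith
    have hX : ∀ s ∈ Icc 0 c, (fun l => max (y l) (r l - t) + s * (if l ∈ A then (-1 : ℝ) else 0)) =
        (fun l => max (y l) (r l - (t + s))) := by
      intro s hs
      funext l
      by_cases hl : l ∈ A
      · have h1 := hmin l hl
        have h2 := hs.2
        rw [if_pos hl, max_eq_right (by linarith [hs.1]), max_eq_right (by linarith)]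
        ring
      · rw [if_neg hl, mul_zero, add_zero]
        have h1 : r l - t ≤ y l := by
          by_cases hlk : l ≤ k
          · by_contra hcon
            exact hl (Finset.mem_filter.2 ⟨Finset.mem_range.2 (Nat.lt_succ_of_le hlk),
              not_le.1 hcon⟩)
          · rw [hb l (not_le.1 hlk)]; linarith
        rw [max_eq_left h1, max_eq_left (by linarith [hs.1])]
    have hseg := sp6_seg H (x := fun l => max (y l) (r l - t))
      (η := fun l => if l ∈ A then (-1 : ℝ) else 0) hc0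
      (fun s hs => by
        rw [hX s hs]
        exact sp6_max hr hy) (R r)
      (fun s hs l hl => by
        by_cases hlA : l ∈ A
        · rw [if_pos hlA, hX s ⟨hs.1.le, hs.2.le⟩]
          have h1 := hmin l hlA
          have h2 : 0 ≤ t + s := by linarith [hs.1]
          have h3 := H.hdiag (fun l => max (y l) (r l - (t + s))) (t + s) l (sp6_max hr hy) h2 hl
          have h4 := sp6_comp H hr (sp6_shift (sp6_max hr hy (t := t + s)) h2)
            (fun j _ => by
              have := le_max_right (y j) (r j - (t + s))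
              linarith) hl
            (by
              rw [max_eq_right (by linarith [hs.2])]
              ring)
          linarith
        · rw [if_neg hlA, zero_mul])
    rw [hX c ⟨hc0.le, le_refl c⟩] at hseg
    refine hseg.trans (ih _ ?_ (t + c) (by linarith) rfl)
    rw [← hn]
    refine Finset.card_lt_card ?_
    rw [Finset.ssubset_iff_of_subset]
    · refine ⟨l0, hl0, fun h => ?_⟩
      have := (Finset.mem_filter.1 h).2
      rw [hc] at this
      linarith
    · intro l hl
      have h1 := Finset.mem_filter.1 hl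
      exact Finset.mem_filter.2 ⟨h1.1, by linarith [h1.2]⟩

theorem sp6_strict (H : Sp6H k w G R) {r r' : ℕ → ℝ} (hr : SPath k r) (hr' : SPath k r')
    (hb : ∀ l, k < l → r' l = r l) :
    G r' ≤ G r - 1 / 2 * ∑ l ∈ Finset.range (k + 1), w l * R r l * (r' l - r l) := by
  have h1 := sp6_up H hr hr' hb _ 0 (le_refl 0) rfl
  have hy : SPath k (fun l => min (r' l) (r l + 0)) := sp6_min hr hr' (le_refl 0)
  have h2 := sp6_down H hr hy (fun l hl => by
    rw [hb l hl, add_zero, min_self]) _ 0 (le_refl 0) rfl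
  have e1 : (fun l => max (min (r' l) (r l + 0)) (r l - 0)) = r := by
    funext l
    rw [add_zero, sub_zero, max_eq_right (min_le_right _ _)]
  rw [e1] at h2
  have h3 := h2.trans h1
  unfold sp6F at h3
  have e2 : ∑ l ∈ Finset.range (k + 1), w l * R r l * (r' l - r l) =
      ∑ l ∈ Finset.range (k + 1), w l * R r l * r' l -
        ∑ l ∈ Finset.range (k + 1), w l * R r l * r l := by
    rw [← Finset.sum_sub_distrib]
    exact Finset.sum_congr rfl (fun l _ => by ring)
  rw [e2]
  linarith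

theorem lnat_tangent {k : ℕ} {w : ℕ → ℝ} (hw : ∀ l ≤ k, 0 < w l) (G : (ℕ → ℝ) → ℝ)
    (R : (ℕ → ℝ) → ℕ → ℝ)
    (hder : ∀ (r η : ℕ → ℝ) (a : ℝ), 0 < a →
      (∀ s ∈ Set.Ico 0 a, SPath k (fun l => r l + s * η l)) → Path k (fun l => r l + a * η l) →
      ContinuousOn (fun s => G (fun l => r l + s * η l)) (Set.Icc 0 a) ∧
      (∀ s ∈ Set.Ioo 0 a, HasDerivAt (fun s => G (fun l => r l + s * η l))
        (-(1 / 2) * ∑ l ∈ Finset.range (k + 1), w l * η l *
          R (fun l => r l + s * η l) l) s) ∧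
      ∀ j ≤ k, ContinuousOn (fun s => R (fun l => r l + s * η l) j) (Set.Icc 0 a))
    (hanti : ∀ (r : ℕ → ℝ) (i j : ℕ) (s : ℝ), SPath k r → i < j → j ≤ k → 0 ≤ s →
      SPath k (Function.update r j (r j + s)) → R (Function.update r j (r j + s)) i ≤ R r i)
    (hdiag : ∀ (r : ℕ → ℝ) (c : ℝ) (j : ℕ), SPath k r → 0 ≤ c → j ≤ k →
      R r j ≤ R (fun l => r l + c) j)
    {r r' : ℕ → ℝ} (hr : SPath k r) (hr' : Path k r') :
    G r' ≤ G r - 1 / 2 * ∑ l ∈ Finset.range (k + 1), w l * R r l * (r' l - r l) := by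
  have H : Sp6H k w G R := ⟨hw, hder, hanti, hdiag⟩
  have e1 : (fun l => r l + 1 * (r' l - r l)) = r' := by
    funext l; ring
  obtain ⟨hc, -, -⟩ := hder r (fun l => r' l - r l) 1 one_pos
    (fun s hs => sp6_conv hr hr' hs.1 hs.2) (by rw [e1]; exact hr')
  have hS : ∀ s ∈ Ico (0 : ℝ) 1, G (fun l => r l + s * (r' l - r l)) ≤
      G r - 1 / 2 * (s * ∑ l ∈ Finset.range (k + 1), w l * R r l * (r' l - r l)) := by
    intro s hs
    have h1 := sp6_conv hr hr' hs.1 hs.2
    have h2 : ∀ l ≤ k, (fun l => r l + s * (r' l - r l)) l =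
        (fun l => if l ≤ k then r l + s * (r' l - r l) else r l) l := by
      intro l hl
      exact (if_pos hl).symm
    have h3 := sp6_strict H hr (sp6_congr h1 h2) (fun l hl => if_neg (not_le.2 hl))
    rw [sp6_indepG H h1 h2]
    have h4 : ∑ l ∈ Finset.range (k + 1), w l * R r l *
        ((if l ≤ k then r l + s * (r' l - r l) else r l) - r l) =
        s * ∑ l ∈ Finset.range (k + 1), w l * R r l * (r' l - r l) := by
      rw [Finset.mul_sum]
      refine Finset.sum_congr rfl (fun l hl => ?_)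
      rw [if_pos (Nat.lt_succ_iff.1 (Finset.mem_range.1 hl))]
      ring
    rw [← h4]
    exact h3
  have h5 : Tendsto (fun s => G (fun l => r l + s * (r' l - r l))) (𝓝[Ico 0 1] 1) (𝓝 (G r')) := by
    have h6 := (hc 1 ⟨zero_le_one, le_refl 1⟩).mono Ico_subset_Icc_self
    have h7 : Tendsto (fun s => G (fun l => r l + s * (r' l - r l))) (𝓝[Ico 0 1] 1)
      (𝓝 (G (fun l => r l + 1 * (r' l - r l)))) := h6
    rwa [e1] at h7
  have h8 : Tendsto (fun s : ℝ => G r - 1 / 2 * (s * ∑ l ∈ Finset.range (k + 1),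
      w l * R r l * (r' l - r l))) (𝓝[Ico 0 1] 1)
      (𝓝 (G r - 1 / 2 * (1 * ∑ l ∈ Finset.range (k + 1), w l * R r l * (r' l - r l)))) := by
    have h9 : Continuous (fun s : ℝ => G r - 1 / 2 * (s * ∑ l ∈ Finset.range (k + 1),
      w l * R r l * (r' l - r l))) := by fun_prop
    exact (h9.tendsto 1).mono_left nhdsWithin_le_nhds
  rw [one_mul] at h8
  have : (𝓝[Ico (0 : ℝ) 1] 1).NeBot := by
    rw [← mem_closure_iff_nhdsWithin_neBot, closure_Ico zero_ne_one]
    exact ⟨zero_le_one, le_refl 1⟩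
  exact le_of_tendsto_of_tendsto h5 h8 (eventually_nhdsWithin_of_forall hS)

end Vale.Agent.P157.Par
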