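import Vale.Agent.P157.ParSp4
import Vale.Agent.P157.ParSp5
import Vale.Agent.P157.ParSp6

/-! The tangent inequality for the spin part. -/

open MeasureTheory ProbabilityTheory Filter Topology Set

namespace Vale.Agent.P157.Par

theorem spin_tangent {k : ℕ} {m r r' : ℕ → ℝ} (hm : Exponents k m) (hr : SPath k r)
    (hr' : Path k r') :
    spinPart k m r' ≤ spinPart k m r -
      1 / 2 * ∑ l ∈ Finset.range (k + 1), (m (l + 1) - m l) * spR k m r l * (r' l - r l) := by
  refine lnat_tangent (w := fun l => m (l + 1) - m l)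
    (fun l hl => sub_pos.2 (hm.2.2 l hl)) (fun r => spinPart k m r) (fun r j => spR k m r j)
    (fun r η a ha hs hp => spin_deriv hm ha hs hp)
    (fun r i j s hr hij hj hs hr' => spR_anti hm hr hij hj hs hr')
    (fun r c j hr hc hj => spR_diag hm hr hc hj) hr hr'

end Vale.Agent.P157.Par
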