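import Vale.Agent.P157.ParSp1

/-!
Bounds for the overlaps of the spin chain: nonnegativity, monotonicity in the level, strict bound
by one and the Lipschitz bound for the increments.
-/

open MeasureTheory ProbabilityTheory Filter Topology Set

namespace Vale.Agent.P157.Par

/-- Continuous bounded observables. -/
def Sp7Cb (g : ℝ → ℝ) : Prop := Continuous g ∧ ∃ K, ∀ x, |g x| ≤ K

theorem sp7_cb_const (c : ℝ) : Sp7Cb (fun _ => c) := ⟨continuous_const, |c|, fun _ => le_rfl⟩

theorem sp7_cb_tlt {F M D : ℝ → ℝ} (h : Ec F M D) {g : ℝ → ℝ} (hg : Sp7Cb g) (m v : ℝ) :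
    Sp7Cb (tlt m v F g) := by
  obtain ⟨hc, K, hK⟩ := hg
  exact ⟨h.sm.tlt_cont hc hK m v, K, fun x => h.sm.abs_tlt_le hc hK m v x⟩

theorem sp7_cb_M {F M D : ℝ → ℝ} (h : Ec F M D) : Sp7Cb M :=
  ⟨h.sm.cont1, 1, h.abs_M⟩

theorem sp7_cb_sq {g : ℝ → ℝ} (hg : Sp7Cb g) : Sp7Cb (fun x => g x ^ 2) := by
  obtain ⟨hc, K, hK⟩ := hg
  refine ⟨hc.pow 2, K ^ 2, fun x => ?_⟩
  rw [abs_pow]
  exact pow_le_pow_left₀ (abs_nonneg _) (hK x) 2

theorem sp7_cb_add {g g' : ℝ → ℝ} (hg : Sp7Cb g) (hg' : Sp7Cb g') :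
    Sp7Cb (fun x => g x + g' x) := by
  obtain ⟨hc, K, hK⟩ := hg
  obtain ⟨hc', K', hK'⟩ := hg'
  exact ⟨hc.add hc', K + K', fun x => (abs_add_le _ _).trans (add_le_add (hK x) (hK' x))⟩

theorem sp7_cb_neg {g : ℝ → ℝ} (hg : Sp7Cb g) : Sp7Cb (fun x => -g x) := by
  obtain ⟨hc, K, hK⟩ := hg
  exact ⟨hc.neg, K, fun x => by rw [abs_neg]; exact hK x⟩

theorem sp7_cb_int {g : ℝ → ℝ} (hg : Sp7Cb g) (a : ℝ) :
    Integrable (fun z => g (a * z)) (gaussianReal 0 1) := by
  obtain ⟨hc, K, hK⟩ := hg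
  refine Integrable.of_bound (C := K) ?_ (ae_of_all _ fun z => ?_)
  · exact (hc.comp (continuous_const.mul continuous_id)).aestronglyMeasurable
  · rw [Real.norm_eq_abs]; exact hK _

/-- The exponents used by the chain of height `l`. -/
def Sp7Exp (m : ℕ → ℝ) (l : ℕ) : Prop := ∀ i < l, 0 < m (i + 1) ∧ m (i + 1) ≤ 1

theorem sp7_exp_of {k : ℕ} {m : ℕ → ℝ} (hm : Exponents k m) : Sp7Exp m k := by
  obtain ⟨h0, h1, hlt⟩ := hm
  have hpos : ∀ i ≤ k, 0 < m (i + 1) := by
    intro i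
    induction i with
    | zero => intro hi; rw [← h0]; exact hlt 0 hi
    | succ i ih => intro hi; exact (ih (by omega)).trans (hlt (i + 1) hi)
  have hle : ∀ n ≤ k + 1, m (k + 1 - n) ≤ 1 := by
    intro n
    induction n with
    | zero => intro _; rw [Nat.sub_zero, h1]
    | succ n ih =>
      intro hn
      have h2 := hlt (k + 1 - (n + 1)) (by omega)
      have h3 : k + 1 - (n + 1) + 1 = k + 1 - n := by omega
      rw [h3] at h2
      exact h2.le.trans (ih (by omega))
  intro i hi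
  refine ⟨hpos i hi.le, ?_⟩
  have h4 := hle (k - i) (by omega)
  have h5 : k + 1 - (k - i) = i + 1 := by omega
  rwa [h5] at h4

theorem sp7_exp_down {m : ℕ → ℝ} {l : ℕ} (h : Sp7Exp m (l + 1)) : Sp7Exp m l :=
  fun i hi => h i (by omega)

theorem sp7_chn_mono (m r : ℕ → ℝ) (l : ℕ) (hm : Sp7Exp m l) {F M D : ℝ → ℝ} (h : Ec F M D)
    {g g' : ℝ → ℝ} (hg : Sp7Cb g) (hg' : Sp7Cb g') (hle : ∀ x, g x ≤ g' x) :
    chn m r l F g ≤ chn m r l F g' := by
  induction l generalizing F M D g g' with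
  | zero =>
    rw [chn_zero_def, chn_zero_def]
    exact integral_mono (sp7_cb_int hg _) (sp7_cb_int hg' _) (fun z => hle _)
  | succ l ih =>
    rw [chn_succ_def, chn_succ_def]
    obtain ⟨hm0, hm1⟩ := hm l (Nat.lt_succ_self l)
    refine ih (sp7_exp_down hm) (h.step hm0 hm1 _) (sp7_cb_tlt h hg _ _) (sp7_cb_tlt h hg' _ _) ?_
    intro x
    obtain ⟨hc, K, hK⟩ := hg
    obtain ⟨hc', K', hK'⟩ := hg'
    exact h.sm.tlt_mono hc hK hc' hK' hle _ _ x

theorem sp7_chn_const (m r : ℕ → ℝ) (l : ℕ) (hm : Sp7Exp m l) {F M D : ℝ → ℝ} (h : Ec F M D)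
    (c : ℝ) : chn m r l F (fun _ => c) = c := by
  induction l generalizing F M D with
  | zero => rw [chn_zero_def]; simp
  | succ l ih =>
    rw [chn_succ_def]
    obtain ⟨hm0, hm1⟩ := hm l (Nat.lt_succ_self l)
    have h1 : tlt (m (l + 1)) (r (l + 1) - r l) F (fun _ => c) = fun _ => c := by
      funext x
      exact h.sm.tlt_const _ _ _ x
    rw [h1]
    exact ih (sp7_exp_down hm) (h.step hm0 hm1 _)

theorem sp7_chn_add (m r : ℕ → ℝ) (l : ℕ) (hm : Sp7Exp m l) {F M D : ℝ → ℝ} (h : Ec F M D)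
    {g g' : ℝ → ℝ} (hg : Sp7Cb g) (hg' : Sp7Cb g') :
    chn m r l F (fun x => g x + g' x) = chn m r l F g + chn m r l F g' := by
  induction l generalizing F M D g g' with
  | zero =>
    rw [chn_zero_def, chn_zero_def, chn_zero_def]
    exact integral_add (sp7_cb_int hg _) (sp7_cb_int hg' _)
  | succ l ih =>
    rw [chn_succ_def, chn_succ_def, chn_succ_def]
    obtain ⟨hm0, hm1⟩ := hm l (Nat.lt_succ_self l)
    have h1 : tlt (m (l + 1)) (r (l + 1) - r l) F (fun x => g x + g' x) =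
        fun x => tlt (m (l + 1)) (r (l + 1) - r l) F g x +
          tlt (m (l + 1)) (r (l + 1) - r l) F g' x := by
      funext x
      obtain ⟨hc, K, hK⟩ := hg
      obtain ⟨hc', K', hK'⟩ := hg'
      exact h.sm.tlt_add hc hK hc' hK' _ _ x
    rw [h1]
    exact ih (sp7_exp_down hm) (h.step hm0 hm1 _) (sp7_cb_tlt h hg _ _) (sp7_cb_tlt h hg' _ _)

/-- Strict positivity of one tilted average. -/
theorem sp7_tlt_pos {F M D : ℝ → ℝ} (h : Ec F M D) {g : ℝ → ℝ} (hg : Sp7Cb g)
    (hpos : ∀ x, 0 < g x) (m v x : ℝ) : 0 < tlt m v F g x := by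
  obtain ⟨hc, K, hK⟩ := hg
  have hden := h.sm.int_exp_pos m v x
  have hint := h.sm.integrable hc hK m v x
  unfold tlt
  refine div_pos ?_ hden
  rw [integral_pos_iff_support_of_nonneg (fun z => (mul_pos (hpos _) (Real.exp_pos _)).le) hint]
  have hs : Function.support (fun z => g (x + √v * z) * Real.exp (m * F (x + √v * z))) =
      Set.univ := by
    ext z
    simp only [Function.mem_support, Set.mem_univ, iff_true]
    exact (mul_pos (hpos _) (Real.exp_pos _)).ne'
  rw [hs]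
  simp

theorem sp7_chn_pos (m r : ℕ → ℝ) (l : ℕ) (hm : Sp7Exp m l) {F M D : ℝ → ℝ} (h : Ec F M D)
    {g : ℝ → ℝ} (hg : Sp7Cb g) (hpos : ∀ x, 0 < g x) : 0 < chn m r l F g := by
  induction l generalizing F M D g with
  | zero =>
    rw [chn_zero_def]
    rw [integral_pos_iff_support_of_nonneg (fun z => (hpos _).le) (sp7_cb_int hg _)]
    have hs : Function.support (fun z => g (√(r 0) * z)) = Set.univ := by
      ext z
      simp only [Function.mem_support, Set.mem_univ, iff_true]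
      exact (hpos _).ne'
    rw [hs]
    simp
  | succ l ih =>
    rw [chn_succ_def]
    obtain ⟨hm0, hm1⟩ := hm l (Nat.lt_succ_self l)
    exact ih (sp7_exp_down hm) (h.step hm0 hm1 _) (sp7_cb_tlt h hg _ _)
      (fun x => sp7_tlt_pos h hg hpos _ _ x)

theorem sp7_Rc_nonneg (m r : ℕ → ℝ) (l : ℕ) (hm : Sp7Exp m l) {F M D : ℝ → ℝ} (h : Ec F M D)
    {j : ℕ} (hj : j ≤ l) : 0 ≤ Rc m r l F M j := by
  induction l generalizing F M D with
  | zero =>
    have hj0 : j = 0 := by omega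
    subst hj0
    rw [Rc_self]
    have h1 := sp7_chn_mono m r 0 hm h (sp7_cb_const 0) (sp7_cb_sq (sp7_cb_M h))
      (fun x => sq_nonneg _)
    rwa [sp7_chn_const m r 0 hm h] at h1
  | succ l ih =>
    rcases Nat.lt_or_ge l j with hlj | hlj
    · have hj0 : j = l + 1 := by omega
      subst hj0
      rw [Rc_self]
      have h1 := sp7_chn_mono m r (l + 1) hm h (sp7_cb_const 0) (sp7_cb_sq (sp7_cb_M h))
        (fun x => sq_nonneg _)
      rwa [sp7_chn_const m r (l + 1) hm h] at h1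
    · rw [Rc_succ_le m r l F M hlj]
      obtain ⟨hm0, hm1⟩ := hm l (Nat.lt_succ_self l)
      exact ih (sp7_exp_down hm) (h.step hm0 hm1 _) hlj

/-- The increments of the overlaps are bounded by any bound of the one step variances. -/
theorem sp7_Rc_incr (m r : ℕ → ℝ) (l : ℕ) (hm : Sp7Exp m l) {C : ℝ}
    {F M D : ℝ → ℝ} (h : Ec F M D) {j : ℕ} (hj : j < l)
    (hC : ∀ F M D : ℝ → ℝ, Ec F M D → ∀ x,
      tlt (m (j + 1)) (r (j + 1) - r j) F (fun y => M y ^ 2) x ≤
        tlt (m (j + 1)) (r (j + 1) - r j) F M x ^ 2 + C) :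
    Rc m r l F M (j + 1) ≤ Rc m r l F M j + C := by
  induction l generalizing F M D with
  | zero => omega
  | succ l ih =>
    obtain ⟨hm0, hm1⟩ := hm l (Nat.lt_succ_self l)
    rcases Nat.lt_or_ge j l with hlj | hlj
    · rw [Rc_succ_le m r l F M (show j + 1 ≤ l from hlj), Rc_succ_le m r l F M hlj.le]
      exact ih (sp7_exp_down hm) (h.step hm0 hm1 _) hlj
    · have hj0 : j = l := by omega
      subst hj0
      have hs := h.step hm0 hm1 (r (j + 1) - r j)
      rw [Rc_self, Rc_succ_le m r j F M le_rfl, Rc_self, chn_succ_def]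
      have h2 := sp7_chn_mono m r j (sp7_exp_down hm) hs
        (sp7_cb_tlt h (sp7_cb_sq (sp7_cb_M h)) _ _)
        (sp7_cb_add (sp7_cb_sq (sp7_cb_tlt h (sp7_cb_M h) (m (j + 1)) (r (j + 1) - r j)))
          (sp7_cb_const C)) (hC F M D h)
      rw [sp7_chn_add m r j (sp7_exp_down hm) hs
        (sp7_cb_sq (sp7_cb_tlt h (sp7_cb_M h) (m (j + 1)) (r (j + 1) - r j))) (sp7_cb_const C),
        sp7_chn_const m r j (sp7_exp_down hm) hs] at h2
      exact h2

theorem sp7_Rc_mono (m r : ℕ → ℝ) (l : ℕ) (hm : Sp7Exp m l)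
    {F M D : ℝ → ℝ} (h : Ec F M D) {j : ℕ} (hj : j < l) :
    Rc m r l F M j ≤ Rc m r l F M (j + 1) := by
  induction l generalizing F M D with
  | zero => omega
  | succ l ih =>
    obtain ⟨hm0, hm1⟩ := hm l (Nat.lt_succ_self l)
    rcases Nat.lt_or_ge j l with hlj | hlj
    · rw [Rc_succ_le m r l F M (show j + 1 ≤ l from hlj), Rc_succ_le m r l F M hlj.le]
      exact ih (sp7_exp_down hm) (h.step hm0 hm1 _) hlj
    · have hj0 : j = l := by omega
      subst hj0
      have hs := h.step hm0 hm1 (r (j + 1) - r j)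
      rw [Rc_self m r (j + 1), Rc_succ_le m r j F M le_rfl, Rc_self, chn_succ_def]
      exact sp7_chn_mono m r j (sp7_exp_down hm) hs
        (sp7_cb_sq (sp7_cb_tlt h (sp7_cb_M h) (m (j + 1)) (r (j + 1) - r j)))
        (sp7_cb_tlt h (sp7_cb_sq (sp7_cb_M h)) _ _)
        (fun x => h.sm.tlt_sq_le h.sm.cont1 h.abs_M _ _ x)

theorem spR_nonneg {k : ℕ} {m r : ℕ → ℝ} (hm : Exponents k m) (hr : Path k r) {j : ℕ}
    (hj : j ≤ k) : 0 ≤ spR k m r j :=
  sp7_Rc_nonneg m r k (sp7_exp_of hm) ec_logcosh hj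

theorem spR_mono {k : ℕ} {m r : ℕ → ℝ} (hm : Exponents k m) (hr : Path k r) {j : ℕ}
    (hj : j < k) : spR k m r j ≤ spR k m r (j + 1) :=
  sp7_Rc_mono m r k (sp7_exp_of hm) ec_logcosh hj

theorem spR_lt_one {k : ℕ} {m r : ℕ → ℝ} (hm : Exponents k m) (hr : Path k r) {j : ℕ}
    (hj : j ≤ k) : spR k m r j < 1 := by
  have hE := sp7_exp_of hm
  have hk : spR k m r k < 1 := by
    unfold spR
    rw [Rc_self]
    have hpos : ∀ x : ℝ, 0 < 1 + -(Real.tanh x ^ 2) := by
      intro x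
      have h1 : Real.tanh x ^ 2 < 1 := by
        rw [Real.tanh_eq_sinh_div_cosh, div_pow, div_lt_one (pow_pos (Real.cosh_pos x) 2)]
        have := Real.cosh_sq x
        linarith
      linarith
    have hcb : Sp7Cb (fun x => Real.tanh x ^ 2) := sp7_cb_sq (sp7_cb_M ec_logcosh)
    have hcb' : Sp7Cb (fun x : ℝ => 1 + -(Real.tanh x ^ 2)) :=
      sp7_cb_add (sp7_cb_const 1) (sp7_cb_neg hcb)
    have h2 := sp7_chn_pos m r k hE ec_logcosh hcb' hpos
    have h3 := sp7_chn_add m r k hE ec_logcosh hcb' hcb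
    have h4 : (fun x : ℝ => (1 + -(Real.tanh x ^ 2)) + Real.tanh x ^ 2) = fun _ => 1 := by
      funext x
      ring
    rw [h4, sp7_chn_const m r k hE ec_logcosh] at h3
    linarith
  have hle : ∀ n ≤ k, spR k m r (k - n) ≤ spR k m r k := by
    intro n
    induction n with
    | zero => intro _; simp
    | succ n ih =>
      intro hn
      have h1 := spR_mono hm hr (j := k - (n + 1)) (by omega)
      have h2 : k - (n + 1) + 1 = k - n := by omega
      rw [h2] at h1
      exact h1.trans (ih (by omega))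
  have h5 := hle (k - j) (by omega)
  have h6 : k - (k - j) = j := by omega
  rw [h6] at h5
  linarith

/-- Exponential moments of `|z|`. -/
theorem sp7_int_exp_abs (t : ℝ) :
    Integrable (fun z => Real.exp (t * |z|)) (gaussianReal 0 1) := by
  have h1 : Integrable (fun z => Real.exp (t * z)) (gaussianReal 0 1) :=
    integrable_exp_mul_gaussianReal t
  have h2 : Integrable (fun z => Real.exp (-t * z)) (gaussianReal 0 1) :=
    integrable_exp_mul_gaussianReal (-t)
  exact integrable_exp_mul_abs h1 h2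

theorem sp7_int_sq_exp_abs (t : ℝ) :
    Integrable (fun z => z ^ 2 * Real.exp (t * |z|)) (gaussianReal 0 1) := by
  refine ((sp7_int_exp_abs (t + 1)).const_mul 2).mono' (by fun_prop) (ae_of_all _ fun z => ?_)
  rw [Real.norm_eq_abs, abs_of_nonneg (mul_nonneg (sq_nonneg _) (Real.exp_pos _).le)]
  have h1 := Real.quadratic_le_exp_of_nonneg (abs_nonneg z)
  have h2 : z ^ 2 ≤ 2 * Real.exp |z| := by
    rw [sq_abs] at h1
    have := abs_nonneg z
    linarith
  calc z ^ 2 * Real.exp (t * |z|) ≤ 2 * Real.exp |z| * Real.exp (t * |z|) :=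
        mul_le_mul_of_nonneg_right h2 (Real.exp_pos _).le
    _ = 2 * Real.exp ((t + 1) * |z|) := by
        rw [mul_assoc, ← Real.exp_add]; ring_nf

/-- The one step variance is of the order of the step. -/
theorem sp7_var {A : ℝ} {F M D : ℝ → ℝ} (h : Ec F M D) {m : ℝ} (hm : 0 < m) (hm1 : m ≤ 1)
    {v : ℝ} (hv : 0 ≤ v) (hvA : v ≤ A) (x : ℝ) :
    tlt m v F (fun y => M y ^ 2) x ≤ tlt m v F M x ^ 2 +
      (∫ z, z ^ 2 * Real.exp (√A * |z|) ∂(gaussianReal 0 1)) /
        (∫ z, Real.exp (-√A * |z|) ∂(gaussianReal 0 1)) * v := by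
  have hA : 0 ≤ A := hv.trans hvA
  set K1 := ∫ z, z ^ 2 * Real.exp (√A * |z|) ∂(gaussianReal 0 1) with hK1
  set K0 := ∫ z, Real.exp (-√A * |z|) ∂(gaussianReal 0 1) with hK0
  have hK0pos : 0 < K0 := integral_exp_pos (sp7_int_exp_abs _)
  have hK1nn : 0 ≤ K1 := integral_nonneg fun z => mul_nonneg (sq_nonneg _) (Real.exp_pos _).le
  -- Lipschitz bounds
  have hlipF : ∀ a b : ℝ, |F a - F b| ≤ |a - b| := by
    intro a b
    have := Convex.norm_image_sub_le_of_norm_hasDerivWithin_le (C := 1) (f := F) (f' := M)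
      (s := Set.univ) (x := b) (y := a) (fun y _ => (h.d1 y).hasDerivWithinAt)
      (fun y _ => by rw [Real.norm_eq_abs]; exact h.abs_M y) convex_univ (mem_univ _) (mem_univ _)
    simpa using this
  have hlipM : ∀ a b : ℝ, |M a - M b| ≤ |a - b| := by
    intro a b
    have := Convex.norm_image_sub_le_of_norm_hasDerivWithin_le (C := 1) (f := M) (f' := D)
      (s := Set.univ) (x := b) (y := a) (fun y _ => (h.d2 y).hasDerivWithinAt)
      (fun y _ => by
        rw [Real.norm_eq_abs, abs_of_nonneg (h.D0 y)]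
        have := h.D1 y
        nlinarith [sq_nonneg (M y)]) convex_univ (mem_univ _) (mem_univ _)
    simpa using this
  have hsv : √v ≤ √A := Real.sqrt_le_sqrt hvA
  have hsv0 : 0 ≤ √v := Real.sqrt_nonneg v
  have hexp : ∀ z : ℝ, |m * F (x + √v * z) - m * F x| ≤ √A * |z| := by
    intro z
    rw [← mul_sub, abs_mul, abs_of_pos hm]
    have h1 := hlipF (x + √v * z) x
    have h2 : |x + √v * z - x| = √v * |z| := by
      rw [add_sub_cancel_left, abs_mul, abs_of_nonneg hsv0]
    rw [h2] at h1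
    calc m * |F (x + √v * z) - F x| ≤ 1 * (√v * |z|) :=
          mul_le_mul hm1 h1 (abs_nonneg _) zero_le_one
      _ ≤ √A * |z| := by
          rw [one_mul]; exact mul_le_mul_of_nonneg_right hsv (abs_nonneg z)
  -- the centered square
  set c := M x with hc
  set g : ℝ → ℝ := fun y => (M y + -c) ^ 2 with hg
  have hgcb : Sp7Cb g := sp7_cb_sq (sp7_cb_add (sp7_cb_M h) (sp7_cb_const (-c)))
  have hden := h.sm.int_exp_pos m v x
  have hdenle : Real.exp (m * F x) * K0 ≤
      ∫ z, Real.exp (m * F (x + √v * z)) ∂(gaussianReal 0 1) := by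
    rw [hK0, ← integral_const_mul]
    refine integral_mono ((sp7_int_exp_abs _).const_mul _) (h.sm.integrable_exp m v x) ?_
    intro z
    simp only
    rw [← Real.exp_add]
    refine Real.exp_le_exp.2 ?_
    have := (abs_le.1 (hexp z)).1
    linarith
  have hnum : ∫ z, g (x + √v * z) * Real.exp (m * F (x + √v * z)) ∂(gaussianReal 0 1) ≤
      Real.exp (m * F x) * (v * K1) := by
    rw [hK1, ← integral_const_mul, ← integral_const_mul]
    refine integral_mono (h.sm.integrable hgcb.1 hgcb.2.choose_spec m v x)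
      (((sp7_int_sq_exp_abs _).const_mul _).const_mul _) ?_
    intro z
    simp only [hg]
    have h1 : (M (x + √v * z) + -c) ^ 2 ≤ v * z ^ 2 := by
      have h2 := hlipM (x + √v * z) x
      have h3 : |x + √v * z - x| = √v * |z| := by
        rw [add_sub_cancel_left, abs_mul, abs_of_nonneg hsv0]
      rw [h3] at h2
      have h4 := pow_le_pow_left₀ (abs_nonneg _) h2 2
      rw [sq_abs, mul_pow, Real.sq_sqrt hv, sq_abs] at h4
      simpa [sub_eq_add_neg] using h4
    have h5 : Real.exp (m * F (x + √v * z)) ≤ Real.exp (m * F x) * Real.exp (√A * |z|) := by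
      rw [← Real.exp_add]
      refine Real.exp_le_exp.2 ?_
      have := (abs_le.1 (hexp z)).2
      linarith
    calc (M (x + √v * z) + -c) ^ 2 * Real.exp (m * F (x + √v * z))
        ≤ (v * z ^ 2) * (Real.exp (m * F x) * Real.exp (√A * |z|)) :=
          mul_le_mul h1 h5 (Real.exp_pos _).le (mul_nonneg hv (sq_nonneg z))
      _ = Real.exp (m * F x) * (v * (z ^ 2 * Real.exp (√A * |z|))) := by ring
  have hg1 : tlt m v F g x ≤ K1 / K0 * v := by
    have hE : 0 < Real.exp (m * F x) := Real.exp_pos _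
    show _ / _ ≤ _
    rw [div_le_iff₀ hden]
    calc _ ≤ Real.exp (m * F x) * (v * K1) := hnum
      _ = K1 / K0 * v * (Real.exp (m * F x) * K0) := by field_simp
      _ ≤ K1 / K0 * v * ∫ z, Real.exp (m * F (x + √v * z)) ∂(gaussianReal 0 1) :=
          mul_le_mul_of_nonneg_left hdenle (mul_nonneg (div_nonneg hK1nn hK0pos.le) hv)
  have hMcb := sp7_cb_M h
  have hM2cb := sp7_cb_sq hMcb
  -- expansion of the square
  have hg2 : tlt m v F g x = tlt m v F (fun y => M y ^ 2) x - 2 * c * tlt m v F M x + c ^ 2 := by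
    have e1 : g = fun y => (M y ^ 2 + (-2 * c) * M y) + c ^ 2 := by
      funext y
      simp only [hg]
      ring
    obtain ⟨a1, K', a2⟩ := hM2cb
    obtain ⟨b1, b2, b3⟩ : Sp7Cb (fun y => (-2 * c) * M y) :=
      ⟨continuous_const.mul h.sm.cont1, |(-2 * c)|, fun y => by
        rw [abs_mul]
        exact mul_le_of_le_one_right (abs_nonneg _) (h.abs_M y)⟩
    obtain ⟨d1, d2, d3⟩ := sp7_cb_add (⟨a1, K', a2⟩ : Sp7Cb (fun y => M y ^ 2))
      (⟨b1, b2, b3⟩ : Sp7Cb (fun y => (-2 * c) * M y))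
    have e2 := h.sm.tlt_add a1 a2 b1 b3 m v x
    have e3 := h.sm.tlt_add d1 d3 (continuous_const (y := c ^ 2)) (K' := |c ^ 2|)
      (fun _ => le_rfl) m v x
    have e4 := tlt_const_mul m v (-2 * c) F M x
    have e5 := h.sm.tlt_const m v (c ^ 2) x
    rw [e1, e3, e2, e4, e5]
    ring
  nlinarith [sq_nonneg (tlt m v F M x - c)]

theorem spR_lip (A : ℝ) : ∃ C : ℝ, 0 ≤ C ∧ ∀ (k : ℕ) (m r : ℕ → ℝ), Exponents k m → Path k r →
    r k ≤ A → ∀ l < k, spR k m r (l + 1) - spR k m r l ≤ C * (r (l + 1) - r l) := by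
  refine ⟨(∫ z, z ^ 2 * Real.exp (√A * |z|) ∂(gaussianReal 0 1)) /
        (∫ z, Real.exp (-√A * |z|) ∂(gaussianReal 0 1)), ?_, ?_⟩
  · exact div_nonneg (integral_nonneg fun z => mul_nonneg (sq_nonneg _) (Real.exp_pos _).le)
      (integral_nonneg fun z => (Real.exp_pos _).le)
  · intro k m r hm hr hA l hl
    have hE := sp7_exp_of hm
    obtain ⟨hm0, hm1⟩ := hE l hl
    have hlow : ∀ i ≤ k, 0 ≤ r i := by
      intro i
      induction i with
      | zero => intro _; exact hr.1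
      | succ i ih => intro hi; exact (ih (by omega)).trans (hr.2 i hi)
    have hup : ∀ n ≤ k, r (k - n) ≤ A := by
      intro n
      induction n with
      | zero => intro _; simpa using hA
      | succ n ih =>
        intro hn
        have h2 := hr.2 (k - (n + 1)) (by omega)
        have h3 : k - (n + 1) + 1 = k - n := by omega
        rw [h3] at h2
        exact h2.trans (ih (by omega))
    have h4 := hup (k - (l + 1)) (by omega)
    have h5 : k - (k - (l + 1)) = l + 1 := by omega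
    rw [h5] at h4
    have h6 := hlow l hl.le
    have h7 := hr.2 l hl
    have h8 := sp7_Rc_incr m r k hE (C := (∫ z, z ^ 2 * Real.exp (√A * |z|) ∂(gaussianReal 0 1)) /
        (∫ z, Real.exp (-√A * |z|) ∂(gaussianReal 0 1)) * (r (l + 1) - r l)) ec_logcosh hl
      (fun F M D hF x => sp7_var hF hm0 hm1 (by linarith) (by linarith) x)
    unfold spR
    linarith

end Vale.Agent.P157.Par
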