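import Vale.Agent.P157.LvBridge

/-!
Schur monotonicity of the pattern part and of the spin part.
-/

open MeasureTheory ProbabilityTheory Filter Topology

namespace Vale.Agent.P157.Lv

set_option linter.unusedSectionVars false

open Par (incr Path Exponents cascade gstep patternPart spinPart topN lw)

variable {ι X : Type} [Fintype ι] [DecidableEq ι] [Fintype X] [Nonempty X]
  {S : Sy ι X} {D : ι → (ι → ℝ) → X → ℝ}

/-! ### Auxiliary lemmas -/

namespace Sy

lemma Reg.schur_mono (hS : S.Reg) {l l' : ℕ} (hl : l ≤ l') (hl' : l' ≤ S.K)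
    {h : (ι → ℝ) → X → ℝ} (hh : Nh h) :
    S.Ex (fun z _ => S.T l h z ^ 2) ≤ S.Ex (fun z _ => S.T l' h z ^ 2) := by
  have h1 : Nh (X := X) (fun z _ => S.T l' h z) := Nh.fst (hS.eg_T hl' hh)
  have h2 : Nh (X := X) (fun z (_ : X) => S.T l' h z ^ 2) := Nh.fst ((hS.eg_T hl' hh).pow 2)
  rw [← hS.Ex_T (hl.trans hl') h2]
  refine hS.Ex_mono (Nh.fst ((hS.eg_T (hl.trans hl') hh).pow 2))
    (Nh.fst (hS.eg_T (hl.trans hl') h2)) fun z _ => ?_
  rw [← hS.T_T hl hl' hh z]
  exact hS.sq_T_le (hl.trans hl') h1 z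

lemma Reg.schur_nonneg (hS : S.Reg) {l : ℕ} (hl : l ≤ S.K) {h : (ι → ℝ) → X → ℝ} (hh : Nh h) :
    0 ≤ S.Ex (fun z _ => S.T l h z ^ 2) := by
  rw [← hS.Ex_const 0]
  exact hS.Ex_mono (Nh.fst (EG.const 0)) (Nh.fst ((hS.eg_T hl hh).pow 2)) fun z _ => sq_nonneg _

lemma Reg.schur_le (hS : S.Reg) {l : ℕ} (hl : l ≤ S.K) {h : (ι → ℝ) → X → ℝ} (hh : Nh h)
    {C : ℝ} (hC : ∀ z x, |h z x| ≤ C) : S.Ex (fun z _ => S.T l h z ^ 2) ≤ C ^ 2 := by
  rw [← hS.Ex_const (C ^ 2)]
  refine hS.Ex_mono (Nh.fst ((hS.eg_T hl hh).pow 2)) (Nh.fst (EG.const _)) fun z _ => ?_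
  exact sq_le_sq' (abs_le.1 (hS.abs_T_le hl hh hC z)).1 (abs_le.1 (hS.abs_T_le hl hh hC z)).2

end Sy

/-- Abel summation against an increasing sequence. -/
lemma schur_abel {k : ℕ} {a E : ℕ → ℝ} {ε : ℝ} (hE0 : 0 ≤ E 0)
    (hE : ∀ l < k, E l ≤ E (l + 1)) (h : ∀ j ≤ k, -ε ≤ ∑ l ∈ Finset.Ico j (k + 1), a l) :
    -ε * E k ≤ ∑ l ∈ Finset.range (k + 1), a l * E l := by
  have key : ∀ d, ∀ j, j + d = k →
      (∑ l ∈ Finset.Ico j (k + 1), a l) * E j - ε * (E k - E j) ≤
        ∑ l ∈ Finset.Ico j (k + 1), a l * E l := by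
    intro d
    induction d with
    | zero =>
      intro j hj
      rw [add_zero] at hj
      subst hj
      simp
    | succ d ih =>
      intro j hj
      have h1 := ih (j + 1) (by omega)
      have h2 := h (j + 1) (by omega)
      have h3 := hE j (by omega)
      rw [Finset.sum_eq_sum_Ico_succ_bot (show j < k + 1 by omega),
        Finset.sum_eq_sum_Ico_succ_bot (show j < k + 1 by omega) fun l => a l * E l]
      linarith only [h1, mul_nonneg (show 0 ≤ (∑ l ∈ Finset.Ico (j + 1) (k + 1), a l) + ε by linarith)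
        (sub_nonneg.2 h3)]
  have h0 := key k 0 (by omega)
  have h1 := h 0 (Nat.zero_le _)
  rw [Finset.range_eq_Ico]
  nlinarith [mul_nonneg (show 0 ≤ (∑ l ∈ Finset.Ico 0 (k + 1), a l) + ε by linarith) hE0]

/-- The cascade depends only on the exponents `m 1, …, m n`. -/
lemma schur_cascade_congr {m m' q : ℕ → ℝ} : ∀ (n : ℕ), (∀ l < n, m (l + 1) = m' (l + 1)) →
    ∀ F x, cascade m q n F x = cascade m' q n F x := by
  intro n
  induction n with
  | zero => intro _ F x; rfl
  | succ n ih =>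
    intro h F x
    rw [Par.cascade_succ_def, Par.cascade_succ_def, h n (Nat.lt_succ_self n)]
    exact ih (fun l hl => h l (by omega)) _ x

/-- The system for the comparison of two paths. -/
def schurSys (K : ℕ) (m : ℕ → ℝ) : Sy (Fin (K + 1) × Bool) Unit where
  lev e := e.1
  K := K
  m := m
  H _ _ := 0

lemma schurSys_regD {K : ℕ} {m : ℕ → ℝ} (h0 : m 0 = 0) (h1 : m (K + 1) = 1)
    (hm : ∀ l ≤ K, m l ≤ m (l + 1)) (hp : 0 < m 1) :
    (schurSys K m).RegD (fun _ _ _ => 0) where
  m0 := h0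
  mK := h1
  mono := hm
  pos := hp
  lev e := Nat.le_of_lt_succ e.1.isLt
  lip _ := Lip.const 0
  pd _ _ := PD.const 0
  md _ _ := measurable_const
  bd := ⟨0, fun _ _ _ => by simp⟩

/-- The coefficients of the field with the path `Q` on the coordinates of the kind `b`. -/
noncomputable def schurC (K : ℕ) (Q : ℕ → ℝ) (b : Bool) (e : Fin (K + 1) × Bool) : ℝ :=
  if e.2 = b then √(incr Q e.1) else 0

/-- The coordinates of the kind `b`. -/
def schurY (K : ℕ) (b : Bool) (l : ℕ) : Fin (K + 1) × Bool := (Fin.ofNat (K + 1) l, b)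

lemma schurY_val (K : ℕ) (b : Bool) (i : Fin (K + 1)) : schurY K b i = (i, b) := by
  unfold schurY
  congr 1
  apply Fin.ext
  change (i : ℕ) % (K + 1) = i
  exact Nat.mod_eq_of_lt i.isLt

lemma schurY_lev {K : ℕ} {m : ℕ → ℝ} (b : Bool) {l : ℕ} (hl : l ≤ K) :
    (schurSys K m).lev (schurY K b l) = l := by
  change ((schurY K b l).1 : ℕ) = l
  simp only [schurY, Fin.ofNat]
  exact Nat.mod_eq_of_lt (Nat.lt_succ_of_le hl)

lemma schur_lin {K : ℕ} (Q : ℕ → ℝ) (b : Bool) (z : Fin (K + 1) × Bool → ℝ) :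
    lin (schurC K Q b) z = tf (schurY K b) K Q z := by
  unfold lin tf
  rw [Fintype.sum_prod_type, Finset.sum_range]
  refine Finset.sum_congr rfl fun i _ => ?_
  rw [schurY_val]
  cases b <;> simp [schurC]

lemma schur_sum {K : ℕ} {Q : ℕ → ℝ} (hQ : Path K Q) (b : Bool) {l : ℕ} (hl : l ≤ K) :
    ∑ e : Fin (K + 1) × Bool, (if (e.1 : ℕ) ≤ l then schurC K Q b e ^ 2 else 0) = Q l := by
  have hinc : ∀ i ≤ K, 0 ≤ incr Q i := by
    intro i hi
    rcases i with _ | i
    · exact hQ.1
    · exact sub_nonneg.2 (hQ.2 i (by omega))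
  have h1 : ∀ i : Fin (K + 1), (∑ b', if ((i, b').1 : ℕ) ≤ l then schurC K Q b (i, b') ^ 2 else 0) =
      if (i : ℕ) ≤ l then incr Q i else 0 := by
    intro i
    have h2 := Real.sq_sqrt (hinc i (Nat.le_of_lt_succ i.isLt))
    by_cases h : (i : ℕ) ≤ l
    · cases b <;> simp [schurC, h, h2]
    · simp [h]
  rw [Fintype.sum_prod_type, Finset.sum_congr rfl fun i _ => h1 i,
    ← Finset.sum_range (fun i => if i ≤ l then incr Q i else 0), ← Finset.sum_filter]
  have h3 : (Finset.range (K + 1)).filter (fun i => i ≤ l) = Finset.range (l + 1) := by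
    ext i
    simp only [Finset.mem_filter, Finset.mem_range]
    omega
  rw [h3]
  clear h3 h1
  induction l with
  | zero => simp [Par.incr_zero_def]
  | succ l ih =>
    rw [Finset.sum_range_succ, ih (by omega)]
    simp [Par.incr_succ_def]

/-- The comparison of two paths. -/
theorem schur_int {K : ℕ} {m : ℕ → ℝ} (h0 : m 0 = 0) (h1 : m (K + 1) = 1)
    (hm : ∀ l ≤ K, m l ≤ m (l + 1)) (hp : 0 < m 1) {Q R : ℕ → ℝ} (hQ : Path K Q) (hR : Path K R)
    {f f' f'' : ℝ → ℝ} {C₁ C₂ : ℝ} (hf : Pot f f' f'' C₁ C₂) {b : ℝ}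
    (hb : ∀ (S' : Sy (Fin (K + 1) × Bool) Unit) (u : (Fin (K + 1) × Bool → ℝ) → Unit → ℝ),
      S'.Reg → S'.K = K → Nh (fun z x => f' (u z x)) →
      (Q K - R K) * S'.Ex (fun z x => f'' (u z x) + f' (u z x) ^ 2) -
        ∑ l ∈ Finset.range (K + 1), (m (l + 1) - m l) * ((Q l - R l) *
          S'.Ex (fun z _ => S'.T l (fun z x => f' (u z x)) z ^ 2)) ≤ b) :
    ∫ x, cascade m Q K f (√(Q 0) * x) ∂(gaussianReal 0 1) -
      ∫ x, cascade m R K f (√(R 0) * x) ∂(gaussianReal 0 1) ≤ b / 2 := by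
  have hreg := schurSys_regD (K := K) h0 h1 hm hp
  have hsep : Sep (fun (_ : Fin (K + 1) × Bool) (_ : (Fin (K + 1) × Bool → ℝ)) (_ : Unit) => (0 : ℝ))
      (fun _ => schurC K Q false) (fun _ => schurC K R true) := by
    refine ⟨fun e _ _ => ?_, fun _ _ _ _ _ => rfl⟩
    rcases e with ⟨i, b'⟩
    cases b' <;> simp [schurC]
  have hlip : ∀ x x', |f x - f x'| ≤ C₁ * |x - x'| := hf.lip
  have e1 : (schurSys K m).wH (it (schurSys K m).H f (fun _ => schurC K Q false)
      (fun _ => schurC K R true) (Real.pi / 2)) =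
      (schurSys K m).wH fun z x => (schurSys K m).H z x +
        f (tf (schurY K false) (schurSys K m).K Q z) := by
    unfold it itU
    simp only [Real.sin_pi_div_two, Real.cos_pi_div_two, one_mul, zero_mul, add_zero, schur_lin]
    rfl
  have e2 : (schurSys K m).wH (it (schurSys K m).H f (fun _ => schurC K Q false)
      (fun _ => schurC K R true) 0) =
      (schurSys K m).wH fun z x => (schurSys K m).H z x +
        f (tf (schurY K true) (schurSys K m).K R z) := by
    unfold it itU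
    simp only [Real.sin_zero, Real.cos_zero, one_mul, zero_mul, zero_add, schur_lin]
    rfl
  have key := int_le hreg hf hsep (b := b) (fun θ _ _ => ?_)
  · rw [e1, e2, fe_add_tree hreg (y := schurY K false) (fun l hl => schurY_lev _ hl)
      (fun _ _ _ _ => rfl) (R := Q) hQ hlip, fe_add_tree hreg (y := schurY K true)
      (fun l hl => schurY_lev _ hl) (fun _ _ _ _ => rfl) (R := R) hR hlip] at key
    have key' : ∫ x, cascade m Q K f (√(Q 0) * x) ∂(gaussianReal 0 1) -
      ∫ x, cascade m R K f (√(R 0) * x) ∂(gaussianReal 0 1) =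
      (schurSys K m).fe + ∫ x, cascade (schurSys K m).m Q (schurSys K m).K f (√(Q 0) * x)
        ∂(gaussianReal 0 1) - ((schurSys K m).fe +
        ∫ x, cascade (schurSys K m).m R (schurSys K m).K f (√(R 0) * x) ∂(gaussianReal 0 1)) := by
      change _ = (schurSys K m).fe + ∫ x, cascade m Q K f (√(Q 0) * x)
        ∂(gaussianReal 0 1) - ((schurSys K m).fe +
        ∫ x, cascade m R K f (√(R 0) * x) ∂(gaussianReal 0 1))
      ring
    rw [key']
    exact key
  · obtain ⟨S', hS'⟩ : ∃ S', S' = (schurSys K m).wH (it (schurSys K m).H f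
      (fun _ => schurC K Q false) (fun _ => schurC K R true) θ) := ⟨_, rfl⟩
    have hregD := regD_it (α := fun _ => schurC K Q false) (β := fun _ => schurC K R true) hreg hf θ
    rw [← hS'] at hregD
    obtain ⟨u, hu⟩ : ∃ u, u = fun z (x : Unit) => itU (fun _ => schurC K Q false)
      (fun _ => schurC K R true) θ z x := ⟨_, rfl⟩
    have hum : ∀ x, Measurable fun z => u z x := by
      intro x
      rw [hu]
      unfold itU lin
      fun_prop
    have hnh : Nh (fun z x => f' (u z x)) := fun x =>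
      EG.of_bdd (hf.measurable.2.1.comp (hum x)) (C := C₁) fun y => hf.b1 _
    have hS'K : S'.K = K := by rw [hS']; rfl
    refine le_trans (le_of_eq ?_) (hb S' u hregD.toReg hS'K hnh)
    unfold brk
    rw [← hS']
    have hαs : ∑ e, schurC K Q false e ^ 2 = Q K := by
      rw [← schur_sum hQ false le_rfl]
      refine Finset.sum_congr rfl fun e _ => ?_
      rw [if_pos (Nat.le_of_lt_succ e.1.isLt)]
    have hβs : ∑ e, schurC K R true e ^ 2 = R K := by
      rw [← schur_sum hR true le_rfl]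
      refine Finset.sum_congr rfl fun e _ => ?_
      rw [if_pos (Nat.le_of_lt_succ e.1.isLt)]
    congr 1
    · rw [← Sy.Ex_const_mul]
      congr 1
      funext z x
      simp only [hu, hαs, hβs]
      ring
    · refine Finset.sum_congr rfl fun l hl => ?_
      have hlK : l ≤ K := Nat.le_of_lt_succ (Finset.mem_range.1 hl)
      congr 1
      have hT : ∀ (c : ℝ), S'.Ex (fun z _ => S'.T l (fun z x => f' (itU
          (fun _ => schurC K Q false) (fun _ => schurC K R true) θ z x) * c) z ^ 2) =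
          c ^ 2 * S'.Ex (fun z _ => S'.T l (fun z x => f' (u z x)) z ^ 2) := by
        intro c
        rw [← Sy.Ex_const_mul]
        congr 1
        funext z _
        rw [← mul_pow, ← Sy.T_const_mul]
        congr 2
        funext z x
        rw [hu]
        ring
      rw [sub_mul, ← schur_sum hQ false hlK, ← schur_sum hR true hlK, Finset.sum_mul,
        Finset.sum_mul, ← Finset.sum_sub_distrib]
      refine Finset.sum_congr rfl fun e _ => ?_
      change (if (e.1 : ℕ) ≤ l then _ else (0 : ℝ)) = _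
      by_cases h : (e.1 : ℕ) ≤ l
      · rw [if_pos h, if_pos h, if_pos h, hT, hT]
      · rw [if_neg h, if_neg h, if_neg h]
        ring

/-- **Schur monotonicity of the pattern part.** Proof: `int_le` for `X = Unit`, `H = 0`, the levels
`0, …, k + 1`, exponents `m 1, …, m k, 1` (and `m (k+2) = 1`), fields with the paths `ext1 k q'` and
`ext1 k q`; the bracket is `-∑_{l ≤ k} p_l (q' l - q l) E_l`, `E_l = Ex_θ (T_l f')²`, with
`0 ≤ E_0 ≤ … ≤ E_k ≤ C₁²`; Abel summation. -/
theorem pattern_schur {k : ℕ} {m q q' : ℕ → ℝ} (hm : Exponents k m) (hq : Path k q)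
    (hq1 : q k ≤ 1) (hq' : Path k q') (hq1' : q' k ≤ 1) {f f' f'' : ℝ → ℝ} {C₁ C₂ : ℝ}
    (hf : Pot f f' f'' C₁ C₂) {ε : ℝ} (hε : 0 ≤ ε)
    (h : ∀ j ≤ k, -ε ≤ ∑ l ∈ Finset.Ico j (k + 1), (m (l + 1) - m l) * (q' l - q l)) :
    patternPart f k m q' ≤ patternPart f k m q + 1 / 2 * C₁ ^ 2 * ε := by
  obtain ⟨mm, hmm⟩ : ∃ mm : ℕ → ℝ, mm = fun l => if l ≤ k + 1 then m l else 1 := ⟨_, rfl⟩
  have hml : ∀ l ≤ k + 1, mm l = m l := fun l hl => by rw [hmm]; exact if_pos hl
  have hm2 : mm (k + 2) = 1 := by rw [hmm]; exact if_neg (by omega)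
  have hext : ∀ {q : ℕ → ℝ}, Path k q → q k ≤ 1 → Path (k + 1) (ext1 k q) := by
    intro q hq hq1
    refine ⟨?_, fun l hl => ?_⟩
    · rw [ext1, if_pos (Nat.zero_le _)]; exact hq.1
    · rcases Nat.lt_or_ge l k with h1 | h1
      · rw [ext1, ext1, if_pos h1.le, if_pos (show l + 1 ≤ k from h1)]; exact hq.2 l h1
      · have : l = k := by omega
        subst this
        rw [ext1, ext1, if_pos le_rfl, if_neg (by omega)]; exact hq1
  have hcas : ∀ q F x, cascade m (ext1 k q) (k + 1) F x = cascade mm (ext1 k q) (k + 1) F x :=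
    fun q F x => schur_cascade_congr (k + 1) (fun l hl => (hml _ (by omega)).symm) F x
  have he0 : ∀ q : ℕ → ℝ, ext1 k q 0 = q 0 := fun q => by rw [ext1, if_pos (Nat.zero_le _)]
  have key := schur_int (K := k + 1) (m := mm) (Q := ext1 k q') (R := ext1 k q)
    (by rw [hml 0 (by omega)]; exact hm.1) hm2 (fun l hl => ?_)
    (by rw [hml 1 (by omega)]; have := hm.2.2 0 (Nat.zero_le _); rw [hm.1] at this; exact this)
    (hext hq' hq1') (hext hq hq1) hf (b := C₁ ^ 2 * ε) (fun S' u hS' hK hu => ?_)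
  · rw [patternPart_eq_cascade hm, patternPart_eq_cascade hm]
    simp only [hcas, he0] at key ⊢
    linarith only [key]
  · rcases Nat.lt_or_ge l (k + 1) with h1 | h1
    · rw [hml l hl, hml (l + 1) h1]; exact (hm.2.2 l (by omega)).le
    · have : l = k + 1 := by omega
      subst this
      rw [hml _ le_rfl, hm.2.1]
      exact hm2.ge
  · have e1 : ext1 k q' (k + 1) = 1 := by rw [ext1, if_neg (by omega)]
    have e2 : ext1 k q (k + 1) = 1 := by rw [ext1, if_neg (by omega)]
    rw [e1, e2, sub_self, zero_mul, zero_sub, Finset.sum_range_succ, e1, e2, sub_self, zero_mul,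
      mul_zero, add_zero]
    have e3 : ∑ l ∈ Finset.range (k + 1), (mm (l + 1) - mm l) * ((ext1 k q' l - ext1 k q l) *
        S'.Ex (fun z _ => S'.T l (fun z x => f' (u z x)) z ^ 2)) =
        ∑ l ∈ Finset.range (k + 1), ((m (l + 1) - m l) * (q' l - q l)) *
        S'.Ex (fun z _ => S'.T l (fun z x => f' (u z x)) z ^ 2) := by
      refine Finset.sum_congr rfl fun l hl => ?_
      have hl' : l ≤ k := Nat.le_of_lt_succ (Finset.mem_range.1 hl)
      rw [hml l (by omega), hml (l + 1) (by omega), ext1, ext1, if_pos hl', if_pos hl']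
      ring
    rw [e3]
    have h1 := schur_abel (k := k) (a := fun l => (m (l + 1) - m l) * (q' l - q l))
      (E := fun l => S'.Ex (fun z _ => S'.T l (fun z x => f' (u z x)) z ^ 2)) (ε := ε)
      (hS'.schur_nonneg (Nat.zero_le _) hu)
      (fun l hl => hS'.schur_mono (Nat.le_succ l) (by omega) hu) h
    have h2 := hS'.schur_le (l := k) (by omega) hu (fun z x => hf.b1 _)
    have h3 : ε * S'.Ex (fun z _ => S'.T k (fun z x => f' (u z x)) z ^ 2) ≤ C₁ ^ 2 * ε := by
      rw [mul_comm]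
      exact mul_le_mul_of_nonneg_right h2 hε
    simp only [neg_mul] at h1
    linarith

/-- **Schur monotonicity of the spin part.** Proof: `int_le` for `X = Unit`, `H = 0`, the function
`log cosh` (`f' = tanh`, `f'' + f'² = 1`), paths `r'` and `r`: the bracket is
`(r' k - r k) - ∑ p_l (r' l - r l) E_l` with `0 ≤ E_0 ≤ … ≤ E_k`. -/
theorem spin_schur {k : ℕ} {m r r' : ℕ → ℝ} (hm : Exponents k m) (hr : Path k r)
    (hr' : Path k r')
    (h : ∀ j ≤ k, 0 ≤ ∑ l ∈ Finset.Ico j (k + 1), (m (l + 1) - m l) * (r' l - r l)) :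
    spinPart k m r' ≤ spinPart k m r := by
  have hpot : Pot (fun x => Real.log (Real.cosh x)) Real.tanh (fun x => 1 - Real.tanh x ^ 2) 1 1 := by
    refine ⟨fun x => ?_, fun x => ?_, fun x => (Real.abs_tanh_lt_one x).le, fun x => ?_⟩
    · have h1 := (Real.hasDerivAt_cosh x).log (Real.cosh_pos x).ne'
      rw [← Real.tanh_eq_sinh_div_cosh] at h1
      exact h1
    · have h1 : Real.tanh = Real.sinh / Real.cosh := by
        funext y
        exact Real.tanh_eq_sinh_div_cosh y
      have h2 := (Real.hasDerivAt_sinh x).div (Real.hasDerivAt_cosh x) (Real.cosh_pos x).ne'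
      rw [← h1] at h2
      refine h2.congr_deriv ?_
      rw [Real.tanh_eq_sinh_div_cosh]
      have h3 := (Real.cosh_pos x).ne'
      field_simp
    · have h1 := Real.tanh_sq_lt_one x
      have h2 := sq_nonneg (Real.tanh x)
      rw [abs_le]
      constructor <;> linarith
  have hm0 := hm.2.2 0 (Nat.zero_le _)
  rw [hm.1] at hm0
  have key := schur_int (K := k) (m := m) (Q := r') (R := r) hm.1 hm.2.1
    (fun l hl => (hm.2.2 l hl).le) hm0 hr' hr hpot (b := r' k - r k) (fun S' u hS' hK hu => ?_)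
  · unfold spinPart
    linarith
  · have e0 : (fun z x => 1 - Real.tanh (u z x) ^ 2 + Real.tanh (u z x) ^ 2) =
        fun (_ : Fin (k + 1) × Bool → ℝ) (_ : Unit) => (1 : ℝ) := by
      funext z x
      ring
    have e1 : (r' k - r k) * S'.Ex (fun z x => 1 - Real.tanh (u z x) ^ 2 +
        Real.tanh (u z x) ^ 2) = r' k - r k := by
      rw [e0, hS'.Ex_const, mul_one]
    simp only [e1]
    have h1 := schur_abel (k := k) (a := fun l => (m (l + 1) - m l) * (r' l - r l))
      (E := fun l => S'.Ex (fun z _ => S'.T l (fun z x => Real.tanh (u z x)) z ^ 2)) (ε := 0)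
      (hS'.schur_nonneg (Nat.zero_le _) hu)
      (fun l hl => hS'.schur_mono (Nat.le_succ l) (by omega) hu)
      (fun j hj => by rw [neg_zero]; exact h j hj)
    simp only [neg_zero, zero_mul, mul_assoc] at h1
    linarith

end Vale.Agent.P157.Lv
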