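import Vale.Agent.P157.LvSchur

/-!
Refinement of the exponents: each level is split into `n` levels. Block averages of paths.
-/

open MeasureTheory ProbabilityTheory Filter Topology

namespace Vale.Agent.P157.Lv

set_option linter.unusedSectionVars false

open Par (incr Path Exponents cascade gstep patternPart spinPart parisi)

/-- The refined exponents: `m' l = m (l / n) + ((l % n) / n) (m (l / n + 1) - m (l / n))`. -/
noncomputable def rfm (n : ℕ) (m : ℕ → ℝ) : ℕ → ℝ := fun l =>
  m (l / n) + ((l % n : ℕ) : ℝ) / n * (m (l / n + 1) - m (l / n))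

/-- The refined path. -/
def rfp (n : ℕ) (q : ℕ → ℝ) : ℕ → ℝ := fun l => q (l / n)

/-- The number of the last level: `(k + 1) n - 1`. -/
def rfk (n k : ℕ) : ℕ := (k + 1) * n - 1

/-- The block averages of a path. -/
noncomputable def bav (n : ℕ) (r : ℕ → ℝ) : ℕ → ℝ := fun b => 1 / n * ∑ i ∈ Finset.range n, r (b * n + i)

variable {n k : ℕ} {m q r : ℕ → ℝ}

/-- A step with increment zero does nothing. -/
lemma gstep_zero {m : ℝ} (hm : m ≠ 0) (F : ℝ → ℝ) : gstep m 0 F = F := by
  funext x
  unfold gstep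
  simp only [Real.sqrt_zero, zero_mul, add_zero, integral_const, probReal_univ, one_smul,
    Real.log_exp]
  field_simp

lemma rf_rfk_succ (hn : 0 < n) : rfk n k + 1 = (k + 1) * n := by
  unfold rfk
  have : 0 < (k + 1) * n := by positivity
  omega

lemma rf_div (b : ℕ) {i : ℕ} (hi : i < n) : (b * n + i) / n = b := by
  have hn : 0 < n := by omega
  rw [mul_comm, Nat.mul_add_div hn, Nat.div_eq_of_lt hi, add_zero]

lemma rf_mod (b : ℕ) {i : ℕ} (hi : i < n) : (b * n + i) % n = i := by
  rw [mul_comm, Nat.mul_add_mod, Nat.mod_eq_of_lt hi]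

lemma rf_div_le (hn : 0 < n) {l : ℕ} (hl : l ≤ rfk n k) : l / n ≤ k := by
  have h1 := rf_rfk_succ (k := k) hn
  have h2 : l / n < k + 1 := (Nat.div_lt_iff_lt_mul hn).2 (by omega)
  omega

lemma rf_decomp (hn : 0 < n) (l : ℕ) : ∃ b i, i < n ∧ l = b * n + i ∧ l / n = b := by
  refine ⟨l / n, l % n, Nat.mod_lt _ hn, ?_, rfl⟩
  have := Nat.div_add_mod l n
  rw [mul_comm] at this
  exact this.symm

lemma rf_rfm_block (b : ℕ) {i : ℕ} (hn : 0 < n) (hi : i ≤ n) :
    rfm n m (b * n + i) = m b + (i : ℝ) / n * (m (b + 1) - m b) := by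
  have hn' : (n : ℝ) ≠ 0 := by exact_mod_cast hn.ne'
  rcases hi.eq_or_lt with h | h
  · subst h
    have e : b * i + i = (b + 1) * i + 0 := by ring
    have h1 : (b * i + i) / i = b + 1 := by rw [e]; exact rf_div (b + 1) hn
    have h2 : (b * i + i) % i = 0 := by rw [e]; exact rf_mod (b + 1) hn
    unfold rfm
    rw [h1, h2]
    simp only [Nat.cast_zero, zero_div, zero_mul, add_zero]
    rw [div_self hn']
    ring
  · unfold rfm
    rw [rf_div b h, rf_mod b h]

lemma rf_sub_block (b : ℕ) {i : ℕ} (hi : i < n) :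
    rfm n m (b * n + i + 1) - rfm n m (b * n + i) = 1 / n * (m (b + 1) - m b) := by
  have hn : 0 < n := by omega
  have h1 := rf_rfm_block (m := m) b hn (i := i + 1) (by omega)
  have h2 := rf_rfm_block (m := m) b hn (i := i) hi.le
  rw [← add_assoc] at h1
  rw [h1, h2]
  push_cast
  ring

theorem rfm_sub (hn : 0 < n) (hm : Exponents k m) {l : ℕ} (hl : l ≤ rfk n k) :
    rfm n m (l + 1) - rfm n m l = 1 / n * (m (l / n + 1) - m (l / n)) := by
  obtain ⟨b, i, hi, hl1, hb⟩ := rf_decomp hn l
  rw [hb, hl1]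
  exact rf_sub_block b hi

theorem rfm_exponents (hn : 0 < n) (hm : Exponents k m) : Exponents (rfk n k) (rfm n m) := by
  refine ⟨?_, ?_, ?_⟩
  · have h := rf_rfm_block (m := m) 0 hn (i := 0) (by omega)
    simp only [zero_mul, add_zero, Nat.cast_zero, zero_div] at h
    rw [h]
    exact hm.1
  · have h := rf_rfm_block (m := m) (k + 1) hn (i := 0) (by omega)
    simp only [add_zero, Nat.cast_zero, zero_div, zero_mul] at h
    rw [rf_rfk_succ hn, h]
    exact hm.2.1
  · intro l hl
    have h1 := rfm_sub hn hm hl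
    have h2 := hm.2.2 (l / n) (rf_div_le hn hl)
    have h3 : 0 < 1 / (n : ℝ) * (m (l / n + 1) - m (l / n)) := by
      have : (0 : ℝ) < n := by exact_mod_cast hn
      have h4 : 0 < m (l / n + 1) - m (l / n) := by linarith
      positivity
    linarith

lemma rf_exp_nonneg (hm : Exponents k m) : ∀ j ≤ k + 1, 0 ≤ m j := by
  intro j
  induction j with
  | zero => intro _; exact hm.1.ge
  | succ j ih =>
    intro hj
    have h1 := ih (by omega)
    have h2 := hm.2.2 j (by omega)
    linarith

lemma rf_exp_le_one (hm : Exponents k m) : ∀ d ≤ k + 1, m (k + 1 - d) ≤ 1 := by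
  intro d
  induction d with
  | zero => intro _; exact hm.2.1.le
  | succ d ih =>
    intro hd
    have h1 := ih (by omega)
    have h2 := hm.2.2 (k + 1 - (d + 1)) (by omega)
    have e : k + 1 - (d + 1) + 1 = k + 1 - d := by omega
    rw [e] at h2
    linarith

theorem rfm_mesh (hn : 0 < n) (hm : Exponents k m) {l : ℕ} (hl : l ≤ rfk n k) :
    rfm n m (l + 1) - rfm n m l ≤ 1 / n := by
  rw [rfm_sub hn hm hl]
  have hb := rf_div_le hn hl
  generalize l / n = c at hb ⊢
  have h1 := rf_exp_nonneg hm c (by omega)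
  have h2 := rf_exp_le_one hm (k + 1 - (c + 1)) (by omega)
  have e : k + 1 - (k + 1 - (c + 1)) = c + 1 := by omega
  rw [e] at h2
  have hn' : (0 : ℝ) < n := by exact_mod_cast hn
  calc 1 / (n : ℝ) * (m (c + 1) - m c) ≤ 1 / (n : ℝ) * 1 :=
        mul_le_mul_of_nonneg_left (by linarith) (by positivity)
    _ = 1 / n := mul_one _

theorem rfp_path (hn : 0 < n) (hq : Path k q) : Path (rfk n k) (rfp n q) := by
  refine ⟨?_, ?_⟩
  · unfold rfp
    rw [Nat.zero_div]
    exact hq.1
  · intro l hl
    unfold rfp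
    have h1 : (l + 1) / n ≤ k := rf_div_le hn (by omega)
    rw [Nat.succ_div] at h1 ⊢
    split_ifs at h1 ⊢
    · exact hq.2 (l / n) (by omega)
    · exact le_rfl

theorem rfp_last (hn : 0 < n) : rfp n q (rfk n k) = q k := by
  unfold rfp
  have h1 : rfk n k = k * n + (n - 1) := by
    have h := rf_rfk_succ (k := k) hn
    have : (k + 1) * n = k * n + n := by ring
    omega
  rw [h1, rf_div k (by omega)]

lemma rf_path_mono (hr : Path k r) : ∀ j d, j + d ≤ k → r j ≤ r (j + d) := by
  intro j d
  induction d with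
  | zero => intro _; exact le_rfl
  | succ d ih =>
    intro h
    have h1 := ih (by omega)
    have h2 := hr.2 (j + d) (by omega)
    exact h1.trans h2

lemma rf_path_nonneg (hr : Path k r) {j : ℕ} (hj : j ≤ k) : 0 ≤ r j := by
  have h := rf_path_mono hr 0 j (by omega)
  rw [zero_add] at h
  exact hr.1.trans h

lemma rf_lt (hn : 0 < n) {b i : ℕ} (hb : b ≤ k) (hi : i < n) : b * n + i ≤ rfk n k := by
  have h := rf_rfk_succ (k := k) hn
  have h2 : (b + 1) * n ≤ (k + 1) * n := Nat.mul_le_mul_right _ (by omega)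
  have h3 : (b + 1) * n = b * n + n := by ring
  omega

theorem bav_path (hn : 0 < n) (hr : Path (rfk n k) r) : Path k (bav n r) := by
  have hn' : (0 : ℝ) < n := by exact_mod_cast hn
  refine ⟨?_, ?_⟩
  · unfold bav
    refine mul_nonneg (by positivity) (Finset.sum_nonneg fun i hi => ?_)
    rw [Finset.mem_range] at hi
    exact rf_path_nonneg hr (rf_lt hn (Nat.zero_le k) hi)
  · intro b hb
    unfold bav
    refine mul_le_mul_of_nonneg_left (Finset.sum_le_sum fun i hi => ?_) (by positivity)
    rw [Finset.mem_range] at hi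
    have e : (b + 1) * n + i = b * n + i + n := by ring
    have h1 : (b + 1) * n + i ≤ rfk n k := rf_lt hn (by omega) hi
    rw [e] at h1 ⊢
    exact rf_path_mono hr _ _ h1

lemma rf_rfm_ne (hn : 0 < n) (hm : Exponents k m) {l : ℕ} (h0 : 1 ≤ l) (hl : l ≤ rfk n k + 1) :
    rfm n m l ≠ 0 := by
  have he := rfm_exponents hn hm
  have h1 := rf_exp_nonneg he (l - 1) (by omega)
  have h2 := he.2.2 (l - 1) (by omega)
  have e : l - 1 + 1 = l := by omega
  rw [e] at h2
  linarith

lemma rf_cascade (hn : 0 < n) (hm : Exponents k m) : ∀ b ≤ k, ∀ i < n, ∀ F : ℝ → ℝ,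
    cascade (rfm n m) (rfp n q) (b * n + i) F = cascade m q b F := by
  have step : ∀ b ≤ k, (∀ F : ℝ → ℝ, cascade (rfm n m) (rfp n q) (b * n) F = cascade m q b F) →
      ∀ i < n, ∀ F : ℝ → ℝ, cascade (rfm n m) (rfp n q) (b * n + i) F = cascade m q b F := by
    intro b hb h0 i
    induction i with
    | zero => intro _ F; exact h0 F
    | succ i ih =>
      intro hi F
      have e : b * n + (i + 1) = b * n + i + 1 := by ring
      rw [e, Par.cascade_succ_def]
      have e1 : rfp n q (b * n + i + 1) - rfp n q (b * n + i) = 0 := by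
        unfold rfp
        rw [← e, rf_div b hi, rf_div b (by omega : i < n), sub_self]
      have h1 : b * n + (i + 1) ≤ rfk n k := rf_lt hn hb hi
      rw [e1, gstep_zero (rf_rfm_ne hn hm (by omega) (by omega))]
      exact ih (by omega) F
  intro b
  induction b with
  | zero =>
    intro hb
    refine step 0 hb (fun F => ?_)
    rw [zero_mul]
    rfl
  | succ b ih =>
    intro hb
    refine step (b + 1) hb (fun F => ?_)
    have e : (b + 1) * n = b * n + (n - 1) + 1 := by
      have : (b + 1) * n = b * n + n := by ring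
      omega
    rw [e, Par.cascade_succ_def, ih (by omega) (n - 1) (by omega), ← e,
      Par.cascade_succ_def m q b F]
    have e1 : rfm n m ((b + 1) * n) = m (b + 1) := by
      have h := rf_rfm_block (m := m) (b + 1) hn (i := 0) (by omega)
      simp only [add_zero, Nat.cast_zero, zero_div, zero_mul] at h
      exact h
    have e2 : rfp n q ((b + 1) * n) = q (b + 1) := by
      unfold rfp
      rw [Nat.mul_div_cancel _ hn]
    have e3 : rfp n q (b * n + (n - 1)) = q b := by
      unfold rfp
      rw [rf_div b (by omega)]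
    rw [e1, e2, e3]

lemma rf_cascade_top (hn : 0 < n) (hm : Exponents k m) (F : ℝ → ℝ) :
    cascade (rfm n m) (rfp n q) (rfk n k) F = cascade m q k F := by
  have h1 : rfk n k = k * n + (n - 1) := by
    have h := rf_rfk_succ (k := k) hn
    have : (k + 1) * n = k * n + n := by ring
    omega
  rw [h1]
  exact rf_cascade hn hm k le_rfl (n - 1) (by omega) F

/-- The cascade does not change. -/
theorem patternPart_rf (hn : 0 < n) (hm : Exponents k m) (f : ℝ → ℝ) :
    patternPart f (rfk n k) (rfm n m) (rfp n q) = patternPart f k m q := by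
  have h0 : rfp n q 0 = q 0 := by
    unfold rfp
    rw [Nat.zero_div]
  unfold patternPart
  rw [rf_cascade_top hn hm, rfp_last hn, h0]

theorem spinPart_rf (hn : 0 < n) (hm : Exponents k m) :
    spinPart (rfk n k) (rfm n m) (rfp n r) = spinPart k m r := by
  have h0 : rfp n r 0 = r 0 := by
    unfold rfp
    rw [Nat.zero_div]
  unfold spinPart
  rw [rf_cascade_top hn hm, rfp_last hn, h0]

/-- tails of a nondecreasing sequence minus its average -/
lemma rf_tail_avg (hn : 0 < n) {s : ℕ → ℝ} (hs : ∀ i j, i ≤ j → j < n → s i ≤ s j) {i0 : ℕ}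
    (hi0 : i0 < n) :
    0 ≤ ∑ i ∈ Finset.Ico i0 n, (s i - 1 / n * ∑ j ∈ Finset.range n, s j) := by
  have hn' : (0 : ℝ) < n := by exact_mod_cast hn
  obtain ⟨c, hc⟩ : ∃ c, c = 1 / (n : ℝ) * ∑ j ∈ Finset.range n, s j := ⟨_, rfl⟩
  rw [← hc]
  by_cases h : c ≤ s i0
  · refine Finset.sum_nonneg fun i hi => ?_
    rw [Finset.mem_Ico] at hi
    have := hs i0 i hi.1 hi.2
    linarith
  · push Not at h
    have h0 : ∑ i ∈ Finset.range n, (s i - c) = 0 := by
      rw [Finset.sum_sub_distrib, Finset.sum_const, Finset.card_range, nsmul_eq_mul, hc]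
      field_simp
      ring
    have h1 : ∑ i ∈ Finset.range i0, (s i - c) + ∑ i ∈ Finset.Ico i0 n, (s i - c)
        = ∑ i ∈ Finset.range n, (s i - c) := Finset.sum_range_add_sum_Ico _ hi0.le
    have h2 : ∑ i ∈ Finset.range i0, (s i - c) ≤ 0 := by
      refine Finset.sum_nonpos fun i hi => ?_
      rw [Finset.mem_range] at hi
      have := hs i i0 hi.le hi0
      linarith
    linarith

lemma rf_shift (f : ℕ → ℝ) (a i0 : ℕ) :
    ∑ l ∈ Finset.Ico (a + i0) (a + n), f l = ∑ i ∈ Finset.Ico i0 n, f (a + i) := by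
  rw [add_comm a i0, add_comm a n, ← Finset.sum_Ico_add' f i0 n a]
  exact Finset.sum_congr rfl fun i _ => by rw [add_comm]

/-- The spin part of a path is at most the spin part of its block averages. Proof:
`spin_schur`, the tails of a nondecreasing sequence minus its average are nonnegative. -/
theorem spinPart_bav (hn : 0 < n) (hm : Exponents k m) (hr : Path (rfk n k) r) :
    spinPart (rfk n k) (rfm n m) r ≤ spinPart k m (bav n r) := by
  rw [← spinPart_rf hn hm]
  refine spin_schur (rfm_exponents hn hm) (rfp_path hn (bav_path hn hr)) hr ?_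
  have hn' : (0 : ℝ) < n := by exact_mod_cast hn
  obtain ⟨a, ha⟩ : ∃ a : ℕ → ℝ, a = fun l =>
    (rfm n m (l + 1) - rfm n m l) * (r l - rfp n (bav n r) l) := ⟨_, rfl⟩
  have hblk : ∀ b i, i < n → a (b * n + i) =
      1 / n * (m (b + 1) - m b) * (r (b * n + i) - bav n r b) := by
    intro b i hi
    rw [ha]
    simp only
    rw [rf_sub_block b hi]
    congr 2
    unfold rfp
    rw [rf_div b hi]
  have hpart : ∀ b ≤ k, ∀ i0 < n, 0 ≤ ∑ l ∈ Finset.Ico (b * n + i0) (b * n + n), a l := by
    intro b hb i0 hi0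
    rw [rf_shift a (b * n) i0]
    have h1 : ∑ i ∈ Finset.Ico i0 n, a (b * n + i) = 1 / n * (m (b + 1) - m b) *
        ∑ i ∈ Finset.Ico i0 n, (r (b * n + i) - bav n r b) := by
      rw [Finset.mul_sum]
      refine Finset.sum_congr rfl fun i hi => ?_
      rw [Finset.mem_Ico] at hi
      exact hblk b i hi.2
    rw [h1]
    have h2 := hm.2.2 b hb
    refine mul_nonneg (mul_nonneg (by positivity) (by linarith)) ?_
    unfold bav
    refine rf_tail_avg hn (s := fun i => r (b * n + i)) (fun i j hij hj => ?_) hi0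
    have h3 : b * n + j ≤ rfk n k := rf_lt hn hb hj
    have h4 := rf_path_mono hr (b * n + i) (j - i) (by omega)
    have e : b * n + i + (j - i) = b * n + j := by omega
    rw [e] at h4
    exact h4
  have hall : ∀ d ≤ k + 1, 0 ≤ ∑ l ∈ Finset.Ico ((k + 1 - d) * n) ((k + 1) * n), a l := by
    intro d
    induction d with
    | zero => intro _; simp
    | succ d ih =>
      intro hd
      have h1 := ih (by omega)
      obtain ⟨b, hb⟩ : ∃ b, b = k + 1 - (d + 1) := ⟨_, rfl⟩
      have e : k + 1 - d = b + 1 := by omega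
      rw [e] at h1
      rw [← hb]
      have h2 := hpart b (by omega) 0 hn
      have e2 : b * n + n = (b + 1) * n := by ring
      rw [add_zero, e2] at h2
      have h3 := Finset.sum_Ico_consecutive a (m := b * n) (n := (b + 1) * n)
        (k := (k + 1) * n) (Nat.mul_le_mul_right _ (by omega)) (Nat.mul_le_mul_right _ (by omega))
      rw [← h3]
      linarith
  intro j hj
  obtain ⟨b, i0, hi0, hj1, hb⟩ := rf_decomp hn j
  have hbk : b ≤ k := by rw [← hb]; exact rf_div_le hn hj
  change 0 ≤ ∑ l ∈ Finset.Ico j (rfk n k + 1),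
    (rfm n m (l + 1) - rfm n m l) * (r l - rfp n (bav n r) l)
  have e3 : ∑ l ∈ Finset.Ico j (rfk n k + 1),
      (rfm n m (l + 1) - rfm n m l) * (r l - rfp n (bav n r) l)
      = ∑ l ∈ Finset.Ico j ((k + 1) * n), a l := by
    rw [rf_rfk_succ hn, ha]
  rw [e3, hj1]
  have h2 := hpart b hbk i0 hi0
  have h4 := hall (k + 1 - (b + 1)) (by omega)
  have e4 : k + 1 - (k + 1 - (b + 1)) = b + 1 := by omega
  rw [e4] at h4
  have e2 : b * n + n = (b + 1) * n := by ring
  rw [e2] at h2
  have h3 := Finset.sum_Ico_consecutive a (m := b * n + i0) (n := (b + 1) * n)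
    (k := (k + 1) * n) (by rw [← e2]; omega) (Nat.mul_le_mul_right _ (by omega))
  rw [← h3]
  linarith

lemma rf_blk_sum (f : ℕ → ℝ) (K : ℕ) :
    ∑ l ∈ Finset.range (K * n), f l = ∑ b ∈ Finset.range K, ∑ i ∈ Finset.range n, f (b * n + i) := by
  induction K with
  | zero => simp
  | succ K ih =>
    have e : (K + 1) * n = K * n + n := by ring
    rw [e, Finset.sum_range_add, ih, Finset.sum_range_succ]

/-- Sums against a block constant path. -/
theorem sum_bav (hn : 0 < n) (hm : Exponents k m) :
    ∑ l ∈ Finset.range (rfk n k + 1), (rfm n m (l + 1) - rfm n m l) * r l * rfp n q l =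
      ∑ l ∈ Finset.range (k + 1), (m (l + 1) - m l) * bav n r l * q l := by
  rw [rf_rfk_succ hn, rf_blk_sum]
  refine Finset.sum_congr rfl fun b hb => ?_
  have h1 : ∀ i ∈ Finset.range n, (rfm n m (b * n + i + 1) - rfm n m (b * n + i)) * r (b * n + i) *
      rfp n q (b * n + i) = (m (b + 1) - m b) * q b * (1 / n) * r (b * n + i) := by
    intro i hi
    rw [Finset.mem_range] at hi
    rw [rf_sub_block b hi]
    unfold rfp
    rw [rf_div b hi]
    ring
  rw [Finset.sum_congr rfl h1, ← Finset.mul_sum]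
  unfold bav
  ring

end Vale.Agent.P157.Lv
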