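import Vale.Agent.P157.Defs
import Vale.Agent.P157.SpinDefs

open MeasureTheory ProbabilityTheory

namespace Vale.Agent.P157

/-- Standard Gaussian vector in `ℝ^N`. -/
noncomputable def gvec (N : ℕ) : Measure (Fin N → ℝ) := Measure.pi fun _ => gaussianReal 0 1

instance (N : ℕ) : IsProbabilityMeasure (gvec N) := by unfold gvec; infer_instance

lemma patterns_eq (M N : ℕ) : patterns M N = Measure.pi fun _ : Fin M => gvec N := rfl

instance (M N : ℕ) : IsProbabilityMeasure (patterns M N) := by
  rw [patterns_eq]; infer_instance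

lemma spin_sq {N : ℕ} (σ : Fin N → Bool) (i : Fin N) : spin σ i * spin σ i = 1 := by
  unfold spin; split_ifs <;> norm_num

lemma coin_eq : ((1 / 2 : ENNReal) • (Measure.dirac (1 : ℝ) + Measure.dirac (-1 : ℝ))) =
    ∑ b : Bool, (1 / 2 : ENNReal) • Measure.dirac (if b then (1 : ℝ) else -1) := by
  simp [smul_add]

instance : IsProbabilityMeasure
    ((1 / 2 : ENNReal) • (Measure.dirac (1 : ℝ) + Measure.dirac (-1 : ℝ))) := by
  constructor
  simp only [Measure.smul_apply, Measure.add_apply, measure_univ, smul_eq_mul, one_div]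
  rw [one_add_one_eq_two]
  exact ENNReal.inv_mul_cancel (by norm_num) (by norm_num)

instance (N : ℕ) : IsProbabilityMeasure (cube N) := by unfold cube; infer_instance

lemma cube_eq (N : ℕ) :
    cube N = ∑ σ : Fin N → Bool, ((1 / 2 : ENNReal) ^ N) • Measure.dirac (spin σ) := by
  unfold cube
  refine Measure.pi_eq fun s hs => ?_
  rw [Measure.finsetSum_apply]
  have h1 : ∀ i : Fin N,
      ((1 / 2 : ENNReal) • (Measure.dirac (1 : ℝ) + Measure.dirac (-1 : ℝ))) (s i) =
      ∑ b : Bool, (1 / 2 : ENNReal) * (s i).indicator 1 (if b then (1 : ℝ) else -1) := by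
    intro i
    rw [coin_eq, Measure.finsetSum_apply]
    refine Finset.sum_congr rfl fun b _ => ?_
    rw [Measure.smul_apply, Measure.dirac_apply' _ (hs i), smul_eq_mul]
  simp_rw [h1]
  rw [Finset.prod_univ_sum]
  rw [Fintype.piFinset_univ]
  refine Finset.sum_congr rfl fun σ _ => ?_
  rw [Measure.smul_apply, Measure.dirac_apply' _ (MeasurableSet.univ_pi hs), smul_eq_mul,
    Finset.prod_mul_distrib, Finset.prod_const, Finset.card_univ, Fintype.card_fin]
  congr 1
  by_cases h : spin σ ∈ Set.univ.pi s
  · rw [Set.indicator_of_mem h]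
    symm
    apply Finset.prod_eq_one
    intro i _
    exact Set.indicator_of_mem (h i (Set.mem_univ i)) _
  · rw [Set.indicator_of_notMem h]
    simp only [Set.mem_pi, Set.mem_univ, forall_true_left, not_forall] at h
    obtain ⟨i, hi⟩ := h
    symm
    apply Finset.prod_eq_zero (Finset.mem_univ i)
    exact Set.indicator_of_notMem hi _

/-- Integrals over the cube are averages over Boolean vectors. -/
lemma integral_cube {N : ℕ} (F : (Fin N → ℝ) → ℝ) :
    ∫ x, F x ∂(cube N) = (1 / 2 : ℝ) ^ N * ∑ σ : Fin N → Bool, F (spin σ) := by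
  rw [cube_eq, integral_finset_sum_measure]
  · rw [Finset.mul_sum]
    refine Finset.sum_congr rfl fun σ _ => ?_
    rw [integral_smul_measure, integral_dirac]
    simp
  · intro σ _
    refine Integrable.smul_measure ?_ (by simp)
    exact integrable_dirac (by simp)

end Vale.Agent.P157
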