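import Vale.Agent.P157.RemUpper

open MeasureTheory ProbabilityTheory Filter Topology

namespace Vale.Agent.P157

lemma meanPressure_cube (α : ℝ) (f : ℝ → ℝ) (N : ℕ) :
    meanPressure cube α f N = 1 / N * ∫ g, logZ f g ∂(patterns ⌊α * N⌋₊ N) := by
  unfold meanPressure
  simp_rw [pressure_cube]
  rw [integral_const_mul]

lemma tendsto_floor_div {α : ℝ} (hα : 0 < α) :
    Tendsto (fun N : ℕ => ((⌊α * N⌋₊ : ℕ) : ℝ) / N) atTop (𝓝 α) := by
  have h := (tendsto_nat_floor_mul_div_atTop hα.le).comp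
    (tendsto_natCast_atTop_atTop (R := ℝ))
  exact h

lemma tendsto_log_div : Tendsto (fun N : ℕ => Real.log (16 * ((N : ℝ) + 1)) / N) atTop (𝓝 0) := by
  have h1 : Tendsto (fun x : ℝ => Real.log x / x) atTop (𝓝 0) := by
    have := Real.isLittleO_log_id_atTop.tendsto_div_nhds_zero
    simpa using this
  have h2 : Tendsto (fun N : ℕ => 16 * ((N : ℝ) + 1)) atTop atTop :=
    ((tendsto_natCast_atTop_atTop (R := ℝ)).atTop_add tendsto_const_nhds).const_mul_atTop
      (by norm_num)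
  have h3 := h1.comp h2
  have h4 : Tendsto (fun N : ℕ => 16 * ((N : ℝ) + 1) / N) atTop (𝓝 16) := by
    have h5 : Tendsto (fun N : ℕ => 16 + 16 * (1 / (N : ℝ))) atTop (𝓝 (16 + 16 * 0)) :=
      tendsto_const_nhds.add (tendsto_one_div_atTop_nhds_zero_nat.const_mul 16)
    rw [mul_zero, add_zero] at h5
    refine h5.congr' ?_
    filter_upwards [eventually_gt_atTop 0] with N hN
    have : (N : ℝ) ≠ 0 := by positivity
    field_simp
  have h6 := h3.mul h4
  rw [zero_mul] at h6
  refine h6.congr' ?_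
  filter_upwards [eventually_gt_atTop 0] with N hN
  have : (N : ℝ) ≠ 0 := by positivity
  simp only [Function.comp]
  field_simp

/-- The general criterion: explicit limit of the mean pressure on the Ising cube. -/
theorem rem_limit {f : ℝ → ℝ} (hf : Measurable f) {D : ℝ} (hD : ∀ x, |f x| ≤ D) {α : ℝ}
    (hα : 0 < α) {m : ℝ} (hm0 : 0 < m) (hm1 : m ≤ 1) {Λ K : ℝ}
    (hΛ : Real.exp Λ = ∫ x, Real.exp (m * f x) ∂(gaussianReal 0 1))
    (hK : K = ∫ x, (m * f x - Λ) * Real.exp (m * f x - Λ) ∂(gaussianReal 0 1))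
    (hph : m < 1 → α * K = Real.log 2)
    (hpair : ∀ ρ ∈ Set.Icc (-1 : ℝ) 1, ∃ s ∈ Set.Icc (0 : ℝ) 1,
      α * (2 * (1 - s) * K +
        Real.log (pairInt (fun x => Real.exp (s * (m * f x - Λ))) ρ)) ≤
        Real.log 2 - Real.binEntropy ((1 + ρ) / 2)) :
    Tendsto (meanPressure cube α f) atTop (𝓝 ((Real.log 2 + α * Λ) / m - Real.log 2)) := by
  set L := (Real.log 2 + α * Λ) / m - Real.log 2 with hL
  set C := ∫ x, ((m * f x - Λ) - K) ^ 2 * Real.exp (m * f x - Λ) ∂(gaussianReal 0 1) with hC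
  have hfl := tendsto_floor_div hα
  have hMinf : Tendsto (fun N : ℕ => ((⌊α * N⌋₊ : ℕ) : ℝ)) atTop atTop := by
    have h1 : Tendsto (fun N : ℕ => α * (N : ℝ)) atTop atTop :=
      (tendsto_natCast_atTop_atTop (R := ℝ)).const_mul_atTop hα
    exact tendsto_natCast_atTop_atTop.comp (tendsto_nat_floor_atTop.comp h1)
  rw [tendsto_order]
  constructor
  · intro a ha
    -- choose t and δ
    obtain ⟨t, ht0, ht⟩ : ∃ t : ℝ, 0 < t ∧ α * (2 * D) ^ 2 * t / 2 < (L - a) / 4 := by
      refine ⟨(L - a) / (2 * (α * (2 * D) ^ 2 + 1)) / 2, ?_, ?_⟩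
      · have : 0 < L - a := by linarith
        positivity
      · have h1 : 0 < L - a := by linarith
        have h2 : 0 ≤ α * (2 * D) ^ 2 := by positivity
        have h3 : α * (2 * D) ^ 2 * ((L - a) / (2 * (α * (2 * D) ^ 2 + 1)) / 2) / 2 =
          (L - a) / 8 * (α * (2 * D) ^ 2 / (α * (2 * D) ^ 2 + 1)) := by
          field_simp; ring
        rw [h3]
        have h4 : α * (2 * D) ^ 2 / (α * (2 * D) ^ 2 + 1) ≤ 1 := by
          rw [div_le_one (by positivity)]; linarith
        nlinarith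
    obtain ⟨δ, hδ0, hδ⟩ : ∃ δ : ℝ, 0 < δ ∧
        α * ((1 / m - 1) * δ) + 2 * δ * α / t < (L - a) / 4 := by
      have h1 : 0 < L - a := by linarith
      have hc : 0 ≤ α * (1 / m - 1) + 2 * α / t := by
        have : 0 ≤ 1 / m - 1 := by rw [sub_nonneg, le_div_iff₀ hm0]; linarith
        positivity
      refine ⟨(L - a) / (8 * (α * (1 / m - 1) + 2 * α / t + 1)), by positivity, ?_⟩
      set q := α * (1 / m - 1) + 2 * α / t with hq
      have h2 : α * ((1 / m - 1) * ((L - a) / (8 * (q + 1)))) +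
          2 * ((L - a) / (8 * (q + 1))) * α / t = (L - a) / 8 * (q / (q + 1)) := by
        have : q = α * (1 / m - 1) + 2 * α / t := hq
        have e : α * ((1 / m - 1) * ((L - a) / (8 * (q + 1)))) +
          2 * ((L - a) / (8 * (q + 1))) * α / t =
          (α * (1 / m - 1) + 2 * α / t) * ((L - a) / (8 * (q + 1))) := by ring
        rw [e, ← this]
        field_simp
      rw [h2]
      have h4 : q / (q + 1) ≤ 1 := by
        rw [div_le_one (by positivity)]; linarith
      nlinarith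
    -- the lower sequence
    have hlim : Tendsto (fun N : ℕ =>
        ((⌊α * N⌋₊ : ℕ) : ℝ) / N * ((1 / m - 1) * (K - δ) + Λ / m) - Real.log 4 * (1 / N) -
        (Real.log (16 * ((N : ℝ) + 1)) / N + 2 * δ * (((⌊α * N⌋₊ : ℕ) : ℝ) / N)) / t -
        ((⌊α * N⌋₊ : ℕ) : ℝ) / N * (2 * D) ^ 2 * t / 2) atTop
        (𝓝 (α * ((1 / m - 1) * (K - δ) + Λ / m) - Real.log 4 * 0 -
        (0 + 2 * δ * α) / t - α * (2 * D) ^ 2 * t / 2)) := by
      refine Tendsto.sub (Tendsto.sub (Tendsto.sub ?_ ?_) ?_) ?_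
      · exact hfl.mul_const _
      · exact tendsto_one_div_atTop_nhds_zero_nat.const_mul _
      · exact (tendsto_log_div.add (hfl.const_mul _)).div_const _
      · exact ((hfl.mul_const _).mul_const _).div_const _
    have hval : a < α * ((1 / m - 1) * (K - δ) + Λ / m) - Real.log 4 * 0 -
        (0 + 2 * δ * α) / t - α * (2 * D) ^ 2 * t / 2 := by
      have hmain : α * ((1 / m - 1) * K + Λ / m) = L := by
        rcases lt_or_eq_of_le hm1 with h | h
        · have h1 := hph h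
          rw [hL]
          have e : α * ((1 / m - 1) * K + Λ / m) = (1 / m - 1) * (α * K) + α * Λ / m := by ring
          rw [e, h1]; field_simp; ring
        · rw [hL, h]; ring
      have e : α * ((1 / m - 1) * (K - δ) + Λ / m) =
        α * ((1 / m - 1) * K + Λ / m) - α * ((1 / m - 1) * δ) := by ring
      rw [e, hmain, zero_add, mul_zero, sub_zero]
      linarith
    have hev := (tendsto_order.1 hlim).1 a hval
    have hMbig : ∀ᶠ N : ℕ in atTop, C / (δ ^ 2 * ((⌊α * N⌋₊ : ℕ) : ℝ)) ≤ 1 / 2 := by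
      have h1 : Tendsto (fun N : ℕ => C / (δ ^ 2 * ((⌊α * N⌋₊ : ℕ) : ℝ))) atTop (𝓝 0) :=
        tendsto_const_nhds.div_atTop (hMinf.const_mul_atTop (by positivity))
      exact ((tendsto_order.1 h1).2 (1 / 2) (by norm_num)).mono fun N hN => hN.le
    have hMpos : ∀ᶠ N : ℕ in atTop, 0 < ⌊α * N⌋₊ := by
      have := (tendsto_atTop.1 hMinf 1)
      filter_upwards [this] with N hN
      have : (0 : ℝ) < ((⌊α * N⌋₊ : ℕ) : ℝ) := by linarith
      exact_mod_cast this
    filter_upwards [hev, hMbig, hMpos, eventually_gt_atTop 0] with N h1 h2 h3 h4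
    have hN' : (0 : ℝ) < N := by positivity
    refine lt_of_lt_of_le h1 ?_
    rw [meanPressure_cube]
    have hlow := logZ_lower (M := ⌊α * N⌋₊) (N := N) h3 h4 hf hD hm0 hm1 hΛ hK hδ0 h2 ?_ ht0
    · rw [one_div_mul_eq_div, le_div_iff₀ hN']
      refine le_trans (le_of_eq ?_) hlow
      field_simp
    · intro ρ hρ
      obtain ⟨s, hs, hs2⟩ := hpair ρ hρ
      refine ⟨s, hs, ?_⟩
      set Bq := 2 * (1 - s) * K +
        Real.log (pairInt (fun x => Real.exp (s * (m * f x - Λ))) ρ) with hBq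
      have hMN : ((⌊α * N⌋₊ : ℕ) : ℝ) ≤ α * N := Nat.floor_le (by positivity)
      rcases le_or_gt 0 Bq with h | h
      · calc ((⌊α * N⌋₊ : ℕ) : ℝ) * Bq ≤ α * N * Bq := mul_le_mul_of_nonneg_right hMN h
          _ = N * (α * Bq) := by ring
          _ ≤ N * (Real.log 2 - Real.binEntropy ((1 + ρ) / 2)) :=
            mul_le_mul_of_nonneg_left hs2 hN'.le
      · have h5 : ((⌊α * N⌋₊ : ℕ) : ℝ) * Bq ≤ 0 :=
          mul_nonpos_of_nonneg_of_nonpos (by positivity) h.le
        have h6 : 0 ≤ (N : ℝ) * (Real.log 2 - Real.binEntropy ((1 + ρ) / 2)) := by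
          have := Real.binEntropy_le_log_two (p := (1 + ρ) / 2)
          exact mul_nonneg hN'.le (by linarith)
        linarith
  · intro a ha
    have hlim : Tendsto (fun N : ℕ => (1 / m - 1) * Real.log 2 +
        ((⌊α * N⌋₊ : ℕ) : ℝ) / N * (Λ / m)) atTop
        (𝓝 ((1 / m - 1) * Real.log 2 + α * (Λ / m))) :=
      tendsto_const_nhds.add (hfl.mul_const _)
    have hval : (1 / m - 1) * Real.log 2 + α * (Λ / m) < a := by
      refine lt_of_eq_of_lt ?_ ha
      rw [hL]; ring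
    have hev := (tendsto_order.1 hlim).2 a hval
    filter_upwards [hev, eventually_gt_atTop 0] with N h1 h4
    have hN' : (0 : ℝ) < N := by positivity
    refine lt_of_le_of_lt ?_ h1
    rw [meanPressure_cube]
    have hup := logZ_upper (M := ⌊α * N⌋₊) (N := N) h4 hf hD hm0 hm1 hΛ
    rw [one_div, inv_mul_eq_div, div_le_iff₀ hN']
    refine hup.trans (le_of_eq ?_)
    field_simp

/-- The fractional moment bound at every `m`. -/
theorem limit_le {f : ℝ → ℝ} (hf : Measurable f) {D : ℝ} (hD : ∀ x, |f x| ≤ D) {α : ℝ}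
    (hα : 0 < α) {L : ℝ} (hL : Tendsto (meanPressure cube α f) atTop (𝓝 L))
    {m : ℝ} (hm0 : 0 < m) (hm1 : m ≤ 1) {Λ : ℝ}
    (hΛ : Real.exp Λ = ∫ x, Real.exp (m * f x) ∂(gaussianReal 0 1)) :
    L ≤ (Real.log 2 + α * Λ) / m - Real.log 2 := by
  have hfl := tendsto_floor_div hα
  have hlim : Tendsto (fun N : ℕ => (1 / m - 1) * Real.log 2 +
        ((⌊α * N⌋₊ : ℕ) : ℝ) / N * (Λ / m)) atTop
        (𝓝 ((1 / m - 1) * Real.log 2 + α * (Λ / m))) :=
      tendsto_const_nhds.add (hfl.mul_const _)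
  have e : (Real.log 2 + α * Λ) / m - Real.log 2 = (1 / m - 1) * Real.log 2 + α * (Λ / m) := by
    ring
  rw [e]
  refine le_of_tendsto_of_tendsto hL hlim ?_
  filter_upwards [eventually_gt_atTop 0] with N h4
  have hN' : (0 : ℝ) < N := by positivity
  rw [meanPressure_cube]
  have hup := logZ_upper (M := ⌊α * N⌋₊) (N := N) h4 hf hD hm0 hm1 hΛ
  rw [one_div, inv_mul_eq_div, div_le_iff₀ hN']
  refine hup.trans (le_of_eq ?_)
  field_simp

end Vale.Agent.P157
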