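import Vale.Agent.P157.LvStep
import Vale.Agent.P157.LvRefine
import Vale.Agent.P157.RemBasic
import Vale.Agent.P157.RemLimit

/-!
The upper bound of the Parisi formula for smooth bounded potentials: assembly.
-/

open MeasureTheory ProbabilityTheory Filter Topology

namespace Vale.Agent.P157.Lv

set_option linter.unusedSectionVars false

open Par (incr Path Exponents cascade gstep patternPart spinPart parisi topN lw)

/-- A small parameter. -/
lemma up_small {F : ℝ → ℝ} (hF : ContinuousAt F 0) (h0 : F 0 = 0) {ε : ℝ} (hε : 0 < ε) :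
    ∃ x : ℝ, 0 < x ∧ x ≤ 1 ∧ F x ≤ ε := by
  have h1 : ∀ᶠ x in 𝓝 (0 : ℝ), F x < ε := by
    have := hF.tendsto
    rw [h0] at this
    exact this (gt_mem_nhds hε)
  obtain ⟨r, hr, h2⟩ := Metric.eventually_nhds_iff.1 h1
  refine ⟨min (r / 2) 1, by positivity, min_le_right _ _, (h2 ?_).le⟩
  have h3 : min (r / 2) 1 ≤ r / 2 := min_le_left _ _
  have h4 : 0 < min (r / 2) 1 := by positivity
  rw [Real.dist_eq, sub_zero, abs_of_pos h4]
  linarith only [h3, h4]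

/-- Positive increments are bounded below. -/
lemma up_inc {K : ℕ} {m : ℕ → ℝ} (hm : Exponents K m) :
    ∃ π : ℝ, 0 < π ∧ ∀ l ≤ K, π ≤ m (l + 1) - m l := by
  obtain ⟨l₀, h1, h2⟩ := Finset.exists_min_image (Finset.range (K + 1)) (fun l => m (l + 1) - m l)
    ⟨0, by simp⟩
  refine ⟨m (l₀ + 1) - m l₀, ?_, fun l hl => h2 l (by simp; omega)⟩
  have := hm.2.2 l₀ (by simpa [Nat.lt_succ_iff] using h1)
  linarith

variable {X : Type} [Fintype X] [DecidableEq X] [Nonempty X] {A N K : ℕ}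
  {m q : ℕ → ℝ} {f f' f'' : ℝ → ℝ} {B C₁ C₂ : ℝ} {u : X → ℝ} {φ : X → Fin N → ℝ}
  {s : ℕ → ℝ} {a : ℕ} {η : ℝ}

lemma Pen_ge (hη : 0 < η) (hs : ∀ j ≤ K, 0 < s j) :
    1 / 2 * ∑ j ∈ Finset.range (K + 1), aco K m q j * s j ^ 2 ≤ Pen K m q η s := by
  unfold Pen
  rw [Finset.mul_sum]
  refine Finset.sum_le_sum fun j hj => ?_
  have hj' : j ≤ K := by simpa [Nat.lt_succ_iff] using hj
  have h1 : 0 < η / s j := div_pos hη (hs j hj')
  have h2 : 0 ≤ η * s j ^ 2 := by positivity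
  linarith only [h1, h2]

lemma Pen_const_le (hm : Exponents K m) (hq : Path K q) {τ : ℝ} (hτ : 0 < τ) (hτ1 : τ ≤ 1) :
    Pen K m q (τ ^ 3) (fun _ => τ) ≤ 2 * (K + 1) * τ ^ 2 := by
  unfold Pen
  have : ∀ j ∈ Finset.range (K + 1),
      1 / 2 * (aco K m q j + τ ^ 3) * τ ^ 2 + τ ^ 3 / τ ≤ 2 * τ ^ 2 := by
    intro j hj
    have hj' : j ≤ K := by simpa [Nat.lt_succ_iff] using hj
    have h1 := aco_le_one hm hq hj'
    have h2 : τ ^ 3 / τ = τ ^ 2 := by field_simp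
    have h3 : τ ^ 3 ≤ 1 := pow_le_one₀ hτ.le hτ1
    rw [h2]
    have h4 : 0 ≤ τ ^ 2 := by positivity
    nlinarith only [h1, h3]
  refine (Finset.sum_le_sum this).trans_eq ?_
  simp
  ring

/-- The chain of the optimal values. -/
theorem chain_le (h : MD K m f f' f'' B C₁ C₂ u φ) (hη : 0 < η) {C e : ℝ}
    (hC : ∀ s : ℕ → ℝ, (∀ j ≤ K, 0 ≤ s j) → Fe A K m f u φ 0 s -
      1 / 2 * ∑ j ∈ Finset.range (K + 1), aco K m q j * s j ^ 2 ≤ C)
    (hstep : ∀ a < A, ∀ s, IsOpt A K m q η f u φ (a + 1) s →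
      Fe A K m f u φ (a + 1) s - Fe A K m f u φ a s ≤ e) {a : ℕ} (ha : a ≤ A) :
    ∀ s : ℕ → ℝ, (∀ j ≤ K, 0 < s j) → Ob A K m q η f u φ a s ≤ C + a * e := by
  induction a with
  | zero =>
    intro s hs
    have h1 := hC s fun j hj => (hs j hj).le
    have h2 := Pen_ge (m := m) (q := q) hη hs
    unfold Ob
    simp only [Nat.cast_zero, zero_mul, add_zero]
    linarith only [h1, h2]
  | succ a ih =>
    intro s hs
    obtain ⟨s', h'⟩ := exists_opt h hη ha hC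
    have h1 := h'.max s hs
    have h2 := hstep a (by omega) s' h'
    have h3 := ih (by omega) s' h'.pos
    unfold Ob at h1 h3 ⊢
    push_cast
    linarith only [h1, h2, h3]

/-- The upper bound for given small parameters. -/
theorem upper_param (h : MD K m f f' f'' B C₁ C₂ u φ) (hq : Path K q) (hq1 : q K ≤ 1)
    (hu : ∑ x, Real.exp (u x) = 1) {τ σ S₀ π δ α₀ Cb ε₁ t C : ℝ} (hτ : 0 < τ) (hτ1 : τ ≤ 1)
    (hB0 : 0 ≤ B) (hCb : 0 ≤ Cb) (hα : 0 ≤ α₀)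
    (hσ : σ = τ ^ 3 / (Cb + 2 * α₀ * B + 3 * (K + 1))) (hS : S₀ = 1 / τ ^ 3 + 1 / σ ^ 2)
    (hπ : 0 < π) (hp : ∀ l ≤ K, π ≤ m (l + 1) - m l) (hδ : ∀ l ≤ K, m (l + 1) - m l ≤ δ)
    (hA : (A : ℝ) ≤ α₀ * N) (hCC : C ≤ Cb)
    (hC : ∀ s : ℕ → ℝ, (∀ j ≤ K, 0 ≤ s j) → Fe A K m f u φ 0 s -
      1 / 2 * ∑ j ∈ Finset.range (K + 1), aco K m q j * s j ^ 2 ≤ C)
    (hε : 0 ≤ ε₁) (ht : 0 < t) (ht1 : t ≤ 1) (ht2 : t ≤ σ / 2)
    (herr : √((2 + 3 / σ ^ 3) / (m 1 * N)) + (2 + 3 / σ ^ 3) * t +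
        4 * √(2 * (α₀ * C₁ ^ 2 + (S₀ + 1) ^ 2) / N) / t ≤ ε₁) :
    Fe A K m f u φ A (fun _ => 0) ≤ C + A / N * patternPart f K m q +
      α₀ * erS B C₁ (τ ^ 3) σ π δ ε₁ + 2 * (K + 1) * τ ^ 2 := by
  have hN : (0 : ℝ) < N := by exact_mod_cast h.N0
  have hη : 0 < τ ^ 3 := by positivity
  have hη1 : τ ^ 3 ≤ 1 := pow_le_one₀ hτ.le hτ1
  have hden : 0 < Cb + 2 * α₀ * B + 3 * ((K : ℝ) + 1) := by positivity
  have hσ0 : 0 < σ := by rw [hσ]; positivity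
  have hδ0 : 0 ≤ δ := hπ.le.trans ((hp 0 (Nat.zero_le _)).trans (hδ 0 (Nat.zero_le _)))
  have hlow : ∀ a ≤ A, ∀ s, IsOpt A K m q (τ ^ 3) f u φ a s → ∀ j ≤ K, σ ≤ s j := by
    intro a ha s hs j hj
    have h1 := hs.lower h hq hq1 hη hη1 ha hu hC hj
    have h2 : (a : ℝ) * B / N ≤ α₀ * B := by
      rw [div_le_iff₀ hN]
      have : (a : ℝ) ≤ α₀ * N := le_trans (by exact_mod_cast ha) hA
      nlinarith only [hB0, this]
    have h3 := hs.pos j hj
    rw [hσ, div_le_iff₀ hden]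
    have h4 : C + 2 * ((a : ℝ) * B / N) + 3 * ((K : ℝ) + 1) ≤
        Cb + 2 * α₀ * B + 3 * ((K : ℝ) + 1) := by linarith only [hCC, h2]
    nlinarith only [h1, hCC, h3, h2]
  have hstep : ∀ a < A, ∀ s, IsOpt A K m q (τ ^ 3) f u φ (a + 1) s →
      Fe A K m f u φ (a + 1) s - Fe A K m f u φ a s ≤
        (patternPart f K m q + erS B C₁ (τ ^ 3) σ π δ ε₁) / N := by
    intro a ha s hs
    have h1 := hlow (a + 1) (by omega) s hs
    have h2 : s 0 ≤ S₀ := by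
      rw [hS]
      exact hs.upper h hq hq1 hη hσ0 (h1 0 (Nat.zero_le _))
    have h3 := opt_step h ha hs hq hq1 hη hσ0 hπ hε h1 hp hδ (fun j hj => by
      obtain ⟨c, hc⟩ := hs.conc h hq hq1 hη hη1 hσ0 h1 h2 hA hj ht ht1 ht2
      exact ⟨c, hc.trans herr⟩)
    have h4 : Fe A K m f u φ (a + 1) s - Fe A K m f u φ a s =
        ((mdl A K m f u φ s (a + 1)).fe - (mdl A K m f u φ s a).fe) / N := by
      unfold Fe
      ring
    rw [h4]
    exact div_le_div_of_nonneg_right h3 hN.le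
  have h1 := chain_le h hη hC hstep le_rfl (fun _ => τ) (fun _ _ => hτ)
  have h2 := Fe_zero_le (A := A) (a := A) h (fun _ => τ)
  have h3 := Pen_const_le h.hm hq hτ hτ1
  unfold Ob at h1
  have her : 0 ≤ erS B C₁ (τ ^ 3) σ π δ ε₁ := by
    unfold erS
    positivity
  have h4 : (A : ℝ) * ((patternPart f K m q + erS B C₁ (τ ^ 3) σ π δ ε₁) / N) ≤
      A / N * patternPart f K m q + α₀ * erS B C₁ (τ ^ 3) σ π δ ε₁ := by
    have h5 : (A : ℝ) / N ≤ α₀ := by rwa [div_le_iff₀ hN]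
    have h6 : (A : ℝ) * ((patternPart f K m q + erS B C₁ (τ ^ 3) σ π δ ε₁) / N) =
      A / N * patternPart f K m q + A / N * erS B C₁ (τ ^ 3) σ π δ ε₁ := by
      field_simp
    rw [h6]
    linarith only [mul_le_mul_of_nonneg_right h5 her]
  linarith only [h1, h2, h3, h4]

/-- **The upper bound, uniformly in the system.** -/
theorem upper_unif (hm : Exponents K m) (hq : Path K q) (hq1 : q K ≤ 1)
    (hf : Pot f f' f'' C₁ C₂) (hB : ∀ x, |f x| ≤ B) {δ : ℝ}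
    (hδ : ∀ l ≤ K, m (l + 1) - m l ≤ δ) {α₀ Cb ε : ℝ} (hα : 0 ≤ α₀) (hε : 0 < ε) :
    ∃ N₀ : ℕ, ∀ N : ℕ, N₀ ≤ N → ∀ (X : Type) [Fintype X] [DecidableEq X] [Nonempty X]
      (u : X → ℝ) (φ : X → Fin N → ℝ), ∑ x, Real.exp (u x) = 1 → (∀ x, ∑ i, φ x i ^ 2 = N) →
      ∀ A : ℕ, (A : ℝ) ≤ α₀ * N → ∀ C ≤ Cb, (∀ s : ℕ → ℝ, (∀ j ≤ K, 0 ≤ s j) →
        1 / N * topN m (fun l => ∑ j ∈ Finset.range (l + 1), s j ^ 2) K (lw φ 1 u) -
          1 / 2 * ∑ j ∈ Finset.range (K + 1), aco K m q j * s j ^ 2 ≤ C) →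
        1 / N * ∫ g : Fin A → Fin N → ℝ,
          Real.log (∑ x, Real.exp (u x + ∑ b, f (1 / √(N : ℝ) * ∑ i, φ x i * g b i)))
            ∂(Measure.pi fun _ => Measure.pi fun _ => gaussianReal 0 1) ≤
          C + A / N * patternPart f K m q +
            α₀ * (1 / 2 * C₁ ^ 2 * Real.exp (6 * B) * (√(2 * δ) + 2 * δ)) + ε := by
  have hB0 : 0 ≤ B := (abs_nonneg _).trans (hB 0)
  obtain ⟨π, hπ, hp⟩ := up_inc hm
  -- the parameter `τ`
  obtain ⟨τ, hτ, hτ1, hτ2⟩ := up_small (F := fun τ : ℝ =>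
    α₀ * (1 / 2 * C₁ ^ 2 * τ ^ 3) + 2 * (K + 1) * τ ^ 2)
    (by fun_prop) (by simp) (ε := ε / 2) (by positivity)
  set Cb' : ℝ := max Cb 0 with hCb'
  have hCb0 : 0 ≤ Cb' := le_max_right _ _
  set σ : ℝ := τ ^ 3 / (Cb' + 2 * α₀ * B + 3 * (K + 1)) with hσ
  have hσ0 : 0 < σ := by rw [hσ]; positivity
  set S₀ : ℝ := 1 / τ ^ 3 + 1 / σ ^ 2 with hS
  -- the parameter `ε₁`
  obtain ⟨ε₁, hε₁, -, hε₂⟩ := up_small (F := fun x : ℝ =>
    α₀ * (1 / 2 * C₁ ^ 2 * (2 * Real.exp (2 * B) * x / σ) +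
      1 / 2 * C₁ ^ 2 * Real.exp (6 * B) * √(20 * (Real.exp (2 * B) * x) / (σ * π))))
    (by fun_prop) (by simp) (ε := ε / 2) (by positivity)
  -- the parameter `t`
  obtain ⟨t, ht, ht1, ht2⟩ := up_small (F := fun t : ℝ => (2 + 3 / σ ^ 3) * t + 2 * t / σ)
    (by fun_prop) (by simp) (ε := min (ε₁ / 2) 1) (by positivity)
  have ht3 : (2 + 3 / σ ^ 3) * t ≤ ε₁ / 2 := by
    have h1 : 0 ≤ 2 * t / σ := by positivity
    have h2 := min_le_left (ε₁ / 2) 1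
    linarith only [ht2, h1, h2]
  have ht4 : t ≤ σ / 2 := by
    have h1 : 0 ≤ (2 + 3 / σ ^ 3) * t := by positivity
    have h2 := min_le_right (ε₁ / 2) 1
    have h3 : 2 * t / σ ≤ 1 := by linarith only [ht2, h1, h2]
    rw [div_le_one hσ0] at h3
    linarith only [h3]
  -- the number `N`
  have hlim : Tendsto (fun N : ℕ => √((2 + 3 / σ ^ 3) / (m 1 * N)) +
      4 * √(2 * (α₀ * C₁ ^ 2 + (S₀ + 1) ^ 2) / N) / t) atTop (𝓝 0) := by
    have hN : Tendsto (fun N : ℕ => (N : ℝ)⁻¹) atTop (𝓝 0) :=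
      tendsto_inv_atTop_zero.comp tendsto_natCast_atTop_atTop
    have h1 : Tendsto (fun N : ℕ => √((2 + 3 / σ ^ 3) / m 1 * (N : ℝ)⁻¹) +
      4 * √(2 * (α₀ * C₁ ^ 2 + (S₀ + 1) ^ 2) * (N : ℝ)⁻¹) / t) atTop
      (𝓝 (√((2 + 3 / σ ^ 3) / m 1 * 0) +
        4 * √(2 * (α₀ * C₁ ^ 2 + (S₀ + 1) ^ 2) * 0) / t)) :=
      ((hN.const_mul _).sqrt).add ((((hN.const_mul _).sqrt).const_mul _).div_const _)
    simp only [mul_zero, Real.sqrt_zero, zero_div, add_zero] at h1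
    refine h1.congr fun N => ?_
    have e1 : (2 + 3 / σ ^ 3) / (m 1 * (N : ℝ)) = (2 + 3 / σ ^ 3) / m 1 * (N : ℝ)⁻¹ := by
      rw [div_mul_eq_div_div, div_eq_mul_inv]
    have e2 : 2 * (α₀ * C₁ ^ 2 + (S₀ + 1) ^ 2) / (N : ℝ) =
        2 * (α₀ * C₁ ^ 2 + (S₀ + 1) ^ 2) * (N : ℝ)⁻¹ := div_eq_mul_inv _ _
    rw [e1, e2]
  obtain ⟨N₀, hN₀⟩ := eventually_atTop.1 (hlim.eventually (gt_mem_nhds (half_pos hε₁)))
  refine ⟨max N₀ 1, fun N hN X _ _ _ u φ hu hφ A hA C hCC hC => ?_⟩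
  have hN1 : 0 < N := lt_of_lt_of_le one_pos ((le_max_right _ _).trans hN)
  have hMD : MD K m f f' f'' B C₁ C₂ u φ := ⟨hm, hf, hB, hN1, hφ⟩
  have hC' : ∀ s : ℕ → ℝ, (∀ j ≤ K, 0 ≤ s j) → Fe A K m f u φ 0 s -
      1 / 2 * ∑ j ∈ Finset.range (K + 1), aco K m q j * s j ^ 2 ≤ C := by
    intro s hs
    rw [Fe_no_pattern hMD hs]
    exact hC s hs
  have herr := hN₀ N ((le_max_left _ _).trans hN)
  have key := upper_param (A := A) hMD hq hq1 hu hτ hτ1 hB0 hCb0 hα hσ hS hπ hp hδ hA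
    (hCC.trans (le_max_left _ _)) hC' hε₁.le ht ht1 ht4 (by linarith only [ht3, herr])
  rw [Fe_no_field hMD] at key
  refine key.trans ?_
  unfold erS
  linarith only [hτ2, hε₂]

/-- The mean pressure on the cube. -/
theorem meanPressure_cube_eq (f : ℝ → ℝ) (α : ℝ) (N : ℕ) :
    meanPressure cube α f N = 1 / N * ∫ g : Fin ⌊α * N⌋₊ → Fin N → ℝ,
      Real.log (∑ x : Fin N → Bool, Real.exp (-(N * Real.log 2) +
        ∑ b, f (1 / √(N : ℝ) * ∑ i, spin x i * g b i)))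
        ∂(Measure.pi fun _ => Measure.pi fun _ => gaussianReal 0 1) := by
  unfold meanPressure patterns
  rw [← integral_const_mul]
  refine integral_congr_ae (ae_of_all _ fun g => ?_)
  simp only
  unfold pressure
  rw [integral_cube, Finset.mul_sum]
  congr 2
  refine Finset.sum_congr rfl fun x _ => ?_
  rw [Real.exp_add]
  congr 1
  · rw [Real.exp_neg, mul_comm, Real.exp_mul, Real.exp_log (by norm_num), Real.rpow_natCast,
      one_div, inv_pow]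
  · congr 1
    refine Finset.sum_congr rfl fun a _ => ?_
    congr 1
    rw [div_eq_inv_mul, one_div]
    congr 1
    exact Finset.sum_congr rfl fun i _ => mul_comm _ _

/-- **The upper bound for smooth bounded potentials.** -/
theorem upper_smooth (hf : Pot f f' f'' C₁ C₂) (hB : ∀ x, |f x| ≤ B) {α : ℝ} (hα : 0 ≤ α) {k : ℕ}
    (hm : Exponents k m) (hq : Path k q) (hq1 : q k ≤ 1) {C : ℝ}
    (hC : ∀ r, Par.Path k r → parisi α f k m q r ≤ C) {ε : ℝ} (hε : 0 < ε) :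
    ∀ᶠ N in atTop, meanPressure cube α f N ≤ C + ε := by
  obtain ⟨δ, hδ, -, hδ2⟩ := up_small (F := fun δ : ℝ =>
    α * (1 / 2 * C₁ ^ 2 * Real.exp (6 * B) * (√(2 * δ) + 2 * δ))) (by fun_prop) (by simp)
    (ε := ε / 3) (by positivity)
  obtain ⟨n, hn⟩ := exists_nat_ge (1 / δ)
  have hn0 : (0 : ℝ) < n := (by positivity : (0 : ℝ) < 1 / δ).trans_le hn
  have hn1 : 0 < n := by exact_mod_cast hn0
  have hnδ : 1 / (n : ℝ) ≤ δ := by
    rw [div_le_iff₀ hn0]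
    rw [div_le_iff₀ hδ] at hn
    linarith only [hn]
  set K := rfk n k with hK
  set m' := rfm n m with hm'
  set q' := rfp n q with hq'
  set Ψ := patternPart f k m q with hΨ
  have hm1 : Exponents K m' := rfm_exponents hn1 hm
  obtain ⟨N₀, hN₀⟩ := upper_unif (q := q') hm1 (rfp_path hn1 hq)
    (by rw [hq', hK, rfp_last hn1]; exact hq1) hf hB
    (δ := δ) (fun l hl => (rfm_mesh hn1 hm hl).trans hnδ) (α₀ := α) (Cb := C - α * Ψ)
    (ε := ε / 3) hα (by positivity)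
  obtain ⟨N₁, hN₁⟩ := exists_nat_ge (3 * |Ψ| / ε)
  filter_upwards [eventually_ge_atTop (max (max N₀ N₁) 1)] with N hN
  have hN2 : 0 < N := lt_of_lt_of_le one_pos ((le_max_right _ _).trans hN)
  have hN3 : (0 : ℝ) < N := by exact_mod_cast hN2
  have hN4 : N₀ ≤ N := (le_max_left _ _).trans ((le_max_left _ _).trans hN)
  have hN5 : N₁ ≤ N := (le_max_right _ _).trans ((le_max_left _ _).trans hN)
  rw [meanPressure_cube_eq]
  have hA : ((⌊α * N⌋₊ : ℕ) : ℝ) ≤ α * N := Nat.floor_le (by positivity)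
  have hu : ∑ _x : Fin N → Bool, Real.exp (-(N * Real.log 2)) = 1 := by
    rw [Finset.sum_const, Finset.card_univ, Fintype.card_fun, Fintype.card_bool, Fintype.card_fin,
      nsmul_eq_mul, Real.exp_neg, mul_comm (N : ℝ), Real.exp_mul, Real.exp_log (by norm_num),
      Real.rpow_natCast]
    push_cast
    exact mul_inv_cancel₀ (by positivity)
  have hφ : ∀ x : Fin N → Bool, ∑ i, spin x i ^ 2 = N := by
    intro x
    simp [pow_two, spin_sq]
  have key := hN₀ N hN4 (Fin N → Bool) (fun _ => -(N * Real.log 2)) spin hu hφ ⌊α * N⌋₊ hA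
    (C - α * Ψ) le_rfl (fun s hs => by
      rw [Par.topN_spin hm1, sum_aco]
      set r := fun l => ∑ j ∈ Finset.range (l + 1), s j ^ 2 with hr
      have hrp : Par.Path K r := by
        refine ⟨by simp only [hr]; positivity, fun l hl => ?_⟩
        simp only [hr]
        rw [Finset.sum_range_succ _ (l + 1)]
        have := sq_nonneg (s (l + 1))
        linarith only [this]
      have h1 := spinPart_bav hn1 hm hrp
      have h2 := hC (bav n r) (bav_path hn1 hrp)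
      have h3 := sum_bav (q := q) (r := r) hn1 hm
      unfold parisi at h2
      have h4 : ∑ j ∈ Finset.range (K + 1), s j ^ 2 = r K := rfl
      have h5 : ∀ l, ∑ j ∈ Finset.range (l + 1), s j ^ 2 = r l := fun l => rfl
      simp only [h5]
      rw [h3]
      have h6 : 1 / (N : ℝ) * (N * (spinPart K m' r + r K / 2)) = spinPart K m' r + r K / 2 := by
        field_simp
      rw [h6]
      linarith only [h1, h2])
  refine key.trans ?_
  rw [hm', hq', hK, patternPart_rf hn1 hm, ← hΨ]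
  have h1 : ((⌊α * N⌋₊ : ℕ) : ℝ) / N * Ψ ≤ α * Ψ + ε / 3 := by
    have h2 : |((⌊α * N⌋₊ : ℕ) : ℝ) / N - α| ≤ 1 / N := by
      have h3 := Nat.lt_floor_add_one (α * N)
      have e : ((⌊α * N⌋₊ : ℕ) : ℝ) / N - α = (((⌊α * N⌋₊ : ℕ) : ℝ) - α * N) / N := by
        field_simp
      rw [e, abs_div, abs_of_pos hN3, div_le_div_iff_of_pos_right hN3, abs_le]
      constructor <;> linarith only [h3, hA]
    have h3 : (((⌊α * N⌋₊ : ℕ) : ℝ) / N - α) * Ψ ≤ 1 / N * |Ψ| :=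
      (le_abs_self _).trans (by
        rw [abs_mul]
        exact mul_le_mul_of_nonneg_right h2 (abs_nonneg _))
    have h4 : 1 / (N : ℝ) * |Ψ| ≤ ε / 3 := by
      have h5 : 3 * |Ψ| / ε ≤ N := hN₁.trans (by exact_mod_cast hN5)
      rw [div_le_iff₀ hε] at h5
      rw [one_div, inv_mul_le_iff₀ hN3]
      linarith only [h5]
    linarith only [h3, h4]
  linarith only [hδ2, h1]

end Vale.Agent.P157.Lv
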