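import Vale.Agent.P157.ParRhoDefs

set_option maxSynthPendingDepth 3
set_option linter.unusedSectionVars false

open MeasureTheory ProbabilityTheory Filter Topology

namespace Vale.Agent.P157.Par

namespace ClsA

variable {ν : Measure ℝ}

lemma abs_pow_le {j : ℕ} (hj : j ≤ 4) (l : ℝ) : |l ^ j| ≤ 1 + l ^ 4 := by
  have h4 : l ^ 4 = |l| ^ 4 := by rw [← abs_pow]; exact (abs_of_nonneg (by positivity)).symm
  rw [abs_pow, h4]
  rcases le_total |l| 1 with h | h
  · have h1 : |l| ^ j ≤ 1 := pow_le_one₀ (abs_nonneg l) h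
    have h2 : 0 ≤ |l| ^ 4 := by positivity
    linarith
  · have h1 : |l| ^ j ≤ |l| ^ 4 := pow_le_pow_right₀ h hj
    linarith

lemma int_pow [IsFiniteMeasure ν] (h4 : Integrable (fun θ : ℝ => θ ^ 4) ν) {j : ℕ} (hj : j ≤ 4) :
    Integrable (fun θ : ℝ => θ ^ j) ν := by
  refine Integrable.mono' ((integrable_const (1 : ℝ)).add h4) (by fun_prop) ?_
  exact Eventually.of_forall fun l => abs_pow_le hj l

lemma int_cos {j : ℕ} (hj : Integrable (fun θ : ℝ => θ ^ j) ν) (s : ℝ) :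
    Integrable (fun l : ℝ => l ^ j * Real.cos (l * s)) ν := by
  refine Integrable.mono' hj.norm (by fun_prop) ?_
  refine Eventually.of_forall fun l => ?_
  rw [norm_mul]
  exact mul_le_of_le_one_right (norm_nonneg _) (Real.abs_cos_le_one _)

lemma int_sin {j : ℕ} (hj : Integrable (fun θ : ℝ => θ ^ j) ν) (s : ℝ) :
    Integrable (fun l : ℝ => l ^ j * Real.sin (l * s)) ν := by
  refine Integrable.mono' hj.norm (by fun_prop) ?_
  refine Eventually.of_forall fun l => ?_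
  rw [norm_mul]
  exact mul_le_of_le_one_right (norm_nonneg _) (Real.abs_sin_le_one _)

lemma der_cos {j : ℕ} (hj : Integrable (fun θ : ℝ => θ ^ j) ν)
    (hj1 : Integrable (fun θ : ℝ => θ ^ (j + 1)) ν) (s : ℝ) :
    HasDerivAt (fun s => ∫ l, l ^ j * Real.cos (l * s) ∂ν)
      (∫ l, -(l ^ (j + 1) * Real.sin (l * s)) ∂ν) s := by
  refine (hasDerivAt_integral_of_dominated_loc_of_deriv_le (μ := ν)
    (F := fun (s : ℝ) (l : ℝ) => l ^ j * Real.cos (l * s))
    (F' := fun (s : ℝ) (l : ℝ) => -(l ^ (j + 1) * Real.sin (l * s)))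
    (bound := fun l => ‖l ^ (j + 1)‖) (Metric.ball_mem_nhds s one_pos)
    (Eventually.of_forall fun y => by fun_prop) (int_cos hj s) (by fun_prop) ?_ hj1.norm ?_).2
  · refine Eventually.of_forall fun l y _ => ?_
    rw [norm_neg, norm_mul]
    exact mul_le_of_le_one_right (norm_nonneg _) (Real.abs_sin_le_one _)
  · refine Eventually.of_forall fun l y _ => ?_
    have h1 : HasDerivAt (fun y : ℝ => l * y) l y := by
      simpa using (hasDerivAt_id y).const_mul l
    have h2 := (h1.cos).const_mul (l ^ j)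
    convert! h2 using 1
    ring

lemma der_sin {j : ℕ} (hj : Integrable (fun θ : ℝ => θ ^ j) ν)
    (hj1 : Integrable (fun θ : ℝ => θ ^ (j + 1)) ν) (s : ℝ) :
    HasDerivAt (fun s => ∫ l, l ^ j * Real.sin (l * s) ∂ν)
      (∫ l, l ^ (j + 1) * Real.cos (l * s) ∂ν) s := by
  refine (hasDerivAt_integral_of_dominated_loc_of_deriv_le (μ := ν)
    (F := fun (s : ℝ) (l : ℝ) => l ^ j * Real.sin (l * s))
    (F' := fun (s : ℝ) (l : ℝ) => l ^ (j + 1) * Real.cos (l * s))
    (bound := fun l => ‖l ^ (j + 1)‖) (Metric.ball_mem_nhds s one_pos)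
    (Eventually.of_forall fun y => by fun_prop) (int_sin hj s) (by fun_prop) ?_ hj1.norm ?_).2
  · refine Eventually.of_forall fun l y _ => ?_
    rw [norm_mul]
    exact mul_le_of_le_one_right (norm_nonneg _) (Real.abs_cos_le_one _)
  · refine Eventually.of_forall fun l y _ => ?_
    have h1 : HasDerivAt (fun y : ℝ => l * y) l y := by
      simpa using (hasDerivAt_id y).const_mul l
    have h2 := (h1.sin).const_mul (l ^ j)
    convert! h2 using 1
    ring

lemma bd_cos {j : ℕ} (hj : Integrable (fun θ : ℝ => θ ^ j) ν) (s : ℝ) :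
    |∫ l, l ^ j * Real.cos (l * s) ∂ν| ≤ ∫ l, ‖l ^ j‖ ∂ν := by
  rw [← Real.norm_eq_abs]
  refine norm_integral_le_of_norm_le hj.norm (Eventually.of_forall fun l => ?_)
  rw [norm_mul]
  exact mul_le_of_le_one_right (norm_nonneg _) (Real.abs_cos_le_one _)

lemma bd_sin {j : ℕ} (hj : Integrable (fun θ : ℝ => θ ^ j) ν) (s : ℝ) :
    |∫ l, l ^ j * Real.sin (l * s) ∂ν| ≤ ∫ l, ‖l ^ j‖ ∂ν := by
  rw [← Real.norm_eq_abs]
  refine norm_integral_le_of_norm_le hj.norm (Eventually.of_forall fun l => ?_)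
  rw [norm_mul]
  exact mul_le_of_le_one_right (norm_nonneg _) (Real.abs_sin_le_one _)

lemma cont_cos {j : ℕ} (hj : Integrable (fun θ : ℝ => θ ^ j) ν) :
    Continuous fun s => ∫ l, l ^ j * Real.cos (l * s) ∂ν := by
  refine continuous_of_dominated (bound := fun l => ‖l ^ j‖) (fun s => by fun_prop) ?_ hj.norm ?_
  · intro s
    refine Eventually.of_forall fun l => ?_
    rw [norm_mul]
    exact mul_le_of_le_one_right (norm_nonneg _) (Real.abs_cos_le_one _)
  · exact Eventually.of_forall fun l => by fun_prop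

lemma cont_sin {j : ℕ} (hj : Integrable (fun θ : ℝ => θ ^ j) ν) :
    Continuous fun s => ∫ l, l ^ j * Real.sin (l * s) ∂ν := by
  refine continuous_of_dominated (bound := fun l => ‖l ^ j‖) (fun s => by fun_prop) ?_ hj.norm ?_
  · intro s
    refine Eventually.of_forall fun l => ?_
    rw [norm_mul]
    exact mul_le_of_le_one_right (norm_nonneg _) (Real.abs_sin_le_one _)
  · exact Eventually.of_forall fun l => by fun_prop

lemma CB2_sub {g g' g'' k k' k'' : ℝ → ℝ} (h : CB2 g g' g'') (l : CB2 k k' k'') :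
    CB2 (fun x => g x - k x) (fun x => g' x - k' x) (fun x => g'' x - k'' x) := by
  obtain ⟨G0, g0⟩ := h.b0
  obtain ⟨G1, g1⟩ := h.b1
  obtain ⟨G2, g2⟩ := h.b2
  obtain ⟨K0, k0⟩ := l.b0
  obtain ⟨K1, k1⟩ := l.b1
  obtain ⟨K2, k2⟩ := l.b2
  exact ⟨fun x => (h.d1 x).sub (l.d1 x), fun x => (h.d2 x).sub (l.d2 x), h.c2.sub l.c2,
    ⟨G0 + K0, fun x => (abs_sub _ _).trans (add_le_add (g0 x) (k0 x))⟩,
    ⟨G1 + K1, fun x => (abs_sub _ _).trans (add_le_add (g1 x) (k1 x))⟩,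
    ⟨G2 + K2, fun x => (abs_sub _ _).trans (add_le_add (g2 x) (k2 x))⟩⟩

end ClsA

open ClsA in
/-- Smooth class A potentials. -/
theorem classA_pot {ν : Measure ℝ} [IsFiniteMeasure ν] {C₀ : ℝ} (hν : ν.real Set.univ < C₀)
    (h4 : Integrable (fun θ : ℝ => θ ^ 4) ν) {f : ℝ → ℝ}
    (hf : ∀ s : ℝ, Real.exp (f s) = C₀ - ∫ l, Real.cos (l * s) ∂ν) :
    ∃ (C c₀ a : ℝ) (f1 f2 f3 : ℝ → ℝ) (ν' : Measure ℝ), Pot C c₀ a f f1 f2 f3 ∧
      IsFiniteMeasure ν' ∧ Integrable (fun θ : ℝ => θ ^ 2) ν' ∧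
      (∀ x, Real.exp (f x) / c₀ = 1 - ∫ θ, Real.cos (θ * x) ∂ν') ∧
      (∀ x, f1 x * (Real.exp (f x) / c₀) = ∫ θ, θ * Real.sin (θ * x) ∂ν') ∧
      ν'.real Set.univ ≤ 1 - a := by
  set n := ν.real Set.univ with hn
  have hn0 : 0 ≤ n := measureReal_nonneg
  have i0 := int_pow h4 (j := 0) (by norm_num)
  have i1 := int_pow h4 (j := 1) (by norm_num)
  have i2 := int_pow h4 (j := 2) (by norm_num)
  have i3 := int_pow h4 (j := 3) (by norm_num)
  -- the functions
  set E : ℝ → ℝ := fun s => C₀ - ∫ l, l ^ 0 * Real.cos (l * s) ∂ν with hE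
  set E1 : ℝ → ℝ := fun s => ∫ l, l ^ 1 * Real.sin (l * s) ∂ν with hE1
  set E2 : ℝ → ℝ := fun s => ∫ l, l ^ 2 * Real.cos (l * s) ∂ν with hE2
  set E3 : ℝ → ℝ := fun s => ∫ l, -(l ^ 3 * Real.sin (l * s)) ∂ν with hE3
  set E4 : ℝ → ℝ := fun s => -∫ l, l ^ 4 * Real.cos (l * s) ∂ν with hE4
  have dE : ∀ s, HasDerivAt E (E1 s) s := by
    intro s
    have := (der_cos i0 i1 s).const_sub C₀
    convert! this using 1
    simp only [hE1]
    rw [integral_neg, neg_neg]
  have dE1 : ∀ s, HasDerivAt E1 (E2 s) s := fun s => der_sin i1 i2 s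
  have dE2 : ∀ s, HasDerivAt E2 (E3 s) s := fun s => der_cos i2 i3 s
  have dE3 : ∀ s, HasDerivAt E3 (E4 s) s := by
    intro s
    have h1 := (der_sin i3 h4 s).neg
    have h2 : E3 = fun s => -∫ l, l ^ 3 * Real.sin (l * s) ∂ν := by
      funext s
      simp only [hE3]
      rw [integral_neg]
    rw [h2]
    exact h1
  have hEf : ∀ s, Real.exp (f s) = E s := by
    intro s
    rw [hf s]
    simp only [hE, pow_zero, one_mul]
  have hcosb : ∀ s, |∫ l, l ^ 0 * Real.cos (l * s) ∂ν| ≤ n := by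
    intro s
    refine (bd_cos i0 s).trans (le_of_eq ?_)
    simp [hn]
  have hElo : ∀ s, C₀ - n ≤ E s := by
    intro s
    have := (abs_le.mp (hcosb s)).2
    simp only [hE]
    linarith
  have hEhi : ∀ s, E s ≤ C₀ + n := by
    intro s
    have := (abs_le.mp (hcosb s)).1
    simp only [hE]
    linarith
  have hlo0 : 0 < C₀ - n := by linarith
  have hhi0 : 0 < C₀ + n := by linarith
  have hEpos : ∀ s, 0 < E s := fun s => hlo0.trans_le (hElo s)
  have bE1 : ∀ s, |E1 s| ≤ ∫ l, ‖l ^ 1‖ ∂ν := fun s => bd_sin i1 s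
  have bE2 : ∀ s, |E2 s| ≤ ∫ l, ‖l ^ 2‖ ∂ν := fun s => bd_cos i2 s
  have bE3 : ∀ s, |E3 s| ≤ ∫ l, ‖l ^ 3‖ ∂ν := by
    intro s
    simp only [hE3]
    rw [integral_neg, abs_neg]
    exact bd_sin i3 s
  have bE4 : ∀ s, |E4 s| ≤ ∫ l, ‖l ^ 4‖ ∂ν := by
    intro s
    simp only [hE4]
    rw [abs_neg]
    exact bd_cos h4 s
  have bE : ∀ s, |E s| ≤ C₀ + n := fun s => by
    rw [abs_of_pos (hEpos s)]; exact hEhi s
  have cE : CB2 E E1 E2 := ⟨dE, dE1, cont_cos i2, ⟨_, bE⟩, ⟨_, bE1⟩, ⟨_, bE2⟩⟩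
  have cE1 : CB2 E1 E2 E3 := ⟨dE1, dE2, continuous_iff_continuousAt.mpr fun x => (dE3 x).continuousAt,
    ⟨_, bE1⟩, ⟨_, bE2⟩, ⟨_, bE3⟩⟩
  have cE2 : CB2 E2 E3 E4 := ⟨dE2, dE3, (cont_cos h4).neg, ⟨_, bE2⟩, ⟨_, bE3⟩, ⟨_, bE4⟩⟩
  have cI := cE.outer (fun x => ⟨hElo x, hEhi x⟩) (outer_inv hlo0)
  have cf1 := cE1.mul cI
  -- the second derivative
  have cf2 := CB2_sub (cE2.mul cI) (cf1.mul cf1)
  set f1 : ℝ → ℝ := fun x => E1 x * (E x)⁻¹ with hf1
  set f2 : ℝ → ℝ := fun x => E2 x * (E x)⁻¹ - E1 x * (E x)⁻¹ * (E1 x * (E x)⁻¹) with hf2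
  have hdf : ∀ x, HasDerivAt f (f1 x) x := by
    intro x
    have h1 : f = fun x => Real.log (E x) := by
      funext s
      rw [← hEf s, Real.log_exp]
    rw [h1]
    have h2 := (dE x).log (hEpos x).ne'
    convert! h2 using 1
  have hdf1 : ∀ x, HasDerivAt f1 (f2 x) x := by
    intro x
    have h1 := cf1.d1 x
    convert! h1 using 1
    simp only [hf2]
    ring_nf
  obtain ⟨K1, hK1⟩ := cf1.b0
  obtain ⟨K2, hK2⟩ := cf2.b0
  obtain ⟨K3, hK3⟩ := cf2.b1
  set K0 : ℝ := |Real.log (C₀ - n)| + |Real.log (C₀ + n)| with hK0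
  have hfb : ∀ x, |f x| ≤ K0 := by
    intro x
    have e1 : f x = Real.log (E x) := by rw [← hEf x, Real.log_exp]
    have h1 := Real.log_le_log hlo0 (hElo x)
    have h2 := Real.log_le_log (hEpos x) (hEhi x)
    rw [e1, abs_le]
    have a1 := neg_abs_le (Real.log (C₀ - n))
    have a2 := le_abs_self (Real.log (C₀ + n))
    have a3 := abs_nonneg (Real.log (C₀ - n))
    have a4 := abs_nonneg (Real.log (C₀ + n))
    constructor <;> linarith
  have hK10 : 0 ≤ K1 := (abs_nonneg _).trans (hK1 0)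
  have hK20 : 0 ≤ K2 := (abs_nonneg _).trans (hK2 0)
  have hK30 : 0 ≤ K3 := (abs_nonneg _).trans (hK3 0)
  have hK00 : 0 ≤ K0 := by positivity
  have hcf1 : CB2 f1 f2 (fun x => E3 x * (E x)⁻¹ + E2 x * (-(E x ^ 2)⁻¹ * E1 x) -
      ((E2 x * (E x)⁻¹ + E1 x * (-(E x ^ 2)⁻¹ * E1 x)) * (E1 x * (E x)⁻¹) +
        E1 x * (E x)⁻¹ * (E2 x * (E x)⁻¹ + E1 x * (-(E x ^ 2)⁻¹ * E1 x)))) :=
    ⟨hdf1, cf2.d1, cf2.cont1, ⟨_, hK1⟩, ⟨_, hK2⟩, ⟨_, hK3⟩⟩
  refine ⟨K0 + K1 + K2 + K3, C₀ + n, (C₀ - n) / (C₀ + n), f1, f2, _,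
    ENNReal.ofReal (C₀ + n)⁻¹ • (ENNReal.ofReal n • Measure.dirac 0 + ν),
    ⟨⟨hdf, hdf1, cf2.d1, fun x => (hfb x).trans (by linarith), fun x => (hK1 x).trans (by linarith),
      fun x => (hK2 x).trans (by linarith), fun x => (hK3 x).trans (by linarith)⟩,
      ⟨_, _, hcf1⟩, ⟨_, _, cf2⟩, hhi0, div_pos hlo0 hhi0, ?_, ?_⟩, ?_, ?_, ?_, ?_, ?_⟩
  · intro x
    rw [hEf x]
    exact div_le_div_of_nonneg_right (hElo x) hhi0.le
  · intro x
    rw [hEf x, div_le_one hhi0]
    exact hEhi x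
  · have : IsFiniteMeasure (ENNReal.ofReal n • Measure.dirac (0 : ℝ) + ν) := by
      have : IsFiniteMeasure (ENNReal.ofReal n • Measure.dirac (0 : ℝ)) :=
        Measure.smul_finite _ ENNReal.ofReal_ne_top
      infer_instance
    exact Measure.smul_finite _ ENNReal.ofReal_ne_top
  · apply Integrable.smul_measure _ ENNReal.ofReal_ne_top
    apply Integrable.add_measure _ i2
    apply Integrable.smul_measure _ ENNReal.ofReal_ne_top
    exact integrable_dirac (by simp)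
  · intro x
    have ic : Integrable (fun θ : ℝ => Real.cos (θ * x)) ν := by
      have := int_cos i0 x
      simpa using this
    have id' : Integrable (fun θ : ℝ => Real.cos (θ * x)) (ENNReal.ofReal n • Measure.dirac 0) := by
      apply Integrable.smul_measure _ ENNReal.ofReal_ne_top
      exact integrable_dirac (by simp)
    rw [integral_smul_measure, integral_add_measure id' ic, integral_smul_measure, integral_dirac,
      ENNReal.toReal_ofReal (by positivity), ENNReal.toReal_ofReal hn0, hEf x]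
    simp only [hE, pow_zero, one_mul, smul_eq_mul, zero_mul, Real.cos_zero, mul_one]
    generalize ∫ l, Real.cos (l * x) ∂ν = I
    field_simp
    ring
  · intro x
    have ic : Integrable (fun θ : ℝ => θ * Real.sin (θ * x)) ν := by
      have := int_sin i1 x
      simpa using this
    have id' : Integrable (fun θ : ℝ => θ * Real.sin (θ * x))
        (ENNReal.ofReal n • Measure.dirac 0) := by
      apply Integrable.smul_measure _ ENNReal.ofReal_ne_top
      exact integrable_dirac (by simp)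
    rw [integral_smul_measure, integral_add_measure id' ic, integral_smul_measure, integral_dirac,
      ENNReal.toReal_ofReal (by positivity), ENNReal.toReal_ofReal hn0, hEf x]
    simp only [hf1, hE1, pow_one, smul_eq_mul, zero_mul, mul_zero, zero_add]
    have := (hEpos x).ne'
    generalize ∫ l, l * Real.sin (l * x) ∂ν = I
    field_simp
  · rw [measureReal_def, Measure.smul_apply, Measure.add_apply, Measure.smul_apply,
      Measure.dirac_apply_of_mem (Set.mem_univ _), smul_eq_mul, smul_eq_mul, mul_one,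
      ENNReal.toReal_mul, ENNReal.toReal_add ENNReal.ofReal_ne_top (measure_ne_top ν _),
      ENNReal.toReal_ofReal (by positivity), ENNReal.toReal_ofReal hn0, ← measureReal_def, ← hn]
    apply le_of_eq
    field_simp
    ring

end Vale.Agent.P157.Par
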