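import Vale.Agent.P157.ParNoise

open MeasureTheory ProbabilityTheory Filter Topology Finset

namespace Vale.Agent.P157.Par

set_option linter.unusedSectionVars false
set_option linter.unusedVariables false

open Vale.Agent.P367.GT (gM)

section conc1

/-- The symmetrization of a measure. -/
noncomputable def cnSym (ν : Measure ℝ) : Measure ℝ :=
  (2⁻¹ : NNReal) • (ν + ν.map (MeasurableEquiv.neg ℝ))

variable (ν : Measure ℝ) [IsFiniteMeasure ν]

instance : IsFiniteMeasure (cnSym ν) := by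
  unfold cnSym
  have : IsFiniteMeasure (ν.map (MeasurableEquiv.neg ℝ)) := by infer_instance
  infer_instance

variable {ν}

lemma cn_integrable_symM {g : ℝ → ℂ} (hg : Integrable g ν) (hg' : Integrable (fun θ => g (-θ)) ν) :
    Integrable g (cnSym ν) := by
  unfold cnSym
  have h1 : Integrable g (ν.map (MeasurableEquiv.neg ℝ)) := by
    rw [integrable_map_equiv]
    exact hg'
  exact (hg.add_measure h1).smul_measure_nnreal

lemma cn_integral_symM {g : ℝ → ℂ} (hg : Integrable g ν) (hg' : Integrable (fun θ => g (-θ)) ν) :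
    ∫ θ, g θ ∂(cnSym ν) = 1 / 2 * (∫ θ, g θ ∂ν + ∫ θ, g (-θ) ∂ν) := by
  unfold cnSym
  have h1 : Integrable g (ν.map (MeasurableEquiv.neg ℝ)) := by
    rw [integrable_map_equiv]
    exact hg'
  rw [integral_smul_nnreal_measure, integral_add_measure hg h1, integral_map_equiv]
  simp only [MeasurableEquiv.neg_apply]
  rw [NNReal.smul_def]
  simp [mul_add]

/-- The phase. -/
noncomputable def cnPh (θ x : ℝ) : ℂ := Complex.exp ((θ * x : ℝ) * Complex.I)

lemma cn_norm_ph (θ x : ℝ) : ‖cnPh θ x‖ = 1 := Complex.norm_exp_ofReal_mul_I _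

lemma cn_measurable_ph : Measurable fun p : ℝ × ℝ => cnPh p.1 p.2 := by
  unfold cnPh
  fun_prop

lemma cn_measurable_ph_left (x : ℝ) : Measurable fun θ : ℝ => cnPh θ x := by
  unfold cnPh
  fun_prop

lemma cn_ph_neg (θ x : ℝ) : cnPh (-θ) x = Complex.exp (-((θ * x : ℝ) * Complex.I)) := by
  unfold cnPh
  congr 1
  push_cast
  ring

lemma cn_integrable_mul_ph {μ : Measure ℝ} {p : ℝ → ℂ} (hp : Integrable p μ) (x : ℝ) :
    Integrable (fun θ => p θ * cnPh θ x) μ :=
  hp.mul_bdd (c := 1) (cn_measurable_ph_left x).aestronglyMeasurable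
    (Eventually.of_forall fun θ => (cn_norm_ph θ x).le)

lemma cn_integrable_id_of_sq (hν : Integrable (fun θ => θ ^ 2) ν) : Integrable (fun θ : ℝ => θ) ν := by
  refine Integrable.mono' (hν.add (integrable_const (1 : ℝ))) measurable_id.aestronglyMeasurable
    (Eventually.of_forall fun θ => ?_)
  rw [Real.norm_eq_abs]
  simp only [Pi.add_apply]
  rcases abs_cases θ with ⟨h, _⟩ | ⟨h, _⟩ <;> rw [h] <;> nlinarith [sq_nonneg (θ - 1), sq_nonneg (θ + 1)]

lemma cn_integrable_symM_one : Integrable (fun _ : ℝ => (1 : ℂ)) (cnSym ν) := integrable_const _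

lemma cn_integrable_symM_id (hν : Integrable (fun θ => θ ^ 2) ν) :
    Integrable (fun θ : ℝ => (θ : ℂ) * Complex.I) (cnSym ν) := by
  have h1 : Integrable (fun θ : ℝ => (θ : ℂ) * Complex.I) ν :=
    (cn_integrable_id_of_sq hν).ofReal.mul_const _
  apply cn_integrable_symM h1
  have h2 : (fun θ : ℝ => ((-θ : ℝ) : ℂ) * Complex.I) = fun θ : ℝ => -((θ : ℂ) * Complex.I) := by
    funext θ
    push_cast
    ring
  rw [h2]
  exact h1.neg

/-- The cosine transform. -/
lemma cn_cosT_eq (x : ℝ) : ((∫ θ, Real.cos (θ * x) ∂ν : ℝ) : ℂ) =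
    ∫ θ, (1 : ℂ) * cnPh θ x ∂(cnSym ν) := by
  have h1 : Integrable (fun θ => (1 : ℂ) * cnPh θ x) ν := cn_integrable_mul_ph (integrable_const _) x
  have h2 : Integrable (fun θ => (1 : ℂ) * cnPh (-θ) x) ν := by
    refine Integrable.of_bound (C := 1) ?_ (Eventually.of_forall fun θ => ?_)
    · exact (((cn_measurable_ph_left x).comp measurable_neg).const_mul 1).aestronglyMeasurable
    · rw [norm_mul, cn_norm_ph]
      simp
  rw [cn_integral_symM h1 h2, ← integral_add h1 h2, ← integral_const_mul,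
    ← integral_complex_ofReal]
  congr 1
  funext θ
  rw [cn_ph_neg]
  unfold cnPh
  rw [Complex.ofReal_cos, Complex.cos]
  ring_nf

/-- The derivative of the cosine transform. -/
lemma cn_sinT_eq (hν : Integrable (fun θ => θ ^ 2) ν) (x : ℝ) :
    ((-∫ θ, θ * Real.sin (θ * x) ∂ν : ℝ) : ℂ) =
    ∫ θ : ℝ, ((θ : ℂ) * Complex.I) * cnPh θ x ∂(cnSym ν) := by
  have h0 : Integrable (fun θ : ℝ => (θ : ℂ) * Complex.I) ν :=
    (cn_integrable_id_of_sq hν).ofReal.mul_const _
  have h1 : Integrable (fun θ : ℝ => ((θ : ℂ) * Complex.I) * cnPh θ x) ν := cn_integrable_mul_ph h0 x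
  have h2 : Integrable (fun θ : ℝ => (((-θ : ℝ) : ℂ) * Complex.I) * cnPh (-θ) x) ν := by
    have h3 : Integrable (fun θ : ℝ => ((-θ : ℝ) : ℂ) * Complex.I) ν :=
      (cn_integrable_id_of_sq hν).neg.ofReal.mul_const _
    refine h3.mul_bdd (c := 1) ((cn_measurable_ph_left x).comp measurable_neg).aestronglyMeasurable
      (Eventually.of_forall fun θ => (cn_norm_ph _ x).le)
  rw [cn_integral_symM h1 h2, ← integral_add h1 h2, ← integral_const_mul, ← integral_neg,
    ← integral_complex_ofReal]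
  congr 1
  funext θ
  rw [cn_ph_neg]
  unfold cnPh
  push_cast
  rw [Complex.sin]
  have hI : Complex.I * Complex.I = -1 := Complex.I_mul_I
  ring_nf

end conc1

section conc2

variable {J K K' : Type} [Fintype J] [DecidableEq J] [Fintype K] [DecidableEq K] [Fintype K']
  [DecidableEq K']

/-- The quadratic form of a Gaussian family. -/
noncomputable def cnQf (U : J → K → ℝ) (θ : J → ℝ) : ℝ := ∑ a, ∑ b, θ a * θ b * gram U U a b

lemma cn_qf_nonneg (U : J → K → ℝ) (θ : J → ℝ) : 0 ≤ cnQf U θ := by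
  have h1 : cnQf U θ = ∑ c, (∑ a, θ a * U a c) ^ 2 := by
    unfold cnQf gram
    simp_rw [sq, Finset.sum_mul_sum, Finset.mul_sum]
    conv_rhs => rw [Finset.sum_comm]
    apply Finset.sum_congr rfl
    intro a _
    conv_rhs => rw [Finset.sum_comm]
    apply Finset.sum_congr rfl
    intro b _
    apply Finset.sum_congr rfl
    intro c _
    ring
  rw [h1]
  exact Finset.sum_nonneg fun _ _ => sq_nonneg _

lemma cn_continuous_qf (U : J → K → ℝ) : Continuous (cnQf U) := by
  unfold cnQf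
  fun_prop

/-- Gaussian expectation of a product of Fourier transforms. -/
theorem cn_gE_fourier {μ : Measure ℝ} [IsFiniteMeasure μ] (U : J → K → ℝ) {f : J → ℝ → ℝ}
    {p : J → ℝ → ℂ} (hp : ∀ a, Integrable (p a) μ)
    (hf : ∀ a x, (f a x : ℂ) = ∫ θ, p a θ * cnPh θ x ∂μ) :
    (gE U f : ℂ) = ∫ θ : J → ℝ, (∏ a, p a (θ a)) * Complex.exp (-(cnQf U θ : ℝ) / 2)
      ∂(Measure.pi fun _ => μ) := by
  unfold gE
  rw [← integral_complex_ofReal]
  have h1 : ∀ ξ : K → ℝ, ((∏ a, f a (lin U ξ a) : ℝ) : ℂ) =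
      ∫ θ : J → ℝ, ∏ a, (p a (θ a) * cnPh (θ a) (lin U ξ a)) ∂(Measure.pi fun _ => μ) := by
    intro ξ
    rw [integral_fintype_prod_eq_prod (μ := fun _ : J => μ)
      (f := fun a (θ : ℝ) => p a θ * cnPh θ (lin U ξ a))]
    push_cast
    apply Finset.prod_congr rfl
    intro a _
    exact hf a _
  simp_rw [h1]
  have hP : Integrable (fun θ : J → ℝ => ∏ a, p a (θ a)) (Measure.pi fun _ => μ) :=
    Integrable.fintype_prod hp
  have hmeas : Measurable fun q : (K → ℝ) × (J → ℝ) => ∏ a, cnPh (q.2 a) (lin U q.1 a) := by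
    apply Finset.measurable_prod
    intro a _
    have h2 : Measurable fun q : (K → ℝ) × (J → ℝ) => (q.2 a, lin U q.1 a) :=
      ((measurable_pi_apply a).comp measurable_snd).prodMk
        ((measurable_lin U a).comp measurable_fst)
    exact cn_measurable_ph.comp h2
  have hint : Integrable (Function.uncurry fun (ξ : K → ℝ) (θ : J → ℝ) =>
      ∏ a, (p a (θ a) * cnPh (θ a) (lin U ξ a))) ((gM K).prod (Measure.pi fun _ => μ)) := by
    have h2 : Integrable (fun q : (K → ℝ) × (J → ℝ) => ∏ a, p a (q.2 a))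
        ((gM K).prod (Measure.pi fun _ => μ)) := hP.comp_snd _
    have h3 := h2.mul_bdd (c := 1) hmeas.aestronglyMeasurable (Eventually.of_forall fun q => by
      rw [norm_prod]
      apply le_of_eq
      apply Finset.prod_eq_one
      intro a _
      exact cn_norm_ph _ _)
    refine h3.congr (Eventually.of_forall fun q => ?_)
    simp only [Function.uncurry, Finset.prod_mul_distrib]
  rw [integral_integral_swap hint]
  congr 1
  funext θ
  simp_rw [Finset.prod_mul_distrib]
  rw [integral_const_mul]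
  congr 1
  have h4 := char_lin U θ
  unfold cnQf
  rw [← h4]
  congr 1
  funext ξ
  unfold cnPh
  rw [← Complex.exp_sum, ← Finset.sum_mul]
  congr 2
  push_cast
  apply Finset.sum_congr rfl
  intro a _
  ring

/-- The coefficients in the Fourier representation of the second derivative. -/
noncomputable def cnPab (a b : J) : J → ℝ → ℂ :=
  Function.update (Function.update (fun _ _ => 1) a fun θ => (θ : ℂ) * Complex.I) b
    fun θ => (θ : ℂ) * Complex.I

lemma cn_prod_pab {a b : J} (hab : a ≠ b) (θ : J → ℝ) :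
    ∏ c, cnPab a b c (θ c) = ((-(θ a * θ b) : ℝ) : ℂ) := by
  have h1 : ∀ c, cnPab a b c (θ c) = (if c = a then (θ c : ℂ) * Complex.I else 1) *
      (if c = b then (θ c : ℂ) * Complex.I else 1) := by
    intro c
    unfold cnPab
    by_cases hb : c = b
    · subst hb
      rw [Function.update_self, if_neg hab.symm, if_pos rfl, one_mul]
    · rw [Function.update_of_ne hb, if_neg hb, mul_one]
      by_cases ha : c = a
      · subst ha
        rw [Function.update_self, if_pos rfl]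
      · rw [Function.update_of_ne ha, if_neg ha]
  simp_rw [h1]
  rw [Finset.prod_mul_distrib, Finset.prod_ite_eq' univ a, Finset.prod_ite_eq' univ b,
    if_pos (Finset.mem_univ a), if_pos (Finset.mem_univ b)]
  push_cast
  linear_combination (θ a : ℂ) * (θ b : ℂ) * Complex.I_mul_I

lemma cn_exp_qf_ofReal (U : J → K → ℝ) (θ : J → ℝ) :
    Complex.exp (-(cnQf U θ : ℝ) / 2) = ((Real.exp (-(cnQf U θ) / 2) : ℝ) : ℂ) := by
  push_cast
  rfl

variable {ν : Measure ℝ} [IsFiniteMeasure ν]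

lemma cn_gE_cos (U : J → K → ℝ) : gE U (fun _ x => ∫ θ, Real.cos (θ * x) ∂ν) =
    ∫ θ : J → ℝ, Real.exp (-(cnQf U θ) / 2) ∂(Measure.pi fun _ => cnSym ν) := by
  have h := cn_gE_fourier (μ := cnSym ν) U (f := fun _ x => ∫ θ, Real.cos (θ * x) ∂ν)
    (p := fun _ _ => 1) (fun _ => cn_integrable_symM_one) (fun _ x => cn_cosT_eq x)
  simp only [Finset.prod_const_one, one_mul, cn_exp_qf_ofReal] at h
  rw [integral_complex_ofReal] at h
  exact_mod_cast h

lemma cn_integrable_pab (hν : Integrable (fun θ => θ ^ 2) ν) (a b c : J) :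
    Integrable (cnPab a b c) (cnSym ν) := by
  unfold cnPab
  by_cases hb : c = b
  · subst hb
    rw [Function.update_self]
    exact cn_integrable_symM_id hν
  · rw [Function.update_of_ne hb]
    by_cases ha : c = a
    · subst ha
      rw [Function.update_self]
      exact cn_integrable_symM_id hν
    · rw [Function.update_of_ne ha]
      exact cn_integrable_symM_one

lemma cn_gE_sin (hν : Integrable (fun θ => θ ^ 2) ν) (U : J → K → ℝ) {a b : J} (hab : a ≠ b) :
    gE U (Function.update (Function.update (fun _ x => ∫ θ, Real.cos (θ * x) ∂ν) a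
          fun x => -∫ θ, θ * Real.sin (θ * x) ∂ν) b fun x => -∫ θ, θ * Real.sin (θ * x) ∂ν) =
    ∫ θ : J → ℝ, -(θ a * θ b) * Real.exp (-(cnQf U θ) / 2) ∂(Measure.pi fun _ => cnSym ν) := by
  have h := cn_gE_fourier (μ := cnSym ν) U
    (f := Function.update (Function.update (fun _ x => ∫ θ, Real.cos (θ * x) ∂ν) a
          fun x => -∫ θ, θ * Real.sin (θ * x) ∂ν) b fun x => -∫ θ, θ * Real.sin (θ * x) ∂ν)
    (p := cnPab a b) (fun c => cn_integrable_pab hν a b c) (fun c x => by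
      unfold cnPab
      by_cases hb : c = b
      · subst hb
        rw [Function.update_self, Function.update_self]
        exact cn_sinT_eq hν x
      · rw [Function.update_of_ne hb, Function.update_of_ne hb]
        by_cases ha : c = a
        · subst ha
          rw [Function.update_self, Function.update_self]
          exact cn_sinT_eq hν x
        · rw [Function.update_of_ne ha, Function.update_of_ne ha]
          exact cn_cosT_eq x)
  simp only [cn_prod_pab hab, cn_exp_qf_ofReal, ← Complex.ofReal_mul] at h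
  rw [integral_complex_ofReal] at h
  exact_mod_cast h

lemma cn_integrable_exp_qf (U : J → K → ℝ) :
    Integrable (fun θ : J → ℝ => Real.exp (-(cnQf U θ) / 2)) (Measure.pi fun _ => cnSym ν) := by
  refine Integrable.of_bound (C := 1) ?_ (Eventually.of_forall fun θ => ?_)
  · exact (Real.continuous_exp.comp ((cn_continuous_qf U).neg.div_const 2)).aestronglyMeasurable
  · rw [Real.norm_eq_abs, abs_of_pos (Real.exp_pos _)]
    apply Real.exp_le_one_iff.2
    have := cn_qf_nonneg U θ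
    linarith

lemma cn_integrable_sin_qf (hν : Integrable (fun θ => θ ^ 2) ν) (U : J → K → ℝ) {a b : J}
    (hab : a ≠ b) :
    Integrable (fun θ : J → ℝ => -(θ a * θ b) * Real.exp (-(cnQf U θ) / 2))
      (Measure.pi fun _ => cnSym ν) := by
  have h1 : Integrable (fun θ : J → ℝ => ∏ c, cnPab a b c (θ c)) (Measure.pi fun _ => cnSym ν) :=
    Integrable.fintype_prod fun c => cn_integrable_pab hν a b c
  simp_rw [cn_prod_pab hab] at h1
  have h2 : Integrable (fun θ : J → ℝ => -(θ a * θ b)) (Measure.pi fun _ => cnSym ν) := by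
    have h3 := h1.re
    exact h3
  refine h2.mul_bdd (c := 1) ?_ (Eventually.of_forall fun θ => ?_)
  · exact (Real.continuous_exp.comp ((cn_continuous_qf U).neg.div_const 2)).aestronglyMeasurable
  · rw [Real.norm_eq_abs, abs_of_pos (Real.exp_pos _)]
    apply Real.exp_le_one_iff.2
    have := cn_qf_nonneg U θ
    linarith

/-- Gaussian expectation of a product of functions of the class (cosine transforms of positive
measures): tangent line inequality in the Gram matrix. -/
theorem gE_tangent (ν : Measure ℝ) [IsFiniteMeasure ν]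
    (hν : Integrable (fun θ => θ ^ 2) ν) (U : J → K → ℝ) (V : J → K' → ℝ)
    (hdiag : ∀ a, gram U U a a = gram V V a a) :
    gE U (fun _ x => ∫ θ, Real.cos (θ * x) ∂ν) +
      1 / 2 * ∑ a, ∑ b, (if a = b then 0 else (gram V V a b - gram U U a b) *
        gE U (Function.update (Function.update (fun _ x => ∫ θ, Real.cos (θ * x) ∂ν) a
          fun x => -∫ θ, θ * Real.sin (θ * x) ∂ν) b fun x => -∫ θ, θ * Real.sin (θ * x) ∂ν)) ≤
      gE V (fun _ x => ∫ θ, Real.cos (θ * x) ∂ν) := by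
  rw [cn_gE_cos U, cn_gE_cos V]
  have hs : ∀ a b, Integrable (fun θ : J → ℝ => if a = b then 0 else
      (gram V V a b - gram U U a b) * (-(θ a * θ b) * Real.exp (-(cnQf U θ) / 2)))
      (Measure.pi fun _ => cnSym ν) := by
    intro a b
    by_cases hab : a = b
    · simp only [hab, if_true]
      exact integrable_zero _ _ _
    · simp only [hab, if_false]
      exact (cn_integrable_sin_qf hν U hab).const_mul _
  have h1 : ∀ a b, (if a = b then 0 else (gram V V a b - gram U U a b) *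
        gE U (Function.update (Function.update (fun _ x => ∫ θ, Real.cos (θ * x) ∂ν) a
          fun x => -∫ θ, θ * Real.sin (θ * x) ∂ν) b fun x => -∫ θ, θ * Real.sin (θ * x) ∂ν)) =
      ∫ θ : J → ℝ, (if a = b then 0 else (gram V V a b - gram U U a b) *
        (-(θ a * θ b) * Real.exp (-(cnQf U θ) / 2))) ∂(Measure.pi fun _ => cnSym ν) := by
    intro a b
    by_cases hab : a = b
    · simp [hab]
    · simp only [hab, if_false]
      rw [cn_gE_sin hν U hab, integral_const_mul]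
  simp_rw [h1]
  have h2 : ∀ a, ∑ b, ∫ θ : J → ℝ, (if a = b then 0 else (gram V V a b - gram U U a b) *
        (-(θ a * θ b) * Real.exp (-(cnQf U θ) / 2))) ∂(Measure.pi fun _ => cnSym ν) =
      ∫ θ : J → ℝ, ∑ b, (if a = b then 0 else (gram V V a b - gram U U a b) *
        (-(θ a * θ b) * Real.exp (-(cnQf U θ) / 2))) ∂(Measure.pi fun _ => cnSym ν) := fun a =>
    (integral_finsetSum _ fun b _ => hs a b).symm
  simp_rw [h2]
  rw [← integral_finsetSum _ fun a _ => integrable_finsetSum _ fun b _ => hs a b,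
    ← integral_const_mul, ← integral_add (cn_integrable_exp_qf U)
      ((integrable_finsetSum _ fun a _ => integrable_finsetSum _ fun b _ => hs a b).const_mul _)]
  apply integral_mono ((cn_integrable_exp_qf U).add
      ((integrable_finsetSum _ fun a _ => integrable_finsetSum _ fun b _ => hs a b).const_mul _))
    (cn_integrable_exp_qf V)
  intro θ
  simp only
  have h3 : ∑ a, ∑ b, (if a = b then 0 else (gram V V a b - gram U U a b) *
        (-(θ a * θ b) * Real.exp (-(cnQf U θ) / 2))) =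
      -(cnQf V θ - cnQf U θ) * Real.exp (-(cnQf U θ) / 2) := by
    have e1 : cnQf V θ - cnQf U θ = ∑ a, ∑ b, θ a * θ b * (gram V V a b - gram U U a b) := by
      unfold cnQf
      rw [← Finset.sum_sub_distrib]
      apply Finset.sum_congr rfl
      intro a _
      rw [← Finset.sum_sub_distrib]
      apply Finset.sum_congr rfl
      intro b _
      ring
    rw [e1, neg_mul, Finset.sum_mul, ← Finset.sum_neg_distrib]
    apply Finset.sum_congr rfl
    intro a _
    rw [Finset.sum_mul, ← Finset.sum_neg_distrib]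
    apply Finset.sum_congr rfl
    intro b _
    by_cases hab : a = b
    · subst hab
      rw [if_pos rfl, hdiag a]
      ring
    · rw [if_neg hab]
      ring
  rw [Pi.add_apply, h3]
  have h4 := Real.add_one_le_exp (-(cnQf V θ - cnQf U θ) / 2)
  have h5 : Real.exp (-(cnQf V θ) / 2) =
      Real.exp (-(cnQf U θ) / 2) * Real.exp (-(cnQf V θ - cnQf U θ) / 2) := by
    rw [← Real.exp_add]
    congr 1
    ring
  rw [h5]
  have h6 := Real.exp_pos (-(cnQf U θ) / 2)
  nlinarith [mul_le_mul_of_nonneg_left h4 h6.le]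

end conc2

lemma cn_gE_neg_neg {J K : Type} [Fintype J] [DecidableEq J] [Fintype K] [DecidableEq K]
    (U : J → K → ℝ) (F : J → ℝ → ℝ) {a b : J} (hab : a ≠ b) (G : ℝ → ℝ) :
    gE U (Function.update (Function.update F a fun x => -G x) b fun x => -G x) =
      gE U (Function.update (Function.update F a G) b G) := by
  have h1 : (fun x => -G x) = fun x => (-1) * G x := by funext x; ring
  rw [h1, gE_update_smul, Function.update_comm hab, gE_update_smul, Function.update_comm hab.symm]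
  ring

/-- Sums of the increments. -/
lemma cn_sum_cut {k : ℕ} (v : ℕ → ℝ) (x : Fin (k + 1)) :
    ∑ l, (if l ≤ x then (cut v k : Fin (k + 1) → ℝ) l else 0) =
      ∑ i ∈ Finset.range ((x : ℕ) + 1), v i := by
  have h1 : ∀ l : Fin (k + 1), (if l ≤ x then (cut v k : Fin (k + 1) → ℝ) l else 0) =
      (fun i : ℕ => if i ≤ (x : ℕ) then v i else 0) (l : ℕ) := by
    intro l
    unfold cut
    simp only [Fin.le_def]
    rw [if_pos (show (l : ℕ) ≤ k by omega)]
  simp_rw [h1]
  rw [Fin.sum_univ_eq_sum_range (fun i : ℕ => if i ≤ (x : ℕ) then v i else 0) (k + 1),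
    ← Finset.sum_filter]
  congr 1
  ext i
  simp only [Finset.mem_filter, Finset.mem_range]
  omega

namespace Arr

variable {k : ℕ} {w : Fin (k + 1) → ℝ}

lemma cn_E_mono_ultra (𝓐 : Arr k w Empty)
    (hpos : ∀ (ι : Type) [Fintype ι] (A : LM k (Empty ⊕ ι) → ℝ), (∀ L, 0 ≤ A L) → 0 ≤ 𝓐.E ι A)
    {ι : Type} [Fintype ι] {A B : LM k (Empty ⊕ ι) → ℝ} (h : ∀ L, Ultra L → A L ≤ B L) :
    𝓐.E ι A ≤ 𝓐.E ι B := by
  classical
  have h1 : 𝓐.E ι (B - A) = 𝓐.E ι (fun L => if Ultra L then B L - A L else 0) :=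
    𝓐.congr_ultra fun L hL => by simp [hL]
  have h2 := hpos ι (fun L => if Ultra L then B L - A L else 0) (by
    intro L
    split_ifs with hL
    · linarith [h L hL]
    · exact le_rfl)
  rw [← h1, map_sub] at h2
  linarith

section

variable {δ : Type} [Fintype δ] [DecidableEq δ]

lemma cn_T_chi_sum (𝓐 : Arr k w δ) (c : Fin (k + 1) → ℝ) {I : Type} (s : Finset I) (r : I → ℝ)
    (χ : I → LM k δ → ℝ) (A : δ → ℝ → ℝ) (v : ℝ → ℝ) (ι : Type) [Fintype ι] [DecidableEq ι] :
    𝓐.T c (fun L => ∑ i ∈ s, r i * χ i L) A v ι = ∑ i ∈ s, r i * 𝓐.T c (χ i) A v ι := by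
  unfold T
  simp_rw [← smul_eq_mul (r _) (𝓐.E ι _), ← map_smul, ← map_sum]
  congr 1
  funext L
  simp only [Finset.sum_apply, Pi.smul_apply, smul_eq_mul, Finset.sum_mul, mul_assoc]

lemma cn_Q_chi_sum (𝓐 : Arr k w δ) (e : ℕ) (c : Fin (k + 1) → ℝ) {I : Type} (s : Finset I)
    (r : I → ℝ) (χ : I → LM k δ → ℝ) {A : δ → ℝ → ℝ} {v : ℝ → ℝ} (hA : ∀ i, BM (A i)) {a : ℝ}
    (ha0 : 0 ≤ a) (ha : a < 1) (hv : ∀ x, |v x| ≤ a) :
    𝓐.Q e c (fun L => ∑ i ∈ s, r i * χ i L) A v = ∑ i ∈ s, r i * 𝓐.Q e c (χ i) A v := by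
  unfold Q
  simp_rw [cn_T_chi_sum, ← tsum_mul_left]
  rw [← Summable.tsum_finsetSum fun i _ =>
    (𝓐.Q_summable e c (χ i) hA ha0 ha hv).mul_left (r i)]
  apply tsum_congr
  intro n
  rw [Finset.mul_sum]
  apply Finset.sum_congr rfl
  intro i _
  ring

end

/-- The probability of a level for the two marked replicas. -/
lemma cn_E_two (𝓐 : Arr k w Empty)
    (hlim : ∀ l, 𝓐.E (Fin 2) (fun L => if L (Sum.inr 0) (Sum.inr 1) = l then 1 else 0) = w l)
    (l : Fin (k + 1)) :
    𝓐.mark.mark.E (Fin 0) (fun L => if L (Sum.inl (some none)) (Sum.inl none) = l then 1 else 0) =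
      w l := by
  rw [← hlim l]
  have h1 : 𝓐.mark.mark.E (Fin 0)
      (fun L => if L (Sum.inl (some none)) (Sum.inl none) = l then 1 else 0) =
      𝓐.E (Option (Option (Fin 0))) (fun L =>
        if L (Sum.inr none) (Sum.inr (some none)) = l then 1 else 0) := rfl
  rw [h1, ← 𝓐.reindex (Fin 2) (Option (Option (Fin 0)))
    ((finSuccEquiv 1).trans (Equiv.optionCongr (finSuccEquiv 0)))]
  congr 1

/-- The pair functional of the tangent inequality. -/
noncomputable def cnMM (𝓐 : Arr k w Empty) (c : Fin (k + 1) → ℝ) (G φ : ℝ → ℝ) (l : Fin (k + 1))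
    (n : ℕ) : ℝ :=
  𝓐.mark.mark.T c (fun L => lift (lift fun _ => 1) L * lk l (some none) none L)
    (ext G (ext G noA)) φ (Fin n)

lemma cn_fam_heat {ι : Type} (τ : ℝ) (φ : ℝ → ℝ) :
    (fam noA (heat τ φ) : Empty ⊕ ι → ℝ → ℝ) = fun _ => heat τ φ := by
  funext a
  rcases a with a | a
  · exact a.elim
  · rfl

lemma cn_sum_empty_sum {ι : Type} [Fintype ι] (f : Empty ⊕ ι → ℝ) :
    ∑ a, f a = ∑ j, f (Sum.inr j) := by
  rw [Fintype.sum_sum_type]
  simp

lemma cn_T_tangent (𝓐 : Arr k w Empty)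
    (hpos : ∀ (ι : Type) [Fintype ι] (A : LM k (Empty ⊕ ι) → ℝ), (∀ L, 0 ≤ A L) → 0 ≤ 𝓐.E ι A)
    {c c' : Fin (k + 1) → ℝ} (hc : ∀ l, 0 ≤ c l) (hc' : ∀ l, 0 ≤ c' l) {τ τ' : ℝ} (hτ : 0 ≤ τ)
    (hτ' : 0 ≤ τ') (hdiag : ∑ l, c l + τ = ∑ l, c' l + τ')
    (ν : Measure ℝ) [IsFiniteMeasure ν] (hν : Integrable (fun θ => θ ^ 2) ν) {φ ψ G : ℝ → ℝ}
    (hφ : BM φ) (hψ : BM ψ) (hG : BM G) (hφd : φ = fun x => ∫ θ, Real.cos (θ * x) ∂ν)
    (hψd : ψ = fun x => -∫ θ, θ * Real.sin (θ * x) ∂ν)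
    (hGd : heat τ ψ = fun x => -G x) (hHφ : BM (heat τ φ)) (n : ℕ) :
    𝓐.T c (fun _ => 1) noA (heat τ φ) (Fin (n + 1)) +
      1 / 2 * ∑ l, (c' l - c l) * ((n + 1) * (n * 𝓐.cnMM c G (heat τ φ) l (n - 1))) ≤
      𝓐.T c' (fun _ => 1) noA (heat τ' φ) (Fin (n + 1)) := by
  -- the tangent inequality on ultrametric matrices
  have h1 : ∀ L : LM k (Empty ⊕ Fin (n + 1)), Ultra L →
      gE (UL c L) (fam noA (heat τ φ)) + 1 / 2 * ∑ j : Fin (n + 1), ∑ j' : Fin (n + 1),
        (if j = j' then 0 else ∑ l, (c' l - c l) * ((if l ≤ L (Sum.inr j) (Sum.inr j') then 1 else 0) *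
          gE (UL c L) (Function.update (Function.update (fam noA (heat τ φ)) (Sum.inr j) G)
            (Sum.inr j') G))) ≤ gE (UL c' L) (fam noA (heat τ' φ)) := by
    intro L hL
    have h2 := gE_tangent ν hν (noisy τ (UL c L)) (noisy τ' (UL c' L)) (by
      intro a
      rw [gram_noisy_UL hc hτ hL, gram_noisy_UL hc' hτ' hL, hL.diag]
      simp only [Fin.le_last, if_true]
      exact hdiag)
    rw [← hφd, ← hψd, gE_noisy τ _ (fun _ => hφ), gE_noisy τ' _ (fun _ => hφ),
      cn_sum_empty_sum] at h2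
    rw [cn_fam_heat, cn_fam_heat]
    refine le_trans (le_of_eq ?_) h2
    congr 2
    apply Finset.sum_congr rfl
    intro j _
    rw [cn_sum_empty_sum]
    apply Finset.sum_congr rfl
    intro j' _
    by_cases hj : j = j'
    · subst hj
      rw [if_pos rfl, if_pos rfl]
    · have hj' : (Sum.inr j : Empty ⊕ Fin (n + 1)) ≠ Sum.inr j' := by simpa using hj
      rw [if_neg hj, if_neg hj', gram_noisy_UL hc hτ hL, gram_noisy_UL hc' hτ' hL, if_neg hj',
        if_neg hj', add_zero, add_zero, gE_noisy τ _ (BM.update (BM.update (fun _ => hφ) hψ) hψ),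
        ← Finset.sum_sub_distrib, Finset.sum_mul]
      have h3 : (fun a => heat τ (Function.update (Function.update
          (fun (_ : Empty ⊕ Fin (n + 1)) => φ) (Sum.inr j) ψ) (Sum.inr j') ψ a)) =
          Function.update (Function.update (fun _ => heat τ φ) (Sum.inr j) (fun x => -G x))
            (Sum.inr j') (fun x => -G x) := by
        rw [← hGd]
        funext a
        by_cases ha : a = Sum.inr j'
        · subst ha
          rw [Function.update_self, Function.update_self]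
        · rw [Function.update_of_ne ha, Function.update_of_ne ha]
          by_cases ha' : a = Sum.inr j
          · subst ha'
            rw [Function.update_self, Function.update_self]
          · rw [Function.update_of_ne ha', Function.update_of_ne ha']
      rw [h3, cn_gE_neg_neg _ _ hj']
      apply Finset.sum_congr rfl
      intro l _
      split_ifs <;> ring
  -- integration
  have h2 := 𝓐.cn_E_mono_ultra hpos h1
  have h3 : ∀ c'' τ'', 𝓐.T c'' (fun _ => 1) noA (heat τ'' φ) (Fin (n + 1)) =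
      𝓐.E (Fin (n + 1)) fun L => gE (UL c'' L) (fam noA (heat τ'' φ)) := by
    intro c'' τ''
    unfold T
    simp only [one_mul]
  rw [h3, h3]
  refine le_trans (le_of_eq ?_) h2
  set F : Empty ⊕ Fin (n + 1) → ℝ → ℝ := fam noA (heat τ φ) with hF
  have h4 : (fun L : LM k (Empty ⊕ Fin (n + 1)) => gE (UL c L) F +
      1 / 2 * ∑ j : Fin (n + 1), ∑ j' : Fin (n + 1),
        (if j = j' then 0 else ∑ l, (c' l - c l) *
          ((if l ≤ L (Sum.inr j) (Sum.inr j') then 1 else 0) *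
          gE (UL c L) (Function.update (Function.update F (Sum.inr j) G)
            (Sum.inr j') G)))) =
      (fun L => gE (UL c L) F) + (1 / 2 : ℝ) • ∑ j : Fin (n + 1), ∑ j' : Fin (n + 1),
        (if j = j' then 0 else ∑ l, (c' l - c l) • (fun L : LM k (Empty ⊕ Fin (n + 1)) =>
          (1 : ℝ) * ((if l ≤ L (Sum.inr j) (Sum.inr j') then 1 else 0) *
          gE (UL c L) (Function.update (Function.update F (Sum.inr j) G)
            (Sum.inr j') G)))) := by
    funext L
    simp only [Pi.add_apply, Finset.sum_apply, Pi.smul_apply, smul_eq_mul, ite_apply,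
      Pi.zero_apply, one_mul]
  rw [h4]
  simp only [map_add, map_sum, map_smul, smul_eq_mul, apply_ite (𝓐.E (Fin (n + 1))), map_zero]
  congr 2
  rcases n with _ | n
  · simp
  · have h5 : ∀ j : Fin (n + 2), (∑ j' : Fin (n + 2), (if j = j' then 0 else ∑ l, (c' l - c l) *
        𝓐.E (Fin (n + 2)) (fun L : LM k (Empty ⊕ Fin (n + 2)) =>
          (1 : ℝ) * ((if l ≤ L (Sum.inr j) (Sum.inr j') then 1 else 0) *
          gE (UL c L) (Function.update (Function.update F (Sum.inr j) G)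
            (Sum.inr j') G))))) =
        ∑ l, (c' l - c l) * (((n + 1 : ℕ) : ℝ) * 𝓐.cnMM c G (heat τ φ) l n) := by
      intro j
      rw [Fin.sum_univ_succAbove _ j]
      simp only [if_true, zero_add]
      have h6 : ∀ m : Fin (n + 1), (if j = j.succAbove m then 0 else ∑ l, (c' l - c l) *
        𝓐.E (Fin (n + 2)) (fun L : LM k (Empty ⊕ Fin (n + 2)) =>
          (1 : ℝ) * ((if l ≤ L (Sum.inr j) (Sum.inr (j.succAbove m)) then 1 else 0) *
          gE (UL c L) (Function.update (Function.update F (Sum.inr j) G)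
            (Sum.inr (j.succAbove m)) G)))) = ∑ l, (c' l - c l) * 𝓐.cnMM c G (heat τ φ) l n := by
        intro m
        rw [if_neg (Fin.succAbove_ne j m).symm]
        apply Finset.sum_congr rfl
        intro l _
        congr 1
        exact 𝓐.E_mark_pair hc (fun _ => 1) (fun i => i.elim) hG.meas hHφ.meas l n j m
      simp_rw [h6]
      rw [Finset.sum_const, Finset.card_univ, Fintype.card_fin, nsmul_eq_mul, Finset.mul_sum]
      apply Finset.sum_congr rfl
      intro l _
      ring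
    simp_rw [h5]
    rw [Finset.sum_const, Finset.card_univ, Fintype.card_fin, nsmul_eq_mul, Finset.mul_sum]
    apply Finset.sum_congr rfl
    intro l _
    simp only [Nat.add_sub_cancel]
    push_cast
    ring

lemma cn_Lg_tangent_aux (𝓐 : Arr k w Empty)
    (hpos : ∀ (ι : Type) [Fintype ι] (A : LM k (Empty ⊕ ι) → ℝ), (∀ L, 0 ≤ A L) → 0 ≤ 𝓐.E ι A)
    {c c' : Fin (k + 1) → ℝ} (hc : ∀ l, 0 ≤ c l) (hc' : ∀ l, 0 ≤ c' l) {τ τ' : ℝ} (hτ : 0 ≤ τ)
    (hτ' : 0 ≤ τ') (hdiag : ∑ l, c l + τ = ∑ l, c' l + τ')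
    (ν : Measure ℝ) [IsFiniteMeasure ν] (hν : Integrable (fun θ => θ ^ 2) ν) {φ ψ G : ℝ → ℝ}
    (hφ : BM φ) (hψ : BM ψ) (hG : BM G) (hφd : φ = fun x => ∫ θ, Real.cos (θ * x) ∂ν)
    (hψd : ψ = fun x => -∫ θ, θ * Real.sin (θ * x) ∂ν)
    (hGd : heat τ ψ = fun x => -G x) (hHφ : BM (heat τ φ)) {a : ℝ} (ha0 : 0 ≤ a) (ha1 : a < 1)
    (hφa : ∀ x, |φ x| ≤ a) :
    𝓐.Lg c (heat τ φ) + 1 / 2 * ∑ l, (c' l - c l) * 𝓐.mark.mark.Q 1 c
      (fun L => lift (lift fun _ => 1) L * lk l (some none) none L) (ext G (ext G noA))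
        (heat τ φ) ≤ 𝓐.Lg c' (heat τ' φ) := by
  have bn : ∀ i : Empty, BM (noA i) := fun i => i.elim
  have s1 := 𝓐.Lg_summable c ha0 ha1 (heat_abs_le hφa τ)
  have s2 := 𝓐.Lg_summable c' ha0 ha1 (heat_abs_le hφa τ')
  have s3 := fun l => 𝓐.mark.mark.Q_summable 1 c
    (fun L => lift (lift fun _ => 1) L * lk l (some none) none L) (BM_ext (BM_ext bn hG) hG)
    ha0 ha1 (heat_abs_le hφa τ)
  have s4 := fun l => tsum_shift 0 (fun n => 𝓐.cnMM c G (heat τ φ) l n) (s3 l)
  have s5 : ∀ l, Summable fun n : ℕ => (n : ℝ) * 𝓐.cnMM c G (heat τ φ) l (n - 1) := by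
    intro l
    have h := (s4 l).1
    simpa using h
  have e5 : ∀ l, ∑' n : ℕ, (n : ℝ) * 𝓐.cnMM c G (heat τ φ) l (n - 1) = 𝓐.mark.mark.Q 1 c
      (fun L => lift (lift fun _ => 1) L * lk l (some none) none L) (ext G (ext G noA))
        (heat τ φ) := by
    intro l
    have h := (s4 l).2
    simp only [Nat.add_zero, Nat.choose_zero_right, Nat.cast_one, one_mul, zero_add] at h
    rw [h]
    rfl
  have s6 : Summable fun n : ℕ => 1 / 2 * ∑ l, (c' l - c l) *
      ((n : ℝ) * 𝓐.cnMM c G (heat τ φ) l (n - 1)) :=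
    (summable_sum fun l _ => (s5 l).mul_left (c' l - c l)).mul_left _
  have e6 : ∑' n : ℕ, 1 / 2 * ∑ l, (c' l - c l) * ((n : ℝ) * 𝓐.cnMM c G (heat τ φ) l (n - 1)) =
      1 / 2 * ∑ l, (c' l - c l) * 𝓐.mark.mark.Q 1 c
      (fun L => lift (lift fun _ => 1) L * lk l (some none) none L) (ext G (ext G noA))
        (heat τ φ) := by
    rw [tsum_mul_left, Summable.tsum_finsetSum fun l _ => (s5 l).mul_left (c' l - c l)]
    congr 1
    apply Finset.sum_congr rfl
    intro l _
    rw [tsum_mul_left, e5]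
  rw [← e6]
  unfold Lg
  rw [← s1.tsum_add s6]
  apply (s1.add s6).tsum_le_tsum _ s2
  intro n
  have h := 𝓐.cn_T_tangent hpos hc hc' hτ hτ' hdiag ν hν hφ hψ hG hφd hψd hGd hHφ n
  have hn : (0 : ℝ) < n + 1 := by positivity
  have h2 := mul_le_mul_of_nonneg_left h (by positivity : (0 : ℝ) ≤ 1 / ((n : ℝ) + 1))
  refine le_trans (le_of_eq ?_) h2
  rw [mul_add]
  congr 1
  rw [Finset.mul_sum, Finset.mul_sum, Finset.mul_sum]
  apply Finset.sum_congr rfl
  intro l _
  field_simp

/-- Evaluation of the pair functional. -/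
lemma cn_QQ_eval (𝓐 : Arr k w Empty) (hw : ∑ l, w l = 1)
    (hlim : ∀ l, 𝓐.E (Fin 2) (fun L => if L (Sum.inr 0) (Sum.inr 1) = l then 1 else 0) = w l)
    {m v : ℕ → ℝ} (hv : ∀ l, 0 ≤ v l)
    (hm : ∀ l, 1 ≤ l → l ≤ k → 0 < m l) (hmw : ∀ l : Fin (k + 1), up w l = 1 - m l)
    {a : ℝ} (ha : 0 < a) {W : ℝ → ℝ} (hW : ∃ W' W'', CB2 W W' W'') (hWa : ∀ x, a ≤ W x)
    (hW1 : ∀ x, W x ≤ 1) {h : ℝ → ℝ} (hh : ∃ h' h'', CB2 h h' h'') (l : Fin (k + 1)) :
    𝓐.mark.mark.Q 1 (cut v k) (fun L => lift (lift fun _ => 1) L * lk l (some none) none L)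
      (ext (fun x => h x * W x) (ext (fun x => h x * W x) noA)) (fun x => 1 - W x) =
      ∑ l', (if l ≤ l' then w l' * pairVal m v k W h l' else 0) := by
  have ha1 : a ≤ 1 := (hWa 0).trans (hW1 0)
  obtain ⟨W', W'', hW0⟩ := hW
  obtain ⟨h', h'', hh0⟩ := hh
  have hA : (ext (fun x => h x * W x) (ext (fun x => h x * W x) noA) :
      Option (Option Empty) → ℝ → ℝ) = fun _ x => h x * W x := by
    funext i
    rcases i with _ | (_ | i)
    · rfl
    · rfl
    · exact i.elim
  have bA : ∀ _ : Option (Option Empty), BM fun x => h x * W x := fun _ =>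
    ⟨(hh0.mul hW0).cont.measurable, (hh0.mul hW0).b0⟩
  have hχ : (fun L : LM k (Option (Option Empty)) =>
      lift (lift fun _ => 1) L * lk l (some none) none L) =
      fun L => ∑ l' ∈ univ, (if l ≤ l' then (1 : ℝ) else 0) *
        (if L (some none) none = l' then 1 else 0) := by
    funext L
    simp only [lift, one_mul, lk]
    rw [indicator_sum]
    apply Finset.sum_congr rfl
    intro l' _
    split_ifs <;> simp
  rw [hA, hχ, 𝓐.mark.mark.cn_Q_chi_sum 1 (cut v k) univ _ _ bA (by linarith : 0 ≤ 1 - a)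
    (by linarith) (fun x => by
      rw [abs_of_nonneg (by linarith [hW1 x])]
      linarith [hWa x])]
  apply Finset.sum_congr rfl
  intro l' _
  rw [𝓐.mark.mark.Q_eval_two (by simp) (i₀ := some none) (j₀ := none) (by simp) hw hv hm hmw ha
    ⟨W', W'', hW0⟩ hWa hW1 ⟨h', h'', hh0⟩ l', 𝓐.cn_E_two hlim l']
  split_ifs <;> simp

/-- Tangent inequality for the logarithm series: `v' = v''` increments of another path. -/
theorem Lg_tangent {k : ℕ} {w : Fin (k + 1) → ℝ} (𝓐 : Arr k w Empty) (hw : ∑ l, w l = 1)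
    (hpos : ∀ (ι : Type) [Fintype ι] (A : LM k (Empty ⊕ ι) → ℝ), (∀ L, 0 ≤ A L) → 0 ≤ 𝓐.E ι A)
    (hone : 𝓐.E (Fin 1) (fun _ => 1) = 1)
    (hlim : ∀ l, 𝓐.E (Fin 2) (fun L => if L (Sum.inr 0) (Sum.inr 1) = l then 1 else 0) = w l)
    {m v v' : ℕ → ℝ} (hv : ∀ l, 0 ≤ v l) (hv' : ∀ l, 0 ≤ v' l)
    (hm : ∀ l, 1 ≤ l → l ≤ k → 0 < m l) (hmw : ∀ l : Fin (k + 1), up w l = 1 - m l)
    (ν : Measure ℝ) [IsFiniteMeasure ν] (hν : Integrable (fun θ => θ ^ 2) ν)
    {a : ℝ} (ha : 0 < a) {W : ℝ → ℝ} (hWdef : ∀ x, W x = 1 - ∫ θ, Real.cos (θ * x) ∂ν)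
    (hWa : ∀ x, a ≤ W x) (hW1 : ∀ x, W x ≤ 1) (hW : ∃ W' W'', CB2 W W' W'')
    (hνa : ν.real Set.univ ≤ 1 - a)
    {τ τ' : ℝ} (hτ : 0 ≤ τ) (hτ' : 0 ≤ τ')
    (hdiag : ∑ l ∈ Finset.range (k + 1), v l + τ = ∑ l ∈ Finset.range (k + 1), v' l + τ')
    {h : ℝ → ℝ} (hh : ∀ x, h x * W x = ∫ θ, θ * Real.sin (θ * x) ∂ν)
    (hhb : ∃ h' h'', CB2 h h' h'') :
    ∫ z, Real.log (lvW m v' k (flowW 1 τ' W 0) 0 (√(v' 0) * z)) ∂(gaussianReal 0 1) ≤
      ∫ z, Real.log (lvW m v k (flowW 1 τ W 0) 0 (√(v 0) * z)) ∂(gaussianReal 0 1) -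
      1 / 2 * ∑ l : Fin (k + 1), w l *
        (∑ i ∈ Finset.range ((l : ℕ) + 1), v' i - ∑ i ∈ Finset.range ((l : ℕ) + 1), v i) *
        pairVal m v k (flowW 1 τ W 0) (flowh 1 τ W h 0) l := by
  obtain ⟨W', W'', hW0⟩ := hW
  obtain ⟨h', h'', hh0⟩ := hhb
  have ha1 : a ≤ 1 := (hWa 0).trans (hW1 0)
  have hWm : Measurable W := hW0.cont.measurable
  set φ : ℝ → ℝ := fun x => ∫ θ, Real.cos (θ * x) ∂ν with hφd
  set ψ : ℝ → ℝ := fun x => -∫ θ, θ * Real.sin (θ * x) ∂ν with hψd
  have hφW : ∀ x, φ x = 1 - W x := fun x => by rw [hWdef x]; ring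
  have hφW' : φ = fun x => 1 - W x := funext hφW
  have hφ : BM φ := by
    rw [hφW']
    exact (BM.const 1).sub ⟨hWm, hW0.b0⟩
  have hψW : ψ = fun x => -(h x * W x) := by
    funext x
    rw [hh x]
  have bhW : BM fun x => h x * W x := ⟨(hh0.mul hW0).cont.measurable, (hh0.mul hW0).b0⟩
  have hψ : BM ψ := by
    rw [hψW]
    exact bhW.neg
  have hφa : ∀ x, |φ x| ≤ 1 - a := fun x => by
    rw [hφW, abs_of_nonneg (by linarith [hW1 x])]
    linarith [hWa x]
  -- the flows with exponent one are heat flows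
  have e1 : ∀ t x, flowW 1 t W 0 x = heat t W x := by
    intro t x
    unfold flowW
    simp only [Real.rpow_one, sub_zero, div_one]
  have e2 : ∀ t x, flowh 1 t W h 0 x * flowW 1 t W 0 x = heat t (fun y => h y * W y) x := by
    intro t x
    rw [e1]
    unfold flowh
    simp only [Real.rpow_one, sub_zero]
    have h1 : a ≤ heat t W x := by
      rw [← e1]
      exact (flowW_mem one_pos ha hWm hWa hW1 x).1
    have h2 : heat t W x ≠ 0 := (ha.trans_le h1).ne'
    exact div_mul_cancel₀ _ h2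
  have e3 : ∀ t, heat t φ = fun x => 1 - flowW 1 t W 0 x := by
    intro t
    funext x
    rw [e1, hφW']
    unfold heat
    obtain ⟨C, hC⟩ := hW0.b0
    rw [integral_sub (integrable_const _) (integrable_heat hWm hC t x)]
    simp
  have e4 : heat τ ψ = fun x => -(flowh 1 τ W h 0 x * flowW 1 τ W 0 x) := by
    funext x
    rw [e2, hψW]
    unfold heat
    rw [integral_neg]
  have cW := fun t => flowW_cb2 (m := 1) (σ := t) (t := 0) one_pos ha hW0 hWa hW1
  have ch := fun t => flowh_cb2 (m := 1) (σ := t) (t := 0) one_pos ha hW0 hWa hW1 hh0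
  have mW := fun t x => flowW_mem (m := 1) (σ := t) (t := 0) one_pos ha hWm hWa hW1 x
  obtain ⟨V', V'', hV⟩ := cW τ
  obtain ⟨g', g'', hg⟩ := ch τ
  have hG : BM fun x => flowh 1 τ W h 0 x * flowW 1 τ W 0 x :=
    ⟨(hg.mul hV).cont.measurable, (hg.mul hV).b0⟩
  have hHφ : BM (heat τ φ) := by
    rw [e3]
    exact (BM.const 1).sub ⟨hV.cont.measurable, hV.b0⟩
  have hsum : ∀ u : ℕ → ℝ, ∑ l, (cut u k : Fin (k + 1) → ℝ) l = ∑ l ∈ Finset.range (k + 1), u l := by
    intro u
    have h1 := cn_sum_cut u (Fin.last k)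
    simp only [Fin.le_last, if_true, Fin.val_last] at h1
    exact h1
  have key := 𝓐.cn_Lg_tangent_aux hpos (cut_nonneg hv k) (cut_nonneg hv' k) hτ hτ'
    (by rw [hsum, hsum]; exact hdiag) ν hν hφ hψ hG hφd hψd e4 hHφ (by linarith : 0 ≤ 1 - a)
    (by linarith) hφa
  rw [e3 τ, e3 τ', 𝓐.Lg_eval hw hv hm hmw ha (cW τ) (fun x => (mW τ x).1) (fun x => (mW τ x).2),
    𝓐.Lg_eval hw hv' hm hmw ha (cW τ') (fun x => (mW τ' x).1) (fun x => (mW τ' x).2), hone,
    one_mul, one_mul] at key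
  have hsumQ : ∑ l, ((cut v' k : Fin (k + 1) → ℝ) l - (cut v k : Fin (k + 1) → ℝ) l) *
      𝓐.mark.mark.Q 1 (cut v k) (fun L => lift (lift fun _ => 1) L * lk l (some none) none L)
      (ext (fun x => flowh 1 τ W h 0 x * flowW 1 τ W 0 x)
        (ext (fun x => flowh 1 τ W h 0 x * flowW 1 τ W 0 x) noA)) (fun x => 1 - flowW 1 τ W 0 x) =
      ∑ l : Fin (k + 1), w l *
        (∑ i ∈ Finset.range ((l : ℕ) + 1), v' i - ∑ i ∈ Finset.range ((l : ℕ) + 1), v i) *
        pairVal m v k (flowW 1 τ W 0) (flowh 1 τ W h 0) l := by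
    have h1 : ∀ l, 𝓐.mark.mark.Q 1 (cut v k)
        (fun L => lift (lift fun _ => 1) L * lk l (some none) none L)
        (ext (fun x => flowh 1 τ W h 0 x * flowW 1 τ W 0 x)
        (ext (fun x => flowh 1 τ W h 0 x * flowW 1 τ W 0 x) noA)) (fun x => 1 - flowW 1 τ W 0 x) =
        ∑ l', (if l ≤ l' then w l' * pairVal m v k (flowW 1 τ W 0) (flowh 1 τ W h 0) l' else 0) :=
      fun l => 𝓐.cn_QQ_eval hw hlim hv hm hmw ha (cW τ) (fun x => (mW τ x).1)
        (fun x => (mW τ x).2) (ch τ) l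
    simp_rw [h1, Finset.mul_sum]
    rw [Finset.sum_comm]
    apply Finset.sum_congr rfl
    intro l' _
    rw [← cn_sum_cut v' l', ← cn_sum_cut v l', ← Finset.sum_sub_distrib, Finset.mul_sum,
      Finset.sum_mul]
    apply Finset.sum_congr rfl
    intro l _
    split_ifs <;> ring
  rw [hsumQ] at key
  linarith

end Arr

end Vale.Agent.P157.Par
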