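import Vale.Agent.P157.ParCube2

/-! One more spin, one more pattern. Main results: `pattern_increment` (file ParCube1),
`elz_pert` (file ParCube1) and `spin_increment` (this file). -/

open MeasureTheory ProbabilityTheory Filter Topology
open scoped RealInnerProductSpace

namespace Vale.Agent.P157.Par

open Vale.Agent.P367.GT (gM)

set_option linter.unusedSectionVars false

namespace Cube

lemma log_cosh_nonneg (t : ℝ) : 0 ≤ Real.log (Real.cosh t) := Real.log_nonneg (Real.one_le_cosh t)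

lemma log_cosh_le (t : ℝ) : Real.log (Real.cosh t) ≤ |t| := by
  have h : Real.cosh t ≤ Real.exp |t| := by
    rw [Real.cosh_eq]
    have h1 := Real.exp_le_exp.2 (le_abs_self t)
    have h2 := Real.exp_le_exp.2 (neg_le_abs t)
    linarith only [h1, h2]
  calc Real.log (Real.cosh t) ≤ Real.log (Real.exp |t|) :=
        Real.log_le_log (Real.cosh_pos t) h
    _ = |t| := Real.log_exp _

lemma cubeS_eq_lin {N : ℕ} (g : Fin (N + 1) → ℝ) (y : Fin (N + 1) → Bool) :
    lin (fun (y : Fin (N + 1) → Bool) i => cubeφ N y i) g y = cubeS g y := by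
  unfold lin cubeS
  exact Finset.sum_congr rfl fun i _ => mul_comm _ _

lemma measurable_cubeS {Ω : Type} [MeasurableSpace Ω] {N : ℕ} {g : Ω → Fin (N + 1) → ℝ}
    (hg : Measurable g) (y : Fin (N + 1) → Bool) : Measurable fun ω => cubeS (g ω) y := by
  unfold cubeS; fun_prop

lemma integrable_cubeS (M N : ℕ) (a : Fin M) (y : Fin (N + 1) → Bool) :
    Integrable (fun ω : Fin M → Fin (N + 1) → ℝ => cubeS (ω a) y) (pm M N) := by
  refine integrable_comp_eval (μ := fun _ : Fin M => gM (Fin (N + 1))) (i := a)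
    (f := fun g => cubeS g y) ?_
  unfold cubeS
  exact integrable_finsetSum _ fun i _ => (integrable_coord_gM i).mul_const _

/-- The factor of the new spin. -/
noncomputable def A1 (δ : ℝ) (f1 f2 : ℝ → ℝ) {M N : ℕ} (ω : Fin M → Fin (N + 1) → ℝ)
    (η : Fin M → ℝ) (x : Fin (N + 1) → Bool) : ℝ :=
  Real.exp (cavB δ f1 f2 fun a => cubeS (ω a) x) *
    Real.cosh (cavY δ f1 (fun a => cubeS (ω a) x) η)

/-- The factor of the rescaling. -/
noncomputable def A2 (δ : ℝ) (f1 f2 : ℝ → ℝ) {M N : ℕ} (ω H : Fin M → Fin (N + 1) → ℝ)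
    (x : Fin (N + 1) → Bool) : ℝ :=
  Real.exp (cavB δ f1 f2 (fun a => cubeS (ω a) x) +
    cavY δ f1 (fun a => cubeS (ω a) x) fun a => cubeS (H a) x)

lemma A1_pos (δ : ℝ) (f1 f2 : ℝ → ℝ) {M N : ℕ} (ω : Fin M → Fin (N + 1) → ℝ)
    (η : Fin M → ℝ) (x : Fin (N + 1) → Bool) : 0 < A1 δ f1 f2 ω η x :=
  mul_pos (Real.exp_pos _) (Real.cosh_pos _)

lemma A2_pos (δ : ℝ) (f1 f2 : ℝ → ℝ) {M N : ℕ} (ω H : Fin M → Fin (N + 1) → ℝ)
    (x : Fin (N + 1) → Bool) : 0 < A2 δ f1 f2 ω H x := Real.exp_pos _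

section main

variable {f f1 f2 f3 : ℝ → ℝ} {C : ℝ}

lemma integrable_cavB (hf : CB3 C f f1 f2 f3) (δ : ℝ) (M N : ℕ) (x : Fin (N + 1) → Bool) :
    Integrable (fun ω : Fin M → Fin (N + 1) → ℝ => cavB δ f1 f2 fun a => cubeS (ω a) x)
      (pm M N) := by
  have m1 := (Lin.continuous_f1 hf).measurable
  have m2 := (Lin.continuous_f2 hf).measurable
  unfold cavB
  refine integrable_finsetSum _ fun a _ => Integrable.const_mul ?_ _
  refine Integrable.sub ?_ ?_
  · exact Integrable.mono' (integrable_const C) (m2.comp (measurable_cubeS (by fun_prop) x)).aestronglyMeasurable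
      (Filter.Eventually.of_forall fun _ => hf.b2 _)
  · exact integrable_mul_bdd (integrable_cubeS M N a x)
      (m1.comp (measurable_cubeS (by fun_prop) x)) C fun _ => hf.b1 _

lemma integrable_cavY (hf : CB3 C f f1 f2 f3) (δ : ℝ) {M N : ℕ} {G H : Type} [MeasurableSpace G]
    [MeasurableSpace H] (ν : Measure G) [IsProbabilityMeasure ν] {μ : Measure H}
    [IsProbabilityMeasure μ] {h : H → Fin M → ℝ} (hh : ∀ a, Integrable (fun z => h z a) μ)
    (x : Fin (N + 1) → Bool) :
    Integrable (fun z : ((Fin M → Fin (N + 1) → ℝ) × G) × H =>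
      cavY δ f1 (fun a => cubeS (z.1.1 a) x) (h z.2)) (((pm M N).prod ν).prod μ) := by
  have m1 := (Lin.continuous_f1 hf).measurable
  unfold cavY
  refine integrable_finsetSum _ fun a _ => ?_
  have h1 : Integrable (fun z : ((Fin M → Fin (N + 1) → ℝ) × G) × H => h z.2 a)
      (((pm M N).prod ν).prod μ) := (hh a).comp_snd _
  have h2 := (integrable_mul_bdd h1 (f := fun z => f1 (cubeS (z.1.1 a) x))
    (m1.comp (measurable_cubeS (g := fun z : ((Fin M → Fin (N + 1) → ℝ) × G) × H => z.1.1 a)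
      (by fun_prop) x)) C fun _ => hf.b1 _).const_mul √δ
  refine h2.congr (Filter.Eventually.of_forall fun z => ?_)
  simp only
  ring

lemma lse_A1 (δ : ℝ) {M N P : ℕ} (s : ℝ) (u : Fin P → ℝ) (ω : Fin M → Fin (N + 1) → ℝ)
    (g : GI P (N + 1) → ℝ) (η : Fin M → ℝ) :
    Real.log (∑ x, Real.exp (EE f s u ω g x) * A1 δ f1 f2 ω η x) =
      Real.log (∑ x, Real.exp (EE f s u ω g x + (cavB δ f1 f2 (fun a => cubeS (ω a) x) +
        Real.log (Real.cosh (cavY δ f1 (fun a => cubeS (ω a) x) η))))) := by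
  congr 1
  refine Finset.sum_congr rfl fun x _ => ?_
  unfold A1
  rw [Real.exp_add, Real.exp_add, Real.exp_log (Real.cosh_pos _)]

lemma lse_A2 (δ : ℝ) {M N P : ℕ} (s : ℝ) (u : Fin P → ℝ) (ω H : Fin M → Fin (N + 1) → ℝ)
    (g : GI P (N + 1) → ℝ) :
    Real.log (∑ x, Real.exp (EE f s u ω g x) * A2 δ f1 f2 ω H x) =
      Real.log (∑ x, Real.exp (EE f s u ω g x + (cavB δ f1 f2 (fun a => cubeS (ω a) x) +
        cavY δ f1 (fun a => cubeS (ω a) x) fun a => cubeS (H a) x))) := by
  congr 1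
  refine Finset.sum_congr rfl fun x _ => ?_
  unfold A2
  rw [← Real.exp_add]

lemma integrable_F1 (hf : CB3 C f f1 f2 f3) (hfm : Measurable f) (δ : ℝ) (M N : ℕ) {P : ℕ}
    (s : ℝ) (u : Fin P → ℝ) :
    Integrable (fun z : ((Fin M → Fin (N + 1) → ℝ) × (GI P (N + 1) → ℝ)) × (Fin M → ℝ) =>
      Real.log (∑ x, Real.exp (EE f s u z.1.1 z.1.2 x) * A1 δ f1 f2 z.1.1 z.2 x))
      (((pm M N).prod (gM (GI P (N + 1)))).prod (gM (Fin M))) := by
  simp_rw [lse_A1]
  refine integrable_lse fun x => ?_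
  refine ((integrable_EE hfm C hf.b0 N M s u x).comp_fst _).add ?_
  refine (((integrable_cavB hf δ M N x).comp_fst _).comp_fst _).add ?_
  have h := integrable_cavY hf δ (N := N) (gM (GI P (N + 1))) (μ := gM (Fin M)) (h := fun η => η)
    (fun a => integrable_coord_gM a) x
  refine Integrable.mono' h.abs ?_ (Filter.Eventually.of_forall fun z => ?_)
  · have : Measurable fun t : ℝ => Real.log (Real.cosh t) :=
      Real.measurable_log.comp Real.measurable_cosh
    exact (this.comp_aemeasurable h.aestronglyMeasurable.aemeasurable).aestronglyMeasurable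
  · rw [Real.norm_eq_abs, abs_of_nonneg (log_cosh_nonneg _)]
    exact log_cosh_le _

lemma integrable_F2 (hf : CB3 C f f1 f2 f3) (hfm : Measurable f) (δ : ℝ) (M N : ℕ) {P : ℕ}
    (s : ℝ) (u : Fin P → ℝ) :
    Integrable (fun z : ((Fin M → Fin (N + 1) → ℝ) × (GI P (N + 1) → ℝ)) ×
        (Fin M → Fin (N + 1) → ℝ) =>
      Real.log (∑ x, Real.exp (EE f s u z.1.1 z.1.2 x) * A2 δ f1 f2 z.1.1 z.2 x))
      (((pm M N).prod (gM (GI P (N + 1)))).prod (pm M N)) := by
  simp_rw [lse_A2]
  refine integrable_lse fun x => ?_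
  refine ((integrable_EE hfm C hf.b0 N M s u x).comp_fst _).add ?_
  refine (((integrable_cavB hf δ M N x).comp_fst _).comp_fst _).add ?_
  exact integrable_cavY hf δ (N := N) (gM (GI P (N + 1))) (μ := pm M N)
    (h := fun H a => cubeS (H a) x) (fun a => integrable_cubeS M N a x) x

/-- splitting off the free energy -/
lemma int_split (hfm : Measurable f) (hC : ∀ x, |f x| ≤ C) (M N : ℕ) {P : ℕ}
    (s : ℝ) (u : Fin P → ℝ) {H : Type} [MeasurableSpace H] {μ : Measure H}
    [IsProbabilityMeasure μ]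
    {A : (Fin M → Fin (N + 1) → ℝ) → H → (Fin (N + 1) → Bool) → ℝ} (hA : ∀ ω η x, 0 < A ω η x)
    (hi : Integrable (fun z : ((Fin M → Fin (N + 1) → ℝ) × (GI P (N + 1) → ℝ)) × H =>
      Real.log (∑ x, Real.exp (EE f s u z.1.1 z.1.2 x) * A z.1.1 z.2 x))
      (((pm M N).prod (gM (GI P (N + 1)))).prod μ)) :
    ∫ z : ((Fin M → Fin (N + 1) → ℝ) × (GI P (N + 1) → ℝ)) × H,
      Real.log (∑ x, Real.exp (EE f s u z.1.1 z.1.2 x) * A z.1.1 z.2 x)
        ∂(((pm M N).prod (gM (GI P (N + 1)))).prod μ) =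
      (cubeBase f hfm C hC N M).elz s u +
      ∫ z : ((Fin M → Fin (N + 1) → ℝ) × (GI P (N + 1) → ℝ)) × H,
        Real.log (∑ x : Fin (N + 1) → Bool, ((cubeBase f hfm C hC N M).sys P s u).w z.1 x *
          A z.1.1 z.2 x) ∂(((pm M N).prod (gM (GI P (N + 1)))).prod μ) := by
  have hlz : Integrable (fun z : (Fin M → Fin (N + 1) → ℝ) × (GI P (N + 1) → ℝ) =>
      Real.log (∑ y, Real.exp (EE f s u z.1 z.2 y))) ((pm M N).prod (gM (GI P (N + 1)))) :=
    integrable_lse (integrable_EE hfm C hC N M s u)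
  have e2 : (cubeBase f hfm C hC N M).elz s u = ∫ z : ((Fin M → Fin (N + 1) → ℝ) ×
      (GI P (N + 1) → ℝ)) × H, Real.log (∑ y, Real.exp (EE f s u z.1.1 z.1.2 y))
      ∂(((pm M N).prod (gM (GI P (N + 1)))).prod μ) := by
    rw [integral_fun_fst (μ := (pm M N).prod (gM (GI P (N + 1)))) (ν := μ)
      (fun z => Real.log (∑ y, Real.exp (EE f s u z.1 z.2 y))), elz_eq]
    simp
  rw [e2]
  have hp : ∀ z : ((Fin M → Fin (N + 1) → ℝ) × (GI P (N + 1) → ℝ)) × H,
      Real.log (∑ x : Fin (N + 1) → Bool, ((cubeBase f hfm C hC N M).sys P s u).w z.1 x *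
          A z.1.1 z.2 x) =
      Real.log (∑ x, Real.exp (EE f s u z.1.1 z.1.2 x) * A z.1.1 z.2 x) -
        Real.log (∑ y, Real.exp (EE f s u z.1.1 z.1.2 y)) := by
    intro z
    rw [log_ratio (EE f s u z.1.1 z.1.2) (A z.1.1 z.2) (hA _ _)]
    simp only [w_eq]
    ring
  simp_rw [hp]
  rw [integral_sub hi (hlz.comp_fst _)]
  ring

/-- the linearized energy of one pattern, with the new spin -/
lemma sum_linE (δ : ℝ) {M N : ℕ} (ω : Fin M → Fin (N + 1) → ℝ) (x : Fin (N + 1) → Bool)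
    (h : Fin M → ℝ) :
    ∑ a, linE δ f f1 f2 (cubeS (ω a) x) (h a) = ∑ a, f (cubeS (ω a) x) +
      (cavB δ f1 f2 (fun a => cubeS (ω a) x) + cavY δ f1 (fun a => cubeS (ω a) x) h) := by
  unfold linE cavB cavY
  rw [← Finset.sum_add_distrib, ← Finset.sum_add_distrib]
  refine Finset.sum_congr rfl fun a _ => ?_
  ring

lemma cavY_sgn (δ : ℝ) {M N : ℕ} (ω : Fin M → Fin (N + 1) → ℝ) (x : Fin (N + 1) → Bool)
    (h : Fin M → ℝ) (t : ℝ) : cavY δ f1 (fun a => cubeS (ω a) x) (fun a => t * h a) =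
      t * cavY δ f1 (fun a => cubeS (ω a) x) h := by
  unfold cavY
  rw [Finset.mul_sum]
  exact Finset.sum_congr rfl fun a _ => by ring

/-- summation over the new spin -/
lemma sum_new (δ : ℝ) {M N P : ℕ} (s : ℝ) (u : Fin P → ℝ) (ω : Fin M → Fin (N + 1) → ℝ)
    (g : GI P (N + 1) → ℝ) (η : Fin M → ℝ) :
    Real.log (∑ y : Fin (N + 2) → Bool, Real.exp (lin (cf N s u) g (ini y)) * Real.exp (∑ a,
      linE δ f f1 f2 (cubeS (ω a) (ini y)) (sgn (las y) * η a))) =
    Real.log 2 + Real.log (∑ x, Real.exp (EE f s u ω g x) * A1 δ f1 f2 ω η x) := by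
  have h1 := sum_ini_las (N := N) (fun x b => Real.exp (lin (cf N s u) g x) * Real.exp (∑ a,
      linE δ f f1 f2 (cubeS (ω a) x) (sgn b * η a)))
  rw [h1]
  have hp : 0 < ∑ x, Real.exp (EE f s u ω g x) * A1 δ f1 f2 ω η x :=
    Lin.sum_pos' fun x => mul_pos (Real.exp_pos _) (A1_pos _ _ _ _ _ _)
  rw [← Real.log_mul (by norm_num) hp.ne', Finset.mul_sum]
  congr 1
  refine Finset.sum_congr rfl fun x _ => ?_
  have e1 : ∀ b, ∑ a, linE δ f f1 f2 (cubeS (ω a) x) (sgn b * η a) = ∑ a, f (cubeS (ω a) x) +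
      (cavB δ f1 f2 (fun a => cubeS (ω a) x) +
        sgn b * cavY δ f1 (fun a => cubeS (ω a) x) η) := by
    intro b
    rw [sum_linE δ ω x (fun a => sgn b * η a), cavY_sgn]
  rw [e1, e1]
  unfold A1 EE
  rw [Real.cosh_eq]
  simp only [sgn, if_true, Bool.false_eq_true, if_false, one_mul, neg_mul]
  simp only [Real.exp_add]
  ring

end main

end Cube

open Vale.Agent.P157.Par.Cube

/-- One more spin. -/
theorem spin_increment {f f1 f2 f3 : ℝ → ℝ} {C : ℝ} (hf : CB3 C f f1 f2 f3)
    (hfm : Measurable f) :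
    ∃ D : ℝ, 0 ≤ D ∧ ∀ (N M P : ℕ) (s : ℝ) (u : Fin P → ℝ), 0 ≤ s → (∀ q, 0 ≤ u q ∧ u q ≤ 2) →
      |(cubeBase f hfm C hf.b0 (N + 1) M).elz s u - (cubeBase f hfm C hf.b0 N M).elz s u -
        Real.log 2 - cubeDN f f1 f2 hfm C hf.b0 N M P s u| ≤
      D * (M * (1 / ((N : ℝ) + 2) * √(1 / ((N : ℝ) + 2))) + s ^ 2 / ((N : ℝ) + 1)) := by
  obtain ⟨D, hD⟩ := lin_many hf
  refine ⟨2 * |D| + 2, by positivity, ?_⟩
  intro N M P s u _ hu
  set δ : ℝ := 1 / ((N : ℝ) + 2) with hδ
  have h0 : 0 ≤ δ := (dl_pos N).le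
  have h1 : δ ≤ 1 := dl_le N
  set ν := gM (GI P (N + 1)) with hν
  set ε : ℝ := |D| * (M * (δ * √δ)) with hε
  have hε0 : D * (M * (δ * √δ)) ≤ ε := by
    refine mul_le_mul_of_nonneg_right (le_abs_self D) (by positivity)
  have sq1 : √(1 - δ) ^ 2 = 1 - δ := Real.sq_sqrt (by linarith)
  have sq2 : √δ ^ 2 = δ := Real.sq_sqrt h0
  -- the two terms of cubeDN
  set T1 := ∫ z : ((Fin M → Fin (N + 1) → ℝ) × (GI P (N + 1) → ℝ)) × (Fin M → ℝ),
      Real.log (∑ x : Fin (N + 1) → Bool, ((cubeBase f hfm C hf.b0 N M).sys P s u).w z.1 x *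
        A1 δ f1 f2 z.1.1 z.2 x) ∂(((pm M N).prod ν).prod (gM (Fin M))) with hT1
  set T2 := ∫ z : ((Fin M → Fin (N + 1) → ℝ) × (GI P (N + 1) → ℝ)) × (Fin M → Fin (N + 1) → ℝ),
      Real.log (∑ x : Fin (N + 1) → Bool, ((cubeBase f hfm C hf.b0 N M).sys P s u).w z.1 x *
        A2 δ f1 f2 z.1.1 z.2 x) ∂(((pm M N).prod ν).prod (pm M N)) with hT2
  have hDN : cubeDN f f1 f2 hfm C hf.b0 N M P s u = T1 - T2 := rfl
  have hi1 := integrable_F1 hf hfm δ M N s u
  have hi2 := integrable_F2 hf hfm δ M N s u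
  have s1 := int_split hfm hf.b0 M N s u (H := Fin M → ℝ) (μ := gM (Fin M))
    (A := fun ω η x => A1 δ f1 f2 ω η x) (fun ω η x => A1_pos δ f1 f2 ω η x) hi1
  have s2 := int_split hfm hf.b0 M N s u (H := Fin M → Fin (N + 1) → ℝ) (μ := pm M N)
    (A := fun ω η x => A2 δ f1 f2 ω η x) (fun ω η x => A2_pos δ f1 f2 ω η x) hi2
  rw [← hT1] at s1
  rw [← hT2] at s2
  -- rearrangements
  have ev : MeasurePreserving (fun η : Unit → ℝ => η ()) (gM Unit) (gaussianReal 0 1) :=
    measurePreserving_eval (fun _ : Unit => gaussianReal 0 1) ()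
  have r1 := rearr (α := gM (Fin (N + 1))) (γ := ν) ev M hi1
  have r2 := rearr (α := gM (Fin (N + 1))) (γ := ν) (MeasurePreserving.id (gM (Fin (N + 1)))) M hi2
  obtain ⟨i1, r1⟩ := r1
  obtain ⟨i2, r2⟩ := r2
  rw [r1] at s1
  rw [r2] at s2
  simp only [id_eq] at i2 s2
  set I1 : (GI P (N + 1) → ℝ) → ℝ := fun g =>
    ∫ q : Fin M → (Fin (N + 1) → ℝ) × (Unit → ℝ), Real.log (∑ x, Real.exp (EE f s u
      (fun a => (q a).1) g x) * A1 δ f1 f2 (fun a => (q a).1) (fun a => (q a).2 ()) x)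
      ∂(Measure.pi fun _ => (gM (Fin (N + 1))).prod (gM Unit)) with hI1
  set I2 : (GI P (N + 1) → ℝ) → ℝ := fun g =>
    ∫ q : Fin M → (Fin (N + 1) → ℝ) × (Fin (N + 1) → ℝ), Real.log (∑ x, Real.exp (EE f s u
      (fun a => (q a).1) g x) * A2 δ f1 f2 (fun a => (q a).1) (fun a => (q a).2) x)
      ∂(Measure.pi fun _ => (gM (Fin (N + 1))).prod (gM (Fin (N + 1)))) with hI2
  -- the two unperturbed integrals
  have hiJ1 : Integrable (fun z : (Fin M → Fin (N + 2) → ℝ) × (GI P (N + 1) → ℝ) =>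
      Real.log (∑ y : Fin (N + 2) → Bool, Real.exp (lin (cf N s u) z.2 (ini y) +
        ∑ a, f (cubeS (z.1 a) y)))) ((pm M (N + 1)).prod ν) := by
    refine integrable_lse fun y => ?_
    refine ((integrable_lin (cf N s u) (ini y)).comp_snd _).add ?_
    exact integrable_finsetSum _ fun a _ => integrable_fS hfm C hf.b0 (N + 1) (by fun_prop) y
  set J1 : (GI P (N + 1) → ℝ) → ℝ := fun g =>
    ∫ ω : Fin M → Fin (N + 2) → ℝ, Real.log (∑ y : Fin (N + 2) → Bool,
      Real.exp (lin (cf N s u) g (ini y) + ∑ a, f (cubeS (ω a) y))) ∂(pm M (N + 1)) with hJ1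
  have hiJ2 : Integrable (fun z : (Fin M → Fin (N + 1) → ℝ) × (GI P (N + 1) → ℝ) =>
      Real.log (∑ y, Real.exp (EE f s u z.1 z.2 y))) ((pm M N).prod ν) :=
    integrable_lse (integrable_EE hfm C hf.b0 N M s u)
  set J2 : (GI P (N + 1) → ℝ) → ℝ := fun g =>
    ∫ ω : Fin M → Fin (N + 1) → ℝ, Real.log (∑ y, Real.exp (EE f s u ω g y)) ∂(pm M N) with hJ2
  have eJ2 : (cubeBase f hfm C hf.b0 N M).elz s u = ∫ g, J2 g ∂ν := by
    rw [elz_eq, integral_prod_symm _ hiJ2]
  -- comparison of the new system with J1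
  have c1 : |(cubeBase f hfm C hf.b0 (N + 1) M).elz s u - ∫ g, J1 g ∂ν| ≤ 2 * (s ^ 2 * δ) := by
    have hiE : Integrable (fun z : (Fin M → Fin (N + 2) → ℝ) × (GI P (N + 2) → ℝ) =>
        Real.log (∑ y, Real.exp (EE f s u z.1 z.2 y)))
        ((pm M (N + 1)).prod (gM (GI P (N + 2)))) :=
      integrable_lse (integrable_EE hfm C hf.b0 (N + 1) M s u)
    have e1 : ∫ g, J1 g ∂ν = ∫ ω : Fin M → Fin (N + 2) → ℝ, ∫ g,
        Real.log (∑ y : Fin (N + 2) → Bool, Real.exp (lin (cf N s u) g (ini y) +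
        ∑ a, f (cubeS (ω a) y))) ∂ν ∂(pm M (N + 1)) := by
      rw [hJ1, ← integral_prod_symm _ hiJ1, integral_prod _ hiJ1]
    rw [elz_eq, e1]
    change |∫ z : (Fin M → Fin (N + 2) → ℝ) × (GI P (N + 2) → ℝ),
      Real.log (∑ y, Real.exp (EE f s u z.1 z.2 y)) ∂((pm M (N + 1)).prod (gM (GI P (N + 2)))) -
      _| ≤ _
    rw [integral_prod _ hiE]
    have j1 := hiE.integral_prod_left
    have j2 := hiJ1.integral_prod_left
    simp only at j1 j2 ⊢
    rw [← integral_sub j1 j2, ← Real.norm_eq_abs]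
    have hb : ∀ ω : Fin M → Fin (N + 2) → ℝ,
        ‖∫ g, Real.log (∑ y, Real.exp (EE f s u ω g y)) ∂(gM (GI P (N + 2))) -
        ∫ g, Real.log (∑ y : Fin (N + 2) → Bool, Real.exp (lin (cf N s u) g (ini y) +
        ∑ a, f (cubeS (ω a) y))) ∂ν‖ ≤ 2 * (s ^ 2 * δ) := by
      intro ω
      have h := stepA (N := N) s hu (w := fun y => Real.exp (∑ a, f (cubeS (ω a) y)))
        fun y => Real.exp_pos _
      rw [Real.norm_eq_abs]
      unfold EE
      simp_rw [add_comm (lin (cf N s u) _ (ini _)), Real.exp_add]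
      exact h
    have := norm_integral_le_of_norm_le_const (μ := pm M (N + 1)) (Filter.Eventually.of_forall hb)
    simpa using this
  -- linearization, new spin
  have c2 : ∀ g, |J1 g - (Real.log 2 + I1 g)| ≤ ε := by
    intro g
    set φ : (Fin (N + 2) → Bool) → Fin (N + 1) → ℝ := fun y i => cubeφ N (ini y) i with hφ
    set ψ : (Fin (N + 2) → Bool) → Unit → ℝ := fun y _ => sgn (las y) with hψ
    have eφ : ∀ (ξ : Fin (N + 1) → ℝ) y, lin φ ξ y = cubeS ξ (ini y) := fun ξ y =>
      cubeS_eq_lin ξ (ini y)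
    have eψ : ∀ (η : Unit → ℝ) y, lin ψ η y = sgn (las y) * η () := by
      intro η y
      simp [lin, hψ]
    have hh := hD M (Fin (N + 1)) Unit (Fin (N + 2) → Bool)
      (fun y => Real.exp (lin (cf N s u) g (ini y))) φ ψ (fun y => Real.exp_pos _) inferInstance
      (fun y => sum_cubeφ_sq N (ini y)) (fun y => by simp [hψ, sgn_sq]) δ h0 h1
    have law : (gM (Fin (N + 2))).map (fun ξ => lin (fun y i => cubeφ (N + 1) y i) ξ) =
        ((gM (Fin (N + 1))).prod (gM Unit)).map
          (fun q y => √(1 - δ) * lin φ q.1 y + √δ * lin ψ q.2 y) := by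
      refine law_mix √(1 - δ) √δ fun y y' => ?_
      rw [sq1, sq2]
      unfold gram
      rw [Fin.sum_univ_castSucc, Finset.mul_sum]
      congr 1
      · refine Finset.sum_congr rfl fun i _ => ?_
        simp only
        rw [cubeφ_castSucc, cubeφ_castSucc, ← hδ]
        have h2 : √(1 - δ) * √(1 - δ) = 1 - δ := Real.mul_self_sqrt (by linarith)
        simp only [hφ]
        linear_combination (cubeφ N (ini y) i * cubeφ N (ini y') i) * h2
      · simp only
        rw [cubeφ_last, cubeφ_last, ← hδ]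
        have h2 : √δ * √δ = δ := Real.mul_self_sqrt h0
        simp only [hψ, Finset.univ_unique, Finset.sum_singleton]
        linear_combination (sgn (las y) * sgn (las y')) * h2
    have hF : Measurable fun Z : Fin M → (Fin (N + 2) → Bool) → ℝ => Real.log (∑ y,
        Real.exp (lin (cf N s u) g (ini y)) * Real.exp (∑ a, f (Z a y))) := by fun_prop
    have hl := pi_law (measurable_lin_fun _) (by unfold lin; fun_prop) law M hF
    simp only at hl
    rw [← hl] at hh
    have e1 : J1 g = ∫ ω : Fin M → Fin (N + 2) → ℝ, Real.log (∑ y : Fin (N + 2) → Bool,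
        Real.exp (lin (cf N s u) g (ini y)) * Real.exp (∑ a,
          f (lin (fun (y : Fin (N + 2) → Bool) i => cubeφ (N + 1) y i) (ω a) y)))
        ∂(pm M (N + 1)) := by
      simp only [hJ1, Real.exp_add, cubeS_eq_lin]
    rw [← e1] at hh
    have e2 : ∫ q : Fin M → (Fin (N + 1) → ℝ) × (Unit → ℝ), Real.log (∑ y,
        Real.exp (lin (cf N s u) g (ini y)) * Real.exp (∑ a, linE δ f f1 f2
          (lin φ (q a).1 y) (lin ψ (q a).2 y)))
        ∂(Measure.pi fun _ => (gM (Fin (N + 1))).prod (gM Unit)) = Real.log 2 + I1 g := by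
      simp_rw [eφ, eψ]
      have e3 : ∀ q : Fin M → (Fin (N + 1) → ℝ) × (Unit → ℝ), Real.log (∑ y : Fin (N + 2) → Bool,
          Real.exp (lin (cf N s u) g (ini y)) * Real.exp (∑ a, linE δ f f1 f2
          (cubeS (q a).1 (ini y)) (sgn (las y) * (q a).2 ()))) =
          Real.log 2 + Real.log (∑ x, Real.exp (EE f s u (fun a => (q a).1) g x) *
            A1 δ f1 f2 (fun a => (q a).1) (fun a => (q a).2 ()) x) := fun q =>
        sum_new δ s u (fun a => (q a).1) g (fun a => (q a).2 ())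
      simp_rw [e3]
      by_cases hint : Integrable (fun q : Fin M → (Fin (N + 1) → ℝ) × (Unit → ℝ) =>
        Real.log (∑ x, Real.exp (EE f s u (fun a => (q a).1) g x) *
            A1 δ f1 f2 (fun a => (q a).1) (fun a => (q a).2 ()) x))
        (Measure.pi fun _ => (gM (Fin (N + 1))).prod (gM Unit))
      · rw [integral_add (integrable_const _) hint]
        simp [hI1]
      · exfalso
        apply hint
        simp_rw [lse_A1]
        refine integrable_lse fun x => ?_
        have m0 := hfm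
        have m1 := (Lin.continuous_f1 hf).measurable
        have m2 := (Lin.continuous_f2 hf).measurable
        have k1 : ∀ a : Fin M, Integrable (fun q : Fin M → (Fin (N + 1) → ℝ) × (Unit → ℝ) =>
            cubeS (q a).1 x) (Measure.pi fun _ => (gM (Fin (N + 1))).prod (gM Unit)) := by
          intro a
          refine integrable_comp_eval (μ := fun _ : Fin M => (gM (Fin (N + 1))).prod (gM Unit))
            (i := a) (f := fun g => cubeS g.1 x) ?_
          refine Integrable.comp_fst (f := fun g : Fin (N + 1) → ℝ => cubeS g x) ?_ _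
          unfold cubeS
          exact integrable_finsetSum _ fun i _ => (integrable_coord_gM i).mul_const _
        have k2 : ∀ a : Fin M, Integrable (fun q : Fin M → (Fin (N + 1) → ℝ) × (Unit → ℝ) =>
            (q a).2 ()) (Measure.pi fun _ => (gM (Fin (N + 1))).prod (gM Unit)) := by
          intro a
          refine integrable_comp_eval (μ := fun _ : Fin M => (gM (Fin (N + 1))).prod (gM Unit))
            (i := a) (f := fun g => g.2 ()) ?_
          exact Integrable.comp_snd (f := fun g : Unit → ℝ => g ()) (integrable_coord_gM ()) _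
        have k3 : ∀ {h : ℝ → ℝ}, Measurable h → (∀ t, |h t| ≤ C) → ∀ a : Fin M,
            Integrable (fun q : Fin M → (Fin (N + 1) → ℝ) × (Unit → ℝ) => h (cubeS (q a).1 x))
              (Measure.pi fun _ => (gM (Fin (N + 1))).prod (gM Unit)) := by
          intro h hm hb a
          exact Integrable.mono' (integrable_const C)
            (hm.comp (measurable_cubeS (by fun_prop) x)).aestronglyMeasurable
            (Filter.Eventually.of_forall fun _ => hb _)
        have k4 : Integrable (fun q : Fin M → (Fin (N + 1) → ℝ) × (Unit → ℝ) =>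
            cavY δ f1 (fun a => cubeS (q a).1 x) (fun a => (q a).2 ()))
            (Measure.pi fun _ => (gM (Fin (N + 1))).prod (gM Unit)) := by
          unfold cavY
          refine integrable_finsetSum _ fun a _ => ?_
          have h2 := (integrable_mul_bdd (k2 a) (f := fun q => f1 (cubeS (q a).1 x))
            (m1.comp (measurable_cubeS
              (g := fun q : Fin M → (Fin (N + 1) → ℝ) × (Unit → ℝ) => (q a).1)
              (by fun_prop) x)) C fun _ => hf.b1 _).const_mul √δ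
          refine h2.congr (Filter.Eventually.of_forall fun z => ?_)
          simp only
          ring
        unfold EE
        refine Integrable.add (Integrable.add (integrable_finsetSum _ fun a _ => k3 m0 hf.b0 a)
          (integrable_const _)) (Integrable.add ?_ ?_)
        · unfold cavB
          refine integrable_finsetSum _ fun a _ => Integrable.const_mul ?_ _
          refine (k3 m2 hf.b2 a).sub ?_
          exact integrable_mul_bdd (k1 a) (m1.comp (measurable_cubeS (by fun_prop) x)) C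
            fun _ => hf.b1 _
        · refine Integrable.mono' k4.abs ?_ (Filter.Eventually.of_forall fun z => ?_)
          · have : Measurable fun t : ℝ => Real.log (Real.cosh t) :=
              Real.measurable_log.comp Real.measurable_cosh
            exact (this.comp_aemeasurable
              k4.aestronglyMeasurable.aemeasurable).aestronglyMeasurable
          · rw [Real.norm_eq_abs, abs_of_nonneg (log_cosh_nonneg _)]
            exact log_cosh_le _
    rw [e2] at hh
    exact hh.trans hε0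
  -- linearization, rescaling
  have c3 : ∀ g, |J2 g - I2 g| ≤ ε := by
    intro g
    set φ : (Fin (N + 1) → Bool) → Fin (N + 1) → ℝ := fun y i => cubeφ N y i with hφ
    have eφ : ∀ (ξ : Fin (N + 1) → ℝ) y, lin φ ξ y = cubeS ξ y := fun ξ y => cubeS_eq_lin ξ y
    have hh := hD M (Fin (N + 1)) (Fin (N + 1)) (Fin (N + 1) → Bool)
      (fun y => Real.exp (lin (cf N s u) g y)) φ φ (fun y => Real.exp_pos _) inferInstance
      (fun y => sum_cubeφ_sq N y) (fun y => sum_cubeφ_sq N y) δ h0 h1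
    have law : (gM (Fin (N + 1))).map (fun ξ => lin φ ξ) =
        ((gM (Fin (N + 1))).prod (gM (Fin (N + 1)))).map
          (fun q y => √(1 - δ) * lin φ q.1 y + √δ * lin φ q.2 y) := by
      refine law_mix √(1 - δ) √δ fun y y' => ?_
      rw [sq1, sq2]
      ring
    have hF : Measurable fun Z : Fin M → (Fin (N + 1) → Bool) → ℝ => Real.log (∑ y,
        Real.exp (lin (cf N s u) g y) * Real.exp (∑ a, f (Z a y))) := by fun_prop
    have hl := pi_law (measurable_lin_fun _) (by unfold lin; fun_prop) law M hF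
    simp only at hl
    rw [← hl] at hh
    have e1 : J2 g = ∫ ω : Fin M → Fin (N + 1) → ℝ, Real.log (∑ y : Fin (N + 1) → Bool,
        Real.exp (lin (cf N s u) g y) * Real.exp (∑ a, f (lin φ (ω a) y))) ∂(pm M N) := by
      simp only [hJ2, EE, Real.exp_add, eφ]
      simp_rw [mul_comm (Real.exp (∑ a, _))]
    rw [← e1] at hh
    have e2 : ∫ q : Fin M → (Fin (N + 1) → ℝ) × (Fin (N + 1) → ℝ), Real.log (∑ y,
        Real.exp (lin (cf N s u) g y) * Real.exp (∑ a, linE δ f f1 f2
          (lin φ (q a).1 y) (lin φ (q a).2 y)))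
        ∂(Measure.pi fun _ => (gM (Fin (N + 1))).prod (gM (Fin (N + 1)))) = I2 g := by
      simp_rw [eφ]
      rw [hI2]
      refine integral_congr_ae (Filter.Eventually.of_forall fun q => ?_)
      simp only
      congr 1
      refine Finset.sum_congr rfl fun y _ => ?_
      have h3 := sum_linE (f := f) (f1 := f1) (f2 := f2) δ (fun a => (q a).1) y
        (fun a => cubeS (q a).2 y)
      rw [h3]
      unfold EE A2
      simp only [Real.exp_add]
      ring
    rw [e2] at hh
    exact hh.trans hε0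
  -- conclusion
  have iJ1 : Integrable J1 ν := hiJ1.integral_prod_right
  have iJ2 : Integrable J2 ν := hiJ2.integral_prod_right
  have d2 : |∫ g, J1 g ∂ν - (Real.log 2 + ∫ g, I1 g ∂ν)| ≤ ε := by
    have e1 : ∫ g, J1 g ∂ν - (Real.log 2 + ∫ g, I1 g ∂ν) =
        ∫ g, (J1 g - (Real.log 2 + I1 g)) ∂ν := by
      have i3 : Integrable (fun g => Real.log 2 + I1 g) ν := (integrable_const _).add i1
      rw [integral_sub iJ1 i3, integral_add (integrable_const _) i1]
      simp
    rw [e1, ← Real.norm_eq_abs]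
    have hb : ∀ g, ‖J1 g - (Real.log 2 + I1 g)‖ ≤ ε := fun g => by
      rw [Real.norm_eq_abs]; exact c2 g
    have := norm_integral_le_of_norm_le_const (μ := ν) (Filter.Eventually.of_forall hb)
    simpa using this
  have d3 : |∫ g, J2 g ∂ν - ∫ g, I2 g ∂ν| ≤ ε := by
    rw [← integral_sub iJ2 i2, ← Real.norm_eq_abs]
    have hb : ∀ g, ‖J2 g - I2 g‖ ≤ ε := fun g => by
      rw [Real.norm_eq_abs]; exact c3 g
    have := norm_integral_le_of_norm_le_const (μ := ν) (Filter.Eventually.of_forall hb)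
    simpa using this
  rw [hDN]
  have f1' : |(cubeBase f hfm C hf.b0 (N + 1) M).elz s u -
      (cubeBase f hfm C hf.b0 N M).elz s u - Real.log 2 - (T1 - T2)| ≤
      2 * (s ^ 2 * δ) + ε + ε := by
    rw [eJ2] at s1 s2 ⊢
    rw [abs_le] at c1 d2 d3 ⊢
    constructor <;> linarith only [s2, s1, c1.1, c1.2, d2.1, d2.2, d3.1, d3.2]
  refine f1'.trans ?_
  have hδ2 : s ^ 2 * δ ≤ s ^ 2 / ((N : ℝ) + 1) := by
    rw [hδ, mul_one_div]
    exact div_le_div_of_nonneg_left (sq_nonneg s) (by positivity) (by linarith)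
  have hq : 0 ≤ s ^ 2 / ((N : ℝ) + 1) := by positivity
  have hr : 0 ≤ (M : ℝ) * (δ * √δ) := by positivity
  rw [hε]
  linarith only [hδ2, hr, hq, abs_nonneg D, mul_nonneg (abs_nonneg D) hq, mul_nonneg (abs_nonneg D) hr]

end Vale.Agent.P157.Par
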