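import Vale.Agent.P157.ParSelLow

/-! Concentration, flatness and monotonicity for the perturbed perceptron on the cube. -/

open MeasureTheory ProbabilityTheory Filter Topology

namespace Vale.Agent.P157.Par

open Vale.Agent.P367.GT (gM)

set_option linter.unusedSectionVars false

/-! Monotonicity of the expected free energy in the perturbation. -/

/-- The expected free energy is monotone in one parameter. -/
lemma Base.elz_mono_one (B : Base) {P : ℕ} {s : ℝ} (hs : 0 ≤ s) (u : Fin P → ℝ) (q : Fin P)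
    {a b : ℝ} (ha : 0 ≤ a) (hab : a ≤ b) :
    B.elz s (Function.update u q a) ≤ B.elz s (Function.update u q b) := by
  rcases hab.eq_or_lt with h | h
  · rw [h]
  · have h1 := (B.elz_slope s u hs q h).1
    have h2 := B.mh_nonneg P s (Function.update u q a) hs q
      (by rw [Function.update_self]; exact ha)
    have h3 := B.kap_nonneg s hs q
    have h4 : 0 ≤ (b - a) * (B.kap s q * B.mh P s (Function.update u q a) q) :=
      mul_nonneg (by linarith) (mul_nonneg h3 h2)
    linarith

/-- The expected free energy is monotone in the parameters. -/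
lemma Base.elz_mono_u (B : Base) {P : ℕ} {s : ℝ} (hs : 0 ≤ s) {u u' : Fin P → ℝ}
    (hu : ∀ q, 0 ≤ u q) (huu : ∀ q, u q ≤ u' q) : B.elz s u ≤ B.elz s u' := by
  classical
  have key : ∀ T : Finset (Fin P), B.elz s u ≤ B.elz s (fun q => if q ∈ T then u' q else u q) := by
    intro T
    induction T using Finset.induction_on with
    | empty => simp
    | insert q T hq ih =>
      refine ih.trans ?_
      set v : Fin P → ℝ := fun r => if r ∈ T then u' r else u r with hv
      have e1 : v = Function.update v q (u q) := by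
        funext r
        rcases eq_or_ne r q with h | h
        · subst h
          rw [Function.update_self, hv]
          simp [hq]
        · rw [Function.update_of_ne h]
      have e2 : (fun r => if r ∈ insert q T then u' r else u r) =
          Function.update v q (u' q) := by
        funext r
        rcases eq_or_ne r q with h | h
        · subst h
          rw [Function.update_self]
          simp
        · rw [Function.update_of_ne h, hv]
          simp [h]
      rw [e2]
      have h1 := B.elz_mono_one hs v q (hu q) (huu q)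
      rw [← e1] at h1
      exact h1
  have h := key Finset.univ
  simpa using h

/-- The expected free energy is monotone in the strength of the perturbation. -/
lemma Base.elz_mono_s (B : Base) {P : ℕ} {s s' : ℝ} (hs : 0 ≤ s) (hss : s ≤ s')
    (hs' : 0 < s') {u : Fin P → ℝ} (hu : ∀ q, 0 ≤ u q) : B.elz s u ≤ B.elz s' u := by
  have e : B.coef P s u = B.coef P s' (fun q => s / s' * u q) := by
    funext e x
    unfold Base.coef
    field_simp
  have e1 : B.elz s u = B.elz s' (fun q => s / s' * u q) := by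
    unfold Base.elz Base.lz
    rw [e]
  rw [e1]
  have h1 : s / s' ≤ 1 := (div_le_one hs').2 hss
  have h0 : 0 ≤ s / s' := by positivity
  exact B.elz_mono_u hs'.le (fun q => mul_nonneg h0 (hu q))
    fun q => mul_le_of_le_one_left (hu q) h1

lemma Base.Conc.mono {B : Base} {v v' : ℝ} (h : B.Conc v) (hv : v ≤ v') : B.Conc v' :=
  fun g hg hg2 hgd => (h g hg hg2 hgd).trans hv

section Cube

variable {f : ℝ → ℝ} (hfm : Measurable f) {C : ℝ} (hC : ∀ x, |f x| ≤ C)

lemma cubeBase_d (N M : ℕ) : ((cubeBase f hfm C hC N M).d : ℝ) = (N : ℝ) + 1 := by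
  change (((N + 1 : ℕ)) : ℝ) = _
  push_cast
  ring

lemma cubeBase_flat (N M : ℕ) (x : (cubeBase f hfm C hC N M).X)
    (i : Fin (cubeBase f hfm C hC N M).d) :
    (cubeBase f hfm C hC N M).φ x i ^ 2 ≤ 1 / (cubeBase f hfm C hC N M).d := by
  rw [cubeBase_d]
  exact (cubeφ_sq N x i).le

lemma cubeBase_conc (N M : ℕ) : (cubeBase f hfm C hC N M).Conc (M * (2 * C) ^ 2) := by
  refine conc_patBase _ _ _ _ _ _ _ _ fun ω a e x => ?_
  have h1 : ∀ η : Fin M → Fin (N + 1) → ℝ, ∑ b, f (cubeS (η b) x) =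
      f (cubeS (η a) x) + ∑ b ∈ Finset.univ.erase a, f (cubeS (η b) x) := fun η =>
    (Finset.add_sum_erase _ _ (Finset.mem_univ a)).symm
  rw [h1, h1]
  have h2 : ∑ b ∈ Finset.univ.erase a, f (cubeS (Function.update ω a e b) x) =
      ∑ b ∈ Finset.univ.erase a, f (cubeS (ω b) x) :=
    Finset.sum_congr rfl fun b hb => by
      rw [Function.update_of_ne (Finset.ne_of_mem_erase hb)]
  rw [h2, add_sub_add_right_eq_sub]
  refine (abs_sub _ _).trans ?_
  linarith [hC (cubeS (Function.update ω a e a) x), hC (cubeS (ω a) x)]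

/-- The strength of the perturbation. -/
noncomputable def sN (N : ℕ) : ℝ := ((N : ℝ) + 1) ^ (3 / 8 : ℝ)

lemma sN_ge (N : ℕ) : 1 ≤ sN N :=
  Real.one_le_rpow (by linarith [(Nat.cast_nonneg N : (0 : ℝ) ≤ N)]) (by norm_num)

lemma sN_mono {N N' : ℕ} (h : N ≤ N') : sN N ≤ sN N' := by
  unfold sN
  exact Real.rpow_le_rpow (by positivity) (by
    have : (N : ℝ) ≤ N' := by exact_mod_cast h
    linarith) (by norm_num)

lemma sN_sq (N : ℕ) : sN N ^ 2 = ((N : ℝ) + 1) ^ (3 / 4 : ℝ) := by
  unfold sN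
  rw [← Real.rpow_natCast, ← Real.rpow_mul (by positivity)]
  norm_num

lemma sN_sq_le (N : ℕ) : sN N ^ 2 ≤ (N : ℝ) + 1 := by
  rw [sN_sq]
  nth_rewrite 2 [← Real.rpow_one ((N : ℝ) + 1)]
  exact Real.rpow_le_rpow_of_exponent_le (by linarith [(Nat.cast_nonneg N : (0 : ℝ) ≤ N)])
    (by norm_num)

lemma sqrt_le_sN_sq (N : ℕ) : √((N : ℝ) + 1) ≤ sN N ^ 2 := by
  rw [sN_sq, Real.sqrt_eq_rpow]
  exact Real.rpow_le_rpow_of_exponent_le (by linarith [(Nat.cast_nonneg N : (0 : ℝ) ≤ N)])
    (by norm_num)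

lemma sqrt_sqrt_div_sN (N : ℕ) : √(√((N : ℝ) + 1)) / sN N = ((N : ℝ) + 1) ^ (-(1 / 8) : ℝ) := by
  unfold sN
  rw [Real.sqrt_eq_rpow, Real.sqrt_eq_rpow, ← Real.rpow_mul (by positivity),
    ← Real.rpow_sub (by positivity)]
  norm_num

lemma tendsto_sqrt_sqrt_div_sN :
    Tendsto (fun N : ℕ => √(√((N : ℝ) + 1)) / sN N) atTop (𝓝 0) := by
  simp only [sqrt_sqrt_div_sN]
  have h := tendsto_rpow_neg_atTop (show (0 : ℝ) < 1 / 8 by norm_num)
  exact h.comp (tendsto_natCast_atTop_atTop.atTop_add tendsto_const_nhds)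

lemma tendsto_sN_sq_div : Tendsto (fun N : ℕ => sN N ^ 2 / ((N : ℝ) + 1)) atTop (𝓝 0) := by
  have e : ∀ N : ℕ, sN N ^ 2 / ((N : ℝ) + 1) = ((N : ℝ) + 1) ^ (-(1 / 4) : ℝ) := by
    intro N
    rw [sN_sq]
    nth_rewrite 2 [← Real.rpow_one ((N : ℝ) + 1)]
    rw [← Real.rpow_sub (by positivity)]
    norm_num
  simp only [e]
  have h := tendsto_rpow_neg_atTop (show (0 : ℝ) < 1 / 4 by norm_num)
  exact h.comp (tendsto_natCast_atTop_atTop.atTop_add tendsto_const_nhds)

/-- The average over the parameters of the fluctuation. -/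
lemma cubeBase_dev_le {N M P : ℕ} (q : Fin P) {A : ℝ} (hA : 0 ≤ A)
    (hM : (M : ℝ) * (2 * C) ^ 2 ≤ A * ((N : ℝ) + 1)) :
    ∫ u, (cubeBase f hfm C hC N M).dev P (sN N) u q ((cubeBase f hfm C hC N M).mh P (sN N) u q)
      ∂(nuP P) ≤ 2 ^ ((q : ℕ) + 1) * (15 + 3 * √(3 + A)) * √(√((N : ℝ) + 1)) := by
  have h := (cubeBase f hfm C hC N M).integral_dev_le_sqrt (sN N) (sN_ge N) q hA
    ((cubeBase_conc hfm hC N M).mono (by rw [cubeBase_d]; exact hM)) (cubeBase_flat hfm hC N M)
    (by rw [cubeBase_d]; exact sN_sq_le N) (by rw [cubeBase_d]; exact sqrt_le_sN_sq N)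
  rw [cubeBase_d] at h
  exact h

end Cube

end Vale.Agent.P157.Par
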