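import Vale.Agent.P157.ParSelDet
import Vale.Agent.P157.ParSelBase
import Vale.Agent.P157.ParCube

/-! Selection of the parameters. -/

open MeasureTheory ProbabilityTheory Filter Topology

namespace Vale.Agent.P157.Par

open Vale.Agent.P367.GT (gM)

set_option linter.unusedSectionVars false

section Sel

variable {f f1 f2 f3 : ℝ → ℝ} {C : ℝ}

/-- The increment for one more pattern is bounded. -/
lemma abs_dM_le (hfm : Measurable f) (hC : ∀ x, |f x| ≤ C) (N M P : ℕ) (s : ℝ)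
    (u : Fin P → ℝ) : |((cubeBase f hfm C hC N M).sys P s u).dM f| ≤ C := by
  set S := (cubeBase f hfm C hC N M).sys P s u with hS
  unfold Sys.dM
  have : Nonempty S.X := inferInstanceAs (Nonempty (Fin (N + 1) → Bool))
  have hb : ∀ z : S.Ω × (Fin S.d → ℝ),
      ‖Real.log (∑ x, S.w z.1 x * Real.exp (f (∑ i, z.2 i * S.φ x i)))‖ ≤ C := by
    intro z
    rw [Real.norm_eq_abs]
    have hpos := logw_pos (S.w0 z.1) (S.w1 z.1) fun x => f (∑ i, z.2 i * S.φ x i)
    have h1 : Real.exp (-C) ≤ ∑ x, S.w z.1 x * Real.exp (f (∑ i, z.2 i * S.φ x i)) := by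
      rw [← one_mul (Real.exp (-C)), ← S.w1 z.1, Finset.sum_mul]
      refine Finset.sum_le_sum fun y _ =>
        mul_le_mul_of_nonneg_left (Real.exp_le_exp.2 ?_) (S.w0 _ _)
      linarith [neg_abs_le (f (∑ i, z.2 i * S.φ y i)), hC (∑ i, z.2 i * S.φ y i)]
    have h2 : ∑ x, S.w z.1 x * Real.exp (f (∑ i, z.2 i * S.φ x i)) ≤ Real.exp C := by
      rw [← one_mul (Real.exp C), ← S.w1 z.1, Finset.sum_mul]
      refine Finset.sum_le_sum fun y _ =>
        mul_le_mul_of_nonneg_left (Real.exp_le_exp.2 ?_) (S.w0 _ _)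
      linarith [le_abs_self (f (∑ i, z.2 i * S.φ y i)), hC (∑ i, z.2 i * S.φ y i)]
    have l1 := Real.log_le_log (Real.exp_pos _) h1
    have l2 := Real.log_le_log hpos h2
    rw [Real.log_exp] at l1 l2
    rw [abs_le]
    exact ⟨l1, l2⟩
  have h := norm_integral_le_of_norm_le_const (μ := S.P.prod (gM (Fin S.d)))
    (Filter.Eventually.of_forall hb)
  rw [Real.norm_eq_abs] at h
  simpa using h

/-- The average of the expected free energy over the parameters. -/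
noncomputable def eav (f : ℝ → ℝ) (hfm : Measurable f) (C : ℝ) (hC : ∀ x, |f x| ≤ C)
    (P N M : ℕ) (s : ℝ) : ℝ :=
  ∫ u, (cubeBase f hfm C hC N M).elz s u ∂(nuP P)

lemma int_elz (hfm : Measurable f) (hC : ∀ x, |f x| ≤ C) (P N M : ℕ) (s : ℝ) :
    Integrable (fun u : Fin P → ℝ => (cubeBase f hfm C hC N M).elz s u) (nuP P) :=
  int_nuP ((cubeBase f hfm C hC N M).cont_elz s)

lemma eav_step (hfm : Measurable f) (hC : ∀ x, |f x| ≤ C) (P N M : ℕ) (s : ℝ) :
    |eav f hfm C hC P N (M + 1) s - eav f hfm C hC P N M s| ≤ C := by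
  unfold eav
  rw [← integral_sub (int_elz hfm hC P N (M + 1) s) (int_elz hfm hC P N M s)]
  have h := norm_integral_le_of_norm_le_const (μ := nuP P) (C := C)
    (f := fun u => (cubeBase f hfm C hC N (M + 1)).elz s u -
      (cubeBase f hfm C hC N M).elz s u)
    (Filter.Eventually.of_forall fun u => by
      rw [pattern_increment, Real.norm_eq_abs]
      exact abs_dM_le hfm hC N M P s u)
  rw [Real.norm_eq_abs] at h
  simpa using h

lemma eav_mono (hfm : Measurable f) (hC : ∀ x, |f x| ≤ C) (P N M : ℕ) {s s' : ℝ}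
    (hs : 0 ≤ s) (hss : s ≤ s') (hs' : 0 < s') :
    eav f hfm C hC P N M s ≤ eav f hfm C hC P N M s' := by
  unfold eav
  refine integral_mono_ae (int_elz hfm hC P N M s) (int_elz hfm hC P N M s') ?_
  filter_upwards [ae_nuP P] with u hu
  exact (cubeBase f hfm C hC N M).elz_mono_s hs hss hs' fun q => by linarith [(hu q).1]

lemma eav_pert (hfm : Measurable f) (hC : ∀ x, |f x| ≤ C) (P N M : ℕ) {s : ℝ} (hs : 0 ≤ s) :
    |eav f hfm C hC P N M s - (N + 1) * Real.log 2 -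
      ∫ g, ((N : ℝ) + 1) * pressure (cube (N + 1)) f g ∂(patterns M (N + 1))| ≤ s ^ 2 := by
  unfold eav
  set c : ℝ := (N + 1) * Real.log 2 +
    ∫ g, ((N : ℝ) + 1) * pressure (cube (N + 1)) f g ∂(patterns M (N + 1)) with hc
  have e : ∫ u, ((cubeBase f hfm C hC N M).elz s u - c) ∂(nuP P) =
      ∫ u, (cubeBase f hfm C hC N M).elz s u ∂(nuP P) - c := by
    rw [integral_sub (int_elz hfm hC P N M s) (integrable_const _)]
    simp
  have h := norm_integral_le_of_norm_le_const (μ := nuP P) (C := s ^ 2)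
    (f := fun u => (cubeBase f hfm C hC N M).elz s u - c) (by
      filter_upwards [ae_nuP P] with u hu
      rw [Real.norm_eq_abs, hc, ← sub_sub]
      exact elz_pert hfm C hC N M P s u hs fun q => ⟨by linarith [(hu q).1], (hu q).2⟩)
  rw [Real.norm_eq_abs, e] at h
  rw [hc] at h
  rw [sub_sub]
  simpa using h

/-- The combination of free energies to be minimized. -/
noncomputable def selX (f : ℝ → ℝ) (hfm : Measurable f) (C : ℝ) (hC : ∀ x, |f x| ≤ C) (α : ℝ)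
    (N M P : ℕ) (u : Fin P → ℝ) : ℝ :=
  (cubeBase f hfm C hC (N + 1) (M + 1)).elz (sN N) u -
      (cubeBase f hfm C hC N (M + 1)).elz (sN N) u - Real.log 2 +
    α * ((cubeBase f hfm C hC N (M + 1)).elz (sN N) u - (cubeBase f hfm C hC N M).elz (sN N) u)

/-- The fluctuation of one process. -/
noncomputable def devq (f : ℝ → ℝ) (hfm : Measurable f) (C : ℝ) (hC : ∀ x, |f x| ≤ C)
    (N M P : ℕ) (q : Fin P) (u : Fin P → ℝ) : ℝ :=
  (cubeBase f hfm C hC N M).dev P (sN N) u q ((cubeBase f hfm C hC N M).mh P (sN N) u q)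

lemma int_devq (hfm : Measurable f) (hC : ∀ x, |f x| ≤ C) (N M P : ℕ) (q : Fin P) :
    Integrable (devq f hfm C hC N M P q) (nuP P) :=
  int_nuP ((cubeBase f hfm C hC N M).cont_dev (sN N) q)

lemma devq_nonneg (hfm : Measurable f) (hC : ∀ x, |f x| ≤ C) (N M P : ℕ) (q : Fin P)
    (u : Fin P → ℝ) : 0 ≤ devq f hfm C hC N M P q u :=
  (cubeBase f hfm C hC N M).dev_nonneg (sN N) u q _

/-- The total fluctuation. -/
noncomputable def selD (f : ℝ → ℝ) (hfm : Measurable f) (C : ℝ) (hC : ∀ x, |f x| ≤ C)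
    (N M P : ℕ) (u : Fin P → ℝ) : ℝ :=
  ∑ q, (devq f hfm C hC N M P q u + devq f hfm C hC N (M + 1) P q u)

lemma int_selX (hfm : Measurable f) (hC : ∀ x, |f x| ≤ C) (α : ℝ) (N M P : ℕ) :
    Integrable (selX f hfm C hC α N M P) (nuP P) :=
  (((int_elz hfm hC P (N + 1) (M + 1) (sN N)).sub
      (int_elz hfm hC P N (M + 1) (sN N))).sub (integrable_const _)).add
      (((int_elz hfm hC P N (M + 1) (sN N)).sub
        (int_elz hfm hC P N M (sN N))).const_mul α)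

lemma integral_selX (hfm : Measurable f) (hC : ∀ x, |f x| ≤ C) (α : ℝ) (N M P : ℕ) :
    ∫ u, selX f hfm C hC α N M P u ∂(nuP P) =
      (eav f hfm C hC P (N + 1) (M + 1) (sN N) -
        eav f hfm C hC P N (M + 1) (sN N) - Real.log 2) +
        α * (eav f hfm C hC P N (M + 1) (sN N) - eav f hfm C hC P N M (sN N)) := by
  have j1 := int_elz hfm hC P (N + 1) (M + 1) (sN N)
  have j2 := int_elz hfm hC P N (M + 1) (sN N)
  have j3 := int_elz hfm hC P N M (sN N)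
  have j12 : Integrable (fun u : Fin P → ℝ => (cubeBase f hfm C hC (N + 1) (M + 1)).elz (sN N) u -
      (cubeBase f hfm C hC N (M + 1)).elz (sN N) u) (nuP P) := j1.sub j2
  have j23 : Integrable (fun u : Fin P → ℝ => (cubeBase f hfm C hC N (M + 1)).elz (sN N) u -
      (cubeBase f hfm C hC N M).elz (sN N) u) (nuP P) := j2.sub j3
  have j12' : Integrable (fun u : Fin P → ℝ => (cubeBase f hfm C hC (N + 1) (M + 1)).elz (sN N) u -
      (cubeBase f hfm C hC N (M + 1)).elz (sN N) u - Real.log 2) (nuP P) :=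
    j12.sub (integrable_const _)
  unfold selX eav
  rw [integral_add j12' (j23.const_mul α),
    integral_sub j12 (integrable_const _), integral_const_mul, integral_sub j1 j2,
    integral_sub j2 j3]
  simp

lemma integral_selD_le (hfm : Measurable f) (hC : ∀ x, |f x| ≤ C) (N M P : ℕ) {A : ℝ}
    (hA : 0 ≤ A) (hM0 : (M : ℝ) * (2 * C) ^ 2 ≤ A * ((N : ℝ) + 1))
    (hM1 : (((M + 1 : ℕ)) : ℝ) * (2 * C) ^ 2 ≤ A * ((N : ℝ) + 1)) :
    ∫ u, selD f hfm C hC N M P u ∂(nuP P) ≤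
      2 * (∑ q : Fin P, 2 ^ ((q : ℕ) + 1) * (15 + 3 * √(3 + A))) * √(√((N : ℝ) + 1)) := by
  have hd : ∀ q, Integrable (fun u => devq f hfm C hC N M P q u +
      devq f hfm C hC N (M + 1) P q u) (nuP P) := fun q =>
    (int_devq hfm hC N M P q).add (int_devq hfm hC N (M + 1) P q)
  unfold selD
  rw [integral_finsetSum _ fun q _ => hd q]
  have h : ∀ q : Fin P, ∫ u, (devq f hfm C hC N M P q u +
      devq f hfm C hC N (M + 1) P q u) ∂(nuP P) ≤
      2 * (2 ^ ((q : ℕ) + 1) * (15 + 3 * √(3 + A)) * √(√((N : ℝ) + 1))) := fun q => by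
    rw [integral_add (int_devq hfm hC N M P q) (int_devq hfm hC N (M + 1) P q)]
    have h0 := cubeBase_dev_le hfm hC q hA hM0
    have h1 := cubeBase_dev_le hfm hC q hA hM1
    unfold devq
    linarith
  refine (Finset.sum_le_sum fun q _ => h q).trans (le_of_eq ?_)
  rw [← Finset.mul_sum, ← Finset.sum_mul]
  ring

/-- Choice of the parameters of the perturbation. -/
lemma select_u (hfm : Measurable f) (hC : ∀ x, |f x| ≤ C) {α : ℝ} (N M P : ℕ) {A : ℝ}
    (hA : 0 ≤ A) (hM0 : (M : ℝ) * (2 * C) ^ 2 ≤ A * ((N : ℝ) + 1))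
    (hM1 : (((M + 1 : ℕ)) : ℝ) * (2 * C) ^ 2 ≤ A * ((N : ℝ) + 1)) {p ε lam K0 : ℝ}
    (hε : 0 < ε) (hε1 : ε ≤ 1) (hlam : lam = (|p| + 3 + K0) / ε) (hK0 : 0 ≤ K0)
    (g1 : lam * (2 * ∑ q : Fin P, 2 ^ ((q : ℕ) + 1) * (15 + 3 * √(3 + A))) *
      (√(√((N : ℝ) + 1)) / sN N) ≤ ε)
    (hsel : (eav f hfm C hC P (N + 1) (M + 1) (sN N) -
        eav f hfm C hC P N (M + 1) (sN N) - Real.log 2) +
        α * (eav f hfm C hC P N (M + 1) (sN N) - eav f hfm C hC P N M (sN N)) ≤ p + 2 * ε)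
    (hlow : ∀ u : Fin P → ℝ, (∀ q, 1 ≤ u q ∧ u q ≤ 2) → -K0 ≤ selX f hfm C hC α N M P u) :
    ∃ u : Fin P → ℝ, (∀ q, 1 ≤ u q ∧ u q ≤ 2) ∧ (∀ q, devq f hfm C hC N M P q u ≤ ε * sN N) ∧
      (∀ q, devq f hfm C hC N (M + 1) P q u ≤ ε * sN N) ∧
      selX f hfm C hC α N M P u ≤ p + 3 * ε := by
  have hs1 := sN_ge N
  have hs0 : 0 < sN N := by linarith
  have hlam0 : 0 < lam := by
    have := abs_nonneg p
    have : 0 < |p| + 3 + K0 := by linarith only [hK0, this]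
    rw [hlam]
    positivity
  have hX := int_selX hfm hC α N M P
  have hDv : Integrable (selD f hfm C hC N M P) (nuP P) :=
    integrable_finsetSum _ fun q _ =>
      (int_devq hfm hC N M P q).add (int_devq hfm hC N (M + 1) P q)
  have hY : Integrable (fun u => selX f hfm C hC α N M P u +
      lam / sN N * selD f hfm C hC N M P u) (nuP P) := hX.add (hDv.const_mul _)
  have iY : ∫ u, (selX f hfm C hC α N M P u + lam / sN N * selD f hfm C hC N M P u) ∂(nuP P) ≤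
      p + 3 * ε := by
    rw [integral_add hX (hDv.const_mul _), integral_const_mul, integral_selX]
    have h1 := mul_le_mul_of_nonneg_left (integral_selD_le hfm hC N M P hA hM0 hM1)
      (show 0 ≤ lam / sN N by positivity)
    have h2 : lam / sN N * (2 * (∑ q : Fin P, 2 ^ ((q : ℕ) + 1) * (15 + 3 * √(3 + A))) *
        √(√((N : ℝ) + 1))) =
        lam * (2 * ∑ q : Fin P, 2 ^ ((q : ℕ) + 1) * (15 + 3 * √(3 + A))) *
          (√(√((N : ℝ) + 1)) / sN N) := by ring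
    linarith only [hfm, hC, g1, hsel, h1, h2]
  obtain ⟨u, hu, hYu⟩ := exists_notMem_null_le_integral hY (ae_iff.1 (ae_nuP P))
  have hu' : ∀ q, 1 ≤ u q ∧ u q ≤ 2 := by simpa using hu
  have hYu' := hYu.trans iY
  have hXK := hlow u hu'
  have hDv0 : 0 ≤ selD f hfm C hC N M P u := Finset.sum_nonneg fun q _ =>
    add_nonneg (devq_nonneg hfm hC N M P q u) (devq_nonneg hfm hC N (M + 1) P q u)
  have hDvle : selD f hfm C hC N M P u ≤ ε * sN N := by
    have h1 : lam / sN N * selD f hfm C hC N M P u ≤ |p| + 3 + K0 := by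
      have := le_abs_self p
      linarith only [hfm, hC, hε1, iY, hYu, hXK, this]
    have h2 : |p| + 3 + K0 = lam * ε := by rw [hlam]; field_simp
    rw [h2, div_mul_eq_mul_div, div_le_iff₀ hs0, mul_assoc] at h1
    exact le_of_mul_le_mul_left h1 hlam0
  have hsingle : ∀ q, devq f hfm C hC N M P q u + devq f hfm C hC N (M + 1) P q u ≤
      selD f hfm C hC N M P u := fun q =>
    Finset.single_le_sum (f := fun q => devq f hfm C hC N M P q u +
      devq f hfm C hC N (M + 1) P q u)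
      (fun q _ => add_nonneg (devq_nonneg hfm hC N M P q u)
        (devq_nonneg hfm hC N (M + 1) P q u)) (Finset.mem_univ q)
  refine ⟨u, hu', fun q => ?_, fun q => ?_, ?_⟩
  · have := hsingle q
    have := devq_nonneg hfm hC N (M + 1) P q u
    linarith
  · have := hsingle q
    have := devq_nonneg hfm hC N M P q u
    linarith
  · have h1 : 0 ≤ lam / sN N * selD f hfm C hC N M P u := by positivity
    linarith only [hfm, hC, iY, hYu, h1]

/-- Comparison with the cavity form, and lower bound. -/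
lemma selX_low (hf : CB3 C f f1 f2 f3) (hfm : Measurable f) {α D ε : ℝ} (hα : 0 < α)
    (hD0 : 0 ≤ D) {N M P : ℕ}
    (hD : ∀ u : Fin P → ℝ, (∀ q, 0 ≤ u q ∧ u q ≤ 2) →
      |(cubeBase f hfm C hf.b0 (N + 1) (M + 1)).elz (sN N) u -
        (cubeBase f hfm C hf.b0 N (M + 1)).elz (sN N) u -
        Real.log 2 - cubeDN f f1 f2 hfm C hf.b0 N (M + 1) P (sN N) u| ≤
      D * (((M + 1 : ℕ) : ℝ) * (1 / ((N : ℝ) + 2) * √(1 / ((N : ℝ) + 2))) +
        sN N ^ 2 / ((N : ℝ) + 1)))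
    (hMδ : ((M : ℝ) + 1) * (1 / ((N : ℝ) + 2)) ≤ α + 1)
    (g2 : D * ((α + 1) * √(1 / ((N : ℝ) + 2)) + sN N ^ 2 / ((N : ℝ) + 1)) ≤ ε)
    {u : Fin P → ℝ} (hu : ∀ q, 1 ≤ u q ∧ u q ≤ 2) :
    cubeDN f f1 f2 hfm C hf.b0 N (M + 1) P (sN N) u +
      α * ((cubeBase f hfm C hf.b0 N M).sys P (sN N) u).dM f - ε ≤
        selX f hfm C hf.b0 α N M P u ∧
    -(Real.exp ((α + 1) * C ^ 2 / 2) - 1) - α * C ≤
      cubeDN f f1 f2 hfm C hf.b0 N (M + 1) P (sN N) u +
      α * ((cubeBase f hfm C hf.b0 N M).sys P (sN N) u).dM f := by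
  have hspin := hD u fun q => ⟨by linarith [(hu q).1], (hu q).2⟩
  have hMc : (((M + 1 : ℕ)) : ℝ) = (M : ℝ) + 1 := by push_cast; ring
  have herr : D * (((M + 1 : ℕ) : ℝ) * (1 / ((N : ℝ) + 2) * √(1 / ((N : ℝ) + 2))) +
      sN N ^ 2 / ((N : ℝ) + 1)) ≤ ε := by
    refine le_trans (mul_le_mul_of_nonneg_left ?_ hD0) g2
    rw [hMc, ← mul_assoc]
    have := mul_le_mul_of_nonneg_right hMδ (Real.sqrt_nonneg (1 / ((N : ℝ) + 2)))
    linarith only [this]
  have hdM := abs_le.1 (abs_dM_le hfm hf.b0 N M P (sN N) u)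
  constructor
  · have h1 := (abs_le.1 (hspin.trans herr)).1
    unfold selX
    rw [pattern_increment hfm C hf.b0 N M P (sN N) u]
    linarith only [hfm, hf, h1]
  · have hDNlow : -(Real.exp ((α + 1) * C ^ 2 / 2) - 1) ≤
        cubeDN f f1 f2 hfm C hf.b0 N (M + 1) P (sN N) u := by
      refine le_trans ?_ (cubeDN_ge hf hfm N (M + 1) P (sN N) u)
      rw [neg_le_neg_iff, hMc]
      have h0 : ((M : ℝ) + 1) * (1 / ((N : ℝ) + 2)) * C ^ 2 / 2 ≤ (α + 1) * C ^ 2 / 2 := by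
        have := mul_le_mul_of_nonneg_right hMδ (sq_nonneg C)
        linarith only [this]
      have := Real.exp_le_exp.2 h0
      linarith only [this]
    have h1 : -(α * C) ≤ α * ((cubeBase f hfm C hf.b0 N M).sys P (sN N) u).dM f := by
      have := mul_le_mul_of_nonneg_left hdM.1 hα.le
      linarith only [hfm, hf, this]
    linarith only [hfm, hf, hDNlow, h1]

/-- Selection of the size and of the number of patterns. -/
lemma selection_N (hf : CB3 C f f1 f2 f3) (hfm : Measurable f) {α p : ℝ} (hα : 0 < α)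
    (hp : ∀ ε > 0, ∃ᶠ N in atTop, meanPressure cube α f N < p + ε) {ε : ℝ} (hε : 0 < ε)
    (P : ℕ) :
    ∃ L : ℝ, 1 ≤ L ∧ ∀ N₀ : ℕ, ∃ N M : ℕ, N₀ ≤ N ∧ α * ((N : ℝ) + 2) - 1 ≤ M ∧
      (M : ℝ) ≤ α * ((N : ℝ) + 2) + L ∧
      (eav f hfm C hf.b0 P (N + 1) M (sN N) - eav f hfm C hf.b0 P N M (sN N) -
      Real.log 2) + α * (eav f hfm C hf.b0 P N M (sN N) -
        eav f hfm C hf.b0 P N (M - 1) (sN N)) ≤ p + 2 * ε := by
  have hC0 : 0 ≤ C := (abs_nonneg _).trans (hf.b0 0)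
  obtain ⟨L, hL1, hL⟩ := window_selection'
    (a := fun N M => eav f hfm C hf.b0 P N M (sN N) - (N + 1) * Real.log 2)
    (c := fun N M => eav f hfm C hf.b0 P (N + 1) M (sN N) - eav f hfm C hf.b0 P N M (sN N) -
      Real.log 2) (C := C) (α := α) (p := p) (m := fun N => meanPressure cube α f N)
    (κ := fun N => sN N ^ 2) hC0 hα
    (fun N M => by
      rw [sub_sub_sub_cancel_right]
      exact eav_step hfm hf.b0 P N M (sN N))
    (fun N M => by
      have h := eav_mono hfm hf.b0 P (N + 1) M (s := sN N) (s' := sN (N + 1))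
        (by linarith [sN_ge N]) (sN_mono (Nat.le_succ N)) (by linarith [sN_ge (N + 1)])
      push_cast
      linarith)
    (fun N => by
      have h := eav_pert hfm hf.b0 P N ⌊α * ((N + 1 : ℕ) : ℝ)⌋₊ (s := sN N)
        (by linarith [sN_ge N])
      have e : ((N : ℝ) + 1) * meanPressure cube α f (N + 1) =
          ∫ g, ((N : ℝ) + 1) * pressure (cube (N + 1)) f g
            ∂(patterns ⌊α * ((N + 1 : ℕ) : ℝ)⌋₊ (N + 1)) := by
        unfold meanPressure
        rw [integral_const_mul]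
      rw [e]
      exact h)
    tendsto_sN_sq_div hp hε
  refine ⟨L, hL1, fun N₀ => ?_⟩
  obtain ⟨N, M, h1, h2, h3, h4⟩ := hL N₀
  refine ⟨N, M, h1, h2, h3, ?_⟩
  rw [sub_sub_sub_cancel_right] at h4
  exact h4

/-- The conditions on large `N`. -/
lemma large_N (α D L Kl ε : ℝ) (hα : 0 < α) (hε : 0 < ε) (N₀ : ℕ) :
    ∃ N₁ : ℕ, ∀ N, N₁ ≤ N → Kl * (√(√((N : ℝ) + 1)) / sN N) ≤ ε ∧
      D * ((α + 1) * √(1 / ((N : ℝ) + 2)) + sN N ^ 2 / ((N : ℝ) + 1)) ≤ ε ∧
      (2 * α + L + 2) / (N : ℝ) ≤ ε ∧ L ≤ (N : ℝ) ∧ 2 ≤ α * N ∧ 1 ≤ N ∧ N₀ ≤ N := by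
  have l1 : ∀ᶠ N : ℕ in atTop, Kl * (√(√((N : ℝ) + 1)) / sN N) ≤ ε := by
    have h := (tendsto_sqrt_sqrt_div_sN).const_mul Kl
    rw [mul_zero] at h
    exact h.eventually (ge_mem_nhds hε)
  have l2 : ∀ᶠ N : ℕ in atTop, D * ((α + 1) * √(1 / ((N : ℝ) + 2)) +
      sN N ^ 2 / ((N : ℝ) + 1)) ≤ ε := by
    have h1 : Tendsto (fun N : ℕ => √(1 / ((N : ℝ) + 2))) atTop (𝓝 0) := by
      have h2 : Tendsto (fun N : ℕ => 1 / ((N : ℝ) + 2)) atTop (𝓝 0) := by
        have := (tendsto_const_div_atTop_nhds_zero_nat (1 : ℝ)).comp (tendsto_add_atTop_nat 2)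
        refine this.congr fun N => ?_
        simp only [Function.comp_apply]
        push_cast
        rfl
      have h3 := h2.sqrt
      rwa [Real.sqrt_zero] at h3
    have h := ((h1.const_mul (α + 1)).add tendsto_sN_sq_div).const_mul D
    rw [mul_zero, add_zero, mul_zero] at h
    exact h.eventually (ge_mem_nhds hε)
  have l3 : ∀ᶠ N : ℕ in atTop, (2 * α + L + 2) / (N : ℝ) ≤ ε :=
    (tendsto_const_div_atTop_nhds_zero_nat (2 * α + L + 2)).eventually (ge_mem_nhds hε)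
  have l4 : ∀ᶠ N : ℕ in atTop, L ≤ (N : ℝ) :=
    tendsto_natCast_atTop_atTop.eventually_ge_atTop L
  have l5 : ∀ᶠ N : ℕ in atTop, 2 / α ≤ (N : ℝ) :=
    tendsto_natCast_atTop_atTop.eventually_ge_atTop (2 / α)
  obtain ⟨N₁, hN₁⟩ := eventually_atTop.1 (l1.and (l2.and (l3.and (l4.and (l5.and
    ((eventually_ge_atTop 1).and (eventually_ge_atTop N₀)))))))
  refine ⟨N₁, fun N hN => ?_⟩
  obtain ⟨g1, g2, g3, g4, g5, g6, g7⟩ := hN₁ N hN
  exact ⟨g1, g2, g3, g4, by rwa [div_le_iff₀' hα] at g5, g6, g7⟩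

/-- Selection of the size, of the number of patterns and of the parameters of the perturbation. -/
theorem selection_step (hf : CB3 C f f1 f2 f3) (hfm : Measurable f) {α p : ℝ} (hα : 0 < α)
    (hp : ∀ ε > 0, ∃ᶠ N in atTop, meanPressure cube α f N < p + ε) {ε : ℝ} (hε : 0 < ε)
    (hε1 : ε ≤ 1) (P N₀ : ℕ) :
    ∃ (N M : ℕ) (u : Fin P → ℝ), N₀ ≤ N ∧ |(M : ℝ) / N - α| ≤ ε ∧ (∀ q, 1 ≤ u q) ∧
      (∀ q, devq f hfm C hf.b0 N M P q u ≤ ε * sN N) ∧
      (∀ q, devq f hfm C hf.b0 N (M + 1) P q u ≤ ε * sN N) ∧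
      cubeDN f f1 f2 hfm C hf.b0 N (M + 1) P (sN N) u +
        α * ((cubeBase f hfm C hf.b0 N M).sys P (sN N) u).dM f ≤ p + 4 * ε := by
  have hC0 : 0 ≤ C := (abs_nonneg _).trans (hf.b0 0)
  obtain ⟨D, hD0, hD⟩ := spin_increment hf hfm
  obtain ⟨L, hL1, hL⟩ := selection_N hf hfm hα hp hε P
  have hL0 : 0 < L := by linarith
  -- constants
  set A : ℝ := (2 * C) ^ 2 * (2 * α + L + 1) with hA
  have hA0 : 0 ≤ A := by positivity
  set K0 : ℝ := (Real.exp ((α + 1) * C ^ 2 / 2) - 1) + 1 + α * C with hK0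
  have hK00 : 0 ≤ K0 := by
    have h1 : 0 ≤ (α + 1) * C ^ 2 / 2 := by positivity
    have h2 := Real.one_le_exp h1
    have h3 : 0 ≤ α * C := by positivity
    linarith only [h2, h3]
  obtain ⟨N₁, hN₁⟩ := large_N α D L ((|p| + 3 + K0) / ε *
    (2 * ∑ q : Fin P, 2 ^ ((q : ℕ) + 1) * (15 + 3 * √(3 + A)))) ε hα hε N₀
  obtain ⟨N, M₁, hN, hM1, hM2, hsel⟩ := hL N₁
  obtain ⟨g1, g2, g3, g4, g5, hN1, hN0⟩ := hN₁ N hN
  have hNr : (1 : ℝ) ≤ N := by exact_mod_cast hN1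
  -- `M₁ = M + 1`
  have hM1pos : 1 ≤ M₁ := by
    have h2 : (1 : ℝ) ≤ M₁ := by linarith only [hα, hM1, g5]
    exact_mod_cast h2
  obtain ⟨M, rfl⟩ : ∃ M, M₁ = M + 1 := ⟨M₁ - 1, by omega⟩
  have hMc : (((M + 1 : ℕ)) : ℝ) = (M : ℝ) + 1 := by push_cast; ring
  rw [hMc] at hM1 hM2
  rw [Nat.add_sub_cancel] at hsel
  have hMr0 : (0 : ℝ) ≤ M := Nat.cast_nonneg M
  -- bounds on the number of patterns
  have hMA : ((M : ℝ) + 1) ≤ (2 * α + L + 1) * ((N : ℝ) + 1) := by nlinarith only [hL1, g4, g5, hM2]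
  have hMA1 : (((M + 1 : ℕ)) : ℝ) * (2 * C) ^ 2 ≤ A * ((N : ℝ) + 1) := by
    rw [hMc, hA]
    nlinarith only [hMA, sq_nonneg (2 * C)]
  have hMA0 : (M : ℝ) * (2 * C) ^ 2 ≤ A * ((N : ℝ) + 1) := by
    rw [hMc] at hMA1
    linarith only [hMA1, sq_nonneg (2 * C)]
  have hNp2 : (0 : ℝ) < (N : ℝ) + 2 := by linarith only [hL1, g4]
  have hMδ : ((M : ℝ) + 1) * (1 / ((N : ℝ) + 2)) ≤ α + 1 := by
    rw [mul_one_div, div_le_iff₀ hNp2]
    linarith only [g4, hM2]
  have hlow : ∀ u : Fin P → ℝ, (∀ q, 1 ≤ u q ∧ u q ≤ 2) → _ := fun u hu =>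
    selX_low hf hfm (u := u) hα hD0 (fun u hu => hD N (M + 1) P (sN N) u
      (by linarith only [sN_ge N]) hu) hMδ g2 hu
  obtain ⟨u, hu, hd0, hd1, hX⟩ := select_u hfm hf.b0 (α := α) N M P hA0 hMA0 hMA1 hε hε1 rfl
    hK00 g1 hsel (fun u hu => by
      obtain ⟨h1, h2⟩ := hlow u hu
      linarith only [hfm, hf, hε1, h1, h2])
  refine ⟨N, M, u, hN0, ?_, fun q => (hu q).1, hd0, hd1, ?_⟩
  · have h1 : |(M : ℝ) - α * N| ≤ 2 * α + L + 2 := by
      rw [abs_le]
      constructor <;> linarith only [hα, hL1, hM1, hM2]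
    have h2 : (M : ℝ) / N - α = ((M : ℝ) - α * N) / N := by field_simp
    rw [h2, abs_div, abs_of_pos (show (0 : ℝ) < N by linarith only [hL1, g4])]
    exact (div_le_div_of_nonneg_right h1 (by linarith only [hL1, g4])).trans g3
  · have h1 := (hlow u hu).1
    linarith only [hfm, hf, hX, h1]

/-- Selection of the parameters along a sequence. -/
theorem exists_selection {f f1 f2 f3 : ℝ → ℝ} {C : ℝ} (hf : CB3 C f f1 f2 f3)
    (hfm : Measurable f) {α p : ℝ} (hα : 0 < α)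
    (hp : ∀ ε > 0, ∃ᶠ N in atTop, meanPressure cube α f N < p + ε) :
    ∃ (N M P : ℕ → ℕ) (s : ℕ → ℝ) (u : ∀ j, Fin (P j) → ℝ),
      Tendsto N atTop atTop ∧
      Tendsto (fun j => (M j : ℝ) / (N j : ℝ)) atTop (𝓝 α) ∧
      (∀ p : ℕ, AsympGG (hyperfilter ℕ) (fun j =>
        (cubeBase f hfm C hf.b0 (N j) (M j)).sys (P j) (s j) (u j)) (fun x => x ^ p)) ∧
      (∀ p : ℕ, AsympGG (hyperfilter ℕ) (fun j =>
        (cubeBase f hfm C hf.b0 (N j) (M j + 1)).sys (P j) (s j) (u j)) (fun x => x ^ p)) ∧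
      ∀ ε > 0, ∀ᶠ j in atTop,
        cubeDN f f1 f2 hfm C hf.b0 (N j) (M j + 1) (P j) (s j) (u j) +
          α * ((cubeBase f hfm C hf.b0 (N j) (M j)).sys (P j) (s j) (u j)).dM f ≤ p + ε := by
  have key : ∀ j : ℕ, ∃ (N M : ℕ) (u : Fin j → ℝ), j ≤ N ∧
      |(M : ℝ) / N - α| ≤ 1 / ((j : ℝ) + 1) ∧ (∀ q, 1 ≤ u q) ∧
      (∀ q, devq f hfm C hf.b0 N M j q u ≤ 1 / ((j : ℝ) + 1) * sN N) ∧
      (∀ q, devq f hfm C hf.b0 N (M + 1) j q u ≤ 1 / ((j : ℝ) + 1) * sN N) ∧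
      cubeDN f f1 f2 hfm C hf.b0 N (M + 1) j (sN N) u +
        α * ((cubeBase f hfm C hf.b0 N M).sys j (sN N) u).dM f ≤
          p + 4 * (1 / ((j : ℝ) + 1)) := fun j =>
    selection_step hf hfm hα hp (by positivity)
      (by rw [div_le_one (by positivity)]; linarith [(Nat.cast_nonneg j : (0 : ℝ) ≤ j)]) j j
  choose N M u hN hM hu hd0 hd1 hdn using key
  have h0 : Tendsto (fun j : ℕ => 1 / ((j : ℝ) + 1)) atTop (𝓝 0) :=
    tendsto_one_div_add_atTop_nhds_zero_nat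
  have hU : (hyperfilter ℕ : Filter ℕ) ≤ atTop := by
    rw [← Nat.cofinite_eq_atTop]
    exact hyperfilter_le_cofinite
  have hsmall : ∀ ε > 0, ∀ᶠ j : ℕ in (hyperfilter ℕ : Filter ℕ), 1 / ((j : ℝ) + 1) ≤ ε :=
    fun ε hε => (h0.eventually (ge_mem_nhds hε)).filter_mono hU
  refine ⟨N, M, fun j => j, fun j => sN (N j), u, ?_, ?_, ?_, ?_, ?_⟩
  · exact tendsto_atTop_mono hN tendsto_id
  · rw [tendsto_iff_norm_sub_tendsto_zero]
    exact squeeze_zero (fun _ => norm_nonneg _) (fun j => by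
      rw [Real.norm_eq_abs]; exact hM j) h0
  · intro r
    refine asympGG_of_dev (fun j => cubeBase f hfm C hf.b0 (N j) (M j)) (fun j => j)
      (fun j => sN (N j)) u (Filter.Eventually.of_forall fun j => by linarith [sN_ge (N j)])
      (Filter.Eventually.of_forall hu)
      (fun j q => (cubeBase f hfm C hf.b0 (N j) (M j)).mh j (sN (N j)) (u j) q)
      (fun r => (eventually_gt_atTop r).filter_mono hU) (fun r ε hε => ?_) r
    filter_upwards [hsmall ε hε] with j hj h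
    exact (hd0 j ⟨r, h⟩).trans (mul_le_mul_of_nonneg_right hj (by linarith [sN_ge (N j)]))
  · intro r
    refine asympGG_of_dev (fun j => cubeBase f hfm C hf.b0 (N j) (M j + 1)) (fun j => j)
      (fun j => sN (N j)) u (Filter.Eventually.of_forall fun j => by linarith [sN_ge (N j)])
      (Filter.Eventually.of_forall hu)
      (fun j q => (cubeBase f hfm C hf.b0 (N j) (M j + 1)).mh j (sN (N j)) (u j) q)
      (fun r => (eventually_gt_atTop r).filter_mono hU) (fun r ε hε => ?_) r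
    filter_upwards [hsmall ε hε] with j hj h
    exact (hd1 j ⟨r, h⟩).trans (mul_le_mul_of_nonneg_right hj (by linarith [sN_ge (N j)]))
  · intro ε hε
    have h1 : Tendsto (fun j : ℕ => 4 * (1 / ((j : ℝ) + 1))) atTop (𝓝 0) := by
      have := h0.const_mul 4
      rwa [mul_zero] at this
    filter_upwards [h1.eventually (ge_mem_nhds hε)] with j hj
    have := hdn j
    linarith

end Sel

end Vale.Agent.P157.Par
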