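import Vale.Agent.P157.ParLower3
import Vale.Agent.P157.ParConc
import Vale.Agent.P157.ParSel
import Vale.Agent.P157.ParClsA

open MeasureTheory ProbabilityTheory Filter Topology Finset

namespace Vale.Agent.P157.Par

set_option linter.unusedSectionVars false

open Vale.Agent.P367.GT (gM)

/-- The limiting array of a sequence of systems, with trivial test function. -/
theorem exists_arr_empty {U : Ultrafilter ℕ} {S : ℕ → Sys} {k : ℕ} {b : Fin k → ℝ}
    {w : Fin (k + 1) → ℝ} (hL : LimData U S b w) :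
    ∃ 𝓐 : Arr k w Empty,
      (∀ (ι : Type) [Fintype ι] (A : LM k (Empty ⊕ ι) → ℝ), (∀ L, 0 ≤ A L) → 0 ≤ 𝓐.E ι A) ∧
      𝓐.E (Fin 1) (fun _ => 1) = 1 ∧
      ∀ l, 𝓐.E (Fin 2) (fun L => if L (Sum.inr 0) (Sum.inr 1) = l then 1 else 0) = w l := by
  obtain ⟨𝓐, -, h𝓐⟩ := exists_arr hL.gg hL.mono hL.b0 hL.b1 hL.na hL.lim
    (δ := Empty) (fun _ _ _ => (1 : ℝ)) (fun _ _ => measurable_const) (fun _ _ _ => by simp)
  refine ⟨𝓐, fun ι _ A hA => ?_, ?_, fun l => ?_⟩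
  · classical
    refine ge_of_tendsto' (h𝓐 ι A) fun j => ?_
    have h1 := (S j).avT_eq (Fintype.equivFin (Empty ⊕ ι))
      (fun _ (x : Empty ⊕ ι → (S j).X) => (1 : ℝ) * A ((S j).LMat b x))
    refine le_trans ?_ (le_of_eq h1.symm)
    exact Sys.tav_nonneg fun t x => by rw [one_mul]; exact hA _
  · have h2 := h𝓐 (Fin 1) (fun _ => 1)
    have h3 : (fun j => (S j).avT (fun _ (_ : Empty ⊕ Fin 1 → (S j).X) => (1 : ℝ) * 1)) =
        fun _ => (1 : ℝ) := by
      funext j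
      rw [(S j).avT_const, mul_one]
    have h4 : Tendsto (fun _ : ℕ => (1 : ℝ)) U (𝓝 (𝓐.E (Fin 1) (fun _ => 1))) := by
      rw [← h3]
      exact h2
    exact tendsto_nhds_unique h4 tendsto_const_nhds
  · have h2 := h𝓐 (Fin 2) (fun L => if L (Sum.inr 0) (Sum.inr 1) = l then 1 else 0)
    refine tendsto_nhds_unique h2 ?_
    refine (hL.lim l).congr fun j => ?_
    unfold Sys.pr
    have h3 := (S j).avT_comp (J := Fin 2) (J' := Empty ⊕ Fin 2) Sum.inr Sum.inr_injective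
      (fun _ (x : Fin 2 → (S j).X) => ind (lev b ((S j).R (x 0) (x 1)) = l))
    refine Eq.trans ((S j).avT_fin (fun _ (x : Fin 2 → (S j).X) =>
      ind (lev b ((S j).R (x 0) (x 1)) = l))).symm (Eq.trans h3.symm ?_)
    congr 1
    funext ω x
    rw [one_mul, ind_eq]
    have h4 : (S j).LMat b x (Sum.inr 0) (Sum.inr 1) =
        lev b ((S j).R (x (Sum.inr 0)) (x (Sum.inr 1))) := by
      unfold Sys.LMat
      rw [if_neg (by simp)]
    rw [h4]

lemma sum_fin_range {k : ℕ} (g : ℕ → ℝ) :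
    ∑ l : Fin (k + 1), g l = ∑ l ∈ Finset.range (k + 1), g l := by
  rw [Finset.sum_range]

lemma hyper_le : (hyperfilter ℕ : Filter ℕ) ≤ atTop := by
  rw [← Nat.cofinite_eq_atTop]
  exact hyperfilter_le_cofinite

/-- The ratio of the sizes. -/
lemma ratio_tendsto {N M : ℕ → ℕ} {α : ℝ} (hN : Tendsto N atTop atTop)
    (hMN : Tendsto (fun j => (M j : ℝ) / (N j : ℝ)) atTop (𝓝 α)) :
    Tendsto (fun j => ((M j : ℝ) + 1) / (N j + 2)) atTop (𝓝 α) := by
  have hNr : Tendsto (fun j => (N j : ℝ)) atTop atTop := tendsto_natCast_atTop_atTop.comp hN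
  have h0 : Tendsto (fun j => 1 / (N j : ℝ)) atTop (𝓝 0) := by
    simpa [Function.comp_def] using (tendsto_inv_atTop_zero.comp hNr)
  have h1 : Tendsto (fun j => ((M j : ℝ) / (N j : ℝ) + 1 / (N j : ℝ)) / (1 + 2 * (1 / (N j : ℝ))))
      atTop (𝓝 ((α + 0) / (1 + 2 * 0))) := by
    refine (hMN.add h0).div ((h0.const_mul 2).const_add 1) (by norm_num)
  simp only [add_zero, mul_zero, div_one] at h1
  refine h1.congr' ?_
  filter_upwards [hN.eventually (eventually_gt_atTop 0)] with j hj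
  have : (0 : ℝ) < N j := by exact_mod_cast hj
  field_simp

/-- Concavity in the path of the overlaps. -/
theorem parisi_tangent {C c₀ a : ℝ} {f f1 f2 f3 : ℝ → ℝ} (hf : Pot C c₀ a f f1 f2 f3)
    {ν : Measure ℝ} [IsFiniteMeasure ν] (h2 : Integrable (fun θ : ℝ => θ ^ 2) ν)
    (hW : ∀ x, Real.exp (f x) / c₀ = 1 - ∫ θ, Real.cos (θ * x) ∂ν)
    (hW' : ∀ x, f1 x * (Real.exp (f x) / c₀) = ∫ θ, θ * Real.sin (θ * x) ∂ν)
    (hνa : ν.real Set.univ ≤ 1 - a) {α : ℝ} (hα : 0 < α) {U : Ultrafilter ℕ} {S : ℕ → Sys}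
    {k : ℕ} {b : Fin k → ℝ} {w : Fin (k + 1) → ℝ} (hL : LimData U S b w) {q : ℕ → ℝ}
    (hq : Path k q) (hq1 : q k ≤ 1) {q' : ℕ → ℝ} (hq' : Path k q') (hq1' : q' k ≤ 1) :
    parisi α f k (mOf w) q' (rr α (fun x => Real.exp (f x) / c₀) f1 k w q) ≤
      parisi α f k (mOf w) q (rr α (fun x => Real.exp (f x) / c₀) f1 k w q) := by
  obtain ⟨𝓐, hpos, hone, hlim⟩ := exists_arr_empty hL
  have hval : ∀ q : ℕ → ℝ, q k ≤ 1 → patternPart f k (mOf w) q = Real.log c₀ +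
      ∫ z, Real.log (lvW (mOf w) (incr (stop k q)) k
        (flowW 1 (1 - q k) (fun x => Real.exp (f x) / c₀) 0) 0
        (√(incr (stop k q) 0) * z)) ∂(gaussianReal 0 1) := by
    intro q hq1
    rw [patternPart_congr f (mOf w) (q' := stop k q) (fun l hl => (stop_le hl).symm)]
    have h3 := patternPart_eq (m := mOf w) (q := stop k q) (k := k) (f := f)
      (fun l hl _ => mOf_pos hL.wpos hl) hf.c0 hf.a0 hf.cb2W hf.Wa hf.W1
      (by rw [stop_le le_rfl]; exact hq1)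
    rw [h3, stop_le le_rfl]
  have hsum : ∀ (q : ℕ → ℝ) (l : Fin (k + 1)),
      ∑ i ∈ Finset.range ((l : ℕ) + 1), incr (stop k q) i = q l := by
    intro q l
    rw [sum_incr, stop_le (by omega)]
  have hT := 𝓐.Lg_tangent hL.wsum hpos hone hlim (m := mOf w) (v := incr (stop k q))
    (v' := incr (stop k q')) (incr_stop_nonneg hq) (incr_stop_nonneg hq')
    (fun l hl _ => mOf_pos hL.wpos hl) (fun l => up_eq_mOf hL.wsum l) ν h2 hf.a0 hW hf.Wa hf.W1
    hf.cb2W hνa (sub_nonneg.2 hq1) (sub_nonneg.2 hq1')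
    (by rw [sum_incr, sum_incr, stop_le le_rfl, stop_le le_rfl]; ring) hW' hf.cf1
  simp only [hsum] at hT
  set r := rr α (fun x => Real.exp (f x) / c₀) f1 k w q with hr
  have hrl : ∀ l : Fin (k + 1), r l = α * Arr.pairVal (mOf w) (incr (stop k q)) k
      (flowW 1 (1 - q k) (fun x => Real.exp (f x) / c₀) 0)
      (flowh 1 (1 - q k) (fun x => Real.exp (f x) / c₀) f1 0) l := by
    intro l
    rw [hr]
    unfold rr pv
    rw [topW_eq, toph_eq]
  have hJ : ∀ q'' : ℕ → ℝ, ∑ l ∈ Finset.range (k + 1), (mOf w (l + 1) - mOf w l) * r l * q'' l =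
      ∑ l : Fin (k + 1), w l * r l * q'' l := by
    intro q''
    rw [← sum_fin_range (fun l => (mOf w (l + 1) - mOf w l) * r l * q'' l)]
    refine Finset.sum_congr rfl fun l _ => ?_
    rw [mOf_succ l.2]
  unfold parisi
  rw [hval q hq1, hval q' hq1', hJ, hJ]
  have h3 : α * (1 / 2 * ∑ l : Fin (k + 1), w l * (q' l - q l) *
      Arr.pairVal (mOf w) (incr (stop k q)) k
      (flowW 1 (1 - q k) (fun x => Real.exp (f x) / c₀) 0)
      (flowh 1 (1 - q k) (fun x => Real.exp (f x) / c₀) f1 0) l) =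
      1 / 2 * ∑ l : Fin (k + 1), w l * r l * q' l - 1 / 2 * ∑ l : Fin (k + 1), w l * r l * q l := by
    rw [← mul_sub, ← Finset.sum_sub_distrib, mul_left_comm, Finset.mul_sum]
    congr 1
    refine Finset.sum_congr rfl fun l _ => ?_
    rw [hrl l]
    ring
  have h4 := mul_le_mul_of_nonneg_left hT hα.le
  rw [mul_sub, h3] at h4
  linarith

/-- The lower bound for smooth class A potentials. -/
theorem parisi_lower {ν : Measure ℝ} [IsFiniteMeasure ν] {C₀ : ℝ} (hν : ν.real Set.univ < C₀)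
    (h4 : Integrable (fun θ : ℝ => θ ^ 4) ν) {f : ℝ → ℝ}
    (hf : ∀ s : ℝ, Real.exp (f s) = C₀ - ∫ l, Real.cos (l * s) ∂ν) {α p : ℝ} (hα : 0 < α)
    (hp : ∀ ε > 0, ∃ᶠ N in atTop, meanPressure cube α f N < p + ε) :
    ∀ ε > 0, ∃ (k : ℕ) (m r : ℕ → ℝ), Exponents k m ∧ Path k r ∧
      ∀ q, Path k q → q k ≤ 1 → parisi α f k m q r ≤ p + ε := by
  obtain ⟨C, c₀, a, f1, f2, f3, ν', hpot, hν', h2, hW, hW', hνa⟩ := classA_pot hν h4 hf
  have hfm : Measurable f :=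
    (continuous_iff_continuousAt.2 fun x => (hpot.cb3.d1 x).continuousAt).measurable
  obtain ⟨N, M, P, s, u, hN, hMN, hgg, hgg1, hfin⟩ := exists_selection hpot.cb3 hfm hα hp
  have hr := ratio_tendsto hN hMN
  have hs : SeqOK f hfm C hpot.cb3.b0 α (hyperfilter ℕ) N M P s u := by
    refine ⟨hr.mono_left hyper_le, hN.mono_left hyper_le, ?_, hgg, hgg1⟩
    obtain ⟨A, hA⟩ := hr.bddAbove_range
    exact ⟨A, fun j => hA ⟨j, rfl⟩⟩
  intro ε hε
  obtain ⟨k, b, w, q, ε₀, hm, hJ⟩ := lower_ineq hpot hfm hα hs (p := p)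
    (fun ε hε => (hfin ε hε).filter_mono hyper_le) ε hε
  refine ⟨k, mOf w, rr α (fun x => Real.exp (f x) / c₀) f1 k w q,
    exponents_mOf hm.lim.wpos hm.lim.wsum, rr_path hpot hα hm.lim.wpos q, fun q' hq' hq1' => ?_⟩
  exact (parisi_tangent hpot h2 hW hW' hνa hα hm.lim hm.path hm.le1 hq' hq1').trans hJ

end Vale.Agent.P157.Par
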