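import Vale.Agent.P157.ParFormula
import Vale.Agent.P157.ParLower4

open MeasureTheory ProbabilityTheory Filter Topology

namespace Vale.Agent.P157.Par

/-- The lower bound. -/
theorem lowerBound : LowerBound := fun _ _ _ hν h4 _ hf _ _ hα hp =>
  parisi_lower hν h4 hf hα hp

/-- The Parisi formula for class A potentials on the cube, at every density. -/
theorem parisi_formula {ν : Measure ℝ} [IsFiniteMeasure ν] {C₀ : ℝ} {f : ℝ → ℝ} {α : ℝ}
    (hν : ν.real Set.univ < C₀)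
    (hf : ∀ s : ℝ, Real.exp (f s) = C₀ - ∫ l, Real.cos (l * s) ∂ν) (hα : 0 < α) :
    ∃ L : ℝ, Tendsto (fun N => meanPressure cube α f N) atTop (𝓝 L) ∧
      (∀ (k : ℕ) (m r : ℕ → ℝ), Exponents k m → Path k r →
        BddAbove {y | ∃ q, Path k q ∧ q k ≤ 1 ∧ y = parisi α f k m q r}) ∧
      IsGLB {y | ∃ (k : ℕ) (m r : ℕ → ℝ), Exponents k m ∧ Path k r ∧
        IsLUB {y | ∃ q, Path k q ∧ q k ≤ 1 ∧ y = parisi α f k m q r} y} L :=
  parisi_formula_of lowerBound hν hf hα

end Vale.Agent.P157.Par
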