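import Vale.Agent.P157.ParUPat4

/-!
Adding one pattern (module U3), part 5: the top level, for functions `f` with
`e^f = c - (positive definite)`.
-/

open MeasureTheory ProbabilityTheory Filter Topology

namespace Vale.Agent.P157.Par

variable {N : ℕ} {X : Type} [Fintype X] [Nonempty X]

/-- The Gibbs weights. -/
noncomputable def pw (φ : X → Fin N → ℝ) (c : ℝ) (u : X → ℝ) (x : X) (y : Fin N → ℝ) : ℝ :=
  Real.exp (u x + c * ∑ i, y i * φ x i) / ∑ x, Real.exp (u x + c * ∑ i, y i * φ x i)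

lemma pw_nonneg (φ : X → Fin N → ℝ) (c : ℝ) (u : X → ℝ) (x : X) (y : Fin N → ℝ) :
    0 ≤ pw φ c u x y := div_nonneg (Real.exp_pos _).le (sum_exp_pos _).le

lemma sum_pw (φ : X → Fin N → ℝ) (c : ℝ) (u : X → ℝ) (y : Fin N → ℝ) :
    ∑ x, pw φ c u x y = 1 := by
  unfold pw
  rw [← Finset.sum_div, div_self (sum_exp_pos _).ne']

omit [Nonempty X] in
lemma measurable_pw (φ : X → Fin N → ℝ) (c : ℝ) (u : X → ℝ) (x : X) :
    Measurable (pw φ c u x) := by
  unfold pw
  fun_prop

omit [Nonempty X] in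
lemma gw_eq (φ : X → Fin N → ℝ) (c : ℝ) (u : X → ℝ) (h : X → ℝ) (y : Fin N → ℝ) :
    gw φ c u h y = ∑ x, pw φ c u x y * h x := by
  unfold gw pw
  rw [Finset.sum_div]
  exact Finset.sum_congr rfl fun x _ => by ring

/-- The elementary pair of the frequency `t`. -/
noncomputable def freq (φ : X → Fin N → ℝ) (c : ℝ) (u : X → ℝ) (q t : ℝ) : PP N :=
  (fun y g => ∑ x, (pw φ c u x y : ℂ) *
    Complex.exp (((t * ((∑ i, g i * φ x i) / √(N : ℝ)) : ℝ) : ℂ) * Complex.I),
   fun x => Complex.exp (((t * x : ℝ) : ℂ) * Complex.I - ((t ^ 2 * (1 - q)) / 2 : ℝ)))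

section freq

variable {m r : ℕ → ℝ} {k : ℕ}

lemma el_freq (hm : ∀ j < k, 0 < m (j + 1)) {φ : X → Fin N → ℝ} (hφ : ∀ x, ∑ i, φ x i ^ 2 = N)
    (hN : 0 < N) (c : ℝ) (u : X → ℝ) (t : ℝ) :
    El m r k (lw φ c u) (bw φ c u)
      (freq φ c u (R1 m r k (lw φ c u) (bw φ c u)) t) := by
  have hN' : (0 : ℝ) < N := by exact_mod_cast hN
  have hs : 0 < √(N : ℝ) := Real.sqrt_pos.2 hN'
  refine ⟨X, inferInstance, pw φ c u, fun x i => t * φ x i / √(N : ℝ), 1, t,
    t ^ 2 * (1 - R1 m r k (lw φ c u) (bw φ c u)), zero_le_one, measurable_pw φ c u,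
    pw_nonneg φ c u, sum_pw φ c u, fun y i => ?_, ?_, fun y g => ?_, fun x => ?_⟩
  · unfold bw
    rw [gw_eq, Finset.mul_sum, Finset.sum_div]
    exact Finset.sum_congr rfl fun x _ => by ring
  · have h1 : ∀ y, ∑ x, pw φ c u x y * ∑ i, (t * φ x i / √(N : ℝ)) ^ 2 = t ^ 2 := by
      intro y
      have h2 : ∀ x, ∑ i, (t * φ x i / √(N : ℝ)) ^ 2 = t ^ 2 := by
        intro x
        have : ∀ i, (t * φ x i / √(N : ℝ)) ^ 2 = t ^ 2 / N * φ x i ^ 2 := by
          intro i
          rw [div_pow, Real.sq_sqrt hN'.le]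
          ring
        simp only [this]
        rw [← Finset.mul_sum, hφ]
        field_simp
      simp only [h2]
      rw [← Finset.sum_mul, sum_pw, one_mul]
    rw [funext h1, chainAv_const hm (lip_lw φ c u)]
    ring
  · simp only [freq, Complex.ofReal_one, one_mul]
    refine Finset.sum_congr rfl fun x _ => ?_
    have : (t * ((∑ i, g i * φ x i) / √(N : ℝ)) : ℝ) = ∑ i, g i * (t * φ x i / √(N : ℝ)) := by
      rw [Finset.sum_div, Finset.mul_sum]
      exact Finset.sum_congr rfl fun i _ => by ring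
    rw [this]
  · simp only [freq, Complex.ofReal_one, one_mul]

end freq

/-- The symmetrized pair. -/
noncomputable def cfreq (φ : X → Fin N → ℝ) (c : ℝ) (u : X → ℝ) (q t : ℝ) : PP N :=
  (fun y g => ((gw φ c u (fun x => Real.cos (t * ((∑ i, g i * φ x i) / √(N : ℝ)))) y : ℝ) : ℂ),
   fun x => ((Real.cos (t * x) * Real.exp (-(t ^ 2 * (1 - q)) / 2) : ℝ) : ℂ))

lemma cexp_add_neg (s : ℝ) : Complex.exp (((s : ℝ) : ℂ) * Complex.I) +
    Complex.exp (((-s : ℝ) : ℂ) * Complex.I) = ((2 * Real.cos s : ℝ) : ℂ) := by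
  push_cast
  rw [Complex.two_cos, neg_mul]

lemma rep_cfreq {m r : ℕ → ℝ} {k : ℕ} (hm : ∀ j < k, 0 < m (j + 1)) {φ : X → Fin N → ℝ}
    (hφ : ∀ x, ∑ i, φ x i ^ 2 = N) (hN : 0 < N) (c : ℝ) (u : X → ℝ) (t : ℝ) :
    Rep m r k (lw φ c u) (bw φ c u)
      (cfreq φ c u (R1 m r k (lw φ c u) (bw φ c u)) t) := by
  set q := R1 m r k (lw φ c u) (bw φ c u) with hq
  have hG := lip_lw φ c u
  have hB := eg_bw φ c u
  have h1 := (Rep.const (r := r) hm hG (bw φ c u) (c := 1 / 2) (by norm_num)).mul hm hG hB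
    ((Rep.of_el (el_freq (r := r) hm hφ hN c u t)).add
      (Rep.of_el (el_freq (r := r) hm hφ hN c u (-t))))
  convert h1 using 1
  rw [← hq]
  ext1
  · funext y g
    show ((gw φ c u (fun x => Real.cos (t * ((∑ i, g i * φ x i) / √(N : ℝ)))) y : ℝ) : ℂ) =
      ((1 / 2 : ℝ) : ℂ) * ((freq φ c u q t).1 y g + (freq φ c u q (-t)).1 y g)
    simp only [freq]
    rw [gw_eq, ← Finset.sum_add_distrib, Finset.mul_sum, Complex.ofReal_sum]
    refine Finset.sum_congr rfl fun x _ => ?_
    rw [← mul_add, neg_mul, cexp_add_neg]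
    push_cast
    ring
  · funext x
    show ((Real.cos (t * x) * Real.exp (-(t ^ 2 * (1 - q)) / 2) : ℝ) : ℂ) =
      ((1 / 2 : ℝ) : ℂ) * ((freq φ c u q t).2 x + (freq φ c u q (-t)).2 x)
    simp only [freq]
    have e1 : ∀ s : ℝ, Complex.exp (((s * x : ℝ) : ℂ) * Complex.I -
        ((t ^ 2 * (1 - q)) / 2 : ℝ)) = Complex.exp (((s * x : ℝ) : ℂ) * Complex.I) *
          ((Real.exp (-(t ^ 2 * (1 - q)) / 2) : ℝ) : ℂ) := by
      intro s
      rw [sub_eq_add_neg, Complex.exp_add, Complex.ofReal_exp]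
      congr 2
      push_cast
      ring
    rw [e1, neg_sq, e1, ← add_mul, neg_mul, cexp_add_neg]
    push_cast
    ring

/-! ### Simple approximation of a measure -/

/-- Simple functions converging to the identity. -/
noncomputable def sap (n : ℕ) : SimpleFunc ℝ ℝ :=
  SimpleFunc.approxOn id measurable_id Set.univ 0 (Set.mem_univ _) n

lemma tendsto_sap (t : ℝ) : Tendsto (fun n => sap n t) atTop (𝓝 t) :=
  SimpleFunc.tendsto_approxOn measurable_id (Set.mem_univ _) (by simp)

lemma int_sap (ν : Measure ℝ) [IsFiniteMeasure ν] (n : ℕ) (h : ℝ → ℝ) :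
    ∑ t ∈ (sap n).range, ν.real (sap n ⁻¹' {t}) * h t = ∫ l, h (sap n l) ∂ν := by
  have h1 : ∀ l, h (sap n l) = ∑ t ∈ (sap n).range,
      (sap n ⁻¹' {t}).indicator (fun _ => h t) l := by
    intro l
    rw [Finset.sum_eq_single (sap n l)]
    · rw [Set.indicator_of_mem]
      exact Set.mem_singleton _
    · intro t _ ht
      rw [Set.indicator_of_notMem]
      simpa using Ne.symm ht
    · intro hl
      exact absurd (SimpleFunc.mem_range_self _ l) hl
  simp only [h1]
  rw [integral_finsetSum _ fun t _ => ?_]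
  · refine Finset.sum_congr rfl fun t _ => ?_
    rw [integral_indicator_const _ ((sap n).measurableSet_fiber t), smul_eq_mul]
  · exact (integrable_const _).indicator ((sap n).measurableSet_fiber t)

section top

variable {m r : ℕ → ℝ} {k : ℕ}

lemma sq_gw_le (φ : X → Fin N → ℝ) (c : ℝ) (u : X → ℝ) (h : X → ℝ) (y : Fin N → ℝ) :
    gw φ c u h y ^ 2 ≤ gw φ c u (fun x => h x ^ 2) y := by
  rw [gw_eq, gw_eq]
  have h2 : ConvexOn ℝ Set.univ fun x : ℝ => x ^ 2 := Even.convexOn_pow (by decide)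
  have := h2.map_sum_le (t := Finset.univ) (w := fun x => pw φ c u x y) (p := h)
    (fun x _ => pw_nonneg φ c u x y) (sum_pw φ c u y) (fun x _ => Set.mem_univ _)
  simpa [smul_eq_mul] using this

lemma R1_le_one (hm : ∀ j < k, 0 < m (j + 1)) {φ : X → Fin N → ℝ}
    (hφ : ∀ x, ∑ i, φ x i ^ 2 = N) (hN : 0 < N) (c : ℝ) (u : X → ℝ) :
    R1 m r k (lw φ c u) (bw φ c u) ≤ 1 := by
  have hN' : (0 : ℝ) < N := by exact_mod_cast hN
  unfold R1
  rw [div_le_one hN', ← chainAv_const (r := r) hm (lip_lw φ c u) (N : ℝ)]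
  refine chainAv_mono hm (lip_lw φ c u) (EG.sum _ fun i _ => (eg_bw φ c u i).pow 2) (EG.const _)
    fun y => ?_
  calc ∑ i, bw φ c u y i ^ 2 ≤ ∑ i, gw φ c u (fun x => φ x i ^ 2) y :=
        Finset.sum_le_sum fun i _ => sq_gw_le φ c u _ y
    _ = ∑ x, pw φ c u x y * ∑ i, φ x i ^ 2 := by
        simp only [gw_eq, Finset.mul_sum]
        rw [Finset.sum_comm]
    _ = N := by
        simp only [hφ]
        rw [← Finset.sum_mul, sum_pw, one_mul]

lemma good_top (hm : ∀ j < k, 0 < m (j + 1)) {φ : X → Fin N → ℝ} (hφ : ∀ x, ∑ i, φ x i ^ 2 = N)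
    (hN : 0 < N) (c : ℝ) (u : X → ℝ) (ν : Measure ℝ) [IsFiniteMeasure ν] {C : ℝ} (hC : 0 < C) :
    Good m r k (lw φ c u) (bw φ c u) (ν.real Set.univ / C)
      (fun y g => gw φ c u (fun x => (∫ l, Real.cos (l * ((∑ i, g i * φ x i) / √(N : ℝ))) ∂ν) / C) y)
      (fun x => (∫ l, Real.cos (l * x) *
        Real.exp (-(l ^ 2 * (1 - R1 m r k (lw φ c u) (bw φ c u))) / 2) ∂ν) / C) := by
  set q := R1 m r k (lw φ c u) (bw φ c u) with hq
  have hq1 : q ≤ 1 := R1_le_one hm hφ hN c u
  have hG := lip_lw φ c u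
  have hB := eg_bw φ c u
  set P : ℕ → PP N := fun n => ∑ t ∈ (sap n).range,
    ((((fun _ _ => ((ν.real (sap n ⁻¹' {t}) / C : ℝ) : ℂ)),
      fun _ => ((ν.real (sap n ⁻¹' {t}) / C : ℝ) : ℂ)) : PP N) * cfreq φ c u q t) with hP
  set F : (Fin N → ℝ) → (Fin N → ℝ) → ℝ → ℝ := fun y g t =>
    gw φ c u (fun x => Real.cos (t * ((∑ i, g i * φ x i) / √(N : ℝ)))) y with hF
  set f : ℝ → ℝ → ℝ := fun x t => Real.cos (t * x) * Real.exp (-(t ^ 2 * (1 - q)) / 2) with hf
  have e1 : ∀ n y g, (P n).1 y g = (((∫ l, F y g (sap n l) ∂ν) / C : ℝ) : ℂ) := by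
    intro n y g
    rw [← int_sap ν n (F y g), hP]
    simp only [Prod.fst_sum, Finset.sum_apply]
    show ∑ t ∈ (sap n).range, ((ν.real (sap n ⁻¹' {t}) / C : ℝ) : ℂ) * ((F y g t : ℝ) : ℂ) = _
    rw [Finset.sum_div]
    push_cast
    exact Finset.sum_congr rfl fun t _ => by ring
  have e2 : ∀ n x, (P n).2 x = (((∫ l, f x (sap n l) ∂ν) / C : ℝ) : ℂ) := by
    intro n x
    rw [← int_sap ν n (f x), hP]
    simp only [Prod.snd_sum, Finset.sum_apply]
    show ∑ t ∈ (sap n).range, ((ν.real (sap n ⁻¹' {t}) / C : ℝ) : ℂ) * ((f x t : ℝ) : ℂ) = _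
    rw [Finset.sum_div, Complex.ofReal_sum]
    exact Finset.sum_congr rfl fun t _ => by push_cast; ring
  have bF : ∀ y g t, |F y g t| ≤ 1 := fun y g t => abs_gw_le φ c u (fun x => Real.abs_cos_le_one _) y
  have bf : ∀ x t, |f x t| ≤ 1 := by
    intro x t
    rw [hf]
    dsimp only
    rw [abs_mul, abs_of_pos (Real.exp_pos _)]
    refine mul_le_one₀ (Real.abs_cos_le_one _) (Real.exp_pos _).le (Real.exp_le_one_iff.2 ?_)
    have : 0 ≤ t ^ 2 * (1 - q) := mul_nonneg (sq_nonneg _) (by linarith)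
    linarith
  have cF : ∀ y g, Continuous (F y g) := by
    intro y g
    rw [hF]
    unfold gw
    dsimp only
    exact (continuous_finsetSum _ fun x _ => by fun_prop).div_const _
  have cf : ∀ x, Continuous (f x) := by intro x; rw [hf]; fun_prop
  have tend : ∀ h : ℝ → ℝ, Continuous h → (∀ t, |h t| ≤ 1) →
      Tendsto (fun n => (((∫ l, h (sap n l) ∂ν) / C : ℝ) : ℂ)) atTop
        (𝓝 (((∫ l, h l ∂ν) / C : ℝ) : ℂ)) := by
    intro h hc hb
    refine (Complex.continuous_ofReal.tendsto _).comp (Tendsto.div_const ?_ _)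
    refine tendsto_integral_of_dominated_convergence (fun _ => 1) (fun n => ?_)
      (integrable_const _) (fun n => Eventually.of_forall fun l => hb _)
      (Eventually.of_forall fun l => (hc.tendsto _).comp (tendsto_sap l))
    exact (hc.measurable.comp (sap n).measurable).aestronglyMeasurable
  have bound : ∀ h : ℝ → ℝ, (∀ t, |h t| ≤ 1) →
      ‖(((∫ l, h l ∂ν) / C : ℝ) : ℂ)‖ ≤ ν.real Set.univ / C := by
    intro h hb
    rw [Complex.norm_real, Real.norm_eq_abs, abs_div, abs_of_pos hC]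
    refine div_le_div_of_nonneg_right ?_ hC.le
    have := norm_integral_le_of_norm_le_const (μ := ν) (f := h) (C := 1)
      (Eventually.of_forall fun t => hb t)
    rwa [one_mul] at this
  refine ⟨P, fun n => ?_, fun n y g => ?_, fun n x => ?_, fun y g => ?_, fun x => ?_⟩
  · refine Rep.sum _ fun t _ => (Rep.const hm hG _ ?_).mul hm hG hB (rep_cfreq hm hφ hN c u t)
    positivity
  · rw [e1]
    exact bound _ fun t => bF y g _
  · rw [e2]
    exact bound _ fun t => bf x _
  · simp only [e1]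
    have h1 := tend (F y g) (cF y g) (bF y g)
    have h2 : (∫ l, F y g l ∂ν) / C = gw φ c u (fun x =>
        (∫ l, Real.cos (l * ((∑ i, g i * φ x i) / √(N : ℝ))) ∂ν) / C) y := by
      rw [hF]
      simp only [gw_eq]
      rw [integral_finsetSum _ fun x _ => ?_, Finset.sum_div]
      · refine Finset.sum_congr rfl fun x _ => ?_
        rw [integral_const_mul, mul_div_assoc]
      · refine Integrable.const_mul ?_ _
        exact Integrable.mono' (integrable_const (1 : ℝ))
          (by fun_prop : Measurable _).aestronglyMeasurable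
          (Eventually.of_forall fun l => Real.abs_cos_le_one _)
    rw [h2] at h1
    exact h1
  · simp only [e2]
    exact tend (f x) (cf x) (bf x)

lemma gauss_cos {w : ℝ} (hw : 0 ≤ w) (l x : ℝ) :
    ∫ z, Real.cos (l * (x + √w * z)) ∂(gaussianReal 0 1) =
      Real.cos (l * x) * Real.exp (-(l ^ 2 * w) / 2) := by
  have h := congrArg Complex.re (gauss_step hw l 0 x)
  have h1 : ∀ z : ℝ, Complex.exp (((l * (x + √w * z) : ℝ) : ℂ) * Complex.I - ((0 / 2 : ℝ) : ℂ)) =
      Complex.exp (((l * (x + √w * z) : ℝ) : ℂ) * Complex.I) := by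
    intro z; simp
  simp only [h1] at h
  have hI : Integrable (fun z : ℝ => Complex.exp (((l * (x + √w * z) : ℝ) : ℂ) * Complex.I))
      (gaussianReal 0 1) := by
    refine Integrable.mono' (integrable_const (1 : ℝ))
      (by fun_prop : Measurable _).aestronglyMeasurable (Eventually.of_forall fun z => ?_)
    rw [Complex.norm_exp_ofReal_mul_I]
  have h2 := integral_re hI
  simp only [RCLike.re_to_complex] at h2
  rw [← h2] at h
  have h3 : ∀ s : ℝ, (Complex.exp ((s : ℂ) * Complex.I)).re = Real.cos s :=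
    Complex.exp_ofReal_mul_I_re
  simp only [h3] at h
  rw [h, sub_eq_add_neg, Complex.exp_add, ← Complex.ofReal_neg, ← Complex.ofReal_exp,
    Complex.re_mul_ofReal, h3]
  congr 2
  ring

lemma gauss_cos_int (ν : Measure ℝ) [IsFiniteMeasure ν] {w : ℝ} (hw : 0 ≤ w) (x : ℝ) :
    ∫ z, (∫ l, Real.cos (l * (x + √w * z)) ∂ν) ∂(gaussianReal 0 1) =
      ∫ l, Real.cos (l * x) * Real.exp (-(l ^ 2 * w) / 2) ∂ν := by
  rw [integral_integral_swap]
  · simp only [gauss_cos hw]
  · refine Integrable.mono' (integrable_const (1 : ℝ)) ?_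
      (Eventually.of_forall fun z => ?_)
    · exact (by unfold Function.uncurry; fun_prop : Measurable (Function.uncurry fun z l : ℝ =>
        Real.cos (l * (x + √w * z)))).aestronglyMeasurable
    · exact Real.abs_cos_le_one _

section classA

variable {f : ℝ → ℝ} {ν : Measure ℝ} [IsFiniteMeasure ν] {C : ℝ}

lemma abs_int_cos_le (ν : Measure ℝ) [IsFiniteMeasure ν] (s : ℝ) :
    |∫ l, Real.cos (l * s) ∂ν| ≤ ν.real Set.univ := by
  have := norm_integral_le_of_norm_le_const (μ := ν) (f := fun l => Real.cos (l * s)) (C := 1)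
    (Eventually.of_forall fun t => Real.abs_cos_le_one _)
  rwa [one_mul] at this

lemma classA_meas (hf : ∀ s : ℝ, Real.exp (f s) = C - ∫ l, Real.cos (l * s) ∂ν) :
    Measurable f := by
  have h1 : f = fun s => Real.log (C - ∫ l, Real.cos (l * s) ∂ν) := by
    funext s
    rw [← hf, Real.log_exp]
  rw [h1]
  refine Real.measurable_log.comp (measurable_const.sub ?_)
  have : StronglyMeasurable (Function.uncurry fun s l : ℝ => Real.cos (l * s)) :=
    (by unfold Function.uncurry; fun_prop : Measurable (Function.uncurry fun s l : ℝ =>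
        Real.cos (l * s))).stronglyMeasurable
  exact this.integral_prod_right.measurable

lemma classA_bdd (hν : ν.real Set.univ < C)
    (hf : ∀ s : ℝ, Real.exp (f s) = C - ∫ l, Real.cos (l * s) ∂ν) :
    ∃ K, ∀ s, |f s| ≤ K := by
  refine ⟨|Real.log (C - ν.real Set.univ)| + |Real.log (C + ν.real Set.univ)|, fun s => ?_⟩
  have h1 := abs_le.1 (abs_int_cos_le ν s)
  have h2 : f s = Real.log (C - ∫ l, Real.cos (l * s) ∂ν) := by rw [← hf, Real.log_exp]
  have h3 : Real.log (C - ν.real Set.univ) ≤ f s := by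
    rw [h2]
    exact Real.log_le_log (by linarith) (by linarith)
  have h4 : f s ≤ Real.log (C + ν.real Set.univ) := by
    rw [h2]
    exact Real.log_le_log (by linarith) (by linarith)
  rw [abs_le]
  constructor
  · have := neg_abs_le (Real.log (C - ν.real Set.univ))
    have := abs_nonneg (Real.log (C + ν.real Set.univ))
    linarith
  · have := le_abs_self (Real.log (C + ν.real Set.univ))
    have := abs_nonneg (Real.log (C - ν.real Set.univ))
    linarith

end classA

/-- **Adding one pattern.** -/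
theorem one_pattern {f : ℝ → ℝ} {ν : Measure ℝ} [IsFiniteMeasure ν] {C : ℝ}
    (hν : ν.real Set.univ < C) (hf : ∀ s : ℝ, Real.exp (f s) = C - ∫ l, Real.cos (l * s) ∂ν)
    (hme : Exponents k m) {φ : X → Fin N → ℝ} (hφ : ∀ x, ∑ i, φ x i ^ 2 = N) (hN : 0 < N)
    (c : ℝ) (u : X → ℝ) :
    ∫ g, topN m r k (lw φ c (fun x => u x + f ((∑ i, g i * φ x i) / √(N : ℝ)))) ∂(gN N) ≤
      topN m r k (lw φ c u) + patternPart f k m (Rs m r k (lw φ c u) (bw φ c u)) := by
  obtain ⟨hm0, hmk, hmi⟩ := hme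
  have hC : 0 < C := lt_of_le_of_lt measureReal_nonneg hν
  have hρ : ν.real Set.univ / C < 1 := (div_lt_one hC).2 hν
  have hpos : ∀ j ≤ k, 0 < m (j + 1) := by
    intro j hj
    induction j with
    | zero => have := hmi 0 (Nat.zero_le k); rw [hm0] at this; simpa using this
    | succ j ih => exact (ih (by omega)).trans (hmi (j + 1) hj)
  have hm : ∀ j < k, 0 < m (j + 1) := fun j hj => hpos j hj.le
  have hG := lip_lw φ c u
  have hB := eg_bw φ c u
  set G := lw φ c u with hGd
  set B := bw φ c u with hBd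
  set q := R1 m r k G B with hq
  have hq1 : q ≤ 1 := R1_le_one hm hφ hN c u
  set v : ℝ → ℝ := fun s => (∫ l, Real.cos (l * s) ∂ν) / C with hv
  have hfv : ∀ s, Real.exp (f s) = C * (1 - v s) := by
    intro s
    rw [hf, hv]
    dsimp only
    rw [mul_sub, mul_one, mul_div_cancel₀ _ hC.ne']
  have hvb : ∀ s, |v s| ≤ ν.real Set.univ / C := by
    intro s
    rw [hv]
    dsimp only
    rw [abs_div, abs_of_pos hC]
    refine div_le_div_of_nonneg_right ?_ hC.le
    have := norm_integral_le_of_norm_le_const (μ := ν) (f := fun l => Real.cos (l * s)) (C := 1)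
      (Eventually.of_forall fun t => Real.abs_cos_le_one _)
    rwa [one_mul] at this
  have hgood := good_top (r := r) hm hφ hN c u ν hC
  rw [← hGd, ← hBd, ← hq] at hgood
  have hmain := pattern_main (m := m) (r := r) hpos (fun j hj => (hmi (j + 1) (by omega)).le)
    hG hB hρ hgood
  rw [hmk] at hmain
  simp only [div_one, one_mul] at hmain
  -- the left side
  have e1 : ∀ (g : Fin N → ℝ) y, lw φ c (fun x => u x + f ((∑ i, g i * φ x i) / √(N : ℝ))) y =
      (G y + Real.log (1 - gw φ c u (fun x => v ((∑ i, g i * φ x i) / √(N : ℝ))) y)) +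
        Real.log C := by
    intro g y
    have h1 : ∑ x, Real.exp ((fun x => u x + f ((∑ i, g i * φ x i) / √(N : ℝ))) x +
        c * ∑ i, y i * φ x i) = (∑ x, Real.exp (u x + c * ∑ i, y i * φ x i)) *
        (1 - gw φ c u (fun x => v ((∑ i, g i * φ x i) / √(N : ℝ))) y) * C := by
      have h2 : gw φ c u (fun x => v ((∑ i, g i * φ x i) / √(N : ℝ))) y *
          (∑ x, Real.exp (u x + c * ∑ i, y i * φ x i)) =
          ∑ x, Real.exp (u x + c * ∑ i, y i * φ x i) * v ((∑ i, g i * φ x i) / √(N : ℝ)) := by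
        unfold gw
        exact div_mul_cancel₀ _ (sum_exp_pos _).ne'
      have h3 : (∑ x, Real.exp (u x + c * ∑ i, y i * φ x i)) *
          (1 - gw φ c u (fun x => v ((∑ i, g i * φ x i) / √(N : ℝ))) y) * C =
          C * ((∑ x, Real.exp (u x + c * ∑ i, y i * φ x i)) -
            gw φ c u (fun x => v ((∑ i, g i * φ x i) / √(N : ℝ))) y *
            (∑ x, Real.exp (u x + c * ∑ i, y i * φ x i))) := by ring
      rw [h3, h2, ← Finset.sum_sub_distrib, Finset.mul_sum]
      refine Finset.sum_congr rfl fun x _ => ?_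
      have h4 : u x + f ((∑ i, g i * φ x i) / √(N : ℝ)) + c * ∑ i, y i * φ x i =
          (u x + c * ∑ i, y i * φ x i) + f ((∑ i, g i * φ x i) / √(N : ℝ)) := by ring
      dsimp only
      rw [h4, Real.exp_add, hfv]
      ring
    unfold lw at *
    rw [h1]
    have h5 : 0 < 1 - gw φ c u (fun x => v ((∑ i, g i * φ x i) / √(N : ℝ))) y := by
      have := (abs_le.1 (abs_gw_le φ c u (fun x => hvb ((∑ i, g i * φ x i) / √(N : ℝ))) y)).2
      linarith
    rw [Real.log_mul (mul_pos (sum_exp_pos _) h5).ne' hC.ne',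
      Real.log_mul (sum_exp_pos _).ne' h5.ne', hGd]
  have e2 : ∀ g : Fin N → ℝ,
      topN m r k (lw φ c (fun x => u x + f ((∑ i, g i * φ x i) / √(N : ℝ)))) =
      topN m r k (fun y => G y + Real.log (1 - gw φ c u
        (fun x => v ((∑ i, g i * φ x i) / √(N : ℝ))) y)) + Real.log C := by
    intro g
    set L1 := lw φ c (fun x => u x + f ((∑ i, g i * φ x i) / √(N : ℝ))) with hL1
    set L2 : (Fin N → ℝ) → ℝ := fun y => G y + Real.log (1 - gw φ c u
        (fun x => v ((∑ i, g i * φ x i) / √(N : ℝ))) y) with hL2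
    have h1 : Lip L1 := lip_lw φ c _
    have h12 : ∀ y, L1 y = L2 y + Real.log C := e1 g
    have h2 : Lip L2 := by
      obtain ⟨L, hL, hl⟩ := h1
      refine ⟨L, hL, fun y y' => ?_⟩
      have := hl y y'
      rw [h12, h12] at this
      simpa using this
    have h3 := topN_le_add (r := r) hm h1 h2 (C := Real.log C) fun y => (h12 y).le
    have h4 := topN_le_add (r := r) hm h2 h1 (C := -Real.log C) fun y => by
      rw [h12]; linarith
    linarith
  -- the right side
  have hRk : Rs m r k G B k = q := Rs_eq_R1 m r k G B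
  have e3 : ∀ x : ℝ, Real.log (∫ y, Real.exp (f (x + √(1 - Rs m r k G B k) * y))
      ∂(gaussianReal 0 1)) = Real.log (1 - (∫ l, Real.cos (l * x) *
        Real.exp (-(l ^ 2 * (1 - q)) / 2) ∂ν) / C) + Real.log C := by
    intro x
    rw [hRk]
    have h1 : ∫ y, Real.exp (f (x + √(1 - q) * y)) ∂(gaussianReal 0 1) =
        (1 - (∫ l, Real.cos (l * x) * Real.exp (-(l ^ 2 * (1 - q)) / 2) ∂ν) / C) * C := by
      simp only [hf]
      rw [integral_sub (integrable_const _), gauss_cos_int ν (sub_nonneg.2 hq1) x]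
      · simp only [integral_const, probReal_univ, smul_eq_mul, one_mul]
        rw [sub_mul, one_mul, div_mul_cancel₀ _ hC.ne']
      · refine Integrable.mono' (integrable_const (ν.real Set.univ)) ?_
          (Eventually.of_forall fun z => abs_int_cos_le ν _)
        have : StronglyMeasurable (Function.uncurry fun s l : ℝ =>
            Real.cos (l * (x + √(1 - q) * s))) :=
          (by unfold Function.uncurry; fun_prop : Measurable (Function.uncurry fun s l : ℝ =>
            Real.cos (l * (x + √(1 - q) * s)))).stronglyMeasurable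
        exact this.integral_prod_right.aestronglyMeasurable
    rw [h1, Real.log_mul _ hC.ne']
    have := (abs_le.1 (hgood.ba x)).2
    linarith
  have hFm : Measurable fun x => Real.log (1 - (∫ l, Real.cos (l * x) *
        Real.exp (-(l ^ 2 * (1 - q)) / 2) ∂ν) / C) :=
    Real.measurable_log.comp (measurable_const.sub hgood.ma)
  have hFb : ∀ x, |Real.log (1 - (∫ l, Real.cos (l * x) *
        Real.exp (-(l ^ 2 * (1 - q)) / 2) ∂ν) / C)| ≤ -Real.log (1 - ν.real Set.univ / C) :=
    fun x => log_one_sub_bdd hρ (hgood.ba x)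
  have e4 : patternPart f k m (Rs m r k G B) = ∫ x, cascade m (Rs m r k G B) k
      (fun x => Real.log (1 - (∫ l, Real.cos (l * x) *
        Real.exp (-(l ^ 2 * (1 - q)) / 2) ∂ν) / C)) (√(Rs m r k G B 0) * x)
        ∂(gaussianReal 0 1) + Real.log C := by
    unfold patternPart
    rw [funext e3]
    simp only [casU_add hm hFm hFb (Real.log C)]
    rw [integral_add _ (integrable_const _)]
    · simp
    · refine Integrable.mono' (integrable_const (-Real.log (1 - ν.real Set.univ / C))) ?_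
        (Eventually.of_forall fun z => casU_bdd hm hFm hFb _)
      exact ((casU_meas k hFm).comp (by fun_prop)).aestronglyMeasurable
  -- integrability
  obtain ⟨K, hK⟩ := classA_bdd hν hf
  have hfm := classA_meas hf
  have hI : Integrable (fun g : Fin N → ℝ =>
      topN m r k (lw φ c (fun x => u x + f ((∑ i, g i * φ x i) / √(N : ℝ)))) -
        topN m r k G) (gN N) := by
    refine Integrable.mono' (integrable_const K) ?_ (Eventually.of_forall fun g => ?_)
    · refine (Measurable.sub ?_ measurable_const).aestronglyMeasurable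
      refine (continuous_topN_lw hm φ c).measurable.comp (measurable_pi_lambda _ fun x => ?_)
      exact measurable_const.add (hfm.comp (by fun_prop))
    · refine abs_topN_lw_sub_le hm φ c fun x => ?_
      simpa using hK _
  have e5 : ∫ g, topN m r k (lw φ c (fun x => u x + f ((∑ i, g i * φ x i) / √(N : ℝ)))) ∂(gN N) =
      ∫ g, (topN m r k (lw φ c (fun x => u x + f ((∑ i, g i * φ x i) / √(N : ℝ)))) -
        topN m r k G) ∂(gN N) + topN m r k G := by
    have h1 := integral_add hI (integrable_const (topN m r k G))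
    simpa using h1
  have e6 : ∫ g, (topN m r k (lw φ c (fun x => u x + f ((∑ i, g i * φ x i) / √(N : ℝ)))) -
        topN m r k G) ∂(gN N) =
      ∫ g, (topN m r k (fun y => G y + Real.log (1 - gw φ c u
        (fun x => v ((∑ i, g i * φ x i) / √(N : ℝ))) y)) - topN m r k G) ∂(gN N) +
        Real.log C := by
    have h1 : ∀ g : Fin N → ℝ, topN m r k (fun y => G y + Real.log (1 - gw φ c u
        (fun x => v ((∑ i, g i * φ x i) / √(N : ℝ))) y)) - topN m r k G =
        (topN m r k (lw φ c (fun x => u x + f ((∑ i, g i * φ x i) / √(N : ℝ)))) -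
        topN m r k G) - Real.log C := by
      intro g; rw [e2]; ring
    rw [funext h1, integral_sub hI (integrable_const _)]
    simp
  rw [e5, e6, e4]
  linarith

end top

end Vale.Agent.P157.Par
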