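import Vale.Agent.P157.ParGauss2

open MeasureTheory ProbabilityTheory Filter Topology Finset

namespace Vale.Agent.P157.Par

set_option linter.unusedSectionVars false

open Vale.Agent.P367.GT (gM stein_pi)

variable {J K K' : Type} [Fintype J] [DecidableEq J] [Fintype K] [DecidableEq K] [Fintype K']
  [DecidableEq K']

lemma char_lin (U : J → K → ℝ) (t : J → ℝ) :
    ∫ ξ, Complex.exp ((∑ a, lin U ξ a * t a : ℝ) * Complex.I) ∂(gM K) =
      Complex.exp (-(∑ a, ∑ b, t a * t b * gram U U a b : ℝ) / 2) := by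
  have e1 : ∀ ξ : K → ℝ, Complex.exp ((∑ a, lin U ξ a * t a : ℝ) * Complex.I) =
      ∏ c, Complex.exp ((∑ a, t a * U a c : ℝ) * (ξ c : ℂ) * Complex.I) := by
    intro ξ
    rw [← Complex.exp_sum]
    congr 1
    rw [← Finset.sum_mul]
    congr 1
    have : (∑ a, lin U ξ a * t a : ℝ) = ∑ c, (∑ a, t a * U a c) * ξ c := by
      unfold lin
      simp_rw [Finset.sum_mul]
      rw [Finset.sum_comm]
      apply Finset.sum_congr rfl
      intro c _
      apply Finset.sum_congr rfl
      intro a _
      ring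
    rw [this]
    push_cast
    rfl
  simp_rw [e1]
  rw [integral_fintype_prod_eq_prod (μ := fun _ : K => gaussianReal 0 1)
    (f := fun c (x : ℝ) => Complex.exp ((∑ a, t a * U a c : ℝ) * (x : ℂ) * Complex.I))]
  have e2 : ∀ s : ℝ, ∫ x : ℝ, Complex.exp ((s : ℂ) * (x : ℂ) * Complex.I) ∂(gaussianReal 0 1) =
      Complex.exp (-(s ^ 2 : ℝ) / 2) := by
    intro s
    have h := charFun_gaussianReal (μ := 0) (v := 1) s
    rw [charFun_apply] at h
    have h2 : ∀ x : ℝ, Complex.exp ((s : ℂ) * (x : ℂ) * Complex.I) =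
        Complex.exp ((inner ℝ x s : ℝ) * Complex.I) := by
      intro x
      congr 2
      simp
    simp_rw [h2]
    rw [h]
    congr 1
    push_cast
    ring
  simp_rw [e2]
  rw [← Complex.exp_sum]
  congr 1
  rw [← Finset.sum_div, Finset.sum_neg_distrib]
  congr 2
  rw [← Complex.ofReal_sum]
  congr 1
  unfold gram
  simp_rw [Finset.mul_sum, sq, Finset.sum_mul_sum]
  rw [Finset.sum_comm]
  apply Finset.sum_congr rfl
  intro a _
  rw [Finset.sum_comm]
  apply Finset.sum_congr rfl
  intro b _
  apply Finset.sum_congr rfl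
  intro c _
  ring

lemma map_lin_congr {U : J → K → ℝ} {V : J → K' → ℝ}
    (hG : ∀ a b, gram U U a b = gram V V a b) :
    (gM K).map (fun ξ => WithLp.toLp 2 (lin U ξ)) =
      (gM K').map (fun ξ => (WithLp.toLp 2 (lin V ξ) : EuclideanSpace ℝ J)) := by
  have mU : Measurable fun ξ : K → ℝ => (WithLp.toLp 2 (lin U ξ) : EuclideanSpace ℝ J) := by
    unfold lin; fun_prop
  have mV : Measurable fun ξ : K' → ℝ => (WithLp.toLp 2 (lin V ξ) : EuclideanSpace ℝ J) := by
    unfold lin; fun_prop
  have : IsProbabilityMeasure ((gM K).map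
      fun ξ => (WithLp.toLp 2 (lin U ξ) : EuclideanSpace ℝ J)) :=
    Measure.isProbabilityMeasure_map mU.aemeasurable
  have : IsProbabilityMeasure ((gM K').map
      fun ξ => (WithLp.toLp 2 (lin V ξ) : EuclideanSpace ℝ J)) :=
    Measure.isProbabilityMeasure_map mV.aemeasurable
  apply Measure.ext_of_charFun
  ext t
  rw [charFun_apply, charFun_apply, integral_map mU.aemeasurable
    (Measurable.aestronglyMeasurable (by fun_prop)), integral_map mV.aemeasurable
    (Measurable.aestronglyMeasurable (by fun_prop))]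
  have e1 : ∀ z : J → ℝ, (inner ℝ (WithLp.toLp 2 z : EuclideanSpace ℝ J) t : ℝ) =
      ∑ a, z a * t a := by
    intro z
    simp [PiLp.inner_apply, mul_comm]
  simp_rw [e1]
  rw [char_lin U, char_lin V]
  simp_rw [hG]

/-- The law of the family `Z` depends on the Gram matrix only. -/
theorem integral_lin_congr {U : J → K → ℝ} {V : J → K' → ℝ}
    (hG : ∀ a b, gram U U a b = gram V V a b) {F : (J → ℝ) → ℝ} (hF : Measurable F) :
    ∫ ξ, F (lin U ξ) ∂(gM K) = ∫ ξ, F (lin V ξ) ∂(gM K') := by
  have mU : Measurable fun ξ : K → ℝ => (WithLp.toLp 2 (lin U ξ) : EuclideanSpace ℝ J) := by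
    unfold lin; fun_prop
  have mV : Measurable fun ξ : K' → ℝ => (WithLp.toLp 2 (lin V ξ) : EuclideanSpace ℝ J) := by
    unfold lin; fun_prop
  have mF : Measurable fun z : EuclideanSpace ℝ J => F (WithLp.ofLp z) :=
    hF.comp (WithLp.measurable_ofLp 2 _)
  have h1 := integral_map (μ := gM K) mU.aemeasurable (f := fun z => F (WithLp.ofLp z))
    mF.aestronglyMeasurable
  have h2 := integral_map (μ := gM K') mV.aemeasurable (f := fun z => F (WithLp.ofLp z))
    mF.aestronglyMeasurable
  simp only at h1 h2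
  rw [← h1, ← h2, map_lin_congr hG]

theorem gE_congr_gram {U : J → K → ℝ} {V : J → K' → ℝ}
    (hG : ∀ a b, gram U U a b = gram V V a b) {f : J → ℝ → ℝ} (hf : ∀ a, Measurable (f a)) :
    gE U f = gE V f := by
  unfold gE
  exact integral_lin_congr hG (F := fun z => ∏ a, f a (z a))
    (Finset.measurable_prod _ fun a _ => (hf a).comp (measurable_pi_apply a))

end Vale.Agent.P157.Par
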