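import Vale.Agent.P157.LvIBP

/-!
Synchronization: if the fields `∑ z_{l,i} φ_i(x)` of all levels are concentrated, then the overlap
of two replicas is concentrated given the level at which they split (up to the increments of the
overlap path).
-/

open MeasureTheory ProbabilityTheory Filter Topology

namespace Vale.Agent.P157.Lv

set_option linter.unusedSectionVars false

variable {ι X : Type} [Fintype ι] [DecidableEq ι] [Fintype X] [DecidableEq X] [Nonempty X]
  {S : Sy ι X} {D : ι → (ι → ℝ) → X → ℝ} {N : ℕ}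

/-- The overlap of two configurations. -/
noncomputable def Rov (φ : X → Fin N → ℝ) (x x' : X) : ℝ := 1 / N * ∑ i, φ x i * φ x' i

/-- The field of the level `l`, divided by `N`. -/
noncomputable def hz (φ : X → Fin N → ℝ) (zc : ℕ → Fin N → ι) (l : ℕ) (z : ι → ℝ) (x : X) : ℝ :=
  1 / N * ∑ i, z (zc l i) * φ x i

namespace Sy

/-- The magnetization given the levels at most `l`. -/
noncomputable def mg (S : Sy ι X) (φ : X → Fin N → ℝ) (l : ℕ) (i : Fin N) : (ι → ℝ) → ℝ :=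
  S.T l (fun _ x => φ x i)

/-- The overlap of two replicas which split at the level `l`. -/
noncomputable def Rl (S : Sy ι X) (φ : X → Fin N → ℝ) (l : ℕ) : ℝ :=
  1 / N * S.Ex (fun z _ => ∑ i, S.mg φ l i z ^ 2)

/-- The conditional law of the configuration given the levels at most `l`. -/
noncomputable def pr (S : Sy ι X) (l : ℕ) (z : ι → ℝ) (x : X) : ℝ :=
  S.T l (fun _ y => if y = x then 1 else 0) z

/-- The average over two replicas which split at the level `l`. -/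
noncomputable def pairEx (S : Sy ι X) (l : ℕ) (ψ : X → X → ℝ) : ℝ :=
  S.Ex (fun z _ => ∑ x, ∑ x', S.pr l z x * S.pr l z x' * ψ x x')

end Sy

/-- The system contains the fields `s_l ∑_i z_{l,i} φ_i(x)`. -/
structure Fld (S : Sy ι X) (D : ι → (ι → ℝ) → X → ℝ) (φ : X → Fin N → ℝ) (zc : ℕ → Fin N → ι)
    (s : ℕ → ℝ) : Prop where
  reg : S.RegD D
  N0 : 0 < N
  norm : ∀ x, ∑ i, φ x i ^ 2 = N
  lev : ∀ l ≤ S.K, ∀ i, S.lev (zc l i) = l
  D : ∀ l ≤ S.K, ∀ i z x, D (zc l i) z x = s l * φ x i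
  pos : ∀ l ≤ S.K, 0 ≤ s l

namespace Sy

variable {φ : X → Fin N → ℝ} {zc : ℕ → Fin N → ι} {s : ℕ → ℝ}

omit [Fintype ι] [DecidableEq ι] [Fintype X] [DecidableEq X] [Nonempty X] in
lemma lvp_sq {κ : Type} [Fintype κ] (w f : κ → ℝ) (hw : ∀ i, 0 ≤ w i) (h1 : ∑ i, w i = 1) :
    (∑ i, w i * f i) ^ 2 ≤ ∑ i, w i * f i ^ 2 := by
  set m := ∑ i, w i * f i with hm
  have h : 0 ≤ ∑ i, w i * (f i - m) ^ 2 :=
    Finset.sum_nonneg fun i _ => mul_nonneg (hw i) (sq_nonneg _)
  have e : ∑ i, w i * (f i - m) ^ 2 = ∑ i, w i * f i ^ 2 - 2 * m * m + m ^ 2 := by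
    have e1 : ∀ i, w i * (f i - m) ^ 2 = w i * f i ^ 2 - 2 * m * (w i * f i) + m ^ 2 * w i := by
      intro i; ring
    simp_rw [e1]
    rw [Finset.sum_add_distrib, Finset.sum_sub_distrib, ← Finset.mul_sum, ← Finset.mul_sum, h1,
      ← hm, mul_one]
  rw [e] at h
  linarith [sq m]

lemma Reg.pr_nonneg (hS : S.Reg) {l : ℕ} (hl : l ≤ S.K) (z : ι → ℝ) (x : X) : 0 ≤ S.pr l z x := by
  have h := hS.T_mono hl (f := fun _ _ => (0 : ℝ)) (g := fun _ y => if y = x then (1 : ℝ) else 0)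
    (Nh.snd fun _ => 0) (Nh.snd fun y => if y = x then (1 : ℝ) else 0)
    (fun z y => by split_ifs <;> norm_num) z
  rw [hS.T_const hl] at h
  exact h

lemma Reg.T_pr (hS : S.Reg) {l : ℕ} (hl : l ≤ S.K) (h : X → ℝ) (z : ι → ℝ) :
    S.T l (fun _ x => h x) z = ∑ x, S.pr l z x * h x := by
  have e : (fun (_ : ι → ℝ) (x : X) => h x) =
      fun (z : ι → ℝ) (y : X) => ∑ x, h x * (fun (_ : ι → ℝ) (y : X) =>
        if y = x then (1 : ℝ) else 0) z y := by
    funext z y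
    simp
  rw [e, hS.T_sum hl Finset.univ (fun x _ => Nh.const_mul _
    (Nh.snd fun y => if y = x then (1 : ℝ) else 0))]
  refine Finset.sum_congr rfl fun x _ => ?_
  rw [T_const_mul, mul_comm]
  rfl

lemma Reg.sum_pr (hS : S.Reg) {l : ℕ} (hl : l ≤ S.K) (z : ι → ℝ) : ∑ x, S.pr l z x = 1 := by
  have h := hS.T_pr hl (fun _ => 1) z
  rw [hS.T_const hl] at h
  rw [h]
  simp

lemma Reg.eg_pr (hS : S.Reg) {l : ℕ} (hl : l ≤ S.K) (x : X) : EG fun z => S.pr l z x :=
  hS.eg_T hl (Nh.snd fun y => if y = x then (1 : ℝ) else 0)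

lemma Reg.nh_pair (hS : S.Reg) {l : ℕ} (hl : l ≤ S.K) (ψ : X → X → ℝ) :
    EG (fun z => ∑ x, ∑ x', S.pr l z x * S.pr l z x' * ψ x x') :=
  EG.sum _ fun x _ => EG.sum _ fun x' _ =>
    ((hS.eg_pr hl x).mul (hS.eg_pr hl x')).mul (EG.const _)

lemma Reg.pairEx_mono (hS : S.Reg) {l : ℕ} (hl : l ≤ S.K) {ψ ψ' : X → X → ℝ}
    (h : ∀ x x', ψ x x' ≤ ψ' x x') : S.pairEx l ψ ≤ S.pairEx l ψ' := by
  refine hS.Ex_mono (Nh.fst (hS.nh_pair hl ψ)) (Nh.fst (hS.nh_pair hl ψ')) fun z _ => ?_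
  refine Finset.sum_le_sum fun x _ => Finset.sum_le_sum fun x' _ => ?_
  exact mul_le_mul_of_nonneg_left (h x x')
    (mul_nonneg (hS.pr_nonneg hl z x) (hS.pr_nonneg hl z x'))

lemma Reg.pairEx_const (hS : S.Reg) {l : ℕ} (hl : l ≤ S.K) (c : ℝ) :
    S.pairEx l (fun _ _ => c) = c := by
  have e : (fun (z : ι → ℝ) (_ : X) => ∑ x, ∑ x', S.pr l z x * S.pr l z x' * c) =
      fun _ _ => c := by
    funext z _
    simp_rw [mul_assoc, ← Finset.mul_sum, ← Finset.sum_mul]
    rw [hS.sum_pr hl, one_mul, one_mul]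
  rw [pairEx, e, hS.Ex_const]

lemma Reg.pairEx_nonneg (hS : S.Reg) {l : ℕ} (hl : l ≤ S.K) {ψ : X → X → ℝ}
    (h : ∀ x x', 0 ≤ ψ x x') : 0 ≤ S.pairEx l ψ := by
  rw [← hS.pairEx_const hl 0]
  exact hS.pairEx_mono hl h

lemma Reg.pairEx_add (hS : S.Reg) {l : ℕ} (hl : l ≤ S.K) (ψ ψ' : X → X → ℝ) :
    S.pairEx l (fun x x' => ψ x x' + ψ' x x') = S.pairEx l ψ + S.pairEx l ψ' := by
  rw [pairEx, pairEx, pairEx, ← hS.Ex_add (Nh.fst (hS.nh_pair hl ψ)) (Nh.fst (hS.nh_pair hl ψ'))]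
  congr 1
  funext z _
  rw [← Finset.sum_add_distrib]
  refine Finset.sum_congr rfl fun x _ => ?_
  rw [← Finset.sum_add_distrib]
  refine Finset.sum_congr rfl fun x' _ => ?_
  rw [mul_add]

lemma Reg.pairEx_const_mul (_hS : S.Reg) (l : ℕ) (c : ℝ) (ψ : X → X → ℝ) :
    S.pairEx l (fun x x' => c * ψ x x') = c * S.pairEx l ψ := by
  rw [pairEx, pairEx, ← Ex_const_mul]
  congr 1
  funext z _
  rw [Finset.mul_sum]
  refine Finset.sum_congr rfl fun x _ => ?_
  rw [Finset.mul_sum]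
  refine Finset.sum_congr rfl fun x' _ => ?_
  ring

lemma Reg.pair_cs (hS : S.Reg) {l : ℕ} (hl : l ≤ S.K) (ψ : X → X → ℝ) (z : ι → ℝ) :
    (∑ x, ∑ x', S.pr l z x * S.pr l z x' * ψ x x') ^ 2 ≤
      ∑ x, ∑ x', S.pr l z x * S.pr l z x' * ψ x x' ^ 2 := by
  have hw : ∀ p ∈ (Finset.univ : Finset (X × X)), 0 ≤ S.pr l z p.1 * S.pr l z p.2 := fun p _ =>
    mul_nonneg (hS.pr_nonneg hl z p.1) (hS.pr_nonneg hl z p.2)
  have h1 : ∑ p : X × X, S.pr l z p.1 * S.pr l z p.2 = 1 := by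
    rw [Fintype.sum_prod_type]
    simp_rw [← Finset.mul_sum]
    rw [hS.sum_pr hl]
    simp_rw [mul_one]
    exact hS.sum_pr hl z
  have h := lvp_sq (fun p : X × X => S.pr l z p.1 * S.pr l z p.2) (fun p => ψ p.1 p.2)
    (fun p => hw p (Finset.mem_univ _)) h1
  rw [Fintype.sum_prod_type, Fintype.sum_prod_type] at h
  exact h

lemma Reg.pairEx_abs_le (hS : S.Reg) {l : ℕ} (hl : l ≤ S.K) (ψ : X → X → ℝ) :
    S.pairEx l (fun x x' => |ψ x x'|) ≤ √(S.pairEx l (fun x x' => ψ x x' ^ 2)) := by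
  refine Real.le_sqrt_of_sq_le ?_
  have h1 := hS.Ex_cs (Nh.fst (X := X) (hS.nh_pair hl fun x x' => |ψ x x'|))
    (Nh.fst (X := X) (EG.const (1 : ℝ)))
  simp only [mul_one, one_pow, hS.Ex_const] at h1
  refine h1.trans (hS.Ex_mono (Nh.fst ((hS.nh_pair hl _).pow 2)) (Nh.fst (hS.nh_pair hl _))
    fun z _ => ?_)
  refine (hS.pair_cs hl (fun x x' => |ψ x x'|) z).trans (le_of_eq ?_)
  simp only [sq_abs]

end Sy

namespace Fld

open Sy

variable {φ : X → Fin N → ℝ} {zc : ℕ → Fin N → ι} {s : ℕ → ℝ} (F : Fld S D φ zc s)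

include F

lemma N_pos : (0 : ℝ) < N := by exact_mod_cast F.N0

lemma hreg : S.Reg := F.reg.toReg

lemma abs_Rov_le (x x' : X) : |Rov φ x x'| ≤ 1 := by
  have hN := F.N_pos
  have h := Finset.sum_mul_sq_le_sq_mul_sq Finset.univ (φ x) (φ x')
  rw [F.norm, F.norm] at h
  have h1 : Rov φ x x' ^ 2 ≤ 1 := by
    rw [Rov, mul_pow, one_div, inv_pow, inv_mul_le_iff₀ (by positivity)]
    linarith [sq (N : ℝ)]
  exact abs_le_one_iff_mul_self_le_one.mpr (by linarith [sq (Rov φ x x')])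

omit F in
lemma mg_eq (hS : S.Reg) {l : ℕ} (hl : l ≤ S.K) (i : Fin N) (z : ι → ℝ) :
    S.mg φ l i z = ∑ x, S.pr l z x * φ x i := hS.T_pr hl (fun x => φ x i) z

omit F in
lemma eg_mg (hS : S.Reg) {l : ℕ} (hl : l ≤ S.K) (i : Fin N) : EG (S.mg φ l i) :=
  hS.eg_T hl (Nh.snd fun x => φ x i)

omit F in
lemma dep_mg (S : Sy ι X) (φ : X → Fin N → ℝ) (l : ℕ) (i : Fin N) : Dep S.lev l (S.mg φ l i) :=
  S.dep_T l (fun _ x => φ x i)

omit F in
lemma sum_mg_sq (hS : S.Reg) {l : ℕ} (hl : l ≤ S.K) (z : ι → ℝ) :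
    1 / N * ∑ i, S.mg φ l i z ^ 2 = ∑ x, ∑ x', S.pr l z x * S.pr l z x' * Rov φ x x' := by
  have e : ∀ i, S.mg φ l i z ^ 2 =
      ∑ x, ∑ x', S.pr l z x * S.pr l z x' * (φ x i * φ x' i) := by
    intro i
    rw [mg_eq hS hl, sq, Finset.sum_mul_sum]
    refine Finset.sum_congr rfl fun x _ => Finset.sum_congr rfl fun x' _ => ?_
    ring
  simp_rw [e]
  rw [Finset.sum_comm, Finset.mul_sum]
  refine Finset.sum_congr rfl fun x _ => ?_
  rw [Finset.sum_comm, Finset.mul_sum]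
  refine Finset.sum_congr rfl fun x' _ => ?_
  rw [← Finset.mul_sum, Rov]
  ring

lemma Rl_eq_pairEx {l : ℕ} (hl : l ≤ S.K) : S.Rl φ l = S.pairEx l (Rov φ) := by
  rw [Sy.Rl, Sy.pairEx, ← Sy.Ex_const_mul]
  congr 1
  funext z _
  exact sum_mg_sq F.hreg hl z

lemma Rl_nonneg {l : ℕ} (hl : l ≤ S.K) : 0 ≤ S.Rl φ l := by
  rw [Sy.Rl, ← Sy.Ex_const_mul, ← F.hreg.Ex_const 0]
  refine F.hreg.Ex_mono (Nh.fst (EG.const 0)) (Nh.fst (EG.const_mul _ (EG.sum _ fun i _ =>
    (eg_mg F.hreg hl i).pow 2))) fun z _ => ?_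
  have := F.N_pos
  positivity

lemma Rl_le_one {l : ℕ} (hl : l ≤ S.K) : S.Rl φ l ≤ 1 := by
  rw [F.Rl_eq_pairEx hl, ← F.hreg.pairEx_const hl 1]
  exact F.hreg.pairEx_mono hl fun x x' => (le_abs_self _).trans (F.abs_Rov_le x x')

omit F in
/-- the field `u_l = m_l · x / N` -/
noncomputable def uu (S : Sy ι X) (φ : X → Fin N → ℝ) (l : ℕ) : (ι → ℝ) → X → ℝ :=
  fun z x => 1 / N * ∑ a, S.mg φ l a z * φ x a

omit F in
lemma nh_uu (hS : S.Reg) {l : ℕ} (hl : l ≤ S.K) : Nh (uu S φ l) :=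
  Nh.const_mul _ (Nh.sum _ fun a _ => Nh.mul (Nh.fst (eg_mg hS hl a)) (Nh.snd fun x => φ x a))

omit F in
/-- `E (m_l,a φ_a) = E m_{l,a}²` for `l ≤ k`, in the form `E (m_l m_k) = E m_l²` -/
lemma Ex_mg_mul (hS : S.Reg) {l k : ℕ} (hlk : l ≤ k) (hk : k ≤ S.K) (a : Fin N) :
    S.Ex (fun z _ => S.mg φ l a z * S.mg φ k a z) = S.Ex (fun z _ => S.mg φ l a z ^ 2) := by
  have hl := hlk.trans hk
  have h1 := hS.Ex_mul_T hk ((S.dep_T l (fun _ x => φ x a)).mono hlk) (eg_mg hS hl a)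
    (Nh.snd fun x => φ x a)
  have h2 := hS.Ex_mul_T hl (S.dep_T l (fun _ x => φ x a)) (eg_mg hS hl a)
    (Nh.snd fun x => φ x a)
  have h3 : (fun (z : ι → ℝ) (_ : X) => S.mg φ l a z ^ 2) =
      fun z _ => S.mg φ l a z * S.mg φ l a z := by
    funext z _; rw [sq]
  rw [h3]
  exact h1.trans h2.symm

lemma Ex_uu {l : ℕ} (hl : l ≤ S.K) : S.Ex (uu S φ l) = S.Rl φ l := by
  have hS := F.hreg
  have e : uu S φ l = fun z x => 1 / N * ∑ a, S.mg φ l a z * φ x a := rfl
  rw [e, Sy.Ex_const_mul, Sy.Rl, hS.Ex_sum _ fun a _ =>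
    Nh.mul (Nh.fst (eg_mg hS hl a)) (Nh.snd fun x => φ x a),
    hS.Ex_sum _ fun a _ => Nh.fst ((eg_mg hS hl a).pow 2)]
  congr 1
  refine Finset.sum_congr rfl fun a _ => ?_
  have h2 := hS.Ex_mul_T hl (S.dep_T l (fun _ x => φ x a)) (eg_mg hS hl a)
    (Nh.snd fun x => φ x a)
  rw [← Ex_mg_mul hS le_rfl hl]
  exact h2.symm

/-- The overlaps increase: `E|m_{l+1} - m_l|² = N (R_{l+1} - R_l)`. -/
lemma Rl_sub {l : ℕ} (hl : l < S.K) :
    1 / N * S.Ex (fun z _ => ∑ i, (S.mg φ (l + 1) i z - S.mg φ l i z) ^ 2) =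
      S.Rl φ (l + 1) - S.Rl φ l := by
  have hS := F.hreg
  have e1 := eg_mg (φ := φ) hS (l := l + 1) hl
  have e0 := eg_mg (φ := φ) hS (l := l) hl.le
  rw [Sy.Rl, Sy.Rl, ← mul_sub]
  congr 1
  rw [hS.Ex_sum _ fun i _ => Nh.fst (((e1 i).sub (e0 i)).pow 2),
    hS.Ex_sum _ fun i _ => Nh.fst ((e1 i).pow 2), hS.Ex_sum _ fun i _ => Nh.fst ((e0 i).pow 2),
    ← Finset.sum_sub_distrib]
  refine Finset.sum_congr rfl fun i _ => ?_
  have h1 : (fun (z : ι → ℝ) (_ : X) => (S.mg φ (l + 1) i z - S.mg φ l i z) ^ 2) =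
      fun z x => ((fun (z : ι → ℝ) (_ : X) => S.mg φ (l + 1) i z ^ 2) z x -
        (fun (z : ι → ℝ) (_ : X) => 2 * (S.mg φ l i z * S.mg φ (l + 1) i z)) z x) +
        (fun (z : ι → ℝ) (_ : X) => S.mg φ l i z ^ 2) z x := by
    funext z _
    ring
  rw [h1, hS.Ex_add (Nh.sub (Nh.fst ((e1 i).pow 2))
    (Nh.fst (EG.const_mul 2 ((e0 i).mul (e1 i))))) (Nh.fst ((e0 i).pow 2)),
    hS.Ex_sub (Nh.fst ((e1 i).pow 2)) (Nh.fst (EG.const_mul 2 ((e0 i).mul (e1 i)))),
    Sy.Ex_const_mul, Ex_mg_mul hS (Nat.le_succ l) hl]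
  ring

/-- integration by parts for the coordinates of the fields -/
lemma ibp' {j : ℕ} (hj : j ≤ S.K) (i : Fin N) {h h' : (ι → ℝ) → X → ℝ}
    (hd : ∀ x, PD (zc j i) (fun z => h z x) (fun z => h' z x)) (hh : Nh h) (hh' : Nh h') :
    S.Ex (fun z x => z (zc j i) * h z x) = S.Ex (fun z x => h' z x + h z x * (s j * φ x i -
      ∑ k ∈ Finset.Ico j (S.K + 1), S.p k * (s j * S.mg φ k i z))) := by
  rw [F.reg.ibp (zc j i) hd hh hh', F.lev j hj i]
  congr 1
  funext z x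
  rw [F.D j hj i]
  have e : D (zc j i) = fun z x => s j * φ x i := by
    funext z x
    exact F.D j hj i z x
  rw [e]
  simp only [Sy.T_const_mul]
  rfl

/-- the average of the field of the level `j` against an observable -/
lemma Ex_hz_mul {j : ℕ} (hj : j ≤ S.K) {u : (ι → ℝ) → X → ℝ} {u' : Fin N → (ι → ℝ) → X → ℝ}
    (hd : ∀ i x, PD (zc j i) (fun z => u z x) (fun z => u' i z x)) (hu : Nh u)
    (hu' : ∀ i, Nh (u' i)) :
    S.Ex (fun z x => hz φ zc j z x * u z x) =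
      S.Ex (fun z x => 1 / N * ∑ i, φ x i * u' i z x) +
        s j * (S.Ex u - ∑ k ∈ Finset.Ico j (S.K + 1), S.p k *
          S.Ex (fun z x => u z x * uu S φ k z x)) := by
  have hS := F.hreg
  have hN := F.N_pos
  have hk : ∀ k ∈ Finset.Ico j (S.K + 1), k ≤ S.K := fun k hk => by
    rw [Finset.mem_Ico] at hk; omega
  -- termwise integration by parts
  have h1 : ∀ i, S.Ex (fun z x => z (zc j i) * (φ x i * u z x)) =
      S.Ex (fun z x => φ x i * u' i z x + φ x i * u z x * (s j * φ x i -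
        ∑ k ∈ Finset.Ico j (S.K + 1), S.p k * (s j * S.mg φ k i z))) := fun i =>
    F.ibp' hj i (h := fun z x => φ x i * u z x) (h' := fun z x => φ x i * u' i z x)
      (fun x => (hd i x).const_mul (φ x i)) (Nh.mul (Nh.snd fun x => φ x i) hu)
      (Nh.mul (Nh.snd fun x => φ x i) (hu' i))
  have nz : ∀ i, Nh (fun (z : ι → ℝ) (x : X) => z (zc j i) * (φ x i * u z x)) := fun i =>
    Nh.mul (Nh.fst (EG.coord _)) (Nh.mul (Nh.snd fun x => φ x i) hu)
  have nk : ∀ k ∈ Finset.Ico j (S.K + 1), ∀ i, Nh (fun (z : ι → ℝ) (_ : X) =>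
      S.p k * (s j * S.mg φ k i z)) := fun k hk' i =>
    Nh.fst (EG.const_mul _ (EG.const_mul _ (eg_mg hS (hk k hk') i)))
  have nr : ∀ i, Nh (fun (z : ι → ℝ) (x : X) => φ x i * u' i z x + φ x i * u z x * (s j * φ x i -
        ∑ k ∈ Finset.Ico j (S.K + 1), S.p k * (s j * S.mg φ k i z))) := fun i =>
    Nh.add (Nh.mul (Nh.snd fun x => φ x i) (hu' i)) (Nh.mul (Nh.mul (Nh.snd fun x => φ x i) hu)
      (Nh.sub (Nh.const_mul _ (Nh.snd fun x => φ x i)) (Nh.sum _ fun k hk' => nk k hk' i)))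
  have e1 : S.Ex (fun z x => hz φ zc j z x * u z x) =
      1 / N * ∑ i, S.Ex (fun z x => z (zc j i) * (φ x i * u z x)) := by
    rw [← hS.Ex_sum _ fun i _ => nz i, ← Sy.Ex_const_mul]
    congr 1
    funext z x
    rw [hz, mul_assoc, Finset.sum_mul]
    congr 1
    refine Finset.sum_congr rfl fun i _ => ?_
    ring
  rw [e1]
  simp_rw [h1]
  rw [← hS.Ex_sum _ fun i _ => nr i, ← Sy.Ex_const_mul]
  have e2 : (fun (z : ι → ℝ) (x : X) => 1 / (N : ℝ) * ∑ i, (φ x i * u' i z x +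
      φ x i * u z x * (s j * φ x i -
        ∑ k ∈ Finset.Ico j (S.K + 1), S.p k * (s j * S.mg φ k i z)))) =
      fun z x => (fun (z : ι → ℝ) (x : X) => 1 / (N : ℝ) * ∑ i, φ x i * u' i z x) z x +
        (fun (z : ι → ℝ) (x : X) => s j * (u z x - ∑ k ∈ Finset.Ico j (S.K + 1),
          S.p k * (u z x * uu S φ k z x))) z x := by
    funext z x
    rw [Finset.sum_add_distrib, mul_add]
    congr 1
    have e3 : ∑ i, φ x i * u z x * (s j * φ x i -
        ∑ k ∈ Finset.Ico j (S.K + 1), S.p k * (s j * S.mg φ k i z)) =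
        s j * (u z x * ∑ i, φ x i ^ 2) - s j * ∑ k ∈ Finset.Ico j (S.K + 1), S.p k *
          (u z x * ∑ i, S.mg φ k i z * φ x i) := by
      simp_rw [mul_sub]
      rw [Finset.sum_sub_distrib]
      congr 1
      · rw [Finset.mul_sum, Finset.mul_sum]
        refine Finset.sum_congr rfl fun i _ => ?_
        ring
      · simp_rw [Finset.mul_sum]
        rw [Finset.sum_comm]
        refine Finset.sum_congr rfl fun k _ => Finset.sum_congr rfl fun i _ => ?_
        ring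
    rw [e3, F.norm]
    have e4 : ∀ k, S.p k * (u z x * uu S φ k z x) =
        1 / N * (S.p k * (u z x * ∑ i, S.mg φ k i z * φ x i)) := by
      intro k
      rw [uu]
      ring
    simp_rw [e4]
    rw [← Finset.mul_sum]
    field_simp
  rw [e2]
  have nu : ∀ k ∈ Finset.Ico j (S.K + 1), Nh (fun (z : ι → ℝ) (x : X) =>
      S.p k * (u z x * uu S φ k z x)) := fun k hk' =>
    Nh.const_mul _ (Nh.mul hu (nh_uu hS (hk k hk')))
  rw [hS.Ex_add (Nh.const_mul _ (Nh.sum _ fun i _ => Nh.mul (Nh.snd fun x => φ x i) (hu' i)))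
    (Nh.const_mul _ (Nh.sub hu (Nh.sum _ nu)))]
  congr 1
  rw [Sy.Ex_const_mul, hS.Ex_sub hu (Nh.sum _ nu), hS.Ex_sum _ nu]
  congr 2
  refine Finset.sum_congr rfl fun k _ => ?_
  rw [Sy.Ex_const_mul]

/-- The mean of the field of the level `l`. -/
theorem Ex_hz {l : ℕ} (hl : l ≤ S.K) :
    S.Ex (hz φ zc l) = s l * (1 - ∑ i ∈ Finset.Ico l (S.K + 1), S.p i * S.Rl φ i) := by
  have hS := F.hreg
  have h := F.Ex_hz_mul hl (u := fun _ _ => 1) (u' := fun _ _ _ => 0)
    (fun i x => PD.const 1) (Nh.fst (EG.const 1)) (fun i => Nh.fst (EG.const 0))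
  simp only [mul_one, one_mul, mul_zero, Finset.sum_const_zero, hS.Ex_const, zero_add] at h
  rw [show S.Ex (hz φ zc l) = S.Ex (fun z x => hz φ zc l z x) from rfl, h]
  congr 2
  refine Finset.sum_congr rfl fun k hk => ?_
  rw [Finset.mem_Ico] at hk
  rw [← F.Ex_uu (by omega : k ≤ S.K)]

/-- (A): `u_l = m_l · x / N` and `u_i` are uncorrelated for `i > l`. -/
theorem ident_A {l j : ℕ} (hlj : l < j) (hj : j ≤ S.K) :
    S.Ex (fun z x => hz φ zc j z x * (1 / N * ∑ i, S.mg φ l i z * φ x i)) =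
      s j * (S.Rl φ l - ∑ i ∈ Finset.Ico j (S.K + 1), S.p i *
        S.Ex (fun z x => (1 / N * ∑ a, S.mg φ l a z * φ x a) *
          (1 / N * ∑ a, S.mg φ i a z * φ x a))) := by
  have hS := F.hreg
  have hl : l ≤ S.K := hlj.le.trans hj
  have hd : ∀ i x, PD (zc j i) (fun z => uu S φ l z x) (fun _ => 0) := by
    intro i x
    refine Dep.pd (lev := S.lev) (l := l) ?_ (by rw [F.lev j hj]; exact hlj)
    intro z w
    simp only [uu]
    congr 1
    refine Finset.sum_congr rfl fun a _ => ?_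
    congr 1
    exact S.dep_T l (fun _ x => φ x a) z w
  have h := F.Ex_hz_mul hj (u := uu S φ l) (u' := fun _ _ _ => 0) hd (nh_uu hS hl)
    (fun i => Nh.fst (EG.const 0))
  simp only [mul_zero, Finset.sum_const_zero, hS.Ex_const, zero_add] at h
  rw [F.Ex_uu hl] at h
  exact h

/-- the derivative of the magnetization -/
lemma pd_mg {l : ℕ} (hl : l ≤ S.K) (a b : Fin N) :
    PD (zc l b) (S.mg φ l a) (fun z => s l * (S.T l (fun _ x => φ x a * φ x b) z -
      ∑ k ∈ Finset.Ico (l + 1) (S.K + 1), S.p k * S.T l (fun z _ => S.mg φ k a z * S.mg φ k b z) z -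
      S.m (l + 1) * (S.mg φ l a z * S.mg φ l b z))) := by
  have hS := F.hreg
  have h := F.reg.pd_T hl (e := zc l b) (F.lev l hl b).le (h := fun _ x => φ x a)
    (h' := fun _ _ => 0) (fun x => PD.const _) (Nh.snd fun x => φ x a) (Nh.fst (EG.const 0))
  refine h.congr fun z => ?_
  have hD : D (zc l b) = fun z x => s l * φ x b := by
    funext z x
    exact F.D l hl b z x
  have hk : ∀ k ∈ Finset.Ico (l + 1) (S.K + 1), k ≤ S.K := fun k hk => by
    rw [Finset.mem_Ico] at hk; omega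
  have hlk : ∀ k ∈ Finset.Ico (l + 1) (S.K + 1), l ≤ k := fun k hk => by
    rw [Finset.mem_Ico] at hk; omega
  have na : Nh (ι := ι) (fun _ x => φ x a) := Nh.snd fun x => φ x a
  have nab : Nh (ι := ι) (fun _ x => φ x a * φ x b) := Nh.snd fun x => φ x a * φ x b
  have nk : ∀ k ∈ Finset.Ico (l + 1) (S.K + 1), Nh (fun (z : ι → ℝ) (x : X) =>
      S.p k * (φ x a * S.mg φ k b z)) := fun k hk' =>
    Nh.const_mul _ (Nh.mul na (Nh.fst (eg_mg hS (hk k hk') b)))
  have nl : Nh (fun (z : ι → ℝ) (x : X) => S.m (l + 1) * (S.mg φ l b z * φ x a)) :=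
    Nh.const_mul _ (Nh.mul (Nh.fst (eg_mg hS hl b)) na)
  have e : (fun (z : ι → ℝ) (x : X) => (0 : ℝ) + φ x a * (D (zc l b) z x -
      ∑ i ∈ Finset.Ico (l + 1) (S.K + 1), S.p i * S.T i (D (zc l b)) z -
        S.m (l + 1) * S.T l (D (zc l b)) z)) =
      fun z x => s l * ((φ x a * φ x b - ∑ k ∈ Finset.Ico (l + 1) (S.K + 1),
        S.p k * (φ x a * S.mg φ k b z)) - S.m (l + 1) * (S.mg φ l b z * φ x a)) := by
    funext z x
    rw [hD]
    simp only [Sy.T_const_mul]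
    have e1 : ∀ k, S.T k (fun _ x => φ x b) z = S.mg φ k b z := fun k => rfl
    simp only [e1]
    have e2 : ∑ i ∈ Finset.Ico (l + 1) (S.K + 1), S.p i * (s l * S.mg φ i b z) =
        s l * ∑ i ∈ Finset.Ico (l + 1) (S.K + 1), S.p i * S.mg φ i b z := by
      rw [Finset.mul_sum]
      refine Finset.sum_congr rfl fun i _ => ?_
      ring
    have e3 : ∑ k ∈ Finset.Ico (l + 1) (S.K + 1), S.p k * (φ x a * S.mg φ k b z) =
        φ x a * ∑ i ∈ Finset.Ico (l + 1) (S.K + 1), S.p i * S.mg φ i b z := by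
      rw [Finset.mul_sum]
      refine Finset.sum_congr rfl fun i _ => ?_
      ring
    rw [e2, e3]
    ring
  rw [e, Sy.T_const_mul, hS.T_sub hl (Nh.sub nab (Nh.sum _ nk)) nl,
    hS.T_sub hl nab (Nh.sum _ nk), hS.T_sum hl _ nk, Sy.T_const_mul,
    T_mul_left S (dep_mg S φ l b)]
  congr 2
  · congr 1
    refine Finset.sum_congr rfl fun k hk' => ?_
    rw [Sy.T_const_mul]
    congr 1
    rw [← hS.T_T (hlk k hk') (hk k hk') (Nh.mul na (Nh.fst (eg_mg hS (hk k hk') b)))]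
    congr 1
    funext z' _
    have e4 : (fun (z : ι → ℝ) (x : X) => φ x a * S.mg φ k b z) =
        fun z x => S.mg φ k b z * (fun (_ : ι → ℝ) (x : X) => φ x a) z x := by
      funext z x
      exact mul_comm _ _
    rw [e4, T_mul_left S (dep_mg S φ k b), mul_comm]
    rfl
  · rw [mul_comm (S.mg φ l a z)]
    rfl

/-- the covariance matrix of two replicas -/
lemma pairEx_Rov_sq {l : ℕ} (hl : l ≤ S.K) :
    S.pairEx l (fun x x' => Rov φ x x' ^ 2) = 1 / N ^ 2 * S.Ex (fun z _ => ∑ a, ∑ b,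
      S.T l (fun _ x => φ x a * φ x b) z * S.T l (fun _ x => φ x a * φ x b) z) := by
  have hS := F.hreg
  rw [Sy.pairEx, ← Sy.Ex_const_mul]
  congr 1
  funext z _
  have e : ∀ a b, S.T l (fun _ x => φ x a * φ x b) z * S.T l (fun _ x => φ x a * φ x b) z =
      ∑ x, ∑ x', S.pr l z x * S.pr l z x' * ((φ x a * φ x b) * (φ x' a * φ x' b)) := by
    intro a b
    rw [hS.T_pr hl (fun x => φ x a * φ x b), Finset.sum_mul_sum]
    refine Finset.sum_congr rfl fun x _ => Finset.sum_congr rfl fun x' _ => ?_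
    ring
  have e2 : ∀ x x', Rov φ x x' ^ 2 =
      1 / (N : ℝ) ^ 2 * ∑ a, ∑ b, (φ x a * φ x b) * (φ x' a * φ x' b) := by
    intro x x'
    rw [Rov, mul_pow, sq (∑ i, φ x i * φ x' i), Finset.sum_mul_sum, div_pow, one_pow]
    congr 1
    refine Finset.sum_congr rfl fun a _ => Finset.sum_congr rfl fun b _ => ?_
    ring
  simp_rw [e, e2]
  have e3 : ∑ a : Fin N, ∑ b : Fin N, ∑ x, ∑ x', S.pr l z x * S.pr l z x' *
      ((φ x a * φ x b) * (φ x' a * φ x' b)) =
      ∑ x, ∑ x', S.pr l z x * S.pr l z x' * ∑ a, ∑ b, (φ x a * φ x b) * (φ x' a * φ x' b) := by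
    calc ∑ a : Fin N, ∑ b : Fin N, ∑ x, ∑ x', S.pr l z x * S.pr l z x' *
          ((φ x a * φ x b) * (φ x' a * φ x' b))
        = ∑ a : Fin N, ∑ x, ∑ b : Fin N, ∑ x', S.pr l z x * S.pr l z x' *
          ((φ x a * φ x b) * (φ x' a * φ x' b)) :=
          Finset.sum_congr rfl fun a _ => Finset.sum_comm
      _ = ∑ x, ∑ a : Fin N, ∑ b : Fin N, ∑ x', S.pr l z x * S.pr l z x' *
          ((φ x a * φ x b) * (φ x' a * φ x' b)) := Finset.sum_comm
      _ = ∑ x, ∑ x', ∑ a : Fin N, ∑ b : Fin N, S.pr l z x * S.pr l z x' *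
          ((φ x a * φ x b) * (φ x' a * φ x' b)) := by
          refine Finset.sum_congr rfl fun x _ => ?_
          calc ∑ a : Fin N, ∑ b : Fin N, ∑ x', S.pr l z x * S.pr l z x' *
                ((φ x a * φ x b) * (φ x' a * φ x' b))
              = ∑ a : Fin N, ∑ x', ∑ b : Fin N, S.pr l z x * S.pr l z x' *
                ((φ x a * φ x b) * (φ x' a * φ x' b)) :=
                Finset.sum_congr rfl fun a _ => Finset.sum_comm
            _ = _ := Finset.sum_comm
      _ = _ := by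
          refine Finset.sum_congr rfl fun x _ => Finset.sum_congr rfl fun x' _ => ?_
          simp_rw [Finset.mul_sum]
  rw [e3, Finset.mul_sum]
  refine Finset.sum_congr rfl fun x _ => ?_
  rw [Finset.mul_sum]
  refine Finset.sum_congr rfl fun x' _ => ?_
  ring

/-- (B). -/
theorem ident_B {l : ℕ} (hl : l ≤ S.K) :
    S.Ex (fun z x => hz φ zc l z x * (1 / N * ∑ i, S.mg φ l i z * φ x i)) =
      s l * (S.pairEx l (fun x x' => Rov φ x x' ^ 2) -
        ∑ i ∈ Finset.Ico (l + 1) (S.K + 1), S.p i * (1 / N ^ 2 * S.Ex (fun z _ => ∑ a, ∑ b,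
          S.T l (fun _ x => φ x a * φ x b) z * S.T l (fun z _ => S.mg φ i a z * S.mg φ i b z) z)) -
        S.m (l + 1) * S.Ex (fun z x => (1 / N * ∑ a, S.mg φ l a z * φ x a) ^ 2) +
        S.Rl φ l - ∑ i ∈ Finset.Ico l (S.K + 1), S.p i *
        S.Ex (fun z x => (1 / N * ∑ a, S.mg φ l a z * φ x a) *
          (1 / N * ∑ a, S.mg φ i a z * φ x a))) := by
  have hS := F.hreg
  have hk : ∀ k ∈ Finset.Ico (l + 1) (S.K + 1), k ≤ S.K := fun k hk => by
    rw [Finset.mem_Ico] at hk; omega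
  -- the derivative of the magnetization
  set d : Fin N → Fin N → (ι → ℝ) → ℝ := fun a b z =>
    s l * (S.T l (fun _ x => φ x a * φ x b) z -
      ∑ k ∈ Finset.Ico (l + 1) (S.K + 1), S.p k * S.T l (fun z _ => S.mg φ k a z * S.mg φ k b z) z -
      S.m (l + 1) * (S.mg φ l a z * S.mg φ l b z)) with hd
  have nab : ∀ a b, Nh (ι := ι) (fun (_ : ι → ℝ) (x : X) => φ x a * φ x b) := fun a b =>
    Nh.snd fun x => φ x a * φ x b
  have eB : ∀ k ∈ Finset.Ico (l + 1) (S.K + 1), ∀ a b,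
      EG (S.T l (fun z _ => S.mg φ k a z * S.mg φ k b z)) := fun k hk' a b =>
    hS.eg_T hl (Nh.fst ((eg_mg hS (hk k hk') a).mul (eg_mg hS (hk k hk') b)))
  have eA : ∀ a b, EG (S.T l (fun _ x => φ x a * φ x b)) := fun a b => hS.eg_T hl (nab a b)
  have ed : ∀ a b, EG (d a b) := fun a b =>
    EG.const_mul _ (((eA a b).sub (EG.sum _ fun k hk' => EG.const_mul _ (eB k hk' a b))).sub
      (EG.const_mul _ ((eg_mg hS hl a).mul (eg_mg hS hl b))))
  have dB : ∀ k a b, Dep S.lev l (S.T l (fun z _ => S.mg φ k a z * S.mg φ k b z)) :=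
    fun k a b => S.dep_T l _
  have dA : ∀ a b, Dep S.lev l (S.T l (fun _ x => φ x a * φ x b)) := fun a b => S.dep_T l _
  have dd : ∀ a b, Dep S.lev l (d a b) := by
    intro a b z w
    simp only [hd]
    rw [dA a b z w, dep_mg S φ l a z w, dep_mg S φ l b z w]
    simp only [fun k => dB k a b z w]
  -- integration by parts
  have h := F.Ex_hz_mul hl (u := uu S φ l) (u' := fun b z x => 1 / N * ∑ a, d a b z * φ x a)
    (fun b x => (PD.sum Finset.univ fun a _ =>
      ((F.pd_mg hl a b).mul (PD.const (φ x a))).congr fun y => by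
        rw [mul_zero, add_zero]).const_mul _) (nh_uu hS hl)
    (fun b => Nh.const_mul _ (Nh.sum _ fun a _ => Nh.mul (Nh.fst (ed a b))
      (Nh.snd fun x => φ x a)))
  have h2 : S.Ex (fun z x => 1 / N * ∑ b, φ x b * (1 / N * ∑ a, d a b z * φ x a)) =
      s l * (S.pairEx l (fun x x' => Rov φ x x' ^ 2) -
        ∑ i ∈ Finset.Ico (l + 1) (S.K + 1), S.p i * (1 / N ^ 2 * S.Ex (fun z _ => ∑ a, ∑ b,
          S.T l (fun _ x => φ x a * φ x b) z * S.T l (fun z _ => S.mg φ i a z * S.mg φ i b z) z)) -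
        S.m (l + 1) * S.Ex (fun z x => (1 / N * ∑ a, S.mg φ l a z * φ x a) ^ 2)) := by
    -- replace `φ_a φ_b` by its conditional average
    have g1 : S.Ex (fun z x => 1 / N * ∑ b, φ x b * (1 / N * ∑ a, d a b z * φ x a)) =
        1 / N ^ 2 * ∑ a, ∑ b, S.Ex (fun z _ => d a b z * S.T l (fun _ x => φ x a * φ x b) z) := by
      have e1 : (fun (z : ι → ℝ) (x : X) => 1 / (N : ℝ) * ∑ b, φ x b *
          (1 / N * ∑ a, d a b z * φ x a)) =
          fun z x => 1 / N ^ 2 * ∑ a, ∑ b, d a b z * (φ x a * φ x b) := by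
        funext z x
        simp_rw [Finset.mul_sum]
        rw [Finset.sum_comm]
        refine Finset.sum_congr rfl fun a _ => Finset.sum_congr rfl fun b _ => ?_
        ring
      rw [e1, Sy.Ex_const_mul, hS.Ex_sum _ fun a _ => Nh.sum _ fun b _ =>
        Nh.mul (Nh.fst (ed a b)) (nab a b)]
      congr 1
      refine Finset.sum_congr rfl fun a _ => ?_
      rw [hS.Ex_sum _ fun b _ => Nh.mul (Nh.fst (ed a b)) (nab a b)]
      refine Finset.sum_congr rfl fun b _ => ?_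
      exact (hS.Ex_mul_T hl (dd a b) (ed a b) (nab a b)).symm
    have g2 : S.Ex (fun z x => (1 / N * ∑ a, S.mg φ l a z * φ x a) ^ 2) =
        1 / N ^ 2 * ∑ a, ∑ b, S.Ex (fun z _ => (S.mg φ l a z * S.mg φ l b z) *
          S.T l (fun _ x => φ x a * φ x b) z) := by
      have e1 : (fun (z : ι → ℝ) (x : X) => (1 / (N : ℝ) * ∑ a, S.mg φ l a z * φ x a) ^ 2) =
          fun z x => 1 / N ^ 2 * ∑ a, ∑ b, (S.mg φ l a z * S.mg φ l b z) * (φ x a * φ x b) := by
        funext z x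
        rw [mul_pow, sq (∑ a, S.mg φ l a z * φ x a), Finset.sum_mul_sum, div_pow, one_pow]
        congr 1
        refine Finset.sum_congr rfl fun a _ => Finset.sum_congr rfl fun b _ => ?_
        ring
      have em : ∀ a b, EG (fun z => S.mg φ l a z * S.mg φ l b z) := fun a b =>
        (eg_mg hS hl a).mul (eg_mg hS hl b)
      rw [e1, Sy.Ex_const_mul, hS.Ex_sum _ fun a _ => Nh.sum _ fun b _ =>
        Nh.mul (Nh.fst (em a b)) (nab a b)]
      congr 1
      refine Finset.sum_congr rfl fun a _ => ?_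
      rw [hS.Ex_sum _ fun b _ => Nh.mul (Nh.fst (em a b)) (nab a b)]
      refine Finset.sum_congr rfl fun b _ => ?_
      refine (hS.Ex_mul_T hl (φ := fun z => S.mg φ l a z * S.mg φ l b z) ?_ (em a b)
        (nab a b)).symm
      intro z w
      exact congrArg₂ (· * ·) (dep_mg S φ l a z w) (dep_mg S φ l b z w)
    have g3 : ∀ k ∈ Finset.Ico (l + 1) (S.K + 1), S.Ex (fun z _ => ∑ a, ∑ b,
          S.T l (fun _ x => φ x a * φ x b) z * S.T l (fun z _ => S.mg φ k a z * S.mg φ k b z) z) =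
        ∑ a, ∑ b, S.Ex (fun z _ =>
          S.T l (fun _ x => φ x a * φ x b) z * S.T l (fun z _ => S.mg φ k a z * S.mg φ k b z) z) := by
      intro k hk'
      rw [hS.Ex_sum _ fun a _ => Nh.sum _ fun b _ => Nh.fst ((eA a b).mul (eB k hk' a b))]
      refine Finset.sum_congr rfl fun a _ => ?_
      rw [hS.Ex_sum _ fun b _ => Nh.fst ((eA a b).mul (eB k hk' a b))]
    have g4 : S.Ex (fun z _ => ∑ a, ∑ b,
          S.T l (fun _ x => φ x a * φ x b) z * S.T l (fun _ x => φ x a * φ x b) z) =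
        ∑ a, ∑ b, S.Ex (fun z _ =>
          S.T l (fun _ x => φ x a * φ x b) z * S.T l (fun _ x => φ x a * φ x b) z) := by
      rw [hS.Ex_sum _ fun a _ => Nh.sum _ fun b _ => Nh.fst ((eA a b).mul (eA a b))]
      refine Finset.sum_congr rfl fun a _ => ?_
      rw [hS.Ex_sum _ fun b _ => Nh.fst ((eA a b).mul (eA a b))]
    have g5 : ∀ a b, S.Ex (fun z _ => d a b z * S.T l (fun _ x => φ x a * φ x b) z) =
        s l * (S.Ex (fun z _ => S.T l (fun _ x => φ x a * φ x b) z *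
            S.T l (fun _ x => φ x a * φ x b) z) -
          ∑ k ∈ Finset.Ico (l + 1) (S.K + 1), S.p k * S.Ex (fun z _ =>
            S.T l (fun _ x => φ x a * φ x b) z *
              S.T l (fun z _ => S.mg φ k a z * S.mg φ k b z) z) -
          S.m (l + 1) * S.Ex (fun z _ => (S.mg φ l a z * S.mg φ l b z) *
            S.T l (fun _ x => φ x a * φ x b) z)) := by
      intro a b
      have n1 : Nh (X := X) (fun z _ => S.T l (fun _ x => φ x a * φ x b) z *
            S.T l (fun _ x => φ x a * φ x b) z) := Nh.fst ((eA a b).mul (eA a b))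
      have n2 : ∀ k ∈ Finset.Ico (l + 1) (S.K + 1), Nh (X := X) (fun z _ => S.p k *
          (S.T l (fun _ x => φ x a * φ x b) z *
              S.T l (fun z _ => S.mg φ k a z * S.mg φ k b z) z)) := fun k hk' =>
        Nh.fst (EG.const_mul _ ((eA a b).mul (eB k hk' a b)))
      have n3 : Nh (X := X) (fun z _ => S.m (l + 1) * ((S.mg φ l a z * S.mg φ l b z) *
            S.T l (fun _ x => φ x a * φ x b) z)) :=
        Nh.fst (EG.const_mul _ (((eg_mg hS hl a).mul (eg_mg hS hl b)).mul (eA a b)))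
      have e1 : (fun (z : ι → ℝ) (_ : X) => d a b z * S.T l (fun _ x => φ x a * φ x b) z) =
          fun z _ => s l * ((S.T l (fun _ x => φ x a * φ x b) z *
            S.T l (fun _ x => φ x a * φ x b) z - ∑ k ∈ Finset.Ico (l + 1) (S.K + 1), S.p k *
          (S.T l (fun _ x => φ x a * φ x b) z *
              S.T l (fun z _ => S.mg φ k a z * S.mg φ k b z) z)) -
              S.m (l + 1) * ((S.mg φ l a z * S.mg φ l b z) *
            S.T l (fun _ x => φ x a * φ x b) z)) := by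
        funext z _
        simp only [hd]
        have e2 : ∑ k ∈ Finset.Ico (l + 1) (S.K + 1), S.p k *
          (S.T l (fun _ x => φ x a * φ x b) z *
              S.T l (fun z _ => S.mg φ k a z * S.mg φ k b z) z) =
            S.T l (fun _ x => φ x a * φ x b) z * ∑ k ∈ Finset.Ico (l + 1) (S.K + 1), S.p k *
              S.T l (fun z _ => S.mg φ k a z * S.mg φ k b z) z := by
          rw [Finset.mul_sum]
          refine Finset.sum_congr rfl fun k _ => ?_
          ring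
        rw [e2]
        ring
      rw [e1, Sy.Ex_const_mul, hS.Ex_sub (Nh.sub n1 (Nh.sum _ n2)) n3,
        hS.Ex_sub n1 (Nh.sum _ n2), hS.Ex_sum _ n2, Sy.Ex_const_mul]
      congr 3
      refine Finset.sum_congr rfl fun k _ => ?_
      rw [Sy.Ex_const_mul]
    rw [g1, g2, F.pairEx_Rov_sq hl, g4]
    simp_rw [g5]
    have g6 : ∑ i ∈ Finset.Ico (l + 1) (S.K + 1), S.p i * (1 / (N : ℝ) ^ 2 *
        S.Ex (fun z _ => ∑ a, ∑ b, S.T l (fun _ x => φ x a * φ x b) z *
          S.T l (fun z _ => S.mg φ i a z * S.mg φ i b z) z)) =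
        1 / (N : ℝ) ^ 2 * ∑ a, ∑ b, ∑ k ∈ Finset.Ico (l + 1) (S.K + 1), S.p k * S.Ex (fun z _ =>
            S.T l (fun _ x => φ x a * φ x b) z *
              S.T l (fun z _ => S.mg φ k a z * S.mg φ k b z) z) := by
      rw [Finset.sum_congr rfl fun k hk' => by rw [g3 k hk']]
      simp_rw [Finset.mul_sum]
      rw [Finset.sum_comm]
      refine Finset.sum_congr rfl fun a _ => ?_
      rw [Finset.sum_comm]
      refine Finset.sum_congr rfl fun b _ => Finset.sum_congr rfl fun k _ => ?_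
      ring
    rw [g6]
    simp_rw [mul_sub, Finset.sum_sub_distrib, ← Finset.mul_sum]
    ring
  rw [h2, F.Ex_uu hl] at h
  refine Eq.trans h ?_
  rw [← mul_add]
  congr 1
  have e5 : ∀ k, S.Ex (fun z x => uu S φ l z x * uu S φ k z x) =
      S.Ex (fun z x => (1 / N * ∑ a, S.mg φ l a z * φ x a) *
          (1 / N * ∑ a, S.mg φ k a z * φ x a)) := fun k => rfl
  simp only [e5]
  ring

/-- In (B), the averages over three replicas are at most the average over two replicas. -/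
theorem three_le_two {l i : ℕ} (hl : l ≤ i) (hi : i ≤ S.K) :
    1 / N ^ 2 * S.Ex (fun z _ => ∑ a, ∑ b,
      S.T l (fun _ x => φ x a * φ x b) z * S.T l (fun z _ => S.mg φ i a z * S.mg φ i b z) z) ≤
        S.pairEx l (fun x x' => Rov φ x x' ^ 2) := by
  have hS := F.hreg
  have hlK : l ≤ S.K := hl.trans hi
  rw [F.pairEx_Rov_sq hlK]
  refine mul_le_mul_of_nonneg_left ?_ (by positivity)
  have na : ∀ a, Nh (ι := ι) (fun (_ : ι → ℝ) (x : X) => φ x a) := fun a => Nh.snd fun x => φ x a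
  have nab : ∀ a b, Nh (ι := ι) (fun (_ : ι → ℝ) (x : X) => φ x a * φ x b) := fun a b =>
    Nh.snd fun x => φ x a * φ x b
  have em : ∀ a, EG (S.mg φ i a) := fun a => eg_mg hS hi a
  have emm : ∀ a b, EG (fun z => S.mg φ i a z * S.mg φ i b z) := fun a b => (em a).mul (em b)
  have eA : ∀ a b, EG (S.T l (fun _ x => φ x a * φ x b)) := fun a b => hS.eg_T hlK (nab a b)
  have eB : ∀ a b, EG (S.T l (fun z _ => S.mg φ i a z * S.mg φ i b z)) := fun a b =>
    hS.eg_T hlK (Nh.fst (emm a b))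
  refine hS.Ex_mono (Nh.sum _ fun a _ => Nh.sum _ fun b _ => Nh.fst ((eA a b).mul (eB a b)))
    (Nh.sum _ fun a _ => Nh.sum _ fun b _ => Nh.fst ((eA a b).mul (eA a b))) fun z _ => ?_
  rw [← sub_nonneg, ← Finset.sum_sub_distrib]
  simp_rw [← Finset.sum_sub_distrib, ← mul_sub]
  -- the conditional covariance
  have nd : ∀ a, Nh (fun (z : ι → ℝ) (x : X) => φ x a - S.mg φ i a z) := fun a =>
    Nh.sub (na a) (Nh.fst (em a))
  have e1 : ∀ a b, S.T l (fun _ x => φ x a * φ x b) z -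
      S.T l (fun z _ => S.mg φ i a z * S.mg φ i b z) z =
      S.T l (fun z x => (φ x a - S.mg φ i a z) * (φ x b - S.mg φ i b z)) z := by
    intro a b
    have t1 : ∀ a b, S.T l (fun z x => S.mg φ i a z * φ x b) z =
        S.T l (fun z _ => S.mg φ i a z * S.mg φ i b z) z := by
      intro a b
      rw [← hS.T_T hl hi (Nh.mul (Nh.fst (em a)) (na b))]
      congr 1
      funext z' _
      rw [T_mul_left S (dep_mg S φ i a)]
      rfl
    have e2 : (fun (z : ι → ℝ) (x : X) => (φ x a - S.mg φ i a z) * (φ x b - S.mg φ i b z)) =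
        fun z x => ((φ x a * φ x b - S.mg φ i a z * φ x b) - S.mg φ i b z * φ x a) +
          S.mg φ i a z * S.mg φ i b z := by
      funext z x
      ring
    have n1 := Nh.mul (Nh.fst (em a)) (na b)
    have n2 := Nh.mul (Nh.fst (em b)) (na a)
    rw [e2, hS.T_add hlK (Nh.sub (Nh.sub (nab a b) n1) n2) (Nh.fst (emm a b)),
      hS.T_sub hlK (Nh.sub (nab a b) n1) n2, hS.T_sub hlK (nab a b) n1, t1, t1]
    have e3 : (fun (z : ι → ℝ) (_ : X) => S.mg φ i b z * S.mg φ i a z) =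
        fun z _ => S.mg φ i a z * S.mg φ i b z := by
      funext z _
      exact mul_comm _ _
    rw [e3]
    ring
  simp_rw [e1]
  have e4 : ∑ a, ∑ b, S.T l (fun _ x => φ x a * φ x b) z *
      S.T l (fun z x => (φ x a - S.mg φ i a z) * (φ x b - S.mg φ i b z)) z =
      ∑ x, S.pr l z x * S.T l (fun z y => (∑ a, φ x a * (φ y a - S.mg φ i a z)) ^ 2) z := by
    have e5 : ∀ x, S.T l (fun z y => (∑ a, φ x a * (φ y a - S.mg φ i a z)) ^ 2) z =
        ∑ a, ∑ b, (φ x a * φ x b) *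
          S.T l (fun z x => (φ x a - S.mg φ i a z) * (φ x b - S.mg φ i b z)) z := by
      intro x
      have e6 : (fun (z : ι → ℝ) (y : X) => (∑ a, φ x a * (φ y a - S.mg φ i a z)) ^ 2) =
          fun z y => ∑ a, ∑ b, (φ x a * φ x b) *
            ((fun (z : ι → ℝ) (x : X) => (φ x a - S.mg φ i a z) * (φ x b - S.mg φ i b z)) z y) := by
        funext z y
        rw [sq, Finset.sum_mul_sum]
        refine Finset.sum_congr rfl fun a _ => Finset.sum_congr rfl fun b _ => ?_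
        ring
      rw [e6, hS.T_sum hlK _ fun a _ => Nh.sum _ fun b _ =>
        Nh.const_mul _ (Nh.mul (nd a) (nd b))]
      refine Finset.sum_congr rfl fun a _ => ?_
      rw [hS.T_sum hlK _ fun b _ => Nh.const_mul _ (Nh.mul (nd a) (nd b))]
      refine Finset.sum_congr rfl fun b _ => ?_
      rw [Sy.T_const_mul]
    simp_rw [e5, Finset.mul_sum]
    rw [Finset.sum_comm]
    rw [Finset.sum_comm (s := (Finset.univ : Finset X))]
    rw [Finset.sum_comm]
    refine Finset.sum_congr rfl fun a _ => ?_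
    rw [Finset.sum_comm (s := (Finset.univ : Finset X))]
    refine Finset.sum_congr rfl fun b _ => ?_
    rw [hS.T_pr hlK (fun x => φ x a * φ x b), Finset.sum_mul]
    refine Finset.sum_congr rfl fun x _ => ?_
    ring
  rw [e4]
  refine Finset.sum_nonneg fun x _ => mul_nonneg (hS.pr_nonneg hlK z x) ?_
  have h0 := hS.T_mono hlK (f := fun _ _ => (0 : ℝ))
    (g := fun z y => (∑ a, φ x a * (φ y a - S.mg φ i a z)) ^ 2) (Nh.snd fun _ => 0)
    (Nh.pow (Nh.sum _ fun a _ => Nh.const_mul _ (nd a)) 2) (fun z y => sq_nonneg _) z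
  rwa [hS.T_const hlK] at h0

lemma uu_eq {l : ℕ} (hl : l ≤ S.K) (z : ι → ℝ) (x : X) :
    uu S φ l z x = ∑ x', S.pr l z x' * Rov φ x' x := by
  have hS := F.hreg
  simp_rw [uu, mg_eq hS hl, Rov, Finset.sum_mul]
  rw [Finset.sum_comm, Finset.mul_sum]
  refine Finset.sum_congr rfl fun x' _ => ?_
  rw [Finset.mul_sum, Finset.mul_sum, Finset.mul_sum]
  refine Finset.sum_congr rfl fun a _ => ?_
  ring

lemma abs_uu_le {l : ℕ} (hl : l ≤ S.K) (z : ι → ℝ) (x : X) : |uu S φ l z x| ≤ 1 := by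
  have hS := F.hreg
  rw [F.uu_eq hl]
  refine (Finset.abs_sum_le_sum_abs _ _).trans ?_
  rw [← hS.sum_pr hl z]
  refine Finset.sum_le_sum fun x' _ => ?_
  rw [abs_mul, abs_of_nonneg (hS.pr_nonneg hl z x')]
  exact mul_le_of_le_one_right (hS.pr_nonneg hl z x') (F.abs_Rov_le x' x)

lemma nh_hz (j : ℕ) : Nh (hz φ zc j) := by
  exact Nh.const_mul _ (Nh.sum _ fun i _ => Nh.mul (Nh.fst (EG.coord (zc j i)))
    (Nh.snd fun x => φ x i))

/-- a concentrated field is almost uncorrelated with bounded observables -/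
lemma dev {j l : ℕ} (hl : l ≤ S.K) {ε c : ℝ}
    (hc : S.Ex (fun z x => |hz φ zc j z x - c|) ≤ ε) :
    |S.Ex (fun z x => hz φ zc j z x * uu S φ l z x) - S.Ex (hz φ zc j) * S.Rl φ l| ≤ 2 * ε := by
  have hS := F.hreg
  have nh := F.nh_hz j
  have nu := nh_uu (φ := φ) hS hl
  have nc : ∀ c : ℝ, Nh (ι := ι) (X := X) (fun _ _ => c) := fun c => Nh.fst (EG.const c)
  have n1 : Nh (fun z x => hz φ zc j z x - c) := Nh.sub nh (nc c)
  have n2 : Nh (fun z x => uu S φ l z x - S.Rl φ l) := Nh.sub nu (nc _)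
  have e : S.Ex (fun z x => hz φ zc j z x * uu S φ l z x) - S.Ex (hz φ zc j) * S.Rl φ l =
      S.Ex (fun z x => (hz φ zc j z x - c) * (uu S φ l z x - S.Rl φ l)) := by
    have e1 : (fun z x => (hz φ zc j z x - c) * (uu S φ l z x - S.Rl φ l)) =
        fun z x => (hz φ zc j z x * uu S φ l z x - S.Rl φ l * hz φ zc j z x) -
          c * (uu S φ l z x - S.Rl φ l) := by
      funext z x
      ring
    rw [e1, hS.Ex_sub (Nh.sub (Nh.mul nh nu) (Nh.const_mul _ nh)) (Nh.const_mul _ n2),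
      hS.Ex_sub (Nh.mul nh nu) (Nh.const_mul _ nh), Sy.Ex_const_mul, Sy.Ex_const_mul,
      hS.Ex_sub nu (nc _), hS.Ex_const, F.Ex_uu hl, sub_self, mul_zero, sub_zero, mul_comm]
  rw [e]
  refine (hS.abs_Ex_le (Nh.mul n1 n2)).trans ?_
  have h2 : S.Ex (fun z x => |(hz φ zc j z x - c) * (uu S φ l z x - S.Rl φ l)|) ≤
      S.Ex (fun z x => 2 * |hz φ zc j z x - c|) := by
    refine hS.Ex_mono (Nh.abs (Nh.mul n1 n2)) (Nh.const_mul _ (Nh.abs n1)) fun z x => ?_
    rw [abs_mul, mul_comm]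
    refine mul_le_mul_of_nonneg_right ?_ (abs_nonneg _)
    have h3 := abs_le.mp (F.abs_uu_le hl z x)
    have h4 := F.Rl_nonneg hl
    have h5 := F.Rl_le_one hl
    rw [abs_le]
    constructor <;> linarith [h3.1, h3.2]
  refine h2.trans ?_
  rw [Sy.Ex_const_mul]
  linarith only [hc]

/-- **Synchronization.** -/
theorem sync {ε σ π : ℝ} (hε : 0 ≤ ε) (hσ : 0 < σ) (hs : ∀ l ≤ S.K, σ ≤ s l) (hπ : 0 < π)
    (hp : ∀ l ≤ S.K, π ≤ S.p l) (hc : ∀ l ≤ S.K, ∃ c, S.Ex (fun z x => |hz φ zc l z x - c|) ≤ ε)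
    {l : ℕ} (hl : l < S.K) :
    S.pairEx l (fun x x' => (Rov φ x x' - S.Rl φ l) ^ 2) ≤
      2 * (S.Rl φ (l + 1) - S.Rl φ l) + 20 * ε / (σ * π) := by
  have hS := F.hreg
  have hN := F.N_pos
  have hlK := hl.le
  set R : ℕ → ℝ := fun k => S.Rl φ k with hR
  set W : ℕ → ℝ := fun k => S.Ex (fun z x => uu S φ l z x * uu S φ k z x) with hW
  set G : ℕ → ℝ := fun k => W k - R l * R k with hG
  set A : ℕ → ℝ := fun j => ∑ k ∈ Finset.Ico j (S.K + 1), S.p k * G k with hA
  have hδ : 0 ≤ 2 * ε / σ := by positivity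
  -- consequences of (A)
  have cA : ∀ j, l < j → j ≤ S.K + 1 → |A j| ≤ 2 * ε / σ := by
    intro j hlj hj
    rcases Nat.lt_or_ge j (S.K + 1) with hj' | hj'
    · have hjK : j ≤ S.K := by omega
      obtain ⟨c, hc'⟩ := hc j hjK
      have h1 := F.dev (j := j) hlK hc'
      have h2 := F.ident_A hlj hjK
      have h3 := F.Ex_hz hjK
      have e1 : S.Ex (fun z x => hz φ zc j z x * uu S φ l z x) - S.Ex (hz φ zc j) * S.Rl φ l =
          - (s j * A j) := by
        have e2 : S.Ex (fun z x => hz φ zc j z x * uu S φ l z x) =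
            s j * (R l - ∑ i ∈ Finset.Ico j (S.K + 1), S.p i * W i) := h2
        rw [e2, h3]
        have e3 : A j = ∑ i ∈ Finset.Ico j (S.K + 1), S.p i * W i -
            R l * ∑ i ∈ Finset.Ico j (S.K + 1), S.p i * R i := by
          simp only [hA, hG]
          rw [Finset.mul_sum, ← Finset.sum_sub_distrib]
          refine Finset.sum_congr rfl fun i _ => ?_
          ring
        rw [e3]
        simp only [hR]
        ring
      rw [e1, abs_neg, abs_mul, abs_of_nonneg (F.pos j hjK)] at h1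
      rw [le_div_iff₀ hσ]
      have h4 := mul_le_mul_of_nonneg_left (hs j hjK) (abs_nonneg (A j))
      rw [mul_comm (|A j|) (s j)] at h4
      exact h4.trans h1
    · have : A j = 0 := by
        simp only [hA]
        rw [Finset.Ico_eq_empty (by omega), Finset.sum_empty]
      rw [this, abs_zero]
      exact hδ
  -- the covariance with the next level
  have hG1 : G (l + 1) ≤ 4 * ε / (σ * π) := by
    have e1 : A (l + 1) = S.p (l + 1) * G (l + 1) + A (l + 1 + 1) := by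
      simp only [hA]
      rw [Finset.sum_eq_sum_Ico_succ_bot (by omega : l + 1 < S.K + 1)]
    have h1 := abs_le.mp (cA (l + 1) (by omega) (by omega))
    have h2 := abs_le.mp (cA (l + 1 + 1) (by omega) (by omega))
    have h3 := hp (l + 1) (by omega)
    have h4 : S.p (l + 1) * G (l + 1) ≤ 4 * ε / σ := by
      have : 4 * ε / σ = 2 * ε / σ + 2 * ε / σ := by ring
      rw [this]
      linarith only [e1, h1.2, h2.1]
    by_cases hg : G (l + 1) ≤ 0
    · exact hg.trans (by positivity)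
    · push Not at hg
      rw [← div_div, le_div_iff₀ hπ]
      have h5 := mul_le_mul_of_nonneg_left h3 hg.le
      rw [mul_comm (G (l + 1)) (S.p (l + 1))] at h5
      exact h5.trans h4
  -- the variance of `u_l`
  have nu := nh_uu (φ := φ) hS hlK
  have nu' := nh_uu (φ := φ) hS (show l + 1 ≤ S.K from hl)
  have nc : ∀ c : ℝ, Nh (ι := ι) (X := X) (fun _ _ => c) := fun c => Nh.fst (EG.const c)
  set V : ℝ := W l - R l * R l with hV
  have hV1 : S.Ex (fun z x => (uu S φ l z x - R l) ^ 2) = V := by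
    have e1 : (fun z x => (uu S φ l z x - R l) ^ 2) =
        fun z x => (uu S φ l z x * uu S φ l z x - 2 * R l * uu S φ l z x) + R l ^ 2 := by
      funext z x
      ring
    rw [e1, hS.Ex_add (Nh.sub (Nh.mul nu nu) (Nh.const_mul _ nu)) (nc _),
      hS.Ex_sub (Nh.mul nu nu) (Nh.const_mul _ nu), Sy.Ex_const_mul, hS.Ex_const, F.Ex_uu hlK]
    simp only [hV, hR, hW]
    ring
  have hV0 : 0 ≤ V := by
    rw [← hV1, ← hS.Ex_const 0]
    exact hS.Ex_mono (nc 0) (Nh.pow (Nh.sub nu (nc _)) 2) fun z x => sq_nonneg _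
  have hdif : S.Ex (fun z x => (uu S φ l z x - uu S φ (l + 1) z x) ^ 2) ≤ R (l + 1) - R l := by
    rw [← F.Rl_sub hl, ← Sy.Ex_const_mul]
    refine hS.Ex_mono (Nh.pow (Nh.sub nu nu') 2) (Nh.fst (EG.const_mul _ (EG.sum _ fun i _ =>
      ((eg_mg hS (show l + 1 ≤ S.K from hl) i).sub (eg_mg hS hlK i)).pow 2))) fun z x => ?_
    have e1 : uu S φ l z x - uu S φ (l + 1) z x =
        -(1 / N * ∑ a, (S.mg φ (l + 1) a z - S.mg φ l a z) * φ x a) := by
      simp_rw [uu, sub_mul]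
      rw [Finset.sum_sub_distrib]
      ring
    rw [e1, neg_sq, mul_pow]
    have h1 := Finset.sum_mul_sq_le_sq_mul_sq Finset.univ
      (fun a => S.mg φ (l + 1) a z - S.mg φ l a z) (φ x)
    rw [F.norm] at h1
    calc (1 / (N : ℝ)) ^ 2 * (∑ a, (S.mg φ (l + 1) a z - S.mg φ l a z) * φ x a) ^ 2
        ≤ (1 / (N : ℝ)) ^ 2 * ((∑ a, (S.mg φ (l + 1) a z - S.mg φ l a z) ^ 2) * N) :=
          mul_le_mul_of_nonneg_left h1 (by positivity)
      _ = 1 / N * ∑ i, (S.mg φ (l + 1) i z - S.mg φ l i z) ^ 2 := by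
          field_simp
  have hV2 : V ≤ (R (l + 1) - R l) + 2 * G (l + 1) := by
    have e1 : V - G (l + 1) =
        S.Ex (fun z x => (uu S φ l z x - R l) * (uu S φ l z x - uu S φ (l + 1) z x)) := by
      have e2 : (fun z x => (uu S φ l z x - R l) * (uu S φ l z x - uu S φ (l + 1) z x)) =
          fun z x => (uu S φ l z x * uu S φ l z x - uu S φ l z x * uu S φ (l + 1) z x) -
            (R l * uu S φ l z x - R l * uu S φ (l + 1) z x) := by
        funext z x
        ring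
      rw [e2, hS.Ex_sub (Nh.sub (Nh.mul nu nu) (Nh.mul nu nu'))
        (Nh.sub (Nh.const_mul _ nu) (Nh.const_mul _ nu')), hS.Ex_sub (Nh.mul nu nu) (Nh.mul nu nu'),
        hS.Ex_sub (Nh.const_mul _ nu) (Nh.const_mul _ nu'), Sy.Ex_const_mul, Sy.Ex_const_mul,
        F.Ex_uu hlK, F.Ex_uu (show l + 1 ≤ S.K from hl)]
      simp only [hV, hG, hR, hW]
      ring
    have h1 : S.Ex (fun z x => (uu S φ l z x - R l) * (uu S φ l z x - uu S φ (l + 1) z x)) ≤
        S.Ex (fun z x => 1 / 2 * (uu S φ l z x - R l) ^ 2 +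
          1 / 2 * (uu S φ l z x - uu S φ (l + 1) z x) ^ 2) := by
      refine hS.Ex_mono (Nh.mul (Nh.sub nu (nc _)) (Nh.sub nu nu'))
        (Nh.add (Nh.const_mul _ (Nh.pow (Nh.sub nu (nc _)) 2))
          (Nh.const_mul _ (Nh.pow (Nh.sub nu nu') 2))) fun z x => ?_
      have := two_mul_le_add_sq (uu S φ l z x - R l) (uu S φ l z x - uu S φ (l + 1) z x)
      linarith only [this]
    rw [hS.Ex_add (Nh.const_mul _ (Nh.pow (Nh.sub nu (nc _)) 2))
      (Nh.const_mul _ (Nh.pow (Nh.sub nu nu') 2)), Sy.Ex_const_mul, Sy.Ex_const_mul, hV1] at h1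
    linarith
  -- (B)
  set Q : ℝ := S.pairEx l (fun x x' => Rov φ x x' ^ 2) with hQ
  set a : ℕ → ℝ := fun i => 1 / (N : ℝ) ^ 2 * S.Ex (fun z _ => ∑ a, ∑ b,
          S.T l (fun _ x => φ x a * φ x b) z * S.T l (fun z _ => S.mg φ i a z * S.mg φ i b z) z)
    with ha
  have hQ0 : 0 ≤ Q := hS.pairEx_nonneg hlK fun x x' => sq_nonneg _
  have hp0 : ∀ i ≤ S.K, 0 ≤ S.p i := fun i hi => by
    rw [Sy.p]
    linarith [hS.mono i hi]
  have hsum : ∑ i ∈ Finset.Ico (l + 1) (S.K + 1), S.p i = 1 - S.m (l + 1) := by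
    have h1 : ∀ n, l + 1 ≤ n → ∑ i ∈ Finset.Ico (l + 1) n, S.p i = S.m n - S.m (l + 1) := by
      intro n hn
      induction n, hn using Nat.le_induction with
      | base => simp
      | succ n hn ih =>
        rw [Finset.sum_Ico_succ_top hn, ih, Sy.p]
        ring
    rw [h1 _ (by omega), hS.mK]
  have ha1 : ∑ i ∈ Finset.Ico (l + 1) (S.K + 1), S.p i * a i ≤ Q * (1 - S.m (l + 1)) := by
    rw [← hsum, Finset.mul_sum]
    refine Finset.sum_le_sum fun i hi => ?_
    rw [Finset.mem_Ico] at hi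
    rw [mul_comm Q]
    exact mul_le_mul_of_nonneg_left (F.three_le_two (by omega) (by omega)) (hp0 i (by omega))
  have hB : Q - ∑ i ∈ Finset.Ico (l + 1) (S.K + 1), S.p i * a i - S.m (l + 1) * W l - A l ≤
      2 * ε / σ := by
    obtain ⟨c, hc'⟩ := hc l hlK
    have h1 := F.dev (j := l) hlK hc'
    have h2 := F.ident_B hlK
    have h3 := F.Ex_hz hlK
    have e1 : S.Ex (fun z x => hz φ zc l z x * uu S φ l z x) - S.Ex (hz φ zc l) * S.Rl φ l =
        s l * (Q - ∑ i ∈ Finset.Ico (l + 1) (S.K + 1), S.p i * a i - S.m (l + 1) * W l - A l) := by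
      have e0 : W l = S.Ex (fun z x => (1 / N * ∑ a, S.mg φ l a z * φ x a) ^ 2) := by
        simp only [hW]
        congr 1
        funext z x
        rw [sq]
        rfl
      have e2 : S.Ex (fun z x => hz φ zc l z x * uu S φ l z x) =
          s l * (Q - ∑ i ∈ Finset.Ico (l + 1) (S.K + 1), S.p i * a i - S.m (l + 1) * W l + R l -
            ∑ i ∈ Finset.Ico l (S.K + 1), S.p i * W i) := by
        rw [e0]
        exact h2
      rw [e2, h3]
      have e3 : A l = ∑ i ∈ Finset.Ico l (S.K + 1), S.p i * W i -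
          R l * ∑ i ∈ Finset.Ico l (S.K + 1), S.p i * R i := by
        simp only [hA, hG]
        rw [Finset.mul_sum, ← Finset.sum_sub_distrib]
        refine Finset.sum_congr rfl fun i _ => ?_
        ring
      rw [e3]
      simp only [hR]
      ring
    rw [e1] at h1
    have h5 := (abs_le.mp h1).2
    rw [le_div_iff₀ hσ]
    clear_value A W a Q
    by_cases hx : Q - ∑ i ∈ Finset.Ico (l + 1) (S.K + 1), S.p i * a i - S.m (l + 1) * W l - A l ≤ 0
    · exact (mul_nonpos_of_nonpos_of_nonneg hx hσ.le).trans (by linarith only [hε])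
    · push Not at hx
      have h4 := mul_le_mul_of_nonneg_left (hs l hlK) hx.le
      rw [mul_comm _ (s l)] at h4
      exact h4.trans h5
  have hAl : A l = S.p l * V + A (l + 1) := by
    simp only [hA, hV]
    rw [Finset.sum_eq_sum_Ico_succ_bot (by omega : l < S.K + 1)]
  have hA1 := (abs_le.mp (cA (l + 1) (by omega) (by omega))).2
  have hm0 : 0 ≤ S.m l := by
    rcases Nat.eq_zero_or_pos l with h0 | h0
    · rw [h0, hS.m0]
    · exact (hS.m_pos h0 (by omega)).le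
  have hpl : S.p l ≤ S.m (l + 1) := by
    rw [Sy.p]
    linarith
  have hmπ : π ≤ S.m (l + 1) := (hp l hlK).trans hpl
  have hmain : S.m (l + 1) * (Q - R l * R l - 2 * V) ≤ 4 * ε / σ := by
    have e1 : 4 * ε / σ = 2 * ε / σ + 2 * ε / σ := by ring
    have e2 : W l = V + R l * R l := by simp only [hV]; ring
    rw [hAl, e2] at hB
    rw [e1]
    have h6 : S.p l * V ≤ S.m (l + 1) * V := mul_le_mul_of_nonneg_right hpl hV0
    have e3 : S.m (l + 1) * (V + R l * R l) = S.m (l + 1) * V + S.m (l + 1) * (R l * R l) :=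
      mul_add _ _ _
    have e4 : Q * (1 - S.m (l + 1)) = Q - S.m (l + 1) * Q := by ring
    have e5 : S.m (l + 1) * (Q - R l * R l - 2 * V) = S.m (l + 1) * Q -
        S.m (l + 1) * (R l * R l) - 2 * (S.m (l + 1) * V) := by ring
    rw [e3] at hB
    rw [e4] at ha1
    rw [e5]
    linarith only [ha1, hB, hA1, h6]
  have hfin : Q - R l * R l - 2 * V ≤ 4 * ε / (σ * π) := by
    by_cases hx : Q - R l * R l - 2 * V ≤ 0
    · exact hx.trans (by positivity)
    · push Not at hx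
      rw [← div_div, le_div_iff₀ hπ]
      have h5 := mul_le_mul_of_nonneg_left hmπ hx.le
      rw [mul_comm _ (S.m (l + 1))] at h5
      exact h5.trans hmain
  have hexp : S.pairEx l (fun x x' => (Rov φ x x' - S.Rl φ l) ^ 2) = Q - R l * R l := by
    have e1 : (fun x x' => (Rov φ x x' - S.Rl φ l) ^ 2) =
        fun x x' => Rov φ x x' ^ 2 + ((-(2 * R l)) * Rov φ x x' + R l * R l) := by
      funext x x'
      simp only [hR]
      ring
    rw [e1, hS.pairEx_add hlK (fun x x' => Rov φ x x' ^ 2)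
      (fun x x' => (-(2 * R l)) * Rov φ x x' + R l * R l),
      hS.pairEx_add hlK (fun x x' => (-(2 * R l)) * Rov φ x x') (fun _ _ => R l * R l),
      hS.pairEx_const_mul, hS.pairEx_const hlK]
    have e2 : S.pairEx l (fun x x' => Rov φ x x') = R l := (F.Rl_eq_pairEx hlK).symm
    rw [e2]
    simp only [hQ]
    ring
  rw [hexp]
  have e1 : 20 * ε / (σ * π) = 4 * ε / (σ * π) + 4 * (4 * ε / (σ * π)) := by ring
  rw [e1]
  simp only [hR] at hV2 hfin ⊢
  linarith only [hG1, hV2, hfin]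

end Fld
end Vale.Agent.P157.Lv
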