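import Vale.Agent.P157.LvIBP
import Vale.Agent.P157.ParUTens

/-!
The free energy of the fields alone, and of energies of the level zero.
-/

open MeasureTheory ProbabilityTheory Filter Topology

namespace Vale.Agent.P157.Lv

set_option linter.unusedSectionVars false

open Par (Path Exponents cascade gstep patternPart spinPart topN lw)

variable {ι X : Type} [Fintype ι] [DecidableEq ι] [Fintype X] [Nonempty X]
  {S : Sy ι X} {D : ι → (ι → ℝ) → X → ℝ}

/-- The coordinates at distinct places are independent standard Gaussian. -/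
lemma lf_map {N : ℕ} {c : Fin N → ι} (hc : Function.Injective c) :
    MeasurePreserving (fun (z : ι → ℝ) (i : Fin N) => z (c i)) (gI ι) (Par.gN N) := by
  have hm : Measurable (fun (z : ι → ℝ) (i : Fin N) => z (c i)) :=
    measurable_pi_iff.2 fun i => measurable_pi_apply (c i)
  refine ⟨hm, ?_⟩
  have h : iIndepFun (fun (i : ι) (z : ι → ℝ) => z i) (gI ι) :=
    iIndepFun_pi (μ := fun _ : ι => gaussianReal 0 1) (X := fun _ x => x) fun _ => aemeasurable_id
  have h2 : iIndepFun (fun (i : Fin N) (z : ι → ℝ) => z (c i)) (gI ι) := h.precomp hc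
  have h3 := (iIndepFun_iff_map_fun_eq_pi_map
    (fun i => (measurable_pi_apply (c i)).aemeasurable)).1 h2
  rw [h3]
  unfold Par.gN
  congr 1
  funext i
  exact (measurePreserving_eval (fun _ : ι => gaussianReal 0 1) (c i)).map_eq

/-- The field at the level `l`. -/
def lfY {N : ℕ} (zc : ℕ → Fin N → ι) (s : ℕ → ℝ) (l : ℕ) (z : ι → ℝ) : Fin N → ℝ :=
  fun i => ∑ j ∈ Finset.range (l + 1), s j * z (zc j i)

lemma lf_measurable_gstepN {N : ℕ} (m v : ℝ) {G : (Fin N → ℝ) → ℝ} (hG : Measurable G) :
    Measurable (Par.gstepN m v G) := by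
  unfold Par.gstepN
  have h : StronglyMeasurable (fun p : (Fin N → ℝ) × (Fin N → ℝ) =>
      Real.exp (m * G (p.1 + √v • p.2))) := by
    apply Measurable.stronglyMeasurable
    exact Real.measurable_exp.comp ((hG.comp
      (measurable_fst.add (measurable_snd.const_smul (√v)))).const_mul m)
  have h2 : StronglyMeasurable fun y : Fin N → ℝ =>
      ∫ z, Real.exp (m * G (y + √v • z)) ∂(Par.gN N) :=
    h.integral_prod_right' (ν := Par.gN N)
  exact (Real.measurable_log.comp h2.measurable).const_mul _

/-- The values of the recursion are the iterated steps of `topN`. -/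
lemma lf_key {N : ℕ} {φ : X → Fin N → ℝ} {u : X → ℝ} {zc : ℕ → Fin N → ι}
    (hz : ∀ l ≤ S.K, ∀ i, S.lev (zc l i) = l) (hi : ∀ l ≤ S.K, Function.Injective (zc l))
    {s : ℕ → ℝ} (hs : ∀ l ≤ S.K, 0 ≤ s l)
    (hH : ∀ z x, S.H z x = u x + ∑ l ∈ Finset.range (S.K + 1), s l * ∑ i, z (zc l i) * φ x i)
    {l : ℕ} (hl : l ≤ S.K) :
    ∃ G : (Fin N → ℝ) → ℝ, Measurable G ∧ (∀ z, S.lg l z = G (lfY zc s l z)) ∧
      topN S.m (fun l => ∑ j ∈ Finset.range (l + 1), s j ^ 2) S.K (lw φ 1 u) =
        topN S.m (fun l => ∑ j ∈ Finset.range (l + 1), s j ^ 2) l G := by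
  refine Sy.down_ind (P := fun l => ∃ G : (Fin N → ℝ) → ℝ, Measurable G ∧
      (∀ z, S.lg l z = G (lfY zc s l z)) ∧
      topN S.m (fun l => ∑ j ∈ Finset.range (l + 1), s j ^ 2) S.K (lw φ 1 u) =
        topN S.m (fun l => ∑ j ∈ Finset.range (l + 1), s j ^ 2) l G) ?_ ?_ l hl
  · refine ⟨lw φ 1 u, ?_, fun z => ?_, rfl⟩
    · unfold lw
      refine Real.measurable_log.comp (Finset.measurable_sum _ fun x _ => ?_)
      refine Real.measurable_exp.comp (measurable_const.add (Measurable.const_mul ?_ _))
      exact Finset.measurable_sum _ fun i _ => (measurable_pi_apply i).mul_const _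
    · rw [Sy.lg_top]
      unfold Sy.top lw
      congr 1
      refine Finset.sum_congr rfl fun x _ => ?_
      rw [hH]
      congr 2
      rw [one_mul]
      simp only [lfY, Finset.sum_mul, Finset.mul_sum]
      rw [Finset.sum_comm]
      refine Finset.sum_congr rfl fun i _ => Finset.sum_congr rfl fun j _ => ?_
      ring
  · rintro l hl ⟨G, hG, hG1, hG2⟩
    have hv : (∑ j ∈ Finset.range (l + 1 + 1), s j ^ 2) - ∑ j ∈ Finset.range (l + 1), s j ^ 2 =
        s (l + 1) ^ 2 := by
      rw [Finset.sum_range_succ _ (l + 1)]; ring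
    refine ⟨Par.gstepN (S.m (l + 1)) (s (l + 1) ^ 2) G, lf_measurable_gstepN _ _ hG,
      fun z => ?_, ?_⟩
    · rw [Sy.lg_step S hl]
      unfold Sy.stp Par.gstepN J
      congr 2
      rw [Real.sqrt_sq (hs _ (by omega)), ← (lf_map (hi (l + 1) (by omega))).map_eq,
        integral_map (lf_map (hi (l + 1) (by omega))).measurable.aemeasurable]
      · refine integral_congr_ae (Filter.Eventually.of_forall fun w => ?_)
        simp only
        rw [hG1]
        congr 3
        funext i
        simp only [lfY, Pi.add_apply, Pi.smul_apply, smul_eq_mul]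
        rw [Finset.sum_range_succ]
        congr 1
        · refine Finset.sum_congr rfl fun j hj => ?_
          have hj' : j < l + 1 := Finset.mem_range.1 hj
          simp only [mix]
          rw [if_pos (by rw [hz j (by omega)]; omega)]
        · simp only [mix]
          rw [if_neg (by rw [hz (l + 1) (by omega)]; omega)]
      · apply Measurable.aestronglyMeasurable
        exact Real.measurable_exp.comp ((hG.comp
          (measurable_const.add (measurable_id.const_smul (s (l + 1))))).const_mul _)
    · rw [hG2, Par.topN_succ_def, hv]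

/-- The free energy of the fields alone. Proof: downward induction, `lg l z` is the iterated
`gstepN` of `lw φ 1 u` at the point `∑_{j ≤ l} s_j z_j` (the coordinates `zc l i` of the level `l`
are independent standard Gaussian). -/
theorem fe_field {N : ℕ} (hS : S.RegD D) {φ : X → Fin N → ℝ} {u : X → ℝ} {zc : ℕ → Fin N → ι}
    (hz : ∀ l ≤ S.K, ∀ i, S.lev (zc l i) = l) (hi : ∀ l ≤ S.K, Function.Injective (zc l))
    {s : ℕ → ℝ} (hs : ∀ l ≤ S.K, 0 ≤ s l)
    (hH : ∀ z x, S.H z x = u x + ∑ l ∈ Finset.range (S.K + 1), s l * ∑ i, z (zc l i) * φ x i) :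
    S.fe = topN S.m (fun l => ∑ j ∈ Finset.range (l + 1), s j ^ 2) S.K (lw φ 1 u) := by
  obtain ⟨G, hG, hG1, hG2⟩ := lf_key hz hi hs hH (Nat.zero_le S.K)
  rw [hG2]
  unfold Sy.fe topN
  rw [show (∑ j ∈ Finset.range (0 + 1), s j ^ 2) = s 0 ^ 2 by simp,
    Real.sqrt_sq (hs 0 (Nat.zero_le _)), ← (lf_map (hi 0 (Nat.zero_le _))).map_eq,
    integral_map (lf_map (hi 0 (Nat.zero_le _))).measurable.aemeasurable]
  · refine integral_congr_ae (Filter.Eventually.of_forall fun z => ?_)
    simp only
    rw [hG1]
    congr 1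
    funext i
    simp [lfY]
  · apply Measurable.aestronglyMeasurable
    exact hG.comp (measurable_id.const_smul (s 0))

/-- If the energy depends only on the coordinates of level zero, the levels disappear. -/
theorem fe_level_zero (hS : S.Reg) (h : ∀ x, Dep S.lev 0 fun z => S.H z x) :
    S.fe = ∫ z, S.top z ∂(gI ι) := by
  have key : S.lg 0 = S.top := by
    refine Sy.down_ind (P := fun l => S.lg l = S.top) (Sy.lg_top S) (fun l hl ih => ?_) 0 (Nat.zero_le _)
    rw [Sy.lg_step S hl, ih]
    funext z
    have hd : Dep S.lev l (fun z => Real.exp (S.m (l + 1) * S.top z)) := by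
      intro z w
      simp only
      congr 2
      unfold Sy.top
      congr 1
      refine Finset.sum_congr rfl fun x _ => ?_
      exact congrArg Real.exp ((h x).mono (Nat.zero_le l) z w)
    have hm : S.m (l + 1) ≠ 0 := (hS.m_pos (by omega) (by omega)).ne'
    unfold Sy.stp
    rw [hd.J_eq, Real.log_exp]
    field_simp
  unfold Sy.fe
  rw [key]

end Vale.Agent.P157.Lv
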