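import Vale.Agent.P157.LvInt

/-!
The interpolation inequality.
-/

open MeasureTheory ProbabilityTheory Filter Topology

namespace Vale.Agent.P157.Lv

set_option linter.unusedSectionVars false

open Par (incr Path)

section unif

variable {ι X : Type} [Fintype ι] [Fintype X] [Nonempty X] {S : Sy ι X}

lemma li2_top {L : ℝ} (hL : ∀ x z z', |S.H z x - S.H z' x| ≤ L * ‖z - z'‖) (y y' : ι → ℝ) :
    |S.top y - S.top y'| ≤ L * ‖y - y'‖ := by
  have key : ∀ y y', S.top y - S.top y' ≤ L * ‖y - y'‖ := by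
    intro y y'
    refine Sy.lc_log_le (Sy.sum_exp_pos y) (Sy.sum_exp_pos y') ?_
    rw [Finset.mul_sum]
    refine Finset.sum_le_sum fun x _ => ?_
    rw [← Real.exp_add]
    apply Real.exp_le_exp.2
    have h1 := (abs_le.1 (hL x y y')).2
    linarith
  rw [abs_le]
  have h1 := key y y'
  have h2 := key y' y
  rw [norm_sub_rev] at h2
  exact ⟨by linarith, h1⟩

lemma li2_stp {F : (ι → ℝ) → ℝ} (hF : Lip F) {L : ℝ} (hL0 : 0 ≤ L)
    (hL : ∀ y y', |F y - F y'| ≤ L * ‖y - y'‖) {l : ℕ} (hm : 0 < S.m (l + 1)) (y y' : ι → ℝ) :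
    |S.stp l F y - S.stp l F y'| ≤ L * ‖y - y'‖ := by
  have heg := hF.exp_eg (S.m (l + 1))
  have hpos : ∀ z, 0 < J S.lev l (fun z => Real.exp (S.m (l + 1) * F z)) z :=
    fun z => J_pos heg (fun _ => Real.exp_pos _) z
  have key : ∀ y y', S.stp l F y - S.stp l F y' ≤ L * ‖y - y'‖ := by
    intro y y'
    have h1 : J S.lev l (fun z => Real.exp (S.m (l + 1) * F z)) y ≤
        Real.exp (S.m (l + 1) * (L * ‖y - y'‖)) *
          J S.lev l (fun z => Real.exp (S.m (l + 1) * F z)) y' := by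
      unfold J
      rw [← integral_const_mul]
      refine integral_mono (heg.mix y) ((heg.mix y').const_mul _) fun w => ?_
      simp only
      rw [← Real.exp_add]
      apply Real.exp_le_exp.2
      have h2 := (abs_le.1 (hL (mix S.lev l y w) (mix S.lev l y' w))).2
      have h3 : L * ‖mix S.lev l y w - mix S.lev l y' w‖ ≤ L * ‖y - y'‖ :=
        mul_le_mul_of_nonneg_left (Sy.lc_norm_mix _ _ _ _ _) hL0
      have h4 : F (mix S.lev l y w) ≤ L * ‖y - y'‖ + F (mix S.lev l y' w) := by linarith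
      calc S.m (l + 1) * F (mix S.lev l y w)
          ≤ S.m (l + 1) * (L * ‖y - y'‖ + F (mix S.lev l y' w)) :=
            mul_le_mul_of_nonneg_left h4 hm.le
        _ = _ := by ring
    have h5 := Sy.lc_log_le (hpos y) (hpos y') h1
    unfold Sy.stp
    rw [← mul_sub, one_div, inv_mul_le_iff₀ hm]
    exact h5
  rw [abs_le]
  have h1 := key y y'
  have h2 := key y' y
  rw [norm_sub_rev] at h2
  exact ⟨by linarith, h1⟩

lemma li2_lg (hS : S.Reg) {L : ℝ} (hL0 : 0 ≤ L)
    (hL : ∀ x z z', |S.H z x - S.H z' x| ≤ L * ‖z - z'‖) :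
    ∀ l ≤ S.K, ∀ y y', |S.lg l y - S.lg l y'| ≤ L * ‖y - y'‖ := by
  refine Sy.down_ind ?_ ?_
  · intro y y'
    rw [Sy.lg_top]
    exact li2_top hL y y'
  · intro l hl ih y y'
    rw [Sy.lg_step S hl]
    exact li2_stp (hS.lip_lg hl) hL0 ih (hS.m_pos (Nat.succ_le_succ (Nat.zero_le l)) (by omega)) y y'

omit [Fintype X] [Nonempty X] in
lemma li2_norm_mix (lev : ι → ℕ) (l : ℕ) (z w : ι → ℝ) : ‖z - mix lev l z w‖ ≤ ‖z‖ + ‖w‖ := by
  rw [pi_norm_le_iff_of_nonneg (by positivity)]
  intro i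
  rw [Pi.sub_apply]
  unfold mix
  split_ifs
  · rw [sub_self, norm_zero]; positivity
  · calc ‖z i - w i‖ ≤ ‖z i‖ + ‖w i‖ := norm_sub_le _ _
      _ ≤ ‖z‖ + ‖w‖ := add_le_add (norm_le_pi_norm z i) (norm_le_pi_norm w i)

/-- the constant of one level -/
noncomputable def li2c (ι : Type) [Fintype ι] (a : ℝ) : ℝ :=
  -Real.log (∫ w, Real.exp (-a * ‖w‖) ∂(gI ι))

lemma li2_diff (hS : S.Reg) {L : ℝ} (hL0 : 0 ≤ L)
    (hL : ∀ x z z', |S.H z x - S.H z' x| ≤ L * ‖z - z'‖) {l : ℕ} (hl : l < S.K) (z : ι → ℝ) :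
    S.m (l + 1) * (S.lg (l + 1) z - S.lg l z) ≤
      S.m (l + 1) * L * ‖z‖ + li2c ι (S.m (l + 1) * L) := by
  have hm : 0 < S.m (l + 1) := hS.m_pos (Nat.succ_le_succ (Nat.zero_le l)) (by omega)
  have h1 := hS.J_exp_lg hl z
  have hint : Integrable (fun w : ι → ℝ => Real.exp (-(S.m (l + 1) * L) * ‖w‖)) (gI ι) :=
    integrable_exp_norm _
  have hI : 0 < ∫ w, Real.exp (-(S.m (l + 1) * L) * ‖w‖) ∂(gI ι) :=
    integral_exp_pos hint
  have h2 : Real.exp (S.m (l + 1) * S.lg (l + 1) z - S.m (l + 1) * L * ‖z‖) *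
      ∫ w, Real.exp (-(S.m (l + 1) * L) * ‖w‖) ∂(gI ι) ≤ Real.exp (S.m (l + 1) * S.lg l z) := by
    rw [← h1]
    unfold J
    rw [← integral_const_mul]
    refine integral_mono (hint.const_mul _) (((hS.lip_lg hl).exp_eg _).mix z) fun w => ?_
    simp only
    rw [← Real.exp_add]
    apply Real.exp_le_exp.2
    have h3 := (abs_le.1 (li2_lg hS hL0 hL (l + 1) hl z (mix S.lev l z w))).2
    have h4 : L * ‖z - mix S.lev l z w‖ ≤ L * (‖z‖ + ‖w‖) :=
      mul_le_mul_of_nonneg_left (li2_norm_mix _ _ _ _) hL0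
    have h5 : S.lg (l + 1) z - L * (‖z‖ + ‖w‖) ≤ S.lg (l + 1) (mix S.lev l z w) := by linarith
    calc S.m (l + 1) * S.lg (l + 1) z - S.m (l + 1) * L * ‖z‖ + -(S.m (l + 1) * L) * ‖w‖
        = S.m (l + 1) * (S.lg (l + 1) z - L * (‖z‖ + ‖w‖)) := by ring
      _ ≤ _ := mul_le_mul_of_nonneg_left h5 hm.le
  have h6 := Real.log_le_log (mul_pos (Real.exp_pos _) hI) h2
  rw [Real.log_mul (Real.exp_pos _).ne' hI.ne', Real.log_exp, Real.log_exp] at h6
  unfold li2c
  linarith

end unif

variable {ι X : Type} [Fintype ι] [DecidableEq ι] [Fintype X] [DecidableEq X] [Nonempty X]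
  {S : Sy ι X} {D : ι → (ι → ℝ) → X → ℝ} {f f' f'' : ℝ → ℝ} {C₁ C₂ : ℝ} {α β : X → ι → ℝ}

/-- The densities grow at most exponentially, uniformly over the energies which are Lipschitz
with the same constant. -/
theorem dn_unif (S : Sy ι X) (hS : S.Reg) (L : ℝ) : ∃ C a : ℝ, 0 ≤ C ∧ 0 ≤ a ∧
    ∀ H' : (ι → ℝ) → X → ℝ, (S.wH H').Reg →
      (∀ x z z', |H' z x - H' z' x| ≤ L * ‖z - z'‖) → ∀ l ≤ S.K, ∀ z,
        (S.wH H').dn l z ≤ C * Real.exp (a * ‖z‖) := by
  have hm0 : ∀ i < S.K, 0 ≤ S.m (i + 1) := fun i hi =>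
    (hS.m_pos (Nat.succ_le_succ (Nat.zero_le i)) (by omega)).le
  refine ⟨Real.exp (∑ i ∈ Finset.range S.K, |li2c ι (S.m (i + 1) * |L|)|),
    ∑ i ∈ Finset.range S.K, S.m (i + 1) * |L|, (Real.exp_pos _).le,
    Finset.sum_nonneg fun i hi => mul_nonneg (hm0 i (Finset.mem_range.1 hi)) (abs_nonneg _), ?_⟩
  intro H' hR hL l hl z
  have hL' : ∀ x z z', |(S.wH H').H z x - (S.wH H').H z' x| ≤ |L| * ‖z - z'‖ := fun x z z' =>
    (hL x z z').trans (mul_le_mul_of_nonneg_right (le_abs_self L) (norm_nonneg _))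
  unfold Sy.dn
  rw [← Real.exp_add]
  apply Real.exp_le_exp.2
  have hK : (S.wH H').K = S.K := rfl
  have hmm : (S.wH H').m = S.m := rfl
  rw [hK, hmm]
  calc ∑ i ∈ Finset.Ico l S.K, S.m (i + 1) * ((S.wH H').lg (i + 1) z - (S.wH H').lg i z)
      ≤ ∑ i ∈ Finset.Ico l S.K, (S.m (i + 1) * |L| * ‖z‖ + |li2c ι (S.m (i + 1) * |L|)|) := by
        refine Finset.sum_le_sum fun i hi => ?_
        have hi' : i < S.K := (Finset.mem_Ico.1 hi).2
        have h1 := li2_diff hR (abs_nonneg L) hL' (l := i) hi' z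
        rw [hmm] at h1
        exact h1.trans (add_le_add_right (le_abs_self _) _)
    _ ≤ ∑ i ∈ Finset.range S.K, (S.m (i + 1) * |L| * ‖z‖ + |li2c ι (S.m (i + 1) * |L|)|) := by
        refine Finset.sum_le_sum_of_subset_of_nonneg ?_ ?_
        · intro i hi
          exact Finset.mem_range.2 (Finset.mem_Ico.1 hi).2
        · intro i hi _
          have := hm0 i (Finset.mem_range.1 hi)
          positivity
    _ = _ := by
        rw [Finset.sum_add_distrib, Finset.sum_mul, add_comm]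

section taylor

lemma li2_sin (a b : ℝ) : |Real.sin a - Real.sin b| ≤ |a - b| := by
  have := Real.lipschitzWith_sin.dist_le_mul a b
  simpa [Real.dist_eq] using this

lemma li2_cos (a b : ℝ) : |Real.cos a - Real.cos b| ≤ |a - b| := by
  have := Real.lipschitzWith_cos.dist_le_mul a b
  simpa [Real.dist_eq] using this

lemma li2_C1 (hf : Pot f f' f'' C₁ C₂) : 0 ≤ C₁ := (abs_nonneg _).trans (hf.b1 0)

lemma li2_C2 (hf : Pot f f' f'' C₁ C₂) : 0 ≤ C₂ := (abs_nonneg _).trans (hf.b2 0)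

/-- second order Taylor estimate along the rotation -/
lemma li2_taylor (hf : Pot f f' f'' C₁ C₂) {t t' A B r : ℝ} (htt : t ≤ t') (hAB : |A| + |B| ≤ r) :
    f (Real.sin t' * A + Real.cos t' * B) - f (Real.sin t * A + Real.cos t * B) ≤
      (t' - t) * (f' (Real.sin t' * A + Real.cos t' * B) * (Real.cos t' * A - Real.sin t' * B)) +
      (t' - t) ^ 2 * (C₂ * r ^ 2 + C₁ * r) := by
  have hr : 0 ≤ r := (by positivity : 0 ≤ |A| + |B|).trans hAB
  have hC1 := li2_C1 hf
  have hC2 := li2_C2 hf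
  rcases htt.eq_or_lt with h | h
  · subst h; simp
  · have hd : ∀ s, HasDerivAt (fun s => f (Real.sin s * A + Real.cos s * B))
        (f' (Real.sin s * A + Real.cos s * B) * (Real.cos s * A - Real.sin s * B)) s := by
      intro s
      have h1 : HasDerivAt (fun s => Real.sin s * A + Real.cos s * B)
          (Real.cos s * A - Real.sin s * B) s := by
        have h2 := ((Real.hasDerivAt_sin s).mul_const A).add ((Real.hasDerivAt_cos s).mul_const B)
        have h3 : Real.cos s * A - Real.sin s * B = Real.cos s * A + -Real.sin s * B := by ring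
        rw [h3]
        exact h2
      exact (hf.d1 _).comp s h1
    obtain ⟨ξ, hξ, hξ2⟩ := exists_hasDerivAt_eq_slope _ _ h
      (fun s _ => (hd s).continuousAt.continuousWithinAt) (fun s _ => hd s)
    rw [eq_div_iff (by linarith)] at hξ2
    rw [← hξ2]
    have hv : ∀ s, |Real.cos s * A - Real.sin s * B| ≤ r := by
      intro s
      calc |Real.cos s * A - Real.sin s * B| ≤ |Real.cos s * A| + |Real.sin s * B| := abs_sub _ _
        _ = |Real.cos s| * |A| + |Real.sin s| * |B| := by rw [abs_mul, abs_mul]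
        _ ≤ 1 * |A| + 1 * |B| := by
            gcongr
            · exact Real.abs_cos_le_one s
            · exact Real.abs_sin_le_one s
        _ ≤ r := by linarith
    have hξt : |ξ - t'| ≤ t' - t := by
      rw [abs_le]; constructor <;> linarith [hξ.1, hξ.2]
    have hu : |(Real.sin ξ * A + Real.cos ξ * B) - (Real.sin t' * A + Real.cos t' * B)| ≤
        (t' - t) * r := by
      calc |(Real.sin ξ * A + Real.cos ξ * B) - (Real.sin t' * A + Real.cos t' * B)|
          = |(Real.sin ξ - Real.sin t') * A + (Real.cos ξ - Real.cos t') * B| := by ring_nf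
        _ ≤ |(Real.sin ξ - Real.sin t') * A| + |(Real.cos ξ - Real.cos t') * B| := abs_add_le _ _
        _ = |Real.sin ξ - Real.sin t'| * |A| + |Real.cos ξ - Real.cos t'| * |B| := by
            rw [abs_mul, abs_mul]
        _ ≤ (t' - t) * |A| + (t' - t) * |B| := by
            gcongr
            · exact (li2_sin _ _).trans hξt
            · exact (li2_cos _ _).trans hξt
        _ ≤ (t' - t) * r := by
            rw [← mul_add]
            exact mul_le_mul_of_nonneg_left hAB (by linarith)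
    have hvv : |(Real.cos ξ * A - Real.sin ξ * B) - (Real.cos t' * A - Real.sin t' * B)| ≤
        (t' - t) * r := by
      calc |(Real.cos ξ * A - Real.sin ξ * B) - (Real.cos t' * A - Real.sin t' * B)|
          = |(Real.cos ξ - Real.cos t') * A - (Real.sin ξ - Real.sin t') * B| := by ring_nf
        _ ≤ |(Real.cos ξ - Real.cos t') * A| + |(Real.sin ξ - Real.sin t') * B| := abs_sub _ _
        _ = |Real.cos ξ - Real.cos t'| * |A| + |Real.sin ξ - Real.sin t'| * |B| := by
            rw [abs_mul, abs_mul]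
        _ ≤ (t' - t) * |A| + (t' - t) * |B| := by
            gcongr
            · exact (li2_cos _ _).trans hξt
            · exact (li2_sin _ _).trans hξt
        _ ≤ (t' - t) * r := by
            rw [← mul_add]
            exact mul_le_mul_of_nonneg_left hAB (by linarith)
    have hff := hf.lip' (Real.sin ξ * A + Real.cos ξ * B) (Real.sin t' * A + Real.cos t' * B)
    have key : |f' (Real.sin ξ * A + Real.cos ξ * B) * (Real.cos ξ * A - Real.sin ξ * B) -
        f' (Real.sin t' * A + Real.cos t' * B) * (Real.cos t' * A - Real.sin t' * B)| ≤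
        (t' - t) * (C₂ * r ^ 2 + C₁ * r) := by
      set p := f' (Real.sin ξ * A + Real.cos ξ * B)
      set q := f' (Real.sin t' * A + Real.cos t' * B)
      set v := Real.cos ξ * A - Real.sin ξ * B
      set v' := Real.cos t' * A - Real.sin t' * B
      have hq : |q| ≤ C₁ := hf.b1 _
      calc |p * v - q * v'| = |(p - q) * v + q * (v - v')| := by ring_nf
        _ ≤ |(p - q) * v| + |q * (v - v')| := abs_add_le _ _
        _ = |p - q| * |v| + |q| * |v - v'| := by rw [abs_mul, abs_mul]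
        _ ≤ (C₂ * ((t' - t) * r)) * r + C₁ * ((t' - t) * r) := by
            have htr : 0 ≤ (t' - t) * r := mul_nonneg (by linarith) hr
            have h1 : |p - q| ≤ C₂ * ((t' - t) * r) :=
              hff.trans (mul_le_mul_of_nonneg_left hu hC2)
            gcongr
            exact hv ξ
        _ = (t' - t) * (C₂ * r ^ 2 + C₁ * r) := by ring
    have := (abs_le.1 key).2
    nlinarith

end taylor

/-- total size of the coefficients -/
def li2R (α β : X → ι → ℝ) : ℝ := ∑ x, ∑ e, (|α x e| + |β x e|)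

lemma li2_lin (a : ι → ℝ) (z : ι → ℝ) : |lin a z| ≤ (∑ e, |a e|) * ‖z‖ := by
  unfold lin
  refine (Finset.abs_sum_le_sum_abs _ _).trans ?_
  rw [Finset.sum_mul]
  refine Finset.sum_le_sum fun e _ => ?_
  rw [abs_mul]
  exact mul_le_mul_of_nonneg_left (norm_le_pi_norm z e) (abs_nonneg _)

lemma li2_lin_sub (a : ι → ℝ) (z z' : ι → ℝ) : lin a z - lin a z' = lin a (z - z') := by
  unfold lin
  rw [← Finset.sum_sub_distrib]
  exact Finset.sum_congr rfl fun e _ => by rw [Pi.sub_apply]; ring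

lemma li2_R (α β : X → ι → ℝ) (x : X) (z : ι → ℝ) :
    |lin (α x) z| + |lin (β x) z| ≤ li2R α β * ‖z‖ := by
  have h1 := li2_lin (α x) z
  have h2 := li2_lin (β x) z
  have h3 : (∑ e, |α x e|) + ∑ e, |β x e| ≤ li2R α β := by
    rw [← Finset.sum_add_distrib]
    exact Finset.single_le_sum (f := fun x => ∑ e, (|α x e| + |β x e|))
      (fun x _ => Finset.sum_nonneg fun e _ => by positivity) (Finset.mem_univ x)
  calc |lin (α x) z| + |lin (β x) z| ≤ ((∑ e, |α x e|) + ∑ e, |β x e|) * ‖z‖ := by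
        rw [add_mul]; exact add_le_add h1 h2
    _ ≤ _ := mul_le_mul_of_nonneg_right h3 (norm_nonneg _)

lemma li2_R0 (α β : X → ι → ℝ) : 0 ≤ li2R α β :=
  Finset.sum_nonneg fun x _ => Finset.sum_nonneg fun e _ => by positivity

lemma li2_eg_norm : EG (fun z : ι → ℝ => ‖z‖) :=
  (show Lip (fun z : ι → ℝ => ‖z‖) from
    ⟨1, zero_le_one, fun y y' => by rw [one_mul]; exact abs_norm_sub_norm_le y y'⟩).eg

lemma li2_eg_lin (a : ι → ℝ) : EG (fun z : ι → ℝ => lin a z) := by
  unfold lin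
  exact EG.sum _ fun e _ => (EG.coord e).const_mul (a e)

/-- uniform Lipschitz constant of the interpolated energies -/
lemma li2_itlip (hS : S.RegD D) (hf : Pot f f' f'' C₁ C₂) (α β : X → ι → ℝ) :
    ∃ L : ℝ, ∀ θ x z z', |it S.H f α β θ z x - it S.H f α β θ z' x| ≤ L * ‖z - z'‖ := by
  choose L hL0 hL using hS.lip
  refine ⟨∑ x, L x + C₁ * li2R α β, fun θ x z z' => ?_⟩
  have hC1 := li2_C1 hf
  have h1 := hL x z z'
  have h2 : L x ≤ ∑ x, L x := Finset.single_le_sum (fun x _ => hL0 x) (Finset.mem_univ x)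
  have h3 := hf.lip (itU α β θ z x) (itU α β θ z' x)
  have h4 : |itU α β θ z x - itU α β θ z' x| ≤ li2R α β * ‖z - z'‖ := by
    have e1 : itU α β θ z x - itU α β θ z' x =
        Real.sin θ * lin (α x) (z - z') + Real.cos θ * lin (β x) (z - z') := by
      unfold itU
      rw [← li2_lin_sub, ← li2_lin_sub]
      ring
    rw [e1]
    calc |Real.sin θ * lin (α x) (z - z') + Real.cos θ * lin (β x) (z - z')|
        ≤ |Real.sin θ * lin (α x) (z - z')| + |Real.cos θ * lin (β x) (z - z')| := abs_add_le _ _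
      _ = |Real.sin θ| * |lin (α x) (z - z')| + |Real.cos θ| * |lin (β x) (z - z')| := by
          rw [abs_mul, abs_mul]
      _ ≤ 1 * |lin (α x) (z - z')| + 1 * |lin (β x) (z - z')| := by
          gcongr
          · exact Real.abs_sin_le_one θ
          · exact Real.abs_cos_le_one θ
      _ ≤ _ := by rw [one_mul, one_mul]; exact li2_R α β x (z - z')
  unfold it
  calc |S.H z x + f (itU α β θ z x) - (S.H z' x + f (itU α β θ z' x))|
      = |(S.H z x - S.H z' x) + (f (itU α β θ z x) - f (itU α β θ z' x))| := by ring_nf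
    _ ≤ |S.H z x - S.H z' x| + |f (itU α β θ z x) - f (itU α β θ z' x)| := abs_add_le _ _
    _ ≤ (∑ x, L x) * ‖z - z'‖ + C₁ * (li2R α β * ‖z - z'‖) := by
        refine add_le_add ?_ (h3.trans (mul_le_mul_of_nonneg_left h4 hC1))
        exact h1.trans (mul_le_mul_of_nonneg_right h2 (norm_nonneg _))
    _ = _ := by ring

/-- the quadratic remainder -/
noncomputable def li2M (C₁ C₂ : ℝ) (α β : X → ι → ℝ) (z : ι → ℝ) : ℝ :=
  C₂ * (li2R α β * ‖z‖) ^ 2 + C₁ * (li2R α β * ‖z‖)

lemma li2_eg_M (C₁ C₂ : ℝ) (α β : X → ι → ℝ) : EG (li2M C₁ C₂ α β) :=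
  (((li2_eg_norm.const_mul (li2R α β)).pow 2).const_mul C₂).add
    ((li2_eg_norm.const_mul (li2R α β)).const_mul C₁)

lemma li2_M0 (hf : Pot f f' f'' C₁ C₂) (α β : X → ι → ℝ) (z : ι → ℝ) :
    0 ≤ li2M C₁ C₂ α β z := by
  have h1 := li2_C1 hf
  have h2 := li2_C2 hf
  have h3 := li2_R0 α β
  unfold li2M
  positivity

/-- the remainder is uniformly bounded -/
lemma li2_ExM (hS : S.RegD D) (hf : Pot f f' f'' C₁ C₂) (α β : X → ι → ℝ) :
    ∃ M₀ : ℝ, 0 ≤ M₀ ∧ ∀ θ, (S.wH (it S.H f α β θ)).Ex (fun z _ => li2M C₁ C₂ α β z) ≤ M₀ := by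
  obtain ⟨L, hL⟩ := li2_itlip hS hf α β
  obtain ⟨C, a, hC, ha, hdn⟩ := dn_unif S hS.toReg L
  have heg := li2_eg_M C₁ C₂ α β
  have hexp : EG (fun z : ι → ℝ => C * Real.exp (a * ‖z‖)) := by
    refine EG.const_mul C ⟨by fun_prop, 1, a, zero_le_one, ha, fun y => ?_⟩
    rw [abs_of_pos (Real.exp_pos _), one_mul]
  refine ⟨∫ z, C * Real.exp (a * ‖z‖) * li2M C₁ C₂ α β z ∂(gI ι), ?_, fun θ => ?_⟩
  · exact integral_nonneg fun z => mul_nonneg (by positivity) (li2_M0 hf α β z)
  · have hR := (regD_it (α := α) (β := β) hS hf θ).toReg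
    unfold Sy.Ex
    have hav : ∀ z, (S.wH (it S.H f α β θ)).av (fun z _ => li2M C₁ C₂ α β z) z =
        li2M C₁ C₂ α β z := fun z => Sy.av_fst _ _ z
    simp only [hav]
    refine integral_mono ((hR.eg_dn (Nat.zero_le _)).mul heg).integrable
      (hexp.mul heg).integrable fun z => ?_
    exact mul_le_mul_of_nonneg_right (hdn _ hR (fun x z z' => hL θ x z z') 0 (Nat.zero_le _) z)
      (li2_M0 hf α β z)

/-- one step of the interpolation -/
lemma li2_step (hS : S.RegD D) (hf : Pot f f' f'' C₁ C₂) (hs : Sep D α β) {M₀ : ℝ}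
    (hM : ∀ θ, (S.wH (it S.H f α β θ)).Ex (fun z _ => li2M C₁ C₂ α β z) ≤ M₀) {t t' : ℝ}
    (htt : t ≤ t') :
    (S.wH (it S.H f α β t')).fe - (S.wH (it S.H f α β t)).fe ≤
      (t' - t) * (Real.sin t' * Real.cos t' * brk S f f' f'' α β t') + (t' - t) ^ 2 * M₀ := by
  have hR' := (regD_it (α := α) (β := β) hS hf t').toReg
  have hR := (regD_it (α := α) (β := β) hS hf t).toReg
  have hRw : ((S.wH (it S.H f α β t')).wH (it S.H f α β t)).Reg := hR
  have h1 := hR'.jensen hRw
  have e1 : ((S.wH (it S.H f α β t')).wH (it S.H f α β t)).fe = (S.wH (it S.H f α β t)).fe := rfl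
  rw [e1] at h1
  have hf'm := hf.measurable.2.1
  have hnF : Nh (fun z x => f' (itU α β t' z x) *
      (Real.cos t' * lin (α x) z - Real.sin t' * lin (β x) z)) := by
    intro x
    refine EG.mul ?_ (((li2_eg_lin (α x)).const_mul _).sub ((li2_eg_lin (β x)).const_mul _))
    refine EG.of_bdd (hf'm.comp ?_) (fun y => hf.b1 _)
    unfold itU
    exact (((li2_eg_lin (α x)).const_mul _).add ((li2_eg_lin (β x)).const_mul _)).meas
  have hnM : Nh (fun (z : ι → ℝ) (_ : X) => li2M C₁ C₂ α β z) :=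
    Sy.Nh.fst (li2_eg_M C₁ C₂ α β)
  have hnd := hR'.nh_diff hRw
  have h2 : (S.wH (it S.H f α β t')).Ex (fun z x => -((t' - t) * (f' (itU α β t' z x) *
      (Real.cos t' * lin (α x) z - Real.sin t' * lin (β x) z)) +
      (t' - t) ^ 2 * li2M C₁ C₂ α β z)) ≤
      (S.wH (it S.H f α β t')).Ex
        (fun z x => it S.H f α β t z x - (S.wH (it S.H f α β t')).H z x) := by
    refine hR'.Ex_mono ?_ hnd ?_
    · have := Sy.Nh.const_mul (-1) (Sy.Nh.add (Sy.Nh.const_mul (t' - t) hnF)
        (Sy.Nh.const_mul ((t' - t) ^ 2) hnM))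
      intro x
      have hx := this x
      simpa using hx
    · intro z x
      have h3 := li2_taylor hf (A := lin (α x) z) (B := lin (β x) z) htt (li2_R α β x z)
      have h4 : it S.H f α β t z x - (S.wH (it S.H f α β t')).H z x =
          -(f (Real.sin t' * lin (α x) z + Real.cos t' * lin (β x) z) -
            f (Real.sin t * lin (α x) z + Real.cos t * lin (β x) z)) := by
        show it S.H f α β t z x - it S.H f α β t' z x = _
        unfold it itU
        ring
      rw [h4]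
      have h5 : f' (itU α β t' z x) *
          (Real.cos t' * lin (α x) z - Real.sin t' * lin (β x) z) =
          f' (Real.sin t' * lin (α x) z + Real.cos t' * lin (β x) z) *
          (Real.cos t' * lin (α x) z - Real.sin t' * lin (β x) z) := rfl
      rw [h5]
      unfold li2M
      linarith
  have h6 : (S.wH (it S.H f α β t')).Ex (fun z x => -((t' - t) * (f' (itU α β t' z x) *
      (Real.cos t' * lin (α x) z - Real.sin t' * lin (β x) z)) +
      (t' - t) ^ 2 * li2M C₁ C₂ α β z)) =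
      -((t' - t) * (Real.sin t' * Real.cos t' * brk S f f' f'' α β t') + (t' - t) ^ 2 *
        (S.wH (it S.H f α β t')).Ex (fun z _ => li2M C₁ C₂ α β z)) := by
    have e2 : (fun (z : ι → ℝ) (x : X) => -((t' - t) * (f' (itU α β t' z x) *
      (Real.cos t' * lin (α x) z - Real.sin t' * lin (β x) z)) +
      (t' - t) ^ 2 * li2M C₁ C₂ α β z)) = fun z x => (-1) * ((t' - t) * (f' (itU α β t' z x) *
      (Real.cos t' * lin (α x) z - Real.sin t' * lin (β x) z)) +
      (t' - t) ^ 2 * li2M C₁ C₂ α β z) := by funext z x; ring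
    rw [e2, Sy.Ex_const_mul, hR'.Ex_add (Sy.Nh.const_mul _ hnF)
      (Sy.Nh.const_mul _ hnM), Sy.Ex_const_mul,
      Sy.Ex_const_mul, ex_deriv hS hf hs t']
    ring
  rw [h6] at h2
  have h7 := mul_le_mul_of_nonneg_left (hM t') (sq_nonneg (t' - t))
  linarith

/-- **Interpolation.** Proof: `fe θ' - fe θ ≤ Ex_θ' (H_θ' - H_θ)` by `Reg.jensen`, Taylor
(`|∂²_θ H| ≤ C (1 + ‖z‖²)`, uniform in `θ` by `dn_unif`), Riemann sums. -/
theorem int_le (hS : S.RegD D) (hf : Pot f f' f'' C₁ C₂) (hs : Sep D α β) {b : ℝ}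
    (hb : ∀ θ, 0 ≤ θ → θ ≤ Real.pi / 2 → brk S f f' f'' α β θ ≤ b) :
    (S.wH (it S.H f α β (Real.pi / 2))).fe - (S.wH (it S.H f α β 0)).fe ≤ b / 2 := by
  obtain ⟨M₀, hM0, hM⟩ := li2_ExM hS hf α β
  set g : ℝ → ℝ := fun t => (S.wH (it S.H f α β t)).fe with hg
  set h : ℝ → ℝ := fun t => g t - b / 2 * Real.sin t ^ 2 with hh
  have hpi := Real.pi_pos
  -- one step
  have step : ∀ t t', 0 ≤ t → t ≤ t' → t' ≤ Real.pi / 2 →
      h t' - h t ≤ (M₀ + |b|) * (t' - t) ^ 2 := by
    intro t t' h0 htt h1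
    have e1 := li2_step hS hf hs hM htt
    have hsc : 0 ≤ Real.sin t' * Real.cos t' :=
      mul_nonneg (Real.sin_nonneg_of_nonneg_of_le_pi (by linarith) (by linarith))
        (Real.cos_nonneg_of_mem_Icc ⟨by linarith, h1⟩)
    have e2 : (t' - t) * (Real.sin t' * Real.cos t' * brk S f f' f'' α β t') ≤
        (t' - t) * (Real.sin t' * Real.cos t' * b) :=
      mul_le_mul_of_nonneg_left
        (mul_le_mul_of_nonneg_left (hb t' (by linarith) h1) hsc) (by linarith)
    -- the square of the sine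
    have e3 : |(t' - t) * (Real.sin t' * Real.cos t') -
        1 / 2 * (Real.sin t' ^ 2 - Real.sin t ^ 2)| ≤ (t' - t) ^ 2 := by
      rcases htt.eq_or_lt with hlt | hlt
      · subst hlt; simp
      · have hd : ∀ s, HasDerivAt (fun s => 1 / 2 * Real.sin s ^ 2)
            (Real.sin s * Real.cos s) s := by
          intro s
          have h2 := ((Real.hasDerivAt_sin s).pow 2).const_mul (1 / 2)
          have h3 : Real.sin s * Real.cos s =
              1 / 2 * (((2 : ℕ) : ℝ) * Real.sin s ^ (2 - 1) * Real.cos s) := by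
            norm_num
            ring
          rw [h3]
          exact h2
        obtain ⟨ξ, hξ, hξ2⟩ := exists_hasDerivAt_eq_slope _ _ hlt
          (fun s _ => (hd s).continuousAt.continuousWithinAt) (fun s _ => hd s)
        rw [eq_div_iff (by linarith)] at hξ2
        have e4 : 1 / 2 * (Real.sin t' ^ 2 - Real.sin t ^ 2) =
            Real.sin ξ * Real.cos ξ * (t' - t) := by rw [hξ2]; ring
        rw [e4]
        have e5 : (t' - t) * (Real.sin t' * Real.cos t') - Real.sin ξ * Real.cos ξ * (t' - t) =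
            (t' - t) * (1 / 2 * (Real.sin (2 * t') - Real.sin (2 * ξ))) := by
          rw [Real.sin_two_mul, Real.sin_two_mul]; ring
        rw [e5, abs_mul, abs_of_nonneg (by linarith : 0 ≤ t' - t), sq]
        refine mul_le_mul_of_nonneg_left ?_ (by linarith)
        rw [abs_mul, abs_of_pos (by norm_num : (0 : ℝ) < 1 / 2)]
        have e6 := li2_sin (2 * t') (2 * ξ)
        have e7 : |2 * t' - 2 * ξ| = 2 * (t' - ξ) := by
          rw [abs_of_nonneg (by linarith [hξ.2])]; ring
        rw [e7] at e6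
        linarith [hξ.1]
    have e8 : b * ((t' - t) * (Real.sin t' * Real.cos t') -
        1 / 2 * (Real.sin t' ^ 2 - Real.sin t ^ 2)) ≤ |b| * (t' - t) ^ 2 := by
      refine (le_abs_self _).trans ?_
      rw [abs_mul]
      exact mul_le_mul_of_nonneg_left e3 (abs_nonneg _)
    simp only [hh, hg]
    linarith
  -- Riemann sums
  have key : ∀ n : ℕ, 0 < n → h (Real.pi / 2) - h 0 ≤ (M₀ + |b|) * (Real.pi / 2) ^ 2 / n := by
    intro n hn
    have hn' : (0 : ℝ) < n := by exact_mod_cast hn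
    set δ := Real.pi / 2 / n with hδ
    have hδ0 : 0 ≤ δ := by positivity
    have hnδ : n * δ = Real.pi / 2 := by rw [hδ]; field_simp
    have ind : ∀ k : ℕ, k ≤ n → h (k * δ) - h 0 ≤ k * ((M₀ + |b|) * δ ^ 2) := by
      intro k
      induction k with
      | zero => intro _; simp
      | succ k ih =>
        intro hk
        have h1 := ih (by omega)
        have hk' : ((k + 1 : ℕ) : ℝ) ≤ n := by exact_mod_cast hk
        have h2 := step (k * δ) ((k + 1 : ℕ) * δ) (by positivity)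
          (by push_cast; nlinarith) (by
            rw [← hnδ]; exact mul_le_mul_of_nonneg_right hk' hδ0)
        have h3 : ((k + 1 : ℕ) : ℝ) * δ - k * δ = δ := by push_cast; ring
        rw [h3] at h2
        push_cast at h2 ⊢
        linarith
    have h4 := ind n le_rfl
    rw [hnδ] at h4
    refine h4.trans (le_of_eq ?_)
    rw [hδ]
    field_simp
  have hle : h (Real.pi / 2) - h 0 ≤ 0 := by
    have hlim : Tendsto (fun n : ℕ => (M₀ + |b|) * (Real.pi / 2) ^ 2 / (n : ℝ)) atTop (𝓝 0) :=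
      tendsto_const_div_atTop_nhds_zero_nat _
    refine ge_of_tendsto hlim ?_
    filter_upwards [eventually_gt_atTop 0] with n hn
    exact key n hn
  simp only [hh, hg, Real.sin_pi_div_two, Real.sin_zero] at hle
  linarith

end Vale.Agent.P157.Lv
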