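import Vale.Agent.P157.LvOpt
import Vale.Agent.P157.LvSchur

/-!
One step of the upper bound: the cost of one pattern at the optimal strengths.
-/

open MeasureTheory ProbabilityTheory Filter Topology

namespace Vale.Agent.P157.Lv

set_option linter.unusedSectionVars false

open Par (incr Path Exponents cascade gstep patternPart spinPart parisi topN lw)

section General

variable {ι X : Type} [Fintype ι] [DecidableEq ι] [Fintype X] [DecidableEq X] [Nonempty X]
  {S : Sy ι X} {D : ι → (ι → ℝ) → X → ℝ} {N : ℕ} {φ : X → Fin N → ℝ} {zc : ℕ → Fin N → ι}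
  {s : ℕ → ℝ}

/-- The path of the overlaps, the last value being replaced by `1`. -/
noncomputable def stR (S : Sy ι X) (φ : X → Fin N → ℝ) : ℕ → ℝ :=
  fun l => if l < S.K then S.Rl φ l else 1

lemma stR_last (S : Sy ι X) (φ : X → Fin N → ℝ) : stR S φ S.K = 1 := by
  simp [stR]

lemma st_mono (F : Fld S D φ zc s) {l : ℕ} (hl : l < S.K) : S.Rl φ l ≤ S.Rl φ (l + 1) := by
  have h := F.Rl_sub hl
  have h2 : 0 ≤ 1 / N * S.Ex (fun z _ => ∑ i, (S.mg φ (l + 1) i z - S.mg φ l i z) ^ 2) := by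
    rw [← Sy.Ex_const_mul, ← F.hreg.Ex_const 0]
    refine F.hreg.Ex_mono (Sy.Nh.fst (EG.const 0)) (Sy.Nh.fst (EG.const_mul _ (EG.sum _ fun i _ =>
      ((Fld.eg_mg F.hreg hl i).sub (Fld.eg_mg F.hreg hl.le i)).pow 2))) fun z _ => ?_
    have := F.N_pos
    positivity
  linarith only [h, h2]

lemma st_path (F : Fld S D φ zc s) : Path S.K (stR S φ) := by
  refine ⟨?_, fun l hl => ?_⟩
  · unfold stR
    split_ifs with h
    · exact F.Rl_nonneg (Nat.zero_le _)
    · exact zero_le_one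
  · unfold stR
    rw [if_pos hl]
    split_ifs with h
    · exact st_mono F hl
    · exact F.Rl_le_one hl.le

lemma st_le (F : Fld S D φ zc s) {l : ℕ} (hl : l ≤ S.K) : S.Rl φ l ≤ stR S φ l := by
  unfold stR
  split_ifs with h
  · exact le_rfl
  · exact F.Rl_le_one hl

lemma st_p_nonneg (hS : S.Reg) {l : ℕ} (hl : l ≤ S.K) : 0 ≤ S.p l :=
  sub_nonneg.2 (hS.mono l hl)

lemma st_sum_p (hS : S.Reg) : ∑ l ∈ Finset.range (S.K + 1), S.p l = 1 := by
  unfold Sy.p
  rw [Finset.sum_range_sub, hS.mK, hS.m0, sub_zero]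

/-- The total cost of the fluctuations of the overlaps. -/
lemma st_pair (F : Fld S D φ zc s) {δ E : ℝ} (hE : 0 ≤ E) (hδ : ∀ l ≤ S.K, S.p l ≤ δ)
    (hy : ∀ l < S.K, S.pairEx l (fun x x' => (Rov φ x x' - S.Rl φ l) ^ 2) ≤
      2 * (S.Rl φ (l + 1) - S.Rl φ l) + E) :
    ∑ l ∈ Finset.range (S.K + 1), S.p l * S.pairEx l (fun x x' => |Rov φ x x' - stR S φ l|) ≤
      √(2 * δ) + 2 * δ + √E := by
  have hS := F.hreg
  have hp : ∀ l ≤ S.K, 0 ≤ S.p l := fun l hl => st_p_nonneg hS hl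
  have hsum := st_sum_p hS
  have hδ0 : 0 ≤ δ := (hp S.K le_rfl).trans (hδ S.K le_rfl)
  rw [Finset.sum_range_succ] at hsum ⊢
  have hsum' : ∑ l ∈ Finset.range S.K, S.p l ≤ 1 := by
    have := hp S.K le_rfl
    linarith
  have hsum0 : 0 ≤ ∑ l ∈ Finset.range S.K, S.p l :=
    Finset.sum_nonneg fun l hl => hp l (Finset.mem_range.1 hl).le
  -- the last level
  have hlast : S.p S.K * S.pairEx S.K (fun x x' => |Rov φ x x' - stR S φ S.K|) ≤ 2 * δ := by
    have h1 : S.pairEx S.K (fun x x' => |Rov φ x x' - stR S φ S.K|) ≤ 2 := by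
      rw [← hS.pairEx_const le_rfl 2]
      refine hS.pairEx_mono le_rfl fun x x' => ?_
      have := abs_le.1 (F.abs_Rov_le x x')
      rw [stR_last, abs_le]
      constructor <;> linarith [this.1, this.2]
    have h0 := hp S.K le_rfl
    have hd := hδ S.K le_rfl
    calc S.p S.K * S.pairEx S.K (fun x x' => |Rov φ x x' - stR S φ S.K|) ≤ S.p S.K * 2 :=
          mul_le_mul_of_nonneg_left h1 h0
      _ ≤ 2 * δ := by linarith
  -- one level
  have hone : ∀ l < S.K, S.pairEx l (fun x x' => |Rov φ x x' - stR S φ l|) ≤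
      √(2 * (S.Rl φ (l + 1) - S.Rl φ l)) + √E := by
    intro l hl
    have e : stR S φ l = S.Rl φ l := by
      unfold stR
      rw [if_pos hl]
    rw [e]
    refine (hS.pairEx_abs_le hl.le (fun x x' => Rov φ x x' - S.Rl φ l)).trans ?_
    refine (Real.sqrt_le_sqrt (hy l hl)).trans ?_
    have h0 : 0 ≤ 2 * (S.Rl φ (l + 1) - S.Rl φ l) := by
      have := st_mono F hl
      linarith
    rw [Real.sqrt_le_left (by positivity), add_sq, Real.sq_sqrt h0, Real.sq_sqrt hE]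
    have := mul_nonneg (Real.sqrt_nonneg (2 * (S.Rl φ (l + 1) - S.Rl φ l))) (Real.sqrt_nonneg E)
    linarith
  have h1 : ∑ l ∈ Finset.range S.K, S.p l * S.pairEx l (fun x x' => |Rov φ x x' - stR S φ l|) ≤
      ∑ l ∈ Finset.range S.K, S.p l * √(2 * (S.Rl φ (l + 1) - S.Rl φ l)) +
        ∑ l ∈ Finset.range S.K, S.p l * √E := by
    rw [← Finset.sum_add_distrib]
    refine Finset.sum_le_sum fun l hl => ?_
    rw [← mul_add]
    exact mul_le_mul_of_nonneg_left (hone l (Finset.mem_range.1 hl))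
      (hp l (Finset.mem_range.1 hl).le)
  have h2 : ∑ l ∈ Finset.range S.K, S.p l * √E ≤ √E := by
    rw [← Finset.sum_mul]
    exact mul_le_of_le_one_left (Real.sqrt_nonneg _) hsum'
  have h3 : ∑ l ∈ Finset.range S.K, S.p l * √(2 * (S.Rl φ (l + 1) - S.Rl φ l)) ≤ √(2 * δ) := by
    have e : ∀ l ∈ Finset.range S.K, S.p l * √(2 * (S.Rl φ (l + 1) - S.Rl φ l)) =
        √(S.p l) * √(S.p l * (2 * (S.Rl φ (l + 1) - S.Rl φ l))) := by
      intro l hl
      have h0 := hp l (Finset.mem_range.1 hl).le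
      rw [Real.sqrt_mul h0, ← mul_assoc, Real.mul_self_sqrt h0]
    rw [Finset.sum_congr rfl e]
    have hd : ∀ l ∈ Finset.range S.K, 0 ≤ S.p l * (2 * (S.Rl φ (l + 1) - S.Rl φ l)) := by
      intro l hl
      have h0 := hp l (Finset.mem_range.1 hl).le
      have := st_mono F (Finset.mem_range.1 hl)
      exact mul_nonneg h0 (by linarith)
    have hcs := Finset.sum_mul_sq_le_sq_mul_sq (Finset.range S.K) (fun l => √(S.p l))
      (fun l => √(S.p l * (2 * (S.Rl φ (l + 1) - S.Rl φ l))))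
    have e1 : ∑ l ∈ Finset.range S.K, √(S.p l) ^ 2 = ∑ l ∈ Finset.range S.K, S.p l :=
      Finset.sum_congr rfl fun l hl => Real.sq_sqrt (hp l (Finset.mem_range.1 hl).le)
    have e2 : ∑ l ∈ Finset.range S.K, √(S.p l * (2 * (S.Rl φ (l + 1) - S.Rl φ l))) ^ 2 =
        ∑ l ∈ Finset.range S.K, S.p l * (2 * (S.Rl φ (l + 1) - S.Rl φ l)) :=
      Finset.sum_congr rfl fun l hl => Real.sq_sqrt (hd l hl)
    rw [e1, e2] at hcs
    have e3 : ∑ l ∈ Finset.range S.K, S.p l * (2 * (S.Rl φ (l + 1) - S.Rl φ l)) ≤ 2 * δ := by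
      have h5 : ∑ l ∈ Finset.range S.K, S.p l * (2 * (S.Rl φ (l + 1) - S.Rl φ l)) ≤
          ∑ l ∈ Finset.range S.K, δ * (2 * (S.Rl φ (l + 1) - S.Rl φ l)) := by
        refine Finset.sum_le_sum fun l hl => ?_
        have := st_mono F (Finset.mem_range.1 hl)
        exact mul_le_mul_of_nonneg_right (hδ l (Finset.mem_range.1 hl).le) (by linarith)
      have h6 : ∑ l ∈ Finset.range S.K, δ * (2 * (S.Rl φ (l + 1) - S.Rl φ l)) =
          2 * δ * (S.Rl φ S.K - S.Rl φ 0) := by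
        rw [← Finset.sum_range_sub (fun l => S.Rl φ l), Finset.mul_sum]
        refine Finset.sum_congr rfl fun l _ => ?_
        ring
      have h7 := F.Rl_le_one le_rfl
      have h8 := F.Rl_nonneg (Nat.zero_le S.K)
      rw [h6] at h5
      refine h5.trans ?_
      calc 2 * δ * (S.Rl φ S.K - S.Rl φ 0) ≤ 2 * δ * 1 :=
            mul_le_mul_of_nonneg_left (by linarith) (by linarith)
        _ = 2 * δ := mul_one _
    refine Real.le_sqrt_of_sq_le (hcs.trans ?_)
    have e0 : 0 ≤ ∑ l ∈ Finset.range S.K, S.p l * (2 * (S.Rl φ (l + 1) - S.Rl φ l)) :=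
      Finset.sum_nonneg hd
    calc (∑ l ∈ Finset.range S.K, S.p l) *
          ∑ l ∈ Finset.range S.K, S.p l * (2 * (S.Rl φ (l + 1) - S.Rl φ l)) ≤
          1 * ∑ l ∈ Finset.range S.K, S.p l * (2 * (S.Rl φ (l + 1) - S.Rl φ l)) :=
          mul_le_mul_of_nonneg_right hsum' e0
      _ ≤ 2 * δ := by linarith
  linarith

/-- The means of a concentrated observable in two systems with close energies. -/
lemma st_mean (hS : S.Reg) {H' : (ι → ℝ) → X → ℝ} (hS' : (S.wH H').Reg) {B : ℝ}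
    (hB : ∀ z x, |H' z x - S.H z x| ≤ B) {h : (ι → ℝ) → X → ℝ} (hh : Nh h) {c ε : ℝ}
    (hc : S.Ex (fun z x => |h z x - c|) ≤ ε) (hB0 : 0 ≤ B) (hε : 0 ≤ ε) :
    (S.wH H').Ex (fun z x => |h z x - c|) ≤ Real.exp (2 * B) * ε ∧
      |(S.wH H').Ex h - S.Ex h| ≤ 2 * Real.exp (2 * B) * ε := by
  have hn : Nh (fun z x => |h z x - c|) := Sy.Nh.abs (Sy.Nh.sub hh (Sy.Nh.fst (EG.const c)))
  have h1 : (S.wH H').Ex (fun z x => |h z x - c|) ≤ Real.exp (2 * B) * ε :=
    (hS.Ex_pert_le hS' hB hn fun z x => abs_nonneg _).trans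
      (mul_le_mul_of_nonneg_left hc (Real.exp_pos _).le)
  refine ⟨h1, ?_⟩
  have key : ∀ {S : Sy ι X}, S.Reg → |S.Ex h - c| ≤ S.Ex (fun z x => |h z x - c|) := by
    intro S hS
    have h2 := hS.abs_Ex_le (Sy.Nh.sub hh (Sy.Nh.fst (EG.const c)))
    rw [hS.Ex_sub hh (Sy.Nh.fst (EG.const c)), hS.Ex_const] at h2
    exact h2
  have h2 := abs_le.1 ((key hS).trans hc)
  have h3 := abs_le.1 ((key hS').trans h1)
  have h4 : (1 : ℝ) ≤ Real.exp (2 * B) := Real.one_le_exp (by linarith)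
  have h5 : ε ≤ Real.exp (2 * B) * ε := le_mul_of_one_le_left hε h4
  rw [abs_le]
  constructor <;> linarith [h2.1, h2.2, h3.1, h3.2]

end General

variable {X : Type} [Fintype X] [DecidableEq X] [Nonempty X] {A N K : ℕ}
  {m q : ℕ → ℝ} {f f' f'' : ℝ → ℝ} {B C₁ C₂ : ℝ} {u : X → ℝ} {φ : X → Fin N → ℝ}
  {s : ℕ → ℝ} {a : ℕ} {η : ℝ}

/-- The error of one step. -/
noncomputable def erS (B C₁ η σ π δ ε : ℝ) : ℝ :=
  1 / 2 * C₁ ^ 2 * (η + 2 * Real.exp (2 * B) * ε / σ) +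
    1 / 2 * C₁ ^ 2 * Real.exp (6 * B) *
      (√(2 * δ) + 2 * δ + √(20 * (Real.exp (2 * B) * ε) / (σ * π)))

/-- One pattern at the optimal strengths. -/
theorem opt_step (h : MD K m f f' f'' B C₁ C₂ u φ) (ha : a < A)
    (ho : IsOpt A K m q η f u φ (a + 1) s) (hq : Path K q) (hq1 : q K ≤ 1) (hη : 0 < η)
    {σ π δ ε : ℝ} (hσ : 0 < σ) (hπ : 0 < π) (hε : 0 ≤ ε) (hs : ∀ j ≤ K, σ ≤ s j)
    (hp : ∀ l ≤ K, π ≤ m (l + 1) - m l) (hd : ∀ l ≤ K, m (l + 1) - m l ≤ δ)
    (hc : ∀ j ≤ K, ∃ c : ℝ,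
      (mdl A K m f u φ s (a + 1)).Ex (fun z x => |hz φ zco j z x - c|) ≤ ε) :
    (mdl A K m f u φ s (a + 1)).fe - (mdl A K m f u φ s a).fe ≤
      patternPart f K m q + erS B C₁ η σ π δ ε := by
  have hB0 : 0 ≤ B := (abs_nonneg (f 0)).trans (h.hB 0)
  have hs0 : ∀ l ≤ K, 0 ≤ s l := fun l hl => (ho.pos l hl).le
  have F : Fld (mdl A K m f u φ s a) (enD f' φ s a) φ zco s := mdl_fld h hs0
  have F' : Fld (mdl A K m f u φ s (a + 1)) (enD f' φ s (a + 1)) φ zco s := mdl_fld h hs0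
  have hn := mdl_new (s := s) h ha
  set S := mdl A K m f u φ s a with hSdef
  set S' := mdl A K m f u φ s (a + 1) with hSdef'
  have hK : S.K = K := rfl
  have hK' : S'.K = K := rfl
  have hpS : ∀ l, S.p l = m (l + 1) - m l := fun l => rfl
  have hS := F.hreg
  have hS' := F'.hreg
  have eS' : S' = S.wH (fun z x => S.H z x + f (pf φ (gco (⟨a, ha⟩ : Fin A)) z x)) := mdl_succ ha
  -- the system `S` as a perturbation of `S'`
  have eS : S = S'.wH (fun z x => S.H z x) := by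
    rw [eS']
    rfl
  have hdiff : ∀ z x, |S.H z x - S'.H z x| ≤ B := by
    intro z x
    rw [eS']
    show |S.H z x - (S.H z x + f (pf φ (gco (⟨a, ha⟩ : Fin A)) z x))| ≤ B
    rw [sub_add_cancel_left, abs_neg]
    exact h.hB _
  have hSr : (S'.wH (fun z x => S.H z x)).Reg := by
    rw [← eS]
    exact hS
  have hzn : ∀ j, Nh (hz φ (zco (A := A) (N := N) (K := K)) j) := fun j => F.nh_hz j
  have hmean : ∀ j ≤ K, ∃ c : ℝ, S.Ex (fun z x => |hz φ zco j z x - c|) ≤ Real.exp (2 * B) * ε ∧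
      |S.Ex (hz φ zco j) - S'.Ex (hz φ zco j)| ≤ 2 * Real.exp (2 * B) * ε := by
    intro j hj
    obtain ⟨c, hc'⟩ := hc j hj
    have := st_mean hS' hSr hdiff (hzn j) hc' hB0 hε
    rw [← eS] at this
    exact ⟨c, this⟩
  -- the cost of the pattern
  have hR := st_path F
  have hR1 : stR S φ S.K = 1 := stR_last S φ
  have h1 := pattern_step F hn h.hf h.hB hR hR1
  have h2 : (S.wH fun z x => S.H z x + f (tf (yco (A := A) (N := N) (K := K)) S.K (stR S φ) z)).fe =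
      S.fe + ∫ x, cascade S.m (stR S φ) S.K f (√(stR S φ 0) * x) ∂(gaussianReal 0 1) :=
    fe_add_tree F.reg hn.yl hn.Dy hR h.hf.lip
  have h3 := patternPart_eq_of_one (k := K) (m := m) hR1 f
  have h4 : ∑ l ∈ Finset.range (S.K + 1), S.p l * S.pairEx l
      (fun x x' => |Rov φ x x' - stR S φ l|) ≤
      √(2 * δ) + 2 * δ + √(20 * (Real.exp (2 * B) * ε) / (σ * π)) := by
    refine st_pair F (by positivity) hd fun l hl => ?_
    exact F.sync (by positivity) hσ hs hπ hp (fun l hl => (hmean l hl).imp fun c hc => hc.1) hl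
  -- comparison of the paths
  have h5 : patternPart f K m (stR S φ) ≤ patternPart f K m q +
      1 / 2 * C₁ ^ 2 * (η + 2 * Real.exp (2 * B) * ε / σ) := by
    refine pattern_schur h.hm hq hq1 hR hR1.le h.hf (by positivity) fun j hj => ?_
    obtain ⟨c, -, hc2⟩ := hmean j hj
    have e1 := F.Ex_hz hj
    have e2 := F'.Ex_hz hj
    have e3 := ho.tails h hj
    rw [e1, e2, ← mul_sub, sub_sub_sub_cancel_left, abs_mul, abs_of_nonneg (hs0 j hj)] at hc2
    have hsj := hs j hj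
    have hsj0 := ho.pos j hj
    have e4 : |∑ i ∈ Finset.Ico j (K + 1), (m (i + 1) - m i) * S'.Rl φ i -
        ∑ i ∈ Finset.Ico j (K + 1), (m (i + 1) - m i) * S.Rl φ i| ≤
        2 * Real.exp (2 * B) * ε / σ := by
      rw [le_div_iff₀ hσ, mul_comm _ σ]
      exact (mul_le_mul_of_nonneg_right hsj (abs_nonneg _)).trans hc2
    have e5 := (abs_le.1 e4).2
    have e6 : ∑ l ∈ Finset.Ico j (K + 1), (m (l + 1) - m l) * (S'.Rl φ l - q l) =
        ∑ l ∈ Finset.Ico j (K + 1), (m (l + 1) - m l) * S'.Rl φ l -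
          ∑ l ∈ Finset.Ico j (K + 1), (m (l + 1) - m l) * q l := by
      rw [← Finset.sum_sub_distrib]
      exact Finset.sum_congr rfl fun l _ => mul_sub _ _ _
    have e7 : ∑ l ∈ Finset.Ico j (K + 1), (m (l + 1) - m l) * S.Rl φ l -
          ∑ l ∈ Finset.Ico j (K + 1), (m (l + 1) - m l) * q l ≤
        ∑ l ∈ Finset.Ico j (K + 1), (m (l + 1) - m l) * (stR S φ l - q l) := by
      rw [← Finset.sum_sub_distrib]
      refine Finset.sum_le_sum fun l hl => ?_
      rw [← mul_sub]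
      have hlK : l ≤ K := by
        rw [Finset.mem_Ico] at hl
        omega
      refine mul_le_mul_of_nonneg_left ?_ (sub_nonneg.2 (hS.mono l hlK))
      exact sub_le_sub_right (st_le F hlK) _
    have e8 : 0 ≤ η / s j ^ 3 := by positivity
    rw [e6] at e3
    linarith only [e3, e5, e7, e8]
  have h6 : (S'.fe) = (S.wH fun z x => S.H z x + f (pf φ (gco (⟨a, ha⟩ : Fin A)) z x)).fe := by
    rw [← eS']
  have h7 : 1 / 2 * C₁ ^ 2 * Real.exp (6 * B) *
        ∑ l ∈ Finset.range (S.K + 1), S.p l * S.pairEx l (fun x x' => |Rov φ x x' - stR S φ l|) ≤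
      1 / 2 * C₁ ^ 2 * Real.exp (6 * B) *
      (√(2 * δ) + 2 * δ + √(20 * (Real.exp (2 * B) * ε) / (σ * π))) :=
    mul_le_mul_of_nonneg_left h4 (by positivity)
  have h8 : ∫ x, cascade S.m (stR S φ) S.K f (√(stR S φ 0) * x) ∂(gaussianReal 0 1) =
      patternPart f K m (stR S φ) := h3.symm
  rw [h2, h8, ← h6] at h1
  unfold erS
  linarith only [h1, h5, h7]

end Vale.Agent.P157.Lv
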