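import Vale.Agent.P157.ParUTens
import Vale.Agent.P157.RemLimit
import Mathlib.NumberTheory.Harmonic.Bounds

/-!
Telescoping and assembly of the Guerra upper bound (module U of the Parisi plan).
-/

open MeasureTheory ProbabilityTheory Filter Topology

namespace Vale.Agent.P157.Par

variable {N : ℕ}

/-! ### Bounds on the pattern part -/

lemma gstep_bdd {F : ℝ → ℝ} (hF : Measurable F) {K : ℝ} (hK : ∀ x, |F x| ≤ K) {m : ℝ}
    (hm : 0 < m) (v : ℝ) : Measurable (gstep m v F) ∧ ∀ x, |gstep m v F x| ≤ K := by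
  have hmeas : Measurable (Function.uncurry fun (x z : ℝ) => Real.exp (m * F (x + √v * z))) :=
    Real.measurable_exp.comp ((hF.comp (by fun_prop)).const_mul m)
  constructor
  · unfold gstep
    refine Measurable.const_mul (Real.measurable_log.comp ?_) _
    exact (hmeas.stronglyMeasurable.integral_prod_right).measurable
  · intro x
    have hb : ∀ z, Real.exp (-(m * K)) ≤ Real.exp (m * F (x + √v * z)) ∧
        Real.exp (m * F (x + √v * z)) ≤ Real.exp (m * K) := by
      intro z
      have h1 := abs_le.1 (hK (x + √v * z))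
      rw [Real.exp_le_exp, Real.exp_le_exp]
      constructor <;> nlinarith only [hm, h1]
    have hint : Integrable (fun z => Real.exp (m * F (x + √v * z))) (gaussianReal 0 1) := by
      refine (integrable_const (Real.exp (m * K))).mono'
        (Real.measurable_exp.comp ((hF.comp (by fun_prop)).const_mul m)).aestronglyMeasurable
        (Filter.Eventually.of_forall fun z => ?_)
      rw [Real.norm_eq_abs, abs_of_pos (Real.exp_pos _)]
      exact (hb z).2
    have h1 : Real.exp (-(m * K)) ≤ ∫ z, Real.exp (m * F (x + √v * z)) ∂(gaussianReal 0 1) := by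
      calc _ = ∫ _z, Real.exp (-(m * K)) ∂(gaussianReal 0 1) := by simp
        _ ≤ _ := integral_mono (integrable_const _) hint fun z => (hb z).1
    have h2 : ∫ z, Real.exp (m * F (x + √v * z)) ∂(gaussianReal 0 1) ≤ Real.exp (m * K) := by
      calc _ ≤ ∫ _z, Real.exp (m * K) ∂(gaussianReal 0 1) :=
            integral_mono hint (integrable_const _) fun z => (hb z).2
        _ = _ := by simp
    have h3 := Real.log_le_log (Real.exp_pos _) h1
    have h4 := Real.log_le_log (lt_of_lt_of_le (Real.exp_pos _) h1) h2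
    rw [Real.log_exp] at h3 h4
    unfold gstep
    rw [abs_le]
    constructor
    · rw [one_div, ← div_eq_inv_mul, le_div_iff₀ hm]; linarith
    · rw [one_div, ← div_eq_inv_mul, div_le_iff₀ hm]; linarith

lemma cascade_bdd {m q : ℕ → ℝ} {l : ℕ} (hm : ∀ j < l, 0 < m (j + 1)) {F : ℝ → ℝ}
    (hF : Measurable F) {K : ℝ} (hK : ∀ x, |F x| ≤ K) (x : ℝ) : |cascade m q l F x| ≤ K := by
  induction l generalizing F with
  | zero => exact hK x
  | succ l ih =>
    have h := gstep_bdd hF hK (hm l (by omega)) (q (l + 1) - q l)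
    exact ih (fun j hj => hm j (by omega)) h.1 h.2

lemma abs_patternPart_le {f : ℝ → ℝ} (hf : Measurable f) {K : ℝ} (hK : ∀ x, |f x| ≤ K) {k : ℕ}
    {m : ℕ → ℝ} (hm : Exponents k m) (q : ℕ → ℝ) : |patternPart f k m q| ≤ K := by
  have h0 : (fun x => Real.log (∫ y, Real.exp (f (x + √(1 - q k) * y)) ∂(gaussianReal 0 1))) =
      gstep 1 (1 - q k) f := by
    funext x
    unfold gstep
    simp
  have h1 := gstep_bdd hf hK one_pos (1 - q k)
  unfold patternPart
  rw [h0, ← Real.norm_eq_abs]
  refine (norm_integral_le_of_norm_le_const (C := K) (Filter.Eventually.of_forall fun z => ?_)).trans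
    ?_
  · rw [Real.norm_eq_abs]
    exact cascade_bdd (fun j hj => hm.pos j hj.le) h1.1 h1.2 _
  · simp

/-! ### The interpolation -/

/-- The energies of a configuration of patterns, with the normalization of the cube. -/
noncomputable def enU (f : ℝ → ℝ) {M : ℕ} (g : Fin M → Fin N → ℝ) (x : Fin N → Bool) : ℝ :=
  -(N * Real.log 2) + ∑ a, f ((∑ i, g a i * spin x i) / √(N : ℝ))

lemma enU_cons (f : ℝ → ℝ) {M : ℕ} (z : Fin N → ℝ) (g : Fin M → Fin N → ℝ) (x : Fin N → Bool) :
    enU f (Fin.cons z g : Fin (M + 1) → Fin N → ℝ) x =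
      enU f g x + f ((∑ i, z i * spin x i) / √(N : ℝ)) := by
  unfold enU
  rw [Fin.sum_univ_succ]
  simp only [Fin.cons_zero, Fin.cons_succ]
  ring

lemma measurable_enU {f : ℝ → ℝ} (hf : Measurable f) {M : ℕ} :
    Measurable fun g : Fin M → Fin N → ℝ => enU f g := by
  refine measurable_pi_lambda _ fun x => ?_
  unfold enU
  refine Measurable.const_add (Finset.measurable_sum _ fun a _ => hf.comp ?_) _
  fun_prop

lemma abs_enU_sub_le {f : ℝ → ℝ} {K : ℝ} (hK : ∀ x, |f x| ≤ K) {M : ℕ} (g : Fin M → Fin N → ℝ)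
    (x : Fin N → Bool) : |enU f g x - -(N * Real.log 2)| ≤ M * K := by
  unfold enU
  rw [add_sub_cancel_left]
  calc _ ≤ ∑ a : Fin M, |f ((∑ i, g a i * spin x i) / √(N : ℝ))| := Finset.abs_sum_le_sum_abs _ _
    _ ≤ ∑ _a : Fin M, K := Finset.sum_le_sum fun a _ => hK _
    _ = _ := by simp

section

variable {k : ℕ} {m r : ℕ → ℝ} {f : ℝ → ℝ} {K : ℝ}

lemma measurable_topU (hm : Exponents k m) (hf : Measurable f) (c : ℝ) (M : ℕ) :
    Measurable fun g : Fin M → Fin N → ℝ => topN m r k (lw spin c (enU f g)) :=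
  (continuous_topN_lw (fun j hj => hm.pos j hj.le) spin c).measurable.comp (measurable_enU hf)

lemma abs_topU_le (hm : Exponents k m) (hK : ∀ x, |f x| ≤ K) (c : ℝ) {M : ℕ}
    (g : Fin M → Fin N → ℝ) : |topN m r k (lw spin c (enU f g))| ≤
      |topN m r k (lw (X := Fin N → Bool) spin c fun _ => -(N * Real.log 2))| + M * K := by
  have h := abs_topN_lw_sub_le (m := m) (r := r) (l := k) (fun j hj => hm.pos j hj.le) spin c
    (u := enU f g) (u' := fun _ => -(N * Real.log 2)) (C := M * K) (abs_enU_sub_le hK g)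
  have h2 := abs_sub_abs_le_abs_sub (topN m r k (lw spin c (enU f g)))
    (topN m r k (lw (X := Fin N → Bool) spin c fun _ => -(N * Real.log 2)))
  linarith

lemma integrable_topU (hm : Exponents k m) (hf : Measurable f) (hK : ∀ x, |f x| ≤ K) (c : ℝ)
    (M : ℕ) : Integrable (fun g : Fin M → Fin N → ℝ => topN m r k (lw spin c (enU f g)))
      (patterns M N) := by
  refine (integrable_const (|topN m r k (lw (X := Fin N → Bool) spin c
    fun _ => -(N * Real.log 2))| + M * K)).mono' (measurable_topU hm hf c M).aestronglyMeasurable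
    (Filter.Eventually.of_forall fun g => ?_)
  rw [Real.norm_eq_abs]
  exact abs_topU_le hm hK c g

/-- One step of the interpolation. -/
lemma tele_step (hm : Exponents k m) (hf : Measurable f) (hK : ∀ x, |f x| ≤ K)
    (hfield : ∀ (u : (Fin N → Bool) → ℝ) (c c' : ℝ), topN m r k (lw spin c u) +
      (c' - c) * (c * N * (r k - ∑ l ∈ Finset.range (k + 1), (m (l + 1) - m l) * r l *
        Rs m r k (lw spin c u) (bw spin c u) l)) ≤ topN m r k (lw spin c' u))
    (hpat : ∀ (u : (Fin N → Bool) → ℝ) (c : ℝ),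
      ∫ g, topN m r k (lw spin c (fun x => u x + f ((∑ i, g i * spin x i) / √(N : ℝ)))) ∂(gN N) ≤
        topN m r k (lw spin c u) + patternPart f k m (Rs m r k (lw spin c u) (bw spin c u)))
    (hRs : ∀ (u : (Fin N → Bool) → ℝ) (c : ℝ), Path k (Rs m r k (lw spin c u) (bw spin c u)) ∧
      Rs m r k (lw spin c u) (bw spin c u) k ≤ 1)
    (j : ℕ) (c c' B : ℝ)
    (hB : ∀ q, Path k q → q k ≤ 1 → patternPart f k m q - (c' - c) * (c * N * (r k -
      ∑ l ∈ Finset.range (k + 1), (m (l + 1) - m l) * r l * q l)) ≤ B) :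
    ∫ g, topN m r k (lw spin c (enU f g)) ∂(patterns (j + 1) N) ≤
      ∫ g, topN m r k (lw spin c' (enU f g)) ∂(patterns j N) + B := by
  have hmeas : Measurable fun z : (Fin N → ℝ) × (Fin j → Fin N → ℝ) =>
      topN m r k (lw spin c (enU f (Fin.cons z.1 z.2 : Fin (j + 1) → Fin N → ℝ))) := by
    refine (measurable_topU hm hf c (j + 1)).comp ?_
    refine measurable_pi_lambda _ fun a => ?_
    refine Fin.cases ?_ (fun b => ?_) a
    · simpa using measurable_fst
    · simp only [Fin.cons_succ]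
      exact (measurable_pi_apply b).comp measurable_snd
  have hint : Integrable (fun z : (Fin N → ℝ) × (Fin j → Fin N → ℝ) =>
      topN m r k (lw spin c (enU f (Fin.cons z.1 z.2 : Fin (j + 1) → Fin N → ℝ))))
      ((gN N).prod (Measure.pi fun _ : Fin j => gN N)) := by
    refine (integrable_const (|topN m r k (lw (X := Fin N → Bool) spin c
      fun _ => -(N * Real.log 2))| + (j + 1 : ℕ) * K)).mono' hmeas.aestronglyMeasurable
      (Filter.Eventually.of_forall fun z => ?_)
    rw [Real.norm_eq_abs]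
    exact abs_topU_le hm hK c _
  have e1 : ∫ g, topN m r k (lw spin c (enU f g)) ∂(patterns (j + 1) N) =
      ∫ g : Fin j → Fin N → ℝ, (∫ z, topN m r k (lw spin c
        (fun x => enU f g x + f ((∑ i, z i * spin x i) / √(N : ℝ)))) ∂(gN N)) ∂(patterns j N) := by
    unfold patterns
    rw [integral_pi_cons, integral_prod_symm _ hint]
    refine integral_congr_ae (Filter.Eventually.of_forall fun g => ?_)
    dsimp only
    refine integral_congr_ae (Filter.Eventually.of_forall fun z => ?_)
    dsimp only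
    rw [funext (enU_cons f z g)]
  have hint2 : Integrable (fun g : Fin j → Fin N → ℝ => ∫ z, topN m r k (lw spin c
        (fun x => enU f g x + f ((∑ i, z i * spin x i) / √(N : ℝ)))) ∂(gN N)) (patterns j N) := by
    have h := hint.integral_prod_right
    refine h.congr (Filter.Eventually.of_forall fun g => ?_)
    dsimp only
    refine integral_congr_ae (Filter.Eventually.of_forall fun z => ?_)
    dsimp only
    rw [funext (enU_cons f z g)]
  rw [e1]
  have hi := integrable_topU (N := N) (r := r) hm hf hK c' j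
  calc _ ≤ ∫ g, (topN m r k (lw spin c' (enU f g)) + B) ∂(patterns j N) := by
        refine integral_mono hint2 (hi.add (integrable_const B)) fun g => ?_
        have a1 := hpat (enU f g) c
        have a2 := hfield (enU f g) c c'
        have a3 := hB _ (hRs (enU f g) c).1 (hRs (enU f g) c).2
        dsimp only
        linarith only [a1, a2, a3]
    _ = _ := by
        rw [integral_add hi (integrable_const B)]
        simp

end

/-! ### Sums -/

lemma sqrt_sub_sq_le {a b : ℝ} (ha : 0 < a) (hb : 0 ≤ b) (hab : b ≤ a) :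
    (√a - √b) ^ 2 ≤ (a - b) ^ 2 / a := by
  have h1 : 0 < √a := Real.sqrt_pos.2 ha
  have h2 : 0 ≤ √b := Real.sqrt_nonneg b
  have h3 : a - b = (√a - √b) * (√a + √b) := by
    have e1 := Real.sq_sqrt ha.le
    have e2 := Real.sq_sqrt hb
    linarith only [e1, e2]
  rw [le_div_iff₀ ha, h3, mul_pow]
  refine mul_le_mul_of_nonneg_left ?_ (sq_nonneg _)
  calc a = √a ^ 2 := (Real.sq_sqrt ha.le).symm
    _ ≤ (√a + √b) ^ 2 := by
        have _ := hab
        exact pow_le_pow_left₀ h1.le (by linarith) 2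

lemma sum_sqrt_le {M : ℕ} (hM : 0 < M) :
    ∑ j ∈ Finset.range M, (√(1 - (j : ℝ) / M) - √(1 - ((j + 1 : ℕ) : ℝ) / M)) ^ 2 ≤
      (1 + Real.log M) / M := by
  have hM' : (0 : ℝ) < M := by exact_mod_cast hM
  have h1 : ∀ j ∈ Finset.range M,
      (√(1 - (j : ℝ) / M) - √(1 - ((j + 1 : ℕ) : ℝ) / M)) ^ 2 ≤
        1 / M * (1 / ((M : ℝ) - j)) := by
    intro j hj
    have hj' : j < M := Finset.mem_range.1 hj
    have hj1 : (j : ℝ) + 1 ≤ M := by exact_mod_cast hj'
    have hpos : (0 : ℝ) < (M : ℝ) - j := by linarith only [hj1]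
    have ha : 0 < 1 - (j : ℝ) / M := by
      rw [sub_pos, div_lt_one hM']; linarith
    have hb : 0 ≤ 1 - ((j + 1 : ℕ) : ℝ) / M := by
      rw [sub_nonneg, div_le_one hM']; push_cast; exact hj1
    have hab : 1 - ((j + 1 : ℕ) : ℝ) / M ≤ 1 - (j : ℝ) / M := by
      push_cast
      have : (j : ℝ) / M ≤ ((j : ℝ) + 1) / M := by gcongr; linarith
      linarith only [this]
    refine (sqrt_sub_sq_le ha hb hab).trans (le_of_eq ?_)
    push_cast
    have e1 : 1 - (j : ℝ) / M = ((M : ℝ) - j) / M := by field_simp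
    rw [e1]
    field_simp
    ring
  refine (Finset.sum_le_sum h1).trans ?_
  rw [← Finset.mul_sum]
  have h2 : ∑ j ∈ Finset.range M, 1 / ((M : ℝ) - j) = ((harmonic M : ℚ) : ℝ) := by
    rw [← Finset.sum_range_reflect]
    unfold harmonic
    push_cast
    refine Finset.sum_congr rfl fun j hj => ?_
    have hj' : j < M := Finset.mem_range.1 hj
    have : ((M - 1 - j : ℕ) : ℝ) = M - 1 - j := by
      rw [Nat.sub_sub, Nat.cast_sub (by omega)]
      push_cast
      ring
    rw [this, one_div]
    congr 1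
    ring
  rw [h2]
  have h3 := harmonic_le_one_add_log M
  calc 1 / (M : ℝ) * ((harmonic M : ℚ) : ℝ) ≤ 1 / (M : ℝ) * (1 + Real.log M) :=
        mul_le_mul_of_nonneg_left h3 (by positivity)
    _ = _ := by ring

lemma Path.nonneg {k : ℕ} {r : ℕ → ℝ} (hr : Path k r) : ∀ l ≤ k, 0 ≤ r l := by
  intro l hl
  induction l with
  | zero => exact hr.1
  | succ l ih => exact (ih (by omega)).trans (hr.2 l (by omega))

lemma sum_path_nonneg {k : ℕ} {m r q : ℕ → ℝ} (hm : Exponents k m) (hr : Path k r)
    (hq : Path k q) : 0 ≤ ∑ l ∈ Finset.range (k + 1), (m (l + 1) - m l) * r l * q l := by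
  refine Finset.sum_nonneg fun l hl => ?_
  have hl' : l ≤ k := by
    have := Finset.mem_range.1 hl
    omega
  have h1 := hm.2.2 l hl'
  have h2 := hr.nonneg l hl'
  have h3 := hq.nonneg l hl'
  have : 0 ≤ m (l + 1) - m l := by linarith
  positivity

/-! ### The upper bound -/

/-- Guerra's upper bound at finite `N`. -/
theorem guerra_finite {k : ℕ} {m r : ℕ → ℝ} {f : ℝ → ℝ} {K : ℝ} (hN : 0 < N)
    (hm : Exponents k m) (hr : Path k r) (hf : Measurable f) (hK : ∀ x, |f x| ≤ K)
    (hfield : ∀ (u : (Fin N → Bool) → ℝ) (c c' : ℝ), topN m r k (lw spin c u) +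
      (c' - c) * (c * N * (r k - ∑ l ∈ Finset.range (k + 1), (m (l + 1) - m l) * r l *
        Rs m r k (lw spin c u) (bw spin c u) l)) ≤ topN m r k (lw spin c' u))
    (hpat : ∀ (u : (Fin N → Bool) → ℝ) (c : ℝ),
      ∫ g, topN m r k (lw spin c (fun x => u x + f ((∑ i, g i * spin x i) / √(N : ℝ)))) ∂(gN N) ≤
        topN m r k (lw spin c u) + patternPart f k m (Rs m r k (lw spin c u) (bw spin c u)))
    (hRs : ∀ (u : (Fin N → Bool) → ℝ) (c : ℝ), Path k (Rs m r k (lw spin c u) (bw spin c u)) ∧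
      Rs m r k (lw spin c u) (bw spin c u) k ≤ 1)
    {α : ℝ} (hM : 0 < ⌊α * N⌋₊) {C : ℝ}
    (hC : ∀ q, Path k q → q k ≤ 1 → (⌊α * N⌋₊ : ℝ) / N * patternPart f k m q +
      1 / 2 * ∑ l ∈ Finset.range (k + 1), (m (l + 1) - m l) * r l * q l ≤ C) :
    meanPressure cube α f N ≤ C + spinPart k m r +
      r k / 2 * ((1 + Real.log (⌊α * N⌋₊ : ℝ)) / (⌊α * N⌋₊ : ℝ)) := by
  set M : ℕ := ⌊α * N⌋₊ with hMdef
  have hM' : (0 : ℝ) < M := by exact_mod_cast hM
  have hN' : (0 : ℝ) < N := by exact_mod_cast hN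
  have hrk : 0 ≤ r k := hr.nonneg k le_rfl
  set lam : ℕ → ℝ := fun j => √(1 - (j : ℝ) / M) with hlam
  set B : ℕ → ℝ := fun j => N / M * C - N * r k / (2 * M) +
    N * r k / 2 * (lam j - lam (j + 1)) ^ 2 with hBdef
  have hstep : ∀ j < M, ∫ g, topN m r k (lw spin (lam (j + 1)) (enU f g)) ∂(patterns (j + 1) N) ≤
      ∫ g, topN m r k (lw spin (lam j) (enU f g)) ∂(patterns j N) + B j := by
    intro j hj
    refine tele_step hm hf hK hfield hpat hRs j (lam (j + 1)) (lam j) (B j) fun q hq hq1 => ?_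
    have hj1 : (j : ℝ) + 1 ≤ M := by exact_mod_cast hj
    have s1 : lam j ^ 2 = 1 - (j : ℝ) / M := by
      refine Real.sq_sqrt ?_
      rw [sub_nonneg, div_le_one hM']; linarith only [hj1]
    have s2 : lam (j + 1) ^ 2 = 1 - (j : ℝ) / M - 1 / M := by
      have : lam (j + 1) ^ 2 = 1 - ((j + 1 : ℕ) : ℝ) / M := by
        refine Real.sq_sqrt ?_
        rw [sub_nonneg, div_le_one hM']; push_cast; exact hj1
      rw [this]
      push_cast
      ring
    have hS := sum_path_nonneg hm hr hq
    set S := ∑ l ∈ Finset.range (k + 1), (m (l + 1) - m l) * r l * q l with hSdef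
    have hD : (lam j - lam (j + 1)) * lam (j + 1) =
        1 / (2 * M) - (lam j - lam (j + 1)) ^ 2 / 2 := by
      have : (lam j - lam (j + 1)) * lam (j + 1) =
        (lam j ^ 2 - lam (j + 1) ^ 2) / 2 - (lam j - lam (j + 1)) ^ 2 / 2 := by ring
      rw [this, s1, s2]
      field_simp
      ring
    have e1 : patternPart f k m q - (lam j - lam (j + 1)) * (lam (j + 1) * N * (r k - S)) =
        patternPart f k m q + (1 / (2 * M) - (lam j - lam (j + 1)) ^ 2 / 2) * N * S -
          (1 / (2 * M) - (lam j - lam (j + 1)) ^ 2 / 2) * N * r k := by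
      rw [← hD]; ring
    rw [e1]
    have e2 : (1 / (2 * M) - (lam j - lam (j + 1)) ^ 2 / 2) * N * S ≤ 1 / (2 * M) * N * S := by
      refine mul_le_mul_of_nonneg_right (mul_le_mul_of_nonneg_right ?_ hN'.le) hS
      linarith only [sq_nonneg (lam j - lam (j + 1))]
    have e3 : patternPart f k m q + 1 / (2 * M) * N * S ≤ N / M * C := by
      have h1 := mul_le_mul_of_nonneg_left (hC q hq hq1) (by positivity : (0 : ℝ) ≤ N / M)
      rw [← hSdef] at h1
      refine le_trans (le_of_eq ?_) h1
      field_simp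
    rw [hBdef]
    dsimp only
    have e4 : (1 / (2 * M) - (lam j - lam (j + 1)) ^ 2 / 2) * N * r k =
        N * r k / (2 * M) - N * r k / 2 * (lam j - lam (j + 1)) ^ 2 := by
      field_simp
    rw [e4]
    linarith only [e2, e3]
  have htele : ∀ j ≤ M, ∫ g, topN m r k (lw spin (lam j) (enU f g)) ∂(patterns j N) ≤
      ∫ g, topN m r k (lw spin (lam 0) (enU f g)) ∂(patterns 0 N) +
        ∑ i ∈ Finset.range j, B i := by
    intro j hj
    induction j with
    | zero => simp
    | succ j ih =>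
      rw [Finset.sum_range_succ]
      have := hstep j (by omega)
      have := ih (by omega)
      linarith
  have hfin := htele M le_rfl
  -- the start
  have h0 : ∫ g, topN m r k (lw spin (lam 0) (enU f g)) ∂(patterns 0 N) =
      N * (spinPart k m r + r k / 2) := by
    have hl0 : lam 0 = 1 := by simp [hlam]
    have he : ∀ g : Fin 0 → Fin N → ℝ, enU (N := N) f g = fun _ => -(N * Real.log 2) := by
      intro g
      funext x
      simp [enU]
    simp only [he, hl0]
    rw [topN_spin hm]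
    simp
  -- the end
  have h1 : ∫ g, topN m r k (lw spin (lam M) (enU f g)) ∂(patterns M N) =
      N * meanPressure cube α f N := by
    have hlM : lam M = 0 := by simp [hlam, hM'.ne']
    rw [meanPressure_cube, ← mul_assoc, mul_one_div_cancel hN'.ne', one_mul]
    refine integral_congr_ae (Filter.Eventually.of_forall fun g => ?_)
    dsimp only
    rw [hlM, topN_zero hm]
    unfold logZ
    congr 1
    rw [Finset.mul_sum]
    refine Finset.sum_congr rfl fun x _ => ?_
    unfold enU
    rw [Real.exp_add, Real.exp_neg, Real.exp_nat_mul, Real.exp_log (by norm_num), one_div, inv_pow]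
    rfl
  rw [h0, h1] at hfin
  have hsum : ∑ i ∈ Finset.range M, B i ≤ N * C - N * r k / 2 +
      N * r k / 2 * ((1 + Real.log M) / M) := by
    rw [hBdef]
    rw [Finset.sum_add_distrib, ← Finset.mul_sum, Finset.sum_const, Finset.card_range,
      nsmul_eq_mul]
    have e1 : (M : ℝ) * (N / M * C - N * r k / (2 * M)) = N * C - N * r k / 2 := by
      field_simp
    rw [e1]
    have := mul_le_mul_of_nonneg_left (sum_sqrt_le hM) (by positivity : 0 ≤ N * r k / 2)
    have e2 : ∑ i ∈ Finset.range M, (lam i - lam (i + 1)) ^ 2 =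
        ∑ j ∈ Finset.range M, (√(1 - (j : ℝ) / M) - √(1 - ((j + 1 : ℕ) : ℝ) / M)) ^ 2 := rfl
    rw [e2]
    linarith only [this]
  have hall : N * meanPressure cube α f N ≤ N * (C + spinPart k m r +
      r k / 2 * ((1 + Real.log M) / M)) := by
    calc _ ≤ N * (spinPart k m r + r k / 2) + ∑ i ∈ Finset.range M, B i := hfin
      _ ≤ N * (spinPart k m r + r k / 2) + (N * C - N * r k / 2 +
          N * r k / 2 * ((1 + Real.log M) / M)) := by linarith only [hsum]
      _ = _ := by ring
  exact le_of_mul_le_mul_left hall hN'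

/-- Guerra's upper bound in the limit. -/
theorem guerra_limit {k : ℕ} {m r : ℕ → ℝ} {f : ℝ → ℝ} {K : ℝ}
    (hm : Exponents k m) (hr : Path k r) (hf : Measurable f) (hK : ∀ x, |f x| ≤ K)
    (hfield : ∀ (N : ℕ), 0 < N → ∀ (u : (Fin N → Bool) → ℝ) (c c' : ℝ),
      topN m r k (lw spin c u) +
      (c' - c) * (c * N * (r k - ∑ l ∈ Finset.range (k + 1), (m (l + 1) - m l) * r l *
        Rs m r k (lw spin c u) (bw spin c u) l)) ≤ topN m r k (lw spin c' u))
    (hpat : ∀ (N : ℕ), 0 < N → ∀ (u : (Fin N → Bool) → ℝ) (c : ℝ),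
      ∫ g, topN m r k (lw spin c (fun x => u x + f ((∑ i, g i * spin x i) / √(N : ℝ)))) ∂(gN N) ≤
        topN m r k (lw spin c u) + patternPart f k m (Rs m r k (lw spin c u) (bw spin c u)))
    (hRs : ∀ (N : ℕ), 0 < N → ∀ (u : (Fin N → Bool) → ℝ) (c : ℝ),
      Path k (Rs m r k (lw spin c u) (bw spin c u)) ∧
      Rs m r k (lw spin c u) (bw spin c u) k ≤ 1)
    {α : ℝ} (hα : 0 < α) {C : ℝ} (hC : ∀ q, Path k q → q k ≤ 1 → parisi α f k m q r ≤ C)
    {ε : ℝ} (hε : 0 < ε) : ∀ᶠ N : ℕ in atTop, meanPressure cube α f N ≤ C + ε := by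
  have hK0 : 0 ≤ K := (abs_nonneg _).trans (hK 0)
  have hrk : 0 ≤ r k := hr.nonneg k le_rfl
  have hfloor := tendsto_floor_div hα
  have hMinf : Tendsto (fun N : ℕ => ⌊α * N⌋₊) atTop atTop := by
    refine tendsto_nat_floor_atTop.comp ?_
    exact (tendsto_natCast_atTop_atTop (R := ℝ)).const_mul_atTop hα
  have hlog : Tendsto (fun N : ℕ => (1 + Real.log (⌊α * N⌋₊ : ℝ)) / (⌊α * N⌋₊ : ℝ)) atTop
      (𝓝 0) := by
    have h1 : Tendsto (fun x : ℝ => (1 + Real.log x) / x) atTop (𝓝 (0 + 0)) := by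
      have e1 : Tendsto (fun x : ℝ => Real.log x / x) atTop (𝓝 0) := by
        have := Real.isLittleO_log_id_atTop.tendsto_div_nhds_zero
        simpa using this
      have e2 : Tendsto (fun x : ℝ => 1 / x) atTop (𝓝 0) := by
        simpa using tendsto_inv_atTop_zero (𝕜 := ℝ)
      refine (e2.add e1).congr fun x => ?_
      ring
    rw [add_zero] at h1
    exact h1.comp ((tendsto_natCast_atTop_atTop (R := ℝ)).comp hMinf)
  have htot : Tendsto (fun N : ℕ => |(⌊α * N⌋₊ : ℝ) / N - α| * K +
      r k / 2 * ((1 + Real.log (⌊α * N⌋₊ : ℝ)) / (⌊α * N⌋₊ : ℝ))) atTop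
      (𝓝 (|α - α| * K + r k / 2 * 0)) :=
    (((hfloor.sub_const α).abs).mul_const K).add (hlog.const_mul _)
  rw [sub_self, abs_zero, zero_mul, mul_zero, add_zero] at htot
  filter_upwards [htot.eventually_lt_const hε, hMinf.eventually_gt_atTop 0,
    eventually_gt_atTop 0] with N h1 h2 h3
  have h4 := guerra_finite (N := N) h3 hm hr hf hK (hfield N h3) (hpat N h3) (hRs N h3) (α := α) h2
    (C := C - spinPart k m r + |(⌊α * N⌋₊ : ℝ) / N - α| * K) (fun q hq hq1 => by
      have h5 := hC q hq hq1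
      unfold parisi at h5
      have h6 : ((⌊α * N⌋₊ : ℝ) / N - α) * patternPart f k m q ≤
          |(⌊α * N⌋₊ : ℝ) / N - α| * K := by
        refine (le_abs_self _).trans ?_
        rw [abs_mul]
        exact mul_le_mul_of_nonneg_left (abs_patternPart_le hf hK hm q) (abs_nonneg _)
      linarith only [h5, h6])
  linarith

end Vale.Agent.P157.Par
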