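import Vale.Agent.P157.LvInt3
import Vale.Agent.P157.ParUTens
import Vale.Agent.P157.ParUTele

/-!
Free energies of tree fields and of the fields of the spins, in terms of the cascades.
-/

open MeasureTheory ProbabilityTheory Filter Topology

namespace Vale.Agent.P157.Lv

set_option linter.unusedSectionVars false

open Par (incr Path Exponents cascade gstep patternPart spinPart topN lw)

variable {ι X : Type} [Fintype ι] [DecidableEq ι] [Fintype X] [Nonempty X]
  {S : Sy ι X} {D : ι → (ι → ℝ) → X → ℝ}

/-! ### Independence of a coordinate -/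

/-- The function `h` does not depend on the coordinate `e`. -/
def brIndep (e : ι) (h : (ι → ℝ) → ℝ) : Prop := ∀ z t, h (Function.update z e t) = h z

lemma brIndep_of_pd {e : ι} {H : (ι → ℝ) → ℝ} {H' : (ι → ℝ) → ℝ} (hd : PD e H H')
    (h0 : ∀ z, H' z = 0) : brIndep e H := by
  intro z t
  have h1 : ∀ s, HasDerivAt (fun t => H (Function.update z e t)) 0 s := by
    intro s
    have := hd z s
    rwa [h0] at this
  have h2 := is_const_of_deriv_eq_zero (f := fun t => H (Function.update z e t))
    (fun s => (h1 s).differentiableAt) (fun s => (h1 s).deriv) t (z e)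
  simpa using h2

lemma br_mix_update_of_lt {lev : ι → ℕ} {l : ℕ} {e : ι} (he : l < lev e) (z w : ι → ℝ) (t : ℝ) :
    mix lev l (Function.update z e t) w = mix lev l z w := by
  funext j
  unfold mix
  by_cases hj : lev j ≤ l
  · rw [if_pos hj, if_pos hj, Function.update_of_ne]
    rintro rfl
    omega
  · rw [if_neg hj, if_neg hj]

lemma br_mix_update_right {lev : ι → ℕ} {l : ℕ} {e : ι} (he : l < lev e) (z w : ι → ℝ) (t : ℝ) :
    mix lev l z (Function.update w e t) = Function.update (mix lev l z w) e t := by
  funext j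
  unfold mix
  by_cases hj : j = e
  · subst hj
    rw [Function.update_self, if_neg (by omega), Function.update_self]
  · rw [Function.update_of_ne hj, Function.update_of_ne hj]

lemma brIndep.J {e : ι} {h : (ι → ℝ) → ℝ} (hh : brIndep e h) (lev : ι → ℕ) (l : ℕ) :
    brIndep e (Lv.J lev l h) := by
  intro z t
  unfold Lv.J
  by_cases he : lev e ≤ l
  · simp only [mix_update he, hh _ _]
  · simp only [br_mix_update_of_lt (not_le.1 he)]

lemma brIndep_top {e : ι} (h : ∀ x, brIndep e fun z => S.H z x) : brIndep e S.top := by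
  intro z t
  unfold Sy.top
  have h1 : ∀ x, S.H (Function.update z e t) x = S.H z x := fun x => h x z t
  simp only [h1]

lemma brIndep_lg {e : ι} (h : ∀ x, brIndep e fun z => S.H z x) {l : ℕ} (hl : l ≤ S.K) :
    brIndep e (S.lg l) := by
  refine Sy.down_ind (P := fun l => brIndep e (S.lg l)) ?_ ?_ l hl
  · rw [Sy.lg_top]
    exact brIndep_top h
  · intro l hl ih
    rw [Sy.lg_step S hl]
    have h1 : brIndep e (fun z => Real.exp (S.m (l + 1) * S.lg (l + 1) z)) := by
      intro z t
      simp only [ih z t]
    intro z t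
    unfold Sy.stp
    rw [h1.J S.lev l z t]

/-- The coordinate `e` is independent of the others. -/
lemma br_integral_mul {e : ι} {h : (ι → ℝ) → ℝ} (hh : brIndep e h) (hm : Measurable h)
    {g : ℝ → ℝ} (hg : Measurable g) :
    ∫ w, h w * g (w e) ∂(gI ι) = (∫ w, h w ∂(gI ι)) * ∫ x, g x ∂(gaussianReal 0 1) := by
  have hupd : ((gI ι).prod (gaussianReal 0 1)).map
      (fun q : (ι → ℝ) × ℝ => Function.update q.1 e q.2) = gI ι := Vale.Agent.P367.GT.map_update e
  have hmu := Vale.Agent.P367.GT.measurable_upd (ι := ι) e
  have hmeas : Measurable fun w : ι → ℝ => h w * g (w e) :=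
    hm.mul (hg.comp (measurable_pi_apply e))
  conv_lhs => rw [← hupd]
  rw [integral_map hmu.aemeasurable hmeas.aestronglyMeasurable]
  have h1 : ∀ q : (ι → ℝ) × ℝ, h (Function.update q.1 e q.2) * g (Function.update q.1 e q.2 e) =
      h q.1 * g q.2 := by
    intro q
    rw [hh q.1 q.2, Function.update_self]
  simp only [h1]
  exact integral_prod_mul h g

/-! ### The tree field -/

/-- The tree field up to the level `l`. -/
noncomputable def brU (y : ℕ → ι) (R : ℕ → ℝ) (l : ℕ) (z : ι → ℝ) : ℝ :=
  ∑ j ∈ Finset.range (l + 1), √(incr R j) * z (y j)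

lemma br_gstep_pos {m v : ℝ} {G : ℝ → ℝ} (hG : Par.Lip1 G) (hm : 0 < m) (x : ℝ) :
    ∫ t, Real.exp (m * G (x + √v * t)) ∂(gaussianReal 0 1) = Real.exp (m * gstep m v G x) := by
  unfold gstep
  rw [← mul_assoc, mul_one_div_cancel hm.ne', one_mul, Real.exp_log (hG.int_exp_pos m x (√v))]

/-- The potential of a tree field: if the energy does not depend on the coordinates `y l`, then
adding a Lipschitz function of the tree field adds the value of the cascade. (For measurable `F`
bounded and for `F` Lipschitz; here Lipschitz. The coordinates `y l` are independent of the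
others, by downward induction `lg' l z = lg l z + (cascade of level l)(∑_{j ≤ l} √incr z (y j))`.) -/
theorem fe_add_tree (hS : S.RegD D) {y : ℕ → ι} (hy : ∀ l ≤ S.K, S.lev (y l) = l)
    (hD : ∀ l ≤ S.K, ∀ z x, D (y l) z x = 0) {R : ℕ → ℝ} (hR : Path S.K R) {F : ℝ → ℝ} {L : ℝ}
    (hF : ∀ x x', |F x - F x'| ≤ L * |x - x'|) :
    (S.wH fun z x => S.H z x + F (tf y S.K R z)).fe =
      S.fe + ∫ x, cascade S.m R S.K F (√(R 0) * x) ∂(gaussianReal 0 1) := by
  have hL : 0 ≤ L := by
    have := hF 1 0
    rw [sub_zero, abs_one, mul_one] at this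
    exact (abs_nonneg _).trans this
  have hF1 : Par.Lip1 F := ⟨L, hL, hF⟩
  set S' : Sy ι X := S.wH fun z x => S.H z x + F (tf y S.K R z) with hS'
  have hind : ∀ l ≤ S.K, ∀ x, brIndep (y l) fun z => S.H z x := fun l hl x =>
    brIndep_of_pd (hS.pd (y l) x) fun z => hD l hl z x
  have key : ∀ l ≤ S.K, ∃ G : ℝ → ℝ, Par.Lip1 G ∧
      (∀ z, S'.lg l z = S.lg l z + G (brU y R l z)) ∧
      cascade S.m R S.K F = cascade S.m R l G := by
    refine Sy.down_ind ?_ ?_
    · refine ⟨F, hF1, fun z => ?_, rfl⟩
      have e1 : S'.lg S.K = S'.top := Sy.lg_top S'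
      rw [e1, Sy.lg_top S]
      unfold Sy.top
      have e2 : ∀ x, Real.exp (S'.H z x) = Real.exp (S.H z x) * Real.exp (F (brU y R S.K z)) := by
        intro x
        rw [← Real.exp_add]
        rfl
      simp only [e2]
      rw [← Finset.sum_mul, Real.log_mul (Sy.sum_exp_pos z).ne' (Real.exp_pos _).ne', Real.log_exp]
    · rintro l hl ⟨G, hG, h1, h2⟩
      have hm : 0 < S.m (l + 1) := hS.m_pos (by omega) (by omega)
      refine ⟨gstep (S.m (l + 1)) (R (l + 1) - R l) G, hG.gstep hm _, fun z => ?_, ?_⟩
      · have hl' : l < S'.K := hl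
        rw [Sy.lg_step S' hl', Sy.lg_step S hl]
        unfold Sy.stp
        have e0 : S'.m = S.m := rfl
        have e0' : S'.lev = S.lev := rfl
        rw [e0, e0']
        have heg : EG fun z => Real.exp (S.m (l + 1) * S.lg (l + 1) z) :=
          (hS.lip_lg (l := l + 1) hl).exp_eg (S.m (l + 1))
        have e3 : J S.lev l (fun z => Real.exp (S.m (l + 1) * S'.lg (l + 1) z)) z =
            J S.lev l (fun z => Real.exp (S.m (l + 1) * S.lg (l + 1) z)) z *
              Real.exp (S.m (l + 1) * gstep (S.m (l + 1)) (R (l + 1) - R l) G (brU y R l z)) := by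
          unfold J
          rw [← br_gstep_pos hG hm]
          have hli : brIndep (y (l + 1)) fun w =>
              Real.exp (S.m (l + 1) * S.lg (l + 1) (mix S.lev l z w)) := by
            intro w t
            simp only
            rw [br_mix_update_right (by rw [hy (l + 1) hl]; omega),
              brIndep_lg (hind (l + 1) hl) hl]
          have hgm : Measurable fun t : ℝ =>
              Real.exp (S.m (l + 1) * G (brU y R l z + √(R (l + 1) - R l) * t)) :=
            Real.measurable_exp.comp ((hG.continuous.measurable.comp (by fun_prop)).const_mul _)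
          rw [← br_integral_mul hli (heg.meas.comp (measurable_mix_right S.lev l z)) hgm]
          refine integral_congr_ae (Filter.Eventually.of_forall fun w => ?_)
          simp only
          rw [h1, ← Real.exp_add, ← mul_add]
          congr 4
          unfold brU
          rw [Finset.sum_range_succ]
          congr 1
          · refine Finset.sum_congr rfl fun j hj => ?_
            rw [Finset.mem_range] at hj
            congr 1
            unfold mix
            rw [if_pos]
            rw [hy j (by omega)]
            omega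
          · have e4 : incr R (l + 1) = R (l + 1) - R l := rfl
            rw [e4]
            congr 1
            unfold mix
            rw [if_neg]
            rw [hy (l + 1) hl]
            omega
        rw [e3, Real.log_mul (J_pos heg (fun _ => Real.exp_pos _) z).ne' (Real.exp_pos _).ne',
          Real.log_exp]
        field_simp
      · rw [h2, Par.cascade_succ_def]
  obtain ⟨G, hG, h1, h2⟩ := key 0 (Nat.zero_le _)
  have e5 : cascade S.m R 0 G = G := rfl
  unfold Sy.fe
  have e6 : ∀ x : ι → ℝ, brU y R 0 x = √(R 0) * x (y 0) := by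
    intro x
    unfold brU
    simp [Par.incr_zero_def]
  simp only [h1, h2, e5, e6]
  have h0 : Integrable (fun x => G (√(R 0) * x)) (gaussianReal 0 1) := by
    simpa using hG.integrable 0 (√(R 0))
  have h3 : Integrable (fun z : ι → ℝ => G (√(R 0) * z (y 0))) (gI ι) :=
    integrable_comp_eval (μ := fun _ : ι => gaussianReal 0 1) (i := y 0)
      (f := fun x => G (√(R 0) * x)) h0
  rw [integral_add (hS.integrable_lg (Nat.zero_le _)) h3]
  congr 1
  exact integral_comp_eval (μ := fun _ : ι => gaussianReal 0 1) (i := y 0)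
      (f := fun x => G (√(R 0) * x)) h0.aestronglyMeasurable

/-- The path followed by the value `1` at the level `k + 1`. -/
noncomputable def ext1 (k : ℕ) (q : ℕ → ℝ) : ℕ → ℝ := fun l => if l ≤ k then q l else 1

lemma br_cascade_congr {m q q' : ℕ → ℝ} {l : ℕ} (h : ∀ j ≤ l, q j = q' j) (F : ℝ → ℝ) :
    cascade m q l F = cascade m q' l F := by
  induction l generalizing F with
  | zero => rfl
  | succ l ih =>
    rw [Par.cascade_succ_def, Par.cascade_succ_def, h (l + 1) le_rfl, h l (Nat.le_succ l)]
    exact ih (fun j hj => h j (by omega)) _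

/-- The pattern part as a cascade with `k + 1` steps, the last one with the exponent `1`. -/
theorem patternPart_eq_cascade {k : ℕ} {m q : ℕ → ℝ} (hm : Exponents k m) (f : ℝ → ℝ) :
    patternPart f k m q =
      ∫ x, cascade m (ext1 k q) (k + 1) f (√(q 0) * x) ∂(gaussianReal 0 1) := by
  have h1 : ext1 k q (k + 1) = 1 := by simp [ext1]
  have h2 : ext1 k q k = q k := by simp [ext1]
  have h3 : gstep 1 (1 - q k) f =
      fun x => Real.log (∫ y, Real.exp (f (x + √(1 - q k) * y)) ∂(gaussianReal 0 1)) := by
    funext x
    unfold gstep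
    simp
  rw [Par.cascade_succ_def, h1, h2, hm.2.1, h3,
    br_cascade_congr (q := ext1 k q) (q' := q) (fun j hj => by simp [ext1, hj])]
  rfl

/-- If the last overlap is one there is no noise. -/
theorem patternPart_eq_of_one {k : ℕ} {m q : ℕ → ℝ} (hq : q k = 1) (f : ℝ → ℝ) :
    patternPart f k m q = ∫ x, cascade m q k f (√(q 0) * x) ∂(gaussianReal 0 1) := by
  unfold patternPart
  have h1 : (fun x => Real.log (∫ y, Real.exp (f (x + √(1 - q k) * y)) ∂(gaussianReal 0 1))) =
      f := by
    funext x
    rw [hq]
    simp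
  rw [h1]

end Vale.Agent.P157.Lv
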