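import Mathlib

/-! The Crisanti-Sommers functional. -/

namespace Vale.Agent.P157.Sph

/-- The quantities `a_l = 1 - q_k + ∑_{l < j ≤ k} m_j (q_j - q_{j-1})`. -/
noncomputable def csA (k : ℕ) (m q : ℕ → ℝ) (l : ℕ) : ℝ :=
  1 - q k + ∑ j ∈ Finset.Ico l k, m (j + 1) * (q (j + 1) - q j)

/-- The Crisanti-Sommers functional
`(1/2) (log (1 - q_k) + ∑_{1 ≤ l ≤ k} (1/m_l) log (a_{l-1} / a_l) + q_0 / a_0)`. -/
noncomputable def csPart (k : ℕ) (m q : ℕ → ℝ) : ℝ :=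
  1 / 2 * (Real.log (1 - q k) +
    ∑ l ∈ Finset.range k, 1 / m (l + 1) * Real.log (csA k m q l / csA k m q (l + 1)) +
    q 0 / csA k m q 0)

end Vale.Agent.P157.Sph
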