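import Mathlib

open MeasureTheory ProbabilityTheory

namespace Vale.Agent.P157

/-- The uniform probability measure on the sphere of radius `√N` in `ℝ^N`, written as the law of
`√N g / |g|` for a standard Gaussian vector `g`. The theorem `usphere_eq` of `SphereEq.lean`
identifies it with the normalized surface measure. -/
noncomputable def usphere (N : ℕ) : Measure (Fin N → ℝ) :=
  (Measure.pi fun _ => gaussianReal 0 1).map fun g i => √(N : ℝ) * (g i / √(∑ j, g j ^ 2))

end Vale.Agent.P157
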