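import Vale.Agent.P157.ParClsB

/-!
The pattern part of the Parisi functional is Lipschitz in the potential for the `L¹` distance,
uniformly in the parameters.
-/

open MeasureTheory ProbabilityTheory Filter Topology

namespace Vale.Agent.P157.Par

/-- Bounded measurable functions are integrable. -/
lemma bp_int {h : ℝ → ℝ} (hh : Measurable h) {C : ℝ} (hC : ∀ x, |h x| ≤ C) :
    Integrable h (gaussianReal 0 1) :=
  (integrable_const C).mono' hh.aestronglyMeasurable
    (Filter.Eventually.of_forall fun x => by rw [Real.norm_eq_abs]; exact hC x)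

/-- The sum of two independent Gaussian variables. -/
lemma bp_conv {h : ℝ → ℝ} (hh : Measurable h) {C : ℝ} (hC : ∀ x, |h x| ≤ C) {a v : ℝ}
    (ha : 0 ≤ a) (hv : 0 ≤ v) :
    ∫ z, ∫ w, h (√a * z + √v * w) ∂(gaussianReal 0 1) ∂(gaussianReal 0 1) =
      ∫ z, h (√(a + v) * z) ∂(gaussianReal 0 1) := by
  have e : ∀ b : ℝ, ∀ hb : 0 ≤ b, (gaussianReal 0 1).map (fun z => √b * z) =
      gaussianReal 0 ⟨b, hb⟩ := by
    intro b hb
    rw [gaussianReal_map_const_mul]
    simp only [mul_zero, mul_one]
    congr 1
    apply NNReal.eq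
    simp [Real.sq_sqrt hb]
    rfl
  have e2 : ((gaussianReal 0 1).prod (gaussianReal 0 1)).map
      (fun p : ℝ × ℝ => √a * p.1 + √v * p.2) =
      (gaussianReal 0 1).map (fun z => √(a + v) * z) := by
    rw [e (a + v) (by positivity)]
    have h1 : ((gaussianReal 0 1).prod (gaussianReal 0 1)).map
        (fun p : ℝ × ℝ => √a * p.1 + √v * p.2) =
        (((gaussianReal 0 1).map (fun z => √a * z)).prod
          ((gaussianReal 0 1).map (fun z => √v * z))).map (fun p : ℝ × ℝ => p.1 + p.2) := by
      rw [Measure.map_prod_map _ _ (by fun_prop) (by fun_prop),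
        Measure.map_map (by fun_prop) (by fun_prop)]
      rfl
    rw [h1, e a ha, e v hv]
    have h2 := gaussianReal_conv_gaussianReal (m₁ := 0) (m₂ := 0) (v₁ := ⟨a, ha⟩) (v₂ := ⟨v, hv⟩)
    unfold Measure.conv at h2
    rw [h2, add_zero]
    rfl
  have hm : Measurable (fun p : ℝ × ℝ => √a * p.1 + √v * p.2) := by fun_prop
  have h3 : ∫ z, h (√(a + v) * z) ∂(gaussianReal 0 1) =
      ∫ p : ℝ × ℝ, h (√a * p.1 + √v * p.2) ∂((gaussianReal 0 1).prod (gaussianReal 0 1)) := by
    rw [← integral_map (φ := fun z => √(a + v) * z) (by fun_prop) hh.aestronglyMeasurable, ← e2,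
      integral_map hm.aemeasurable hh.aestronglyMeasurable]
  rw [h3, integral_prod]
  exact (integrable_const C).mono' (hh.comp hm).aestronglyMeasurable
    (Filter.Eventually.of_forall fun x => by rw [Real.norm_eq_abs]; exact hC _)

variable {F G : ℝ → ℝ} {B : ℝ}

lemma bp_exp_gstep {m v : ℝ} (hm : 0 < m) (hF : Measurable F) (hFB : ∀ x, |F x| ≤ B) (x : ℝ) :
    0 < ∫ z, Real.exp (m * F (x + √v * z)) ∂(gaussianReal 0 1) ∧
    Real.exp (m * gstep m v F x) = ∫ z, Real.exp (m * F (x + √v * z)) ∂(gaussianReal 0 1) := by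
  have hp : 0 < ∫ z, Real.exp (m * F (x + √v * z)) ∂(gaussianReal 0 1) := by
    apply integral_exp_pos
    refine bp_int (C := Real.exp (m * B)) ?_ fun z => ?_
    · exact Real.measurable_exp.comp ((hF.comp (by fun_prop)).const_mul m)
    · rw [abs_of_pos (Real.exp_pos _)]
      gcongr
      exact (le_abs_self _).trans (hFB _)
  refine ⟨hp, ?_⟩
  unfold gstep
  rw [← mul_assoc, mul_one_div_cancel hm.ne', one_mul, Real.exp_log hp]

/-- Jensen's inequality for one step of the cascade. -/
lemma bp_sub_le {m v : ℝ} (hm : 0 < m) (hF : Measurable F) (hG : Measurable G)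
    (hFB : ∀ x, |F x| ≤ B) (hGB : ∀ x, |G x| ≤ B) (x : ℝ) :
    gstep m v F x - gstep m v G x ≤
      (∫ z, (F (x + √v * z) - G (x + √v * z)) * Real.exp (m * F (x + √v * z))
        ∂(gaussianReal 0 1)) / ∫ z, Real.exp (m * F (x + √v * z)) ∂(gaussianReal 0 1) := by
  obtain ⟨hA, -⟩ := bp_exp_gstep (v := v) hm hF hFB x
  obtain ⟨hC, -⟩ := bp_exp_gstep (v := v) hm hG hGB x
  set A := ∫ z, Real.exp (m * F (x + √v * z)) ∂(gaussianReal 0 1) with hAdef
  set C := ∫ z, Real.exp (m * G (x + √v * z)) ∂(gaussianReal 0 1) with hCdef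
  set I := ∫ z, (F (x + √v * z) - G (x + √v * z)) * Real.exp (m * F (x + √v * z))
        ∂(gaussianReal 0 1) with hIdef
  have hmF : Measurable fun z : ℝ => F (x + √v * z) := hF.comp (by fun_prop)
  have hmG : Measurable fun z : ℝ => G (x + √v * z) := hG.comp (by fun_prop)
  have iE : ∀ {H : ℝ → ℝ}, Measurable H → (∀ z, |H z| ≤ B) →
      Integrable (fun z => Real.exp (m * H z)) (gaussianReal 0 1) := by
    intro H hH hHB
    refine bp_int (C := Real.exp (m * B)) (Real.measurable_exp.comp (hH.const_mul m)) fun z => ?_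
    rw [abs_of_pos (Real.exp_pos _)]
    gcongr
    exact (le_abs_self _).trans (hHB _)
  have iF := iE hmF (fun z => hFB _)
  have iG := iE hmG (fun z => hGB _)
  have iI : Integrable (fun z => (F (x + √v * z) - G (x + √v * z)) *
      Real.exp (m * F (x + √v * z))) (gaussianReal 0 1) := by
    refine bp_int (C := (2 * B) * Real.exp (m * B)) ((hmF.sub hmG).mul
      (Real.measurable_exp.comp (hmF.const_mul m))) fun z => ?_
    rw [abs_mul, abs_of_pos (Real.exp_pos _)]
    have h1 := hFB (x + √v * z)
    have h2 := hGB (x + √v * z)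
    have hB : 0 ≤ B := (abs_nonneg _).trans h1
    gcongr
    · calc |F (x + √v * z) - G (x + √v * z)| ≤ |F (x + √v * z)| + |G (x + √v * z)| := abs_sub _ _
        _ ≤ 2 * B := by linarith
    · exact (le_abs_self _).trans h1
  have key : Real.exp (-(m * (I / A))) * A ≤ C := by
    have h1 : ∀ z, Real.exp (-(m * (I / A))) * ((1 + m * (I / A)) * Real.exp (m * F (x + √v * z)) -
        m * ((F (x + √v * z) - G (x + √v * z)) * Real.exp (m * F (x + √v * z)))) ≤
        Real.exp (m * G (x + √v * z)) := by
      intro z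
      have h2 := Real.add_one_le_exp (m * (G (x + √v * z) - F (x + √v * z)) + m * (I / A))
      have h3 : Real.exp (m * G (x + √v * z)) = Real.exp (-(m * (I / A))) *
          (Real.exp (m * F (x + √v * z)) *
          Real.exp (m * (G (x + √v * z) - F (x + √v * z)) + m * (I / A))) := by
        rw [← Real.exp_add, ← Real.exp_add]
        congr 1
        ring
      rw [h3]
      apply mul_le_mul_of_nonneg_left _ (Real.exp_pos _).le
      calc (1 + m * (I / A)) * Real.exp (m * F (x + √v * z)) -
            m * ((F (x + √v * z) - G (x + √v * z)) * Real.exp (m * F (x + √v * z)))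
          = Real.exp (m * F (x + √v * z)) *
            (m * (G (x + √v * z) - F (x + √v * z)) + m * (I / A) + 1) := by ring
        _ ≤ _ := mul_le_mul_of_nonneg_left h2 (Real.exp_pos _).le
    have h4 := integral_mono (((iF.const_mul (1 + m * (I / A))).sub (iI.const_mul m)).const_mul
      (Real.exp (-(m * (I / A))))) iG h1
    have h5 : ∫ z, Real.exp (-(m * (I / A))) *
        ((1 + m * (I / A)) * Real.exp (m * F (x + √v * z)) -
        m * ((F (x + √v * z) - G (x + √v * z)) * Real.exp (m * F (x + √v * z))))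
        ∂(gaussianReal 0 1) = Real.exp (-(m * (I / A))) * A := by
      rw [integral_const_mul, integral_sub (iF.const_mul (1 + m * (I / A))) (iI.const_mul m),
        integral_const_mul, integral_const_mul, ← hAdef, ← hIdef]
      field_simp
      ring
    calc _ = _ := h5.symm
      _ ≤ _ := h4
  have h6 : Real.log A - Real.log C ≤ m * (I / A) := by
    have h7 := Real.log_le_log (by positivity) key
    rw [Real.log_mul (Real.exp_pos _).ne' hA.ne', Real.log_exp] at h7
    linarith
  unfold gstep
  rw [← mul_sub, ← hAdef, ← hCdef]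
  calc 1 / m * (Real.log A - Real.log C) ≤ 1 / m * (m * (I / A)) := by gcongr
    _ = I / A := by field_simp

/-- One step of the induction. -/
lemma bp_step {m m' a v : ℝ} (hm : 0 < m) (hm' : m' ≤ m) (ha : 0 ≤ a) (hv : 0 ≤ v)
    (hF : Measurable F) (hG : Measurable G) (hFB : ∀ x, |F x| ≤ B) (hGB : ∀ x, |G x| ≤ B) :
    ∫ z, max (gstep m v F (√a * z) - gstep m v G (√a * z)) 0 *
        Real.exp (m' * gstep m v F (√a * z)) ∂(gaussianReal 0 1) ≤
      Real.exp ((m - m') * B) * ∫ z, max (F (√(a + v) * z) - G (√(a + v) * z)) 0 *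
        Real.exp (m * F (√(a + v) * z)) ∂(gaussianReal 0 1) := by
  have hB : 0 ≤ B := (abs_nonneg _).trans (hFB 0)
  have hF' := ClsB_gstep_bdd (v := v) hm hF hFB
  have hG' := ClsB_gstep_bdd (v := v) hm hG hGB
  have hmF' : Measurable (gstep m v F) := ClsB_gstep_meas hF
  have hmG' : Measurable (gstep m v G) := ClsB_gstep_meas hG
  set K : ℝ → ℝ := fun y => max (F y - G y) 0 * Real.exp (m * F y) with hK
  have hKm : Measurable K :=
    ((hF.sub hG).max measurable_const).mul (Real.measurable_exp.comp (hF.const_mul m))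
  have hK0 : ∀ y, 0 ≤ K y := fun y => mul_nonneg (le_max_right _ _) (Real.exp_pos _).le
  have hmaxb : ∀ {s t : ℝ}, |s| ≤ B → |t| ≤ B → max (s - t) 0 ≤ 2 * B := by
    intro s t hs ht
    refine max_le ?_ (by positivity)
    have h1 := (abs_le.1 hs).2
    have h2 := (abs_le.1 ht).1
    linarith
  have hKb : ∀ y, |K y| ≤ (2 * B) * Real.exp (m * B) := by
    intro y
    rw [abs_of_nonneg (hK0 y)]
    apply mul_le_mul (hmaxb (hFB y) (hGB y)) _ (Real.exp_pos _).le (by positivity)
    gcongr
    exact (le_abs_self _).trans (hFB _)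
  have hNint : ∀ x, Integrable (fun w => K (x + √v * w)) (gaussianReal 0 1) := fun x =>
    bp_int (hKm.comp (by fun_prop)) fun w => hKb _
  -- pointwise bound
  have hpt : ∀ x, max (gstep m v F x - gstep m v G x) 0 * Real.exp (m' * gstep m v F x) ≤
      Real.exp ((m - m') * B) * ∫ w, K (x + √v * w) ∂(gaussianReal 0 1) := by
    intro x
    obtain ⟨hA, hA2⟩ := bp_exp_gstep (v := v) hm hF hFB x
    have hN0 : 0 ≤ ∫ w, K (x + √v * w) ∂(gaussianReal 0 1) :=
      integral_nonneg fun w => hK0 _
    have h1 : max (gstep m v F x - gstep m v G x) 0 ≤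
        (∫ w, K (x + √v * w) ∂(gaussianReal 0 1)) /
          ∫ z, Real.exp (m * F (x + √v * z)) ∂(gaussianReal 0 1) := by
      refine max_le ((bp_sub_le hm hF hG hFB hGB x).trans ?_) (div_nonneg hN0 hA.le)
      apply div_le_div_of_nonneg_right _ hA.le
      apply integral_mono _ (hNint x)
      · intro w
        exact mul_le_mul_of_nonneg_right (le_max_left _ _) (Real.exp_pos _).le
      · refine bp_int (C := (2 * B) * Real.exp (m * B)) (((hF.comp (by fun_prop)).sub
          (hG.comp (by fun_prop))).mul (Real.measurable_exp.comp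
          ((hF.comp (by fun_prop)).const_mul m))) fun z => ?_
        rw [abs_mul, abs_of_pos (Real.exp_pos _)]
        have h1 := hFB (x + √v * z)
        have h2 := hGB (x + √v * z)
        gcongr
        · calc |F (x + √v * z) - G (x + √v * z)| ≤ |F (x + √v * z)| + |G (x + √v * z)| :=
                abs_sub _ _
            _ ≤ 2 * B := by linarith
        · exact (le_abs_self _).trans h1
    rw [← hA2] at h1
    calc max (gstep m v F x - gstep m v G x) 0 * Real.exp (m' * gstep m v F x)
        ≤ (∫ w, K (x + √v * w) ∂(gaussianReal 0 1)) / Real.exp (m * gstep m v F x) *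
          Real.exp (m' * gstep m v F x) := by gcongr
      _ = (∫ w, K (x + √v * w) ∂(gaussianReal 0 1)) *
          Real.exp ((m - m') * (- gstep m v F x)) := by
          rw [div_mul_eq_mul_div, mul_div_assoc, ← Real.exp_sub]
          congr 2
          ring
      _ ≤ (∫ w, K (x + √v * w) ∂(gaussianReal 0 1)) * Real.exp ((m - m') * B) := by
          gcongr
          have := (abs_le.1 (hF' x)).1
          linarith
      _ = _ := by ring
  have hmN : Measurable fun x : ℝ => ∫ w, K (x + √v * w) ∂(gaussianReal 0 1) := by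
    have : StronglyMeasurable fun x : ℝ => ∫ w, K (x + √v * w) ∂(gaussianReal 0 1) := by
      apply StronglyMeasurable.integral_prod_right (f := fun x w => K (x + √v * w))
      apply Measurable.stronglyMeasurable
      exact hKm.comp (by fun_prop)
    exact this.measurable
  calc ∫ z, max (gstep m v F (√a * z) - gstep m v G (√a * z)) 0 *
        Real.exp (m' * gstep m v F (√a * z)) ∂(gaussianReal 0 1)
      ≤ ∫ z, Real.exp ((m - m') * B) * ∫ w, K (√a * z + √v * w) ∂(gaussianReal 0 1)
        ∂(gaussianReal 0 1) := by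
        apply integral_mono_of_nonneg
        · exact Filter.Eventually.of_forall fun z =>
            mul_nonneg (le_max_right _ _) (Real.exp_pos _).le
        · refine Integrable.const_mul (bp_int (C := (2 * B) * Real.exp (m * B))
            (hmN.comp (by fun_prop : Measurable fun z : ℝ => √a * z)) fun z => ?_) _
          have h2 := norm_integral_le_of_norm_le_const (μ := gaussianReal 0 1)
            (f := fun w => K (√a * z + √v * w)) (C := (2 * B) * Real.exp (m * B))
            (Filter.Eventually.of_forall fun w => by rw [Real.norm_eq_abs]; exact hKb _)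
          rwa [Real.norm_eq_abs, probReal_univ, mul_one] at h2
        · exact Filter.Eventually.of_forall fun z => hpt _
    _ = Real.exp ((m - m') * B) * ∫ z, K (√(a + v) * z) ∂(gaussianReal 0 1) := by
        rw [integral_const_mul, bp_conv hKm hKb ha hv]

/-- The induction on the levels of the cascade. -/
lemma bp_cascade {m q : ℕ → ℝ} (hm0 : m 0 = 0) (hq0 : 0 ≤ q 0) : ∀ {l : ℕ},
    (∀ j < l, m j < m (j + 1)) → (∀ j < l, q j ≤ q (j + 1)) → ∀ {F G : ℝ → ℝ}, Measurable F →
    Measurable G → (∀ x, |F x| ≤ B) → (∀ x, |G x| ≤ B) →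
    ∫ z, cascade m q l F (√(q 0) * z) ∂(gaussianReal 0 1) -
      ∫ z, cascade m q l G (√(q 0) * z) ∂(gaussianReal 0 1) ≤
      Real.exp (m l * B) * ∫ z, max (F (√(q l) * z) - G (√(q l) * z)) 0 *
        Real.exp (m l * F (√(q l) * z)) ∂(gaussianReal 0 1) := by
  intro l
  induction l with
  | zero =>
    intro _ _ F G hF hG hFB hGB
    have hB : 0 ≤ B := (abs_nonneg _).trans (hFB 0)
    have iF : Integrable (fun z => F (√(q 0) * z)) (gaussianReal 0 1) :=
      bp_int (hF.comp (by fun_prop)) fun z => hFB _
    have iG : Integrable (fun z => G (√(q 0) * z)) (gaussianReal 0 1) :=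
      bp_int (hG.comp (by fun_prop)) fun z => hGB _
    rw [hm0]
    simp only [cascade, zero_mul, Real.exp_zero, one_mul, mul_one]
    rw [← integral_sub iF iG]
    apply integral_mono (iF.sub iG)
    · refine (iF.sub iG).sup (integrable_const 0)
    · intro z
      exact le_max_left _ _
  | succ l ih =>
    intro hm hq F G hF hG hFB hGB
    have hB : 0 ≤ B := (abs_nonneg _).trans (hFB 0)
    have hml : 0 ≤ m l := by
      clear ih hF hG hFB hGB
      have : ∀ j ≤ l, 0 ≤ m j := by
        intro j
        induction j with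
        | zero => intro _; rw [hm0]
        | succ j ihj => intro hj; exact (ihj (by omega)).trans (hm j (by omega)).le
      exact this l le_rfl
    have hql : 0 ≤ q l := by
      have : ∀ j ≤ l, 0 ≤ q j := by
        intro j
        induction j with
        | zero => intro _; exact hq0
        | succ j ihj => intro hj; exact (ihj (by omega)).trans (hq j (by omega))
      exact this l le_rfl
    have hmm : m l < m (l + 1) := hm l (by omega)
    have hm1 : 0 < m (l + 1) := hml.trans_lt hmm
    have hqv : 0 ≤ q (l + 1) - q l := sub_nonneg.2 (hq l (by omega))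
    have h1 := ih (fun j hj => hm j (by omega)) (fun j hj => hq j (by omega))
      (F := gstep (m (l + 1)) (q (l + 1) - q l) F) (G := gstep (m (l + 1)) (q (l + 1) - q l) G)
      (ClsB_gstep_meas hF) (ClsB_gstep_meas hG) (ClsB_gstep_bdd hm1 hF hFB)
      (ClsB_gstep_bdd hm1 hG hGB)
    have h2 := bp_step hm1 hmm.le hql hqv hF hG hFB hGB
    rw [add_sub_cancel] at h2
    simp only [cascade]
    refine h1.trans ?_
    calc _ ≤ Real.exp (m l * B) * (Real.exp ((m (l + 1) - m l) * B) * _) := by gcongr
      _ = _ := by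
        rw [← mul_assoc, ← Real.exp_add]
        congr 2
        ring

/-- The one-sided inequality. -/
lemma bp_pattern_le {f g : ℝ → ℝ} {k : ℕ} {m q : ℕ → ℝ} (hm : Exponents k m) (hq : Path k q)
    (hq1 : q k ≤ 1) (hf : Measurable f) (hg : Measurable g) (hfB : ∀ x, |f x| ≤ B)
    (hgB : ∀ x, |g x| ≤ B) :
    patternPart f k m q - patternPart g k m q ≤
      Real.exp (2 * B) * ∫ x, |f x - g x| ∂(gaussianReal 0 1) := by
  obtain ⟨hm0, hmk, hmm⟩ := hm
  obtain ⟨hq0, hqm⟩ := hq
  have hB : 0 ≤ B := (abs_nonneg _).trans (hfB 0)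
  have e : ∀ f : ℝ → ℝ, (fun x : ℝ => Real.log (∫ y, Real.exp (f (x + √(1 - q k) * y))
      ∂(gaussianReal 0 1))) = gstep 1 (1 - q k) f := by
    intro f
    funext x
    unfold gstep
    simp
  have hqk : 0 ≤ q k := by
    have : ∀ j ≤ k, 0 ≤ q j := by
      intro j
      induction j with
      | zero => intro _; exact hq0
      | succ j ihj => intro hj; exact (ihj (by omega)).trans (hqm j (by omega))
    exact this k le_rfl
  have hmk1 : m k ≤ 1 := by rw [← hmk]; exact (hmm k le_rfl).le
  unfold patternPart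
  rw [e f, e g]
  have h1 := bp_cascade (B := B) hm0 hq0 (l := k) (fun j hj => hmm j hj.le) hqm
    (ClsB_gstep_meas (m := 1) (v := 1 - q k) hf) (ClsB_gstep_meas (m := 1) (v := 1 - q k) hg)
    (ClsB_gstep_bdd one_pos hf hfB) (ClsB_gstep_bdd one_pos hg hgB)
  have h2 := bp_step (m := 1) (m' := m k) (a := q k) (v := 1 - q k) one_pos hmk1 hqk
    (sub_nonneg.2 hq1) hf hg hfB hgB
  rw [add_sub_cancel] at h2
  simp only [Real.sqrt_one, one_mul] at h2
  have h3 : ∫ z, max (f z - g z) 0 * Real.exp (f z) ∂(gaussianReal 0 1) ≤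
      Real.exp B * ∫ x, |f x - g x| ∂(gaussianReal 0 1) := by
    rw [← integral_const_mul]
    apply integral_mono_of_nonneg
    · exact Filter.Eventually.of_forall fun z =>
        mul_nonneg (le_max_right _ _) (Real.exp_pos _).le
    · exact ((bp_int hf hfB).sub (bp_int hg hgB)).abs.const_mul _
    · refine Filter.Eventually.of_forall fun z => ?_
      simp only
      rw [mul_comm (Real.exp B)]
      apply mul_le_mul (max_le (le_abs_self _) (abs_nonneg _)) _ (Real.exp_pos _).le (abs_nonneg _)
      gcongr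
      exact (le_abs_self _).trans (hfB z)
  refine h1.trans ?_
  calc _ ≤ Real.exp (m k * B) * (Real.exp ((1 - m k) * B) *
        (Real.exp B * ∫ x, |f x - g x| ∂(gaussianReal 0 1))) := by
        refine mul_le_mul_of_nonneg_left (h2.trans ?_) (Real.exp_pos _).le
        exact mul_le_mul_of_nonneg_left h3 (Real.exp_pos _).le
    _ = _ := by
        rw [← mul_assoc, ← mul_assoc, ← Real.exp_add, ← Real.exp_add]
        congr 2
        ring

/-- **The pattern part is Lipschitz in the potential**, uniformly in the parameters. -/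
theorem patternPart_lip_L1 {f g : ℝ → ℝ} {k : ℕ} {m q : ℕ → ℝ} (hm : Exponents k m)
    (hq : Path k q) (hq1 : q k ≤ 1) (hf : Measurable f) (hg : Measurable g)
    (hfB : ∀ x, |f x| ≤ B) (hgB : ∀ x, |g x| ≤ B) :
    |patternPart f k m q - patternPart g k m q| ≤
      Real.exp (2 * B) * ∫ x, |f x - g x| ∂(gaussianReal 0 1) := by
  rw [abs_le]
  constructor
  · have h := bp_pattern_le hm hq hq1 hg hf hgB hfB
    simp only [abs_sub_comm (g _) (f _)] at h
    linarith
  · exact bp_pattern_le hm hq hq1 hf hg hfB hgB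

end Vale.Agent.P157.Par
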