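import Vale.Agent.P157.LvDefs
import Vale.Agent.P367.GT.Stein

/-!
Functions of exponential growth on `ℝ^ι`, averages over the higher levels, partial derivatives.
-/

open MeasureTheory ProbabilityTheory Filter Topology

namespace Vale.Agent.P157.Lv

variable {ι : Type} [Fintype ι]

section eg

lemma Lip.continuous {G : (ι → ℝ) → ℝ} (h : Lip G) : Continuous G := by
  obtain ⟨L, hL, h⟩ := h
  refine (LipschitzWith.of_dist_le_mul (K := ⟨L, hL⟩) fun y y' => ?_).continuous
  rw [Real.dist_eq, dist_eq_norm]; exact h y y'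

lemma Lip.measurable {G : (ι → ℝ) → ℝ} (h : Lip G) : Measurable G := h.continuous.measurable

lemma EG.of_bdd {h : (ι → ℝ) → ℝ} (hm : Measurable h) {C : ℝ} (hC : ∀ y, |h y| ≤ C) : EG h :=
  ⟨hm, |C|, 0, abs_nonneg _, le_rfl, fun y => by simpa using (hC y).trans (le_abs_self C)⟩

lemma EG.const (c : ℝ) : EG (fun _ : ι → ℝ => c) := EG.of_bdd measurable_const fun _ => le_rfl

lemma EG.add {f g : (ι → ℝ) → ℝ} (hf : EG f) (hg : EG g) : EG (fun y => f y + g y) := by
  obtain ⟨C, a, hC, ha, h1⟩ := hf.bdd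
  obtain ⟨D, b, hD, hb, h2⟩ := hg.bdd
  refine ⟨hf.meas.add hg.meas, C + D, max a b, by positivity, by positivity, fun y => ?_⟩
  have e1 : Real.exp (a * ‖y‖) ≤ Real.exp (max a b * ‖y‖) :=
    Real.exp_le_exp.2 (mul_le_mul_of_nonneg_right (le_max_left _ _) (norm_nonneg _))
  have e2 : Real.exp (b * ‖y‖) ≤ Real.exp (max a b * ‖y‖) :=
    Real.exp_le_exp.2 (mul_le_mul_of_nonneg_right (le_max_right _ _) (norm_nonneg _))
  calc |f y + g y| ≤ |f y| + |g y| := abs_add_le _ _
    _ ≤ C * Real.exp (a * ‖y‖) + D * Real.exp (b * ‖y‖) := add_le_add (h1 y) (h2 y)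
    _ ≤ C * Real.exp (max a b * ‖y‖) + D * Real.exp (max a b * ‖y‖) := by gcongr
    _ = _ := by ring

lemma EG.mul {f g : (ι → ℝ) → ℝ} (hf : EG f) (hg : EG g) : EG (fun y => f y * g y) := by
  obtain ⟨C, a, hC, ha, h1⟩ := hf.bdd
  obtain ⟨D, b, hD, hb, h2⟩ := hg.bdd
  refine ⟨hf.meas.mul hg.meas, C * D, a + b, by positivity, by positivity, fun y => ?_⟩
  calc |f y * g y| = |f y| * |g y| := abs_mul _ _
    _ ≤ (C * Real.exp (a * ‖y‖)) * (D * Real.exp (b * ‖y‖)) := by
        gcongr
        · exact h1 y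
        · exact h2 y
    _ = C * D * Real.exp ((a + b) * ‖y‖) := by rw [add_mul, Real.exp_add]; ring

lemma EG.const_mul {f : (ι → ℝ) → ℝ} (c : ℝ) (hf : EG f) : EG (fun y => c * f y) :=
  (EG.const c).mul hf

lemma EG.neg {f : (ι → ℝ) → ℝ} (hf : EG f) : EG (fun y => -f y) := by
  simpa using hf.const_mul (-1)

lemma EG.sub {f g : (ι → ℝ) → ℝ} (hf : EG f) (hg : EG g) : EG (fun y => f y - g y) := by
  simpa [sub_eq_add_neg] using hf.add hg.neg

lemma EG.sum {κ : Type*} (s : Finset κ) {f : κ → (ι → ℝ) → ℝ} (hf : ∀ i ∈ s, EG (f i)) :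
    EG (fun y => ∑ i ∈ s, f i y) := by
  classical
  induction s using Finset.induction_on with
  | empty => simpa using EG.const 0
  | insert a s ha ih =>
    simp only [Finset.sum_insert ha]
    exact (hf a (Finset.mem_insert_self a s)).add
      (ih fun i hi => hf i (Finset.mem_insert_of_mem hi))

lemma EG.pow {f : (ι → ℝ) → ℝ} (hf : EG f) (n : ℕ) : EG (fun y => f y ^ n) := by
  induction n with
  | zero => simpa using EG.const 1
  | succ n ih => simpa [pow_succ] using ih.mul hf

lemma EG.mono {f g : (ι → ℝ) → ℝ} (hg : EG g) (hf : Measurable f) (h : ∀ y, |f y| ≤ |g y|) :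
    EG f := by
  obtain ⟨C, a, hC, ha, h1⟩ := hg.bdd
  exact ⟨hf, C, a, hC, ha, fun y => (h y).trans (h1 y)⟩

lemma EG.abs {f : (ι → ℝ) → ℝ} (hf : EG f) : EG (fun y => |f y|) :=
  hf.mono hf.meas.abs fun y => by simp

lemma EG.coord (i : ι) : EG (fun y : ι → ℝ => y i) := by
  refine ⟨measurable_pi_apply i, 1, 1, zero_le_one, zero_le_one, fun y => ?_⟩
  rw [one_mul, one_mul, ← Real.norm_eq_abs]
  exact (norm_le_pi_norm y i).trans ((Real.add_one_le_exp ‖y‖).trans' (by linarith))

lemma Lip.eg {G : (ι → ℝ) → ℝ} (h : Lip G) : EG G := by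
  obtain ⟨L, hL, h'⟩ := id h
  refine ⟨h.measurable, |G 0| + L, 1, by positivity, zero_le_one, fun y => ?_⟩
  have h1 : |G y| ≤ |G 0| + L * ‖y‖ := by
    have := h' y 0
    rw [sub_zero] at this
    calc |G y| = |(G y - G 0) + G 0| := by ring_nf
      _ ≤ |G y - G 0| + |G 0| := abs_add_le _ _
      _ ≤ _ := by linarith
  have h2 : ‖y‖ ≤ Real.exp ‖y‖ := (Real.add_one_le_exp ‖y‖).trans' (by linarith)
  have h3 : 1 ≤ Real.exp ‖y‖ := Real.one_le_exp (norm_nonneg _)
  rw [one_mul]
  calc |G y| ≤ |G 0| + L * ‖y‖ := h1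
    _ ≤ |G 0| * Real.exp ‖y‖ + L * Real.exp ‖y‖ := by
        refine add_le_add (le_mul_of_one_le_right (abs_nonneg _) h3) (by gcongr)
    _ = _ := by ring

lemma Lip.exp_eg {G : (ι → ℝ) → ℝ} (h : Lip G) (m : ℝ) : EG (fun y => Real.exp (m * G y)) := by
  obtain ⟨L, hL, h'⟩ := id h
  refine ⟨Real.measurable_exp.comp (h.measurable.const_mul m), Real.exp (|m| * |G 0|), |m| * L,
    (Real.exp_pos _).le, by positivity, fun y => ?_⟩
  rw [abs_of_pos (Real.exp_pos _), ← Real.exp_add, Real.exp_le_exp]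
  have h1 : |G y| ≤ |G 0| + L * ‖y‖ := by
    have := h' y 0
    rw [sub_zero] at this
    calc |G y| = |(G y - G 0) + G 0| := by ring_nf
      _ ≤ |G y - G 0| + |G 0| := abs_add_le _ _
      _ ≤ _ := by linarith
  calc m * G y ≤ |m * G y| := le_abs_self _
    _ = |m| * |G y| := abs_mul _ _
    _ ≤ |m| * (|G 0| + L * ‖y‖) := by gcongr
    _ = _ := by ring

lemma Lip.add {F G : (ι → ℝ) → ℝ} (hF : Lip F) (hG : Lip G) : Lip (fun y => F y + G y) := by
  obtain ⟨L, hL, h1⟩ := hF
  obtain ⟨M, hM, h2⟩ := hG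
  refine ⟨L + M, add_nonneg hL hM, fun y y' => ?_⟩
  calc |F y + G y - (F y' + G y')| = |(F y - F y') + (G y - G y')| := by ring_nf
    _ ≤ |F y - F y'| + |G y - G y'| := abs_add_le _ _
    _ ≤ L * ‖y - y'‖ + M * ‖y - y'‖ := add_le_add (h1 y y') (h2 y y')
    _ = _ := by ring

lemma Lip.const_mul {F : (ι → ℝ) → ℝ} (hF : Lip F) (c : ℝ) : Lip (fun y => c * F y) := by
  obtain ⟨L, hL, h1⟩ := hF
  refine ⟨|c| * L, mul_nonneg (abs_nonneg _) hL, fun y y' => ?_⟩
  rw [← mul_sub, abs_mul, mul_assoc]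
  exact mul_le_mul_of_nonneg_left (h1 y y') (abs_nonneg _)

lemma Lip.const (c : ℝ) : Lip (fun _ : ι → ℝ => c) :=
  ⟨0, le_rfl, fun y y' => by simp⟩

lemma Lip.coord (i : ι) : Lip (fun y : ι → ℝ => y i) := by
  refine ⟨1, zero_le_one, fun y y' => ?_⟩
  rw [one_mul, ← Real.norm_eq_abs]
  exact norm_le_pi_norm (y - y') i

lemma Lip.sum {κ : Type*} (s : Finset κ) {f : κ → (ι → ℝ) → ℝ} (hf : ∀ i ∈ s, Lip (f i)) :
    Lip (fun y => ∑ i ∈ s, f i y) := by
  classical
  induction s using Finset.induction_on with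
  | empty => simpa using Lip.const 0
  | insert a s ha ih =>
    simp only [Finset.sum_insert ha]
    exact (hf a (Finset.mem_insert_self a s)).add
      (ih fun i hi => hf i (Finset.mem_insert_of_mem hi))

/-- Composition with a Lipschitz function of one variable. -/
lemma Lip.comp {F : (ι → ℝ) → ℝ} (hF : Lip F) {g : ℝ → ℝ} {L : ℝ} (hL : 0 ≤ L)
    (hg : ∀ x y, |g x - g y| ≤ L * |x - y|) : Lip (fun y => g (F y)) := by
  obtain ⟨M, hM, h1⟩ := hF
  refine ⟨L * M, mul_nonneg hL hM, fun y y' => (hg _ _).trans ?_⟩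
  rw [mul_assoc]
  exact mul_le_mul_of_nonneg_left (h1 y y') hL

lemma integrable_exp_norm (a : ℝ) :
    Integrable (fun z : ι → ℝ => Real.exp (a * ‖z‖)) (gI ι) := by
  have h1 : Integrable (fun x : ℝ => Real.exp (|a| * |x|)) (gaussianReal 0 1) :=
    ProbabilityTheory.integrable_exp_mul_abs (X := fun x => x) (t := |a|)
      (by simpa using integrable_exp_mul_gaussianReal (μ := 0) (v := 1) (|a|))
      (by simpa using integrable_exp_mul_gaussianReal (μ := 0) (v := 1) (-|a|))
  have h2 : Integrable (fun z : ι → ℝ => ∏ i, Real.exp (|a| * |z i|)) (gI ι) :=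
    Integrable.fintype_prod (f := fun _ x => Real.exp (|a| * |x|)) fun _ => h1
  refine h2.mono' ?_ (Filter.Eventually.of_forall fun z => ?_)
  · exact (by fun_prop : Continuous fun z : ι → ℝ => Real.exp (a * ‖z‖)).aestronglyMeasurable
  · rw [Real.norm_eq_abs, abs_of_pos (Real.exp_pos _), ← Real.exp_sum, Real.exp_le_exp,
      ← Finset.mul_sum]
    have hn : ‖z‖ ≤ ∑ i, |z i| := by
      refine (pi_norm_le_iff_of_nonneg (Finset.sum_nonneg fun i _ => abs_nonneg _)).2 fun i => ?_
      rw [Real.norm_eq_abs]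
      exact Finset.single_le_sum (f := fun i => |z i|) (fun i _ => abs_nonneg _)
        (Finset.mem_univ i)
    calc a * ‖z‖ ≤ |a| * ‖z‖ := mul_le_mul_of_nonneg_right (le_abs_self a) (norm_nonneg _)
      _ ≤ |a| * ∑ i, |z i| := by gcongr

lemma EG.integrable {h : (ι → ℝ) → ℝ} (hh : EG h) : Integrable h (gI ι) := by
  obtain ⟨C, a, hC, ha, hb⟩ := hh.bdd
  refine ((integrable_exp_norm a).const_mul C).mono' hh.meas.aestronglyMeasurable
    (Filter.Eventually.of_forall fun z => ?_)
  rw [Real.norm_eq_abs]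
  exact hb z

end eg

section J

variable {lev : ι → ℕ} {l : ℕ}

omit [Fintype ι] in
lemma mix_mix_left (l : ℕ) (z w w' : ι → ℝ) :
    mix lev l (mix lev l z w) w' = mix lev l z w' := by
  funext e
  unfold mix
  split_ifs <;> rfl

omit [Fintype ι] in
lemma mix_le {l l' : ℕ} (hl : l ≤ l') (z w w' : ι → ℝ) :
    mix lev l (mix lev l' z w) w' = mix lev l z w' := by
  funext e
  unfold mix
  by_cases h : lev e ≤ l
  · rw [if_pos h, if_pos (h.trans hl), if_pos h]
  · rw [if_neg h, if_neg h]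

omit [Fintype ι] in
lemma mix_self (l : ℕ) (z : ι → ℝ) : mix lev l z z = z := by
  funext e
  unfold mix
  split_ifs <;> rfl

omit [Fintype ι] in
lemma mix_top {K : ℕ} (hK : ∀ e, lev e ≤ K) (z w : ι → ℝ) : mix lev K z w = z := by
  funext e
  unfold mix
  rw [if_pos (hK e)]

omit [Fintype ι] in
/-- Mixing at a higher level after mixing at a lower level. -/
lemma mix_assoc {l l' : ℕ} (hl : l ≤ l') (z w w' : ι → ℝ) :
    mix lev l' (mix lev l z w) w' = mix lev l z (mix lev l' w w') := by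
  funext e
  unfold mix
  by_cases h : lev e ≤ l
  · rw [if_pos h, if_pos (h.trans hl), if_pos h]
  · rw [if_neg h, if_neg h]

lemma norm_mix_le (z w : ι → ℝ) : ‖mix lev l z w‖ ≤ ‖z‖ + ‖w‖ := by
  rw [pi_norm_le_iff_of_nonneg (by positivity)]
  intro e
  unfold mix
  split_ifs
  · linarith [norm_le_pi_norm z e, norm_nonneg w]
  · linarith [norm_le_pi_norm w e, norm_nonneg z]

omit [Fintype ι] in
lemma measurable_mix (lev : ι → ℕ) (l : ℕ) :
    Measurable (fun q : (ι → ℝ) × (ι → ℝ) => mix lev l q.1 q.2) := by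
  rw [measurable_pi_iff]
  intro e
  unfold mix
  split_ifs
  · exact (measurable_pi_apply e).comp measurable_fst
  · exact (measurable_pi_apply e).comp measurable_snd

omit [Fintype ι] in
lemma measurable_mix_right (lev : ι → ℕ) (l : ℕ) (z : ι → ℝ) :
    Measurable (fun w : ι → ℝ => mix lev l z w) :=
  (measurable_mix lev l).comp measurable_prodMk_left

/-- Resampling the coordinates of the higher levels. -/
lemma map_mix (lev : ι → ℕ) (l : ℕ) :
    ((gI ι).prod (gI ι)).map (fun q : (ι → ℝ) × (ι → ℝ) => mix lev l q.1 q.2) = gI ι := by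
  symm
  apply Measure.pi_eq
  intro s hs
  rw [Measure.map_apply (measurable_mix lev l) (MeasurableSet.univ_pi hs)]
  have h1 : (fun q : (ι → ℝ) × (ι → ℝ) => mix lev l q.1 q.2) ⁻¹' (Set.univ.pi s)
      = (Set.univ.pi fun e => if lev e ≤ l then s e else Set.univ) ×ˢ
        (Set.univ.pi fun e => if lev e ≤ l then Set.univ else s e) := by
    ext ⟨z, w⟩
    simp only [Set.mem_preimage, Set.mem_pi, Set.mem_univ, forall_true_left, Set.mem_prod, mix]
    constructor
    · intro h
      refine ⟨fun e => ?_, fun e => ?_⟩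
      · have := h e
        by_cases he : lev e ≤ l
        · rw [if_pos he]; rwa [if_pos he] at this
        · rw [if_neg he]; exact Set.mem_univ _
      · have := h e
        by_cases he : lev e ≤ l
        · rw [if_pos he]; exact Set.mem_univ _
        · rw [if_neg he]; rwa [if_neg he] at this
    · rintro ⟨h, h'⟩ e
      by_cases he : lev e ≤ l
      · have := h e
        rw [if_pos he] at this ⊢; exact this
      · have := h' e
        rw [if_neg he] at this ⊢; exact this
  rw [h1, Measure.prod_prod, Measure.pi_pi, Measure.pi_pi, ← Finset.prod_mul_distrib]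
  refine Finset.prod_congr rfl fun e _ => ?_
  by_cases he : lev e ≤ l
  · rw [if_pos he, if_pos he, measure_univ, mul_one]
  · rw [if_neg he, if_neg he, measure_univ, one_mul]

lemma integral_mix {h : (ι → ℝ) → ℝ} (hh : EG h) (lev : ι → ℕ) (l : ℕ) :
    ∫ z, ∫ w, h (mix lev l z w) ∂(gI ι) ∂(gI ι) = ∫ z, h z ∂(gI ι) := by
  have hF : Integrable h (((gI ι).prod (gI ι)).map
      (fun q : (ι → ℝ) × (ι → ℝ) => mix lev l q.1 q.2)) := by
    rw [map_mix]; exact hh.integrable
  have hi : Integrable (fun q : (ι → ℝ) × (ι → ℝ) => h (mix lev l q.1 q.2))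
      ((gI ι).prod (gI ι)) :=
    (integrable_map_measure hF.aestronglyMeasurable (measurable_mix lev l).aemeasurable).mp hF
  conv_rhs => rw [← map_mix lev l]
  rw [integral_map (measurable_mix lev l).aemeasurable hF.aestronglyMeasurable, integral_prod _ hi]

lemma EG.mix {h : (ι → ℝ) → ℝ} (hh : EG h) (z : ι → ℝ) :
    Integrable (fun w => h (Lv.mix lev l z w)) (gI ι) := by
  obtain ⟨C, a, hC, ha, hb⟩ := hh.bdd
  refine ((integrable_exp_norm (ι := ι) a).const_mul (C * Real.exp (a * ‖z‖))).mono'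
    (hh.meas.comp (measurable_mix_right lev l z)).aestronglyMeasurable
    (Filter.Eventually.of_forall fun w => ?_)
  rw [Real.norm_eq_abs]
  refine (hb _).trans ?_
  rw [mul_assoc, ← Real.exp_add, ← mul_add]
  gcongr
  exact norm_mix_le z w

lemma EG.J {h : (ι → ℝ) → ℝ} (hh : EG h) (lev : ι → ℕ) (l : ℕ) : EG (Lv.J lev l h) := by
  obtain ⟨C, a, hC, ha, hb⟩ := hh.bdd
  have hA0 : 0 ≤ ∫ w : ι → ℝ, Real.exp (a * ‖w‖) ∂(gI ι) :=
    integral_nonneg fun w => (Real.exp_pos _).le
  refine ⟨?_, C * ∫ w : ι → ℝ, Real.exp (a * ‖w‖) ∂(gI ι), a, mul_nonneg hC hA0, ha, fun z => ?_⟩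
  · have : StronglyMeasurable (Function.uncurry fun (z w : ι → ℝ) => h (Lv.mix lev l z w)) :=
      (hh.meas.comp (measurable_mix lev l)).stronglyMeasurable
    exact this.integral_prod_right.measurable
  · have h1 : |Lv.J lev l h z| ≤ ∫ w, |h (Lv.mix lev l z w)| ∂(gI ι) := by
      rw [← Real.norm_eq_abs]
      exact (norm_integral_le_integral_norm _)
    refine h1.trans ?_
    have h2 : ∫ w, |h (Lv.mix lev l z w)| ∂(gI ι) ≤
        ∫ w, C * Real.exp (a * ‖z‖) * Real.exp (a * ‖w‖) ∂(gI ι) := by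
      refine integral_mono (hh.abs.mix z) ((integrable_exp_norm _).const_mul _) fun w => ?_
      refine (hb _).trans ?_
      rw [mul_assoc, ← Real.exp_add, ← mul_add]
      gcongr
      exact norm_mix_le z w
    refine h2.trans (le_of_eq ?_)
    rw [integral_const_mul]
    ring

lemma J_add {f g : (ι → ℝ) → ℝ} (hf : EG f) (hg : EG g) (z : ι → ℝ) :
    J lev l (fun z => f z + g z) z = J lev l f z + J lev l g z :=
  integral_add (hf.mix z) (hg.mix z)

lemma J_sub {f g : (ι → ℝ) → ℝ} (hf : EG f) (hg : EG g) (z : ι → ℝ) :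
    J lev l (fun z => f z - g z) z = J lev l f z - J lev l g z :=
  integral_sub (hf.mix z) (hg.mix z)

lemma J_const_mul (c : ℝ) (f : (ι → ℝ) → ℝ) (z : ι → ℝ) :
    J lev l (fun z => c * f z) z = c * J lev l f z :=
  integral_const_mul _ _

lemma J_const (c : ℝ) (z : ι → ℝ) : J lev l (fun _ => c) z = c := by
  unfold J
  simp

lemma J_sum {κ : Type*} (s : Finset κ) {f : κ → (ι → ℝ) → ℝ} (hf : ∀ i ∈ s, EG (f i))
    (z : ι → ℝ) : J lev l (fun z => ∑ i ∈ s, f i z) z = ∑ i ∈ s, J lev l (f i) z :=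
  integral_finsetSum _ fun i hi => (hf i hi).mix z

lemma J_mono {f g : (ι → ℝ) → ℝ} (hf : EG f) (hg : EG g) (h : ∀ z, f z ≤ g z) (z : ι → ℝ) :
    J lev l f z ≤ J lev l g z :=
  integral_mono (hf.mix z) (hg.mix z) fun _ => h _

lemma J_pos {f : (ι → ℝ) → ℝ} (hf : EG f) (h : ∀ z, 0 < f z) (z : ι → ℝ) :
    0 < J lev l f z := by
  unfold J
  rw [integral_pos_iff_support_of_nonneg (fun w => (h _).le) (hf.mix z)]
  have : (Function.support fun w => f (mix lev l z w)) = Set.univ :=
    Set.eq_univ_of_forall fun w => (h _).ne'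
  rw [this, measure_univ]
  exact one_pos

/-- Functions of the lower levels can be taken out. -/
lemma Dep.J_mul {φ : (ι → ℝ) → ℝ} (hφ : Dep lev l φ) (h : (ι → ℝ) → ℝ) (z : ι → ℝ) :
    J lev l (fun z => φ z * h z) z = φ z * J lev l h z := by
  unfold J
  rw [← integral_const_mul]
  refine integral_congr_ae (Filter.Eventually.of_forall fun w => ?_)
  dsimp only
  rw [hφ z w]

lemma dep_J (lev : ι → ℕ) (l : ℕ) (h : (ι → ℝ) → ℝ) : Dep lev l (J lev l h) := by
  intro z w
  unfold J
  simp only [mix_mix_left]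

lemma Dep.J_eq {h : (ι → ℝ) → ℝ} (hh : Dep lev l h) (z : ι → ℝ) : J lev l h z = h z := by
  unfold J
  simp only [hh z, integral_const, probReal_univ, one_smul]

omit [Fintype ι] in
lemma Dep.mono {l' : ℕ} (hl : l ≤ l') {h : (ι → ℝ) → ℝ} (hh : Dep lev l h) : Dep lev l' h := by
  intro z w
  rw [← hh (mix lev l' z w) z, mix_le hl, mix_self]

/-- The tower property. -/
lemma J_J {l' : ℕ} (hl : l ≤ l') {h : (ι → ℝ) → ℝ} (hh : EG h) (z : ι → ℝ) :
    J lev l (J lev l' h) z = J lev l h z := by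
  unfold J
  simp only [mix_assoc hl]
  obtain ⟨C, a, hC, ha, hb⟩ := hh.bdd
  refine integral_mix (h := fun w => h (mix lev l z w)) ⟨hh.meas.comp
    (measurable_mix_right lev l z), C * Real.exp (a * ‖z‖), a, by positivity, ha, fun w => ?_⟩
    lev l'
  refine (hb _).trans ?_
  rw [mul_assoc, ← Real.exp_add, ← mul_add]
  gcongr
  exact norm_mix_le z w

lemma integral_J {h : (ι → ℝ) → ℝ} (hh : EG h) : ∫ z, J lev l h z ∂(gI ι) = ∫ z, h z ∂(gI ι) :=
  integral_mix hh lev l

end J

section stein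

theorem integrable_gaussianReal_iff (g : ℝ → ℝ) :
    Integrable g (gaussianReal 0 1) ↔ Integrable (fun x => gaussianPDFReal 0 1 x * g x) := by
  rw [gaussianReal_of_var_ne_zero _ one_ne_zero,
    integrable_withDensity_iff_integrable_smul' (measurable_gaussianPDF 0 1)
      (Filter.Eventually.of_forall fun x => gaussianPDF_lt_top)]
  simp only [smul_eq_mul, gaussianPDF, ENNReal.toReal_ofReal (gaussianPDFReal_nonneg 0 1 _)]

/-- One-dimensional Gaussian integration by parts. -/
theorem stein_one_int (g g' : ℝ → ℝ) (hd : ∀ x, HasDerivAt g (g' x) x)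
    (h0 : Integrable g (gaussianReal 0 1)) (h1 : Integrable (fun x => x * g x) (gaussianReal 0 1))
    (h2 : Integrable g' (gaussianReal 0 1)) :
    ∫ x, x * g x ∂(gaussianReal 0 1) = ∫ x, g' x ∂(gaussianReal 0 1) := by
  set φ : ℝ → ℝ := gaussianPDFReal 0 1 with hφ
  have hφd : ∀ x, HasDerivAt φ (-(x * φ x)) x := by
    intro x
    have h1 : HasDerivAt (fun y : ℝ => -(y - 0) ^ 2 / (2 * ((1 : NNReal) : ℝ))) (-x) x := by
      have h2 : HasDerivAt (fun y : ℝ => -(y ^ 2) / 2) (-(2 * x) / 2) x := by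
        have h0 := ((hasDerivAt_pow 2 x).neg).div_const (2 : ℝ)
        simpa using h0
      have h2' : (fun y : ℝ => -(y - 0) ^ 2 / (2 * ((1 : NNReal) : ℝ))) = fun y => -(y ^ 2) / 2 := by
        funext y
        simp
      rw [h2']
      have h2'' : -x = -(2 * x) / 2 := by ring
      rw [h2'']
      exact h2
    have h3 := (h1.exp).const_mul ((Real.sqrt (2 * Real.pi * ((1 : NNReal) : ℝ)))⁻¹)
    have h4 : φ = fun y => (Real.sqrt (2 * Real.pi * ((1 : NNReal) : ℝ)))⁻¹
        * Real.exp (-(y - 0) ^ 2 / (2 * ((1 : NNReal) : ℝ))) := by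
      funext y
      rw [hφ, gaussianPDFReal_def]
    have h5 : -(x * φ x) = (Real.sqrt (2 * Real.pi * ((1 : NNReal) : ℝ)))⁻¹
        * (Real.exp (-(x - 0) ^ 2 / (2 * ((1 : NNReal) : ℝ))) * -x) := by
      rw [h4]
      ring
    rw [h5, h4]
    exact h3
  have e1 : ∫ x, x * g x ∂(gaussianReal 0 1) = ∫ x, φ x * (x * g x) := by
    rw [integral_gaussianReal_eq_integral_smul one_ne_zero]
    rfl
  have e2 : ∫ x, g' x ∂(gaussianReal 0 1) = ∫ x, φ x * g' x := by
    rw [integral_gaussianReal_eq_integral_smul one_ne_zero]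
    rfl
  rw [integrable_gaussianReal_iff] at h0 h1 h2
  have i1 : Integrable (g * fun x => -(x * φ x)) := by
    refine h1.neg.congr (Filter.Eventually.of_forall fun x => ?_)
    simp only [Pi.neg_apply, Pi.mul_apply]
    ring
  have i2 : Integrable (g' * φ) := by
    refine h2.congr (Filter.Eventually.of_forall fun x => ?_)
    simp only [Pi.mul_apply]
    ring
  have i3 : Integrable (g * φ) := by
    refine h0.congr (Filter.Eventually.of_forall fun x => ?_)
    simp only [Pi.mul_apply]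
    ring
  have key := integral_mul_deriv_eq_deriv_mul_of_integrable (u := g) (v := φ) (u' := g')
    (v' := fun x => -(x * φ x)) (fun x _ => hd x) (fun x _ => hφd x) i1 i2 i3
  rw [e1, e2]
  have h5 : ∫ x, φ x * (x * g x) = - ∫ x, g x * -(x * φ x) := by
    rw [← integral_neg]
    congr 1
    funext x
    ring
  rw [h5, key, neg_neg]
  congr 1
  funext x
  ring

/-- Gaussian integration by parts in the coordinate `e`. -/
theorem stein_pi_int [DecidableEq ι] (e : ι) (G G' : (ι → ℝ) → ℝ)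
    (hd : ∀ J x, HasDerivAt (fun y => G (Function.update J e y)) (G' (Function.update J e x)) x)
    (h0 : Integrable G (gI ι)) (h1 : Integrable (fun J => J e * G J) (gI ι))
    (h2 : Integrable G' (gI ι)) :
    ∫ J, J e * G J ∂(gI ι) = ∫ J, G' J ∂(gI ι) := by
  have hupd : ((gI ι).prod (gaussianReal 0 1)).map
      (fun q : (ι → ℝ) × ℝ => Function.update q.1 e q.2) = gI ι := Vale.Agent.P367.GT.map_update e
  have hprod : ∀ F : (ι → ℝ) → ℝ, Integrable F (gI ι) →
      Integrable (fun q : (ι → ℝ) × ℝ => F (Function.update q.1 e q.2))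
        ((gI ι).prod (gaussianReal 0 1)) := by
    intro F hF
    have hF' : Integrable F (((gI ι).prod (gaussianReal 0 1)).map
        (fun q : (ι → ℝ) × ℝ => Function.update q.1 e q.2)) := by
      rw [hupd]; exact hF
    exact (integrable_map_measure hF'.aestronglyMeasurable
      (Vale.Agent.P367.GT.measurable_upd e).aemeasurable).mp hF'
  have hres : ∀ F : (ι → ℝ) → ℝ, Integrable F (gI ι) →
      ∫ J, F J ∂(gI ι) = ∫ J, ∫ x, F (Function.update J e x) ∂(gaussianReal 0 1) ∂(gI ι) := by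
    intro F hF
    have hF' : Integrable F (((gI ι).prod (gaussianReal 0 1)).map
        (fun q : (ι → ℝ) × ℝ => Function.update q.1 e q.2)) := by
      rw [hupd]; exact hF
    conv_lhs => rw [← hupd]
    rw [integral_map (Vale.Agent.P367.GT.measurable_upd e).aemeasurable hF'.aestronglyMeasurable]
    rw [integral_prod]
    exact hprod F hF
  rw [hres _ h1, hres _ h2]
  apply integral_congr_ae
  have a0 := (hprod _ h0).prod_right_ae
  have a1 := (hprod _ h1).prod_right_ae
  have a2 := (hprod _ h2).prod_right_ae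
  filter_upwards [a0, a1, a2] with J b0 b1 b2
  simp only [Function.update_self] at b1 ⊢
  exact stein_one_int (fun x => G (Function.update J e x)) (fun x => G' (Function.update J e x))
    (hd J) b0 b1 b2

end stein

section pd

variable [DecidableEq ι] {e : ι}

lemma norm_update_le (y : ι → ℝ) (i : ι) (t : ℝ) :
    ‖Function.update y i t‖ ≤ ‖y‖ + |t| := by
  rw [pi_norm_le_iff_of_nonneg (by positivity)]
  intro j
  by_cases hj : j = i
  · subst hj
    rw [Function.update_self, Real.norm_eq_abs]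
    linarith [norm_nonneg y]
  · rw [Function.update_of_ne hj]
    linarith [norm_le_pi_norm y j, abs_nonneg t]

omit [Fintype ι] in
lemma PD.congr {H H' K' : (ι → ℝ) → ℝ} (hd : PD e H H') (h : ∀ y, H' y = K' y) :
    PD e H K' := by
  intro y x
  rw [← h]
  exact hd y x

lemma PD.add {H H' K K' : (ι → ℝ) → ℝ} (hd : PD e H H') (hk : PD e K K') :
    PD e (fun y => H y + K y) (fun y => H' y + K' y) := fun y x => (hd y x).add (hk y x)

lemma PD.sub {H H' K K' : (ι → ℝ) → ℝ} (hd : PD e H H') (hk : PD e K K') :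
    PD e (fun y => H y - K y) (fun y => H' y - K' y) := fun y x => (hd y x).sub (hk y x)

lemma PD.mul {H H' K K' : (ι → ℝ) → ℝ} (hd : PD e H H') (hk : PD e K K') :
    PD e (fun y => H y * K y) (fun y => H' y * K y + H y * K' y) :=
  fun y x => (hd y x).mul (hk y x)

lemma PD.const_mul {H H' : (ι → ℝ) → ℝ} (hd : PD e H H') (c : ℝ) :
    PD e (fun y => c * H y) (fun y => c * H' y) := fun y x => (hd y x).const_mul c

lemma PD.const (c : ℝ) : PD e (fun _ : ι → ℝ => c) (fun _ => 0) := fun _ x => hasDerivAt_const x c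

lemma PD.exp {H H' : (ι → ℝ) → ℝ} (hd : PD e H H') :
    PD e (fun y => Real.exp (H y)) (fun y => Real.exp (H y) * H' y) := fun y x => (hd y x).exp

lemma PD.log {H H' : (ι → ℝ) → ℝ} (hd : PD e H H') (h0 : ∀ y, H y ≠ 0) :
    PD e (fun y => Real.log (H y)) (fun y => H' y / H y) := fun y x => (hd y x).log (h0 _)

lemma PD.div {H H' K K' : (ι → ℝ) → ℝ} (hd : PD e H H') (hk : PD e K K') (h0 : ∀ y, K y ≠ 0) :
    PD e (fun y => H y / K y) (fun y => (H' y * K y - H y * K' y) / (K y) ^ 2) :=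
  fun y x => (hd y x).div (hk y x) (h0 _)

lemma PD.sum {κ : Type*} (s : Finset κ) {H H' : κ → (ι → ℝ) → ℝ}
    (hd : ∀ a ∈ s, PD e (H a) (H' a)) :
    PD e (fun y => ∑ a ∈ s, H a y) (fun y => ∑ a ∈ s, H' a y) :=
  fun y x => HasDerivAt.fun_sum fun a ha => hd a ha y x

/-- Composition with a function of one variable. -/
lemma PD.comp {H H' : (ι → ℝ) → ℝ} (hd : PD e H H') {g g' : ℝ → ℝ}
    (hg : ∀ x, HasDerivAt g (g' x) x) : PD e (fun y => g (H y)) (fun y => g' (H y) * H' y) :=
  fun y x => (hg _).comp x (hd y x)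

lemma PD.coord (e' : ι) : PD e (fun y : ι → ℝ => y e') (fun _ => if e' = e then 1 else 0) := by
  intro y x
  by_cases h : e' = e
  · subst h
    simp only [Function.update_self, if_true]
    exact hasDerivAt_id x
  · simp only [Function.update_of_ne h, if_neg h]
    exact hasDerivAt_const x _

/-- A function which does not depend on the coordinate `e`. -/
lemma PD.of_indep {H : (ι → ℝ) → ℝ} (h : ∀ y t, H (Function.update y e t) = H y) :
    PD e H (fun _ => 0) := by
  intro y x
  simp only [h]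
  exact hasDerivAt_const x _

omit [Fintype ι] in
lemma mix_update {lev : ι → ℕ} {l : ℕ} (he : lev e ≤ l) (z w : ι → ℝ) (t : ℝ) :
    mix lev l (Function.update z e t) w = Function.update (mix lev l z w) e t := by
  funext j
  unfold mix
  by_cases hj : j = e
  · subst hj
    rw [Function.update_self, Function.update_self, if_pos he]
  · rw [Function.update_of_ne hj, Function.update_of_ne hj]

/-- Differentiation under the average over the higher levels. -/
lemma PD.J {H H' : (ι → ℝ) → ℝ} (hd : PD e H H') (hg : EG H) (hg' : EG H') {lev : ι → ℕ} {l : ℕ}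
    (he : lev e ≤ l) : PD e (Lv.J lev l H) (Lv.J lev l H') := by
  intro y x
  obtain ⟨C, a, hC, ha, h1⟩ := hg'.bdd
  refine (hasDerivAt_integral_of_dominated_loc_of_deriv_le
    (F := fun t w => H (mix lev l (Function.update y e t) w))
    (F' := fun t w => H' (mix lev l (Function.update y e t) w))
    (bound := fun w => C * Real.exp (a * (‖y‖ + |x| + 1)) * Real.exp (a * ‖w‖))
    (Metric.ball_mem_nhds x one_pos) ?_ ?_ ?_ ?_ ?_ ?_).2
  · exact Filter.Eventually.of_forall fun t => (hg.mix _).aestronglyMeasurable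
  · exact hg.mix _
  · exact (hg'.mix _).aestronglyMeasurable
  · refine Filter.Eventually.of_forall fun w t ht => ?_
    rw [Metric.mem_ball, Real.dist_eq] at ht
    have h2 : ‖mix lev l (Function.update y e t) w‖ ≤ (‖y‖ + |x| + 1) + ‖w‖ := by
      refine (norm_mix_le _ _).trans ?_
      have h3 := norm_update_le y e t
      have h4 : |t| ≤ |x| + 1 := by
        have := abs_add_le (t - x) x
        rw [sub_add_cancel] at this
        linarith
      linarith
    rw [Real.norm_eq_abs]
    calc |H' (mix lev l (Function.update y e t) w)|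
        ≤ C * Real.exp (a * ‖mix lev l (Function.update y e t) w‖) := h1 _
      _ ≤ C * Real.exp (a * ((‖y‖ + |x| + 1) + ‖w‖)) := by gcongr
      _ = C * Real.exp (a * (‖y‖ + |x| + 1)) * Real.exp (a * ‖w‖) := by
          rw [mul_assoc, ← Real.exp_add]
          congr 2
          ring
  · exact (integrable_exp_norm a).const_mul _
  · refine Filter.Eventually.of_forall fun w t _ => ?_
    simp only [mix_update he]
    exact hd _ _

/-- Functions of the levels `≤ l` do not depend on the coordinates of level `> l`. -/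
lemma Dep.pd {lev : ι → ℕ} {l : ℕ} {H : (ι → ℝ) → ℝ} (h : Dep lev l H) (he : l < lev e) :
    PD e H (fun _ => 0) := by
  refine PD.of_indep fun y t => ?_
  rw [← h (Function.update y e t) y]
  congr 1
  funext j
  unfold mix
  by_cases hj : lev j ≤ l
  · rw [if_pos hj, Function.update_of_ne]
    rintro rfl
    omega
  · rw [if_neg hj]

/-- Gaussian integration by parts. -/
lemma PD.stein {H H' : (ι → ℝ) → ℝ} (hd : PD e H H') (hg : EG H) (hg' : EG H') :
    ∫ z, z e * H z ∂(gI ι) = ∫ z, H' z ∂(gI ι) :=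
  stein_pi_int e H H' hd hg.integrable ((EG.coord e).mul hg).integrable hg'.integrable

end pd

end Vale.Agent.P157.Lv
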