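import Vale.Agent.P157.LvBasic

/-!
The tilted chain of a system: log-weights, densities, tilted conditional averages.
-/

open MeasureTheory ProbabilityTheory Filter Topology

namespace Vale.Agent.P157.Lv

set_option linter.unusedSectionVars false

variable {ι X : Type} [Fintype ι] [Fintype X] [Nonempty X] {S : Sy ι X}

namespace Sy

lemma sum_exp_pos (z : ι → ℝ) : 0 < ∑ x, Real.exp (S.H z x) :=
  Finset.sum_pos (fun _ _ => Real.exp_pos _) Finset.univ_nonempty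

lemma Reg.m_mono (hS : S.Reg) {l l' : ℕ} (h : l ≤ l') (hl : l' ≤ S.K + 1) : S.m l ≤ S.m l' := by
  induction l', h using Nat.le_induction with
  | base => exact le_rfl
  | succ n hn ih => exact (ih (by omega)).trans (hS.mono n (by omega))

lemma Reg.m_pos (hS : S.Reg) {l : ℕ} (hl : 1 ≤ l) (hl' : l ≤ S.K + 1) : 0 < S.m l :=
  lt_of_lt_of_le hS.pos (hS.m_mono hl hl')

lemma Reg.m_le_one (hS : S.Reg) {l : ℕ} (hl : l ≤ S.K + 1) : S.m l ≤ 1 := by
  rw [← hS.mK]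
  exact hS.m_mono hl le_rfl

/-! ### The log-weights -/

lemma lg_top (S : Sy ι X) : S.lg S.K = S.top := by
  unfold lg
  rw [Nat.sub_self]
  rfl

lemma lg_step (S : Sy ι X) {l : ℕ} (hl : l < S.K) : S.lg l = S.stp l (S.lg (l + 1)) := by
  unfold lg
  rw [show S.K - l = (S.K - (l + 1)) + 1 by omega]
  rfl

/-- Downward induction on the levels. -/
lemma down_ind {K : ℕ} {P : ℕ → Prop} (top : P K) (step : ∀ l < K, P (l + 1) → P l) :
    ∀ l ≤ K, P l := by
  intro l hl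
  obtain ⟨d, rfl⟩ := Nat.exists_eq_add_of_le hl
  clear hl
  induction d generalizing l with
  | zero => exact top
  | succ d ih =>
    have e : l + (d + 1) = (l + 1) + d := by omega
    refine step l (by omega) ?_
    have h := ih (l := l + 1)
    rw [← e] at h
    exact h top step

/-- One-sided Lipschitz bound of the logarithm of a sum or an average. -/
lemma lc_log_le {a b c : ℝ} (ha : 0 < a) (hb : 0 < b) (h : a ≤ Real.exp c * b) :
    Real.log a - Real.log b ≤ c := by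
  have h1 := Real.log_le_log ha h
  rw [Real.log_mul (Real.exp_pos _).ne' hb.ne', Real.log_exp] at h1
  linarith

lemma Reg.lip_top (hS : S.Reg) : Lip S.top := by
  choose L hL0 hL using hS.lip
  have hsum0 : 0 ≤ ∑ x, L x := Finset.sum_nonneg fun x _ => hL0 x
  have key : ∀ y y', S.top y - S.top y' ≤ (∑ x, L x) * ‖y - y'‖ := by
    intro y y'
    refine lc_log_le (sum_exp_pos y) (sum_exp_pos y') ?_
    rw [Finset.mul_sum]
    refine Finset.sum_le_sum fun x _ => ?_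
    rw [← Real.exp_add]
    apply Real.exp_le_exp.2
    have h1 := (abs_le.1 (hL x y y')).2
    have h2 : L x * ‖y - y'‖ ≤ (∑ x, L x) * ‖y - y'‖ :=
      mul_le_mul_of_nonneg_right
        (Finset.single_le_sum (fun x _ => hL0 x) (Finset.mem_univ x)) (norm_nonneg _)
    simp only at h1
    linarith
  refine ⟨∑ x, L x, hsum0, fun y y' => ?_⟩
  rw [abs_le]
  have h1 := key y y'
  have h2 := key y' y
  rw [norm_sub_rev] at h2
  exact ⟨by linarith, h1⟩

lemma lc_norm_mix (lev : ι → ℕ) (l : ℕ) (y y' w : ι → ℝ) :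
    ‖mix lev l y w - mix lev l y' w‖ ≤ ‖y - y'‖ := by
  rw [pi_norm_le_iff_of_nonneg (norm_nonneg _)]
  intro i
  rw [Pi.sub_apply]
  unfold mix
  split_ifs
  · exact norm_le_pi_norm (y - y') i
  · rw [sub_self, norm_zero]
    exact norm_nonneg _

lemma lc_lip_stp {F : (ι → ℝ) → ℝ} (hF : Lip F) {l : ℕ} (hm : 0 < S.m (l + 1)) :
    Lip (S.stp l F) := by
  have heg := hF.exp_eg (S.m (l + 1))
  obtain ⟨L, hL0, hL⟩ := hF
  have hpos : ∀ z, 0 < J S.lev l (fun z => Real.exp (S.m (l + 1) * F z)) z :=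
    fun z => J_pos heg (fun _ => Real.exp_pos _) z
  have key : ∀ y y', S.stp l F y - S.stp l F y' ≤ L * ‖y - y'‖ := by
    intro y y'
    have h1 : J S.lev l (fun z => Real.exp (S.m (l + 1) * F z)) y ≤
        Real.exp (S.m (l + 1) * (L * ‖y - y'‖)) *
          J S.lev l (fun z => Real.exp (S.m (l + 1) * F z)) y' := by
      unfold J
      rw [← integral_const_mul]
      refine integral_mono (heg.mix y) ((heg.mix y').const_mul _) fun w => ?_
      simp only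
      rw [← Real.exp_add]
      apply Real.exp_le_exp.2
      have h2 := (abs_le.1 (hL (mix S.lev l y w) (mix S.lev l y' w))).2
      have h3 : L * ‖mix S.lev l y w - mix S.lev l y' w‖ ≤ L * ‖y - y'‖ :=
        mul_le_mul_of_nonneg_left (lc_norm_mix _ _ _ _ _) hL0
      have h4 : F (mix S.lev l y w) ≤ L * ‖y - y'‖ + F (mix S.lev l y' w) := by linarith
      calc S.m (l + 1) * F (mix S.lev l y w)
          ≤ S.m (l + 1) * (L * ‖y - y'‖ + F (mix S.lev l y' w)) :=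
            mul_le_mul_of_nonneg_left h4 hm.le
        _ = _ := by ring
    have h5 := lc_log_le (hpos y) (hpos y') h1
    unfold stp
    rw [← mul_sub, one_div, inv_mul_le_iff₀ hm]
    exact h5
  refine ⟨L, hL0, fun y y' => ?_⟩
  rw [abs_le]
  have h1 := key y y'
  have h2 := key y' y
  rw [norm_sub_rev] at h2
  exact ⟨by linarith, h1⟩

lemma Reg.lip_lg (hS : S.Reg) {l : ℕ} (hl : l ≤ S.K) : Lip (S.lg l) := by
  refine down_ind (P := fun l => Lip (S.lg l)) ?_ ?_ l hl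
  · rw [lg_top]
    exact hS.lip_top
  · intro l hl ih
    rw [lg_step S hl]
    exact lc_lip_stp ih (hS.m_pos (by omega) (by omega))

lemma Reg.dep_lg (hS : S.Reg) {l : ℕ} (hl : l ≤ S.K) : Dep S.lev l (S.lg l) := by
  rcases Nat.lt_or_ge l S.K with h | h
  · rw [lg_step S h]
    intro z w
    unfold stp
    rw [dep_J S.lev l _ z w]
  · have e : l = S.K := le_antisymm hl h
    subst e
    intro z w
    rw [mix_top hS.lev]

lemma Reg.J_exp_lg (hS : S.Reg) {l : ℕ} (hl : l < S.K) (z : ι → ℝ) :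
    J S.lev l (fun z => Real.exp (S.m (l + 1) * S.lg (l + 1) z)) z =
      Real.exp (S.m (l + 1) * S.lg l z) := by
  have hm : 0 < S.m (l + 1) := hS.m_pos (by omega) (by omega)
  have heg := (hS.lip_lg (l := l + 1) (by omega)).exp_eg (S.m (l + 1))
  have hpos := J_pos (lev := S.lev) (l := l) heg (fun _ => Real.exp_pos _) z
  have e : S.lg l z = 1 / S.m (l + 1) *
      Real.log (J S.lev l (fun z => Real.exp (S.m (l + 1) * S.lg (l + 1) z)) z) := by
    rw [lg_step S hl]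
    rfl
  rw [e, ← mul_assoc, mul_one_div_cancel hm.ne', one_mul, Real.exp_log hpos]

lemma Reg.integrable_lg (hS : S.Reg) {l : ℕ} (hl : l ≤ S.K) : Integrable (S.lg l) (gI ι) :=
  (hS.lip_lg hl).eg.integrable

/-! ### The densities -/

lemma dn_pos (S : Sy ι X) (l : ℕ) (z : ι → ℝ) : 0 < S.dn l z := Real.exp_pos _

lemma dn_top (S : Sy ι X) (z : ι → ℝ) : S.dn S.K z = 1 := by simp [dn]

lemma dn_step (S : Sy ι X) {l : ℕ} (hl : l < S.K) (z : ι → ℝ) :
    S.dn l z = Real.exp (S.m (l + 1) * (S.lg (l + 1) z - S.lg l z)) * S.dn (l + 1) z := by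
  unfold dn
  rw [← Real.exp_add, Finset.sum_eq_sum_Ico_succ_bot hl]

lemma lc_lip_sum (hS : S.Reg) {a b : ℕ} (hb : b ≤ S.K) :
    Lip fun z => ∑ i ∈ Finset.Ico a b, S.m (i + 1) * (S.lg (i + 1) z - S.lg i z) := by
  refine Lip.sum _ fun i hi => ?_
  rw [Finset.mem_Ico] at hi
  have h1 := hS.lip_lg (l := i + 1) (by omega)
  have h2 := (hS.lip_lg (l := i) (by omega)).const_mul (-1)
  have h3 := (h1.add h2).const_mul (S.m (i + 1))
  have e : (fun z => S.m (i + 1) * (S.lg (i + 1) z - S.lg i z)) =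
      fun z => S.m (i + 1) * (S.lg (i + 1) z + -1 * S.lg i z) := by
    funext z
    ring
  rw [e]
  exact h3

lemma lc_eg_exp {G : (ι → ℝ) → ℝ} (hG : Lip G) : EG fun z => Real.exp (G z) := by
  have h := hG.exp_eg 1
  simp only [one_mul] at h
  exact h

lemma Reg.eg_dn (hS : S.Reg) {l : ℕ} (_hl : l ≤ S.K) : EG (S.dn l) :=
  lc_eg_exp (lc_lip_sum hS le_rfl)

lemma lc_dep_comp {lev : ι → ℕ} {l : ℕ} {f : (ι → ℝ) → ℝ} (hf : Dep lev l f) (g : ℝ → ℝ) :
    Dep lev l (fun z => g (f z)) := fun z w => congrArg g (hf z w)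

lemma lc_dep_add {lev : ι → ℕ} {l : ℕ} {f g : (ι → ℝ) → ℝ} (hf : Dep lev l f)
    (hg : Dep lev l g) : Dep lev l (fun z => f z + g z) := fun z w => by
  simp only [hf z w, hg z w]

lemma lc_dep_mul {lev : ι → ℕ} {l : ℕ} {f g : (ι → ℝ) → ℝ} (hf : Dep lev l f)
    (hg : Dep lev l g) : Dep lev l (fun z => f z * g z) := fun z w => by
  simp only [hf z w, hg z w]

lemma lc_dep_sum {lev : ι → ℕ} {l : ℕ} {κ : Type*} (s : Finset κ) {f : κ → (ι → ℝ) → ℝ}
    (hf : ∀ i ∈ s, Dep lev l (f i)) : Dep lev l (fun z => ∑ i ∈ s, f i z) := fun z w =>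
  Finset.sum_congr rfl fun i hi => hf i hi z w

lemma Reg.J_dn (hS : S.Reg) {l : ℕ} (hl : l ≤ S.K) (z : ι → ℝ) : J S.lev l (S.dn l) z = 1 := by
  revert z
  refine down_ind (P := fun l => ∀ z, J S.lev l (S.dn l) z = 1) ?_ ?_ l hl
  · intro z
    have e : S.dn S.K = fun _ => 1 := funext fun z => dn_top S z
    rw [e, J_const]
  · intro l hl ih z
    have e1 : S.dn l = fun z => Real.exp (S.m (l + 1) * (S.lg (l + 1) z - S.lg l z)) *
        S.dn (l + 1) z := funext fun z => dn_step S hl z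
    have heg := hS.eg_dn hl.le
    rw [← J_J (Nat.le_succ l) heg]
    have hdep : Dep S.lev (l + 1) fun z =>
        Real.exp (S.m (l + 1) * (S.lg (l + 1) z - S.lg l z)) := by
      intro z w
      dsimp only
      rw [hS.dep_lg (l := l + 1) (by omega) z w, (hS.dep_lg hl.le).mono (Nat.le_succ l) z w]
    have e2 : J S.lev l.succ (S.dn l) = fun z =>
        Real.exp (S.m (l + 1) * (S.lg (l + 1) z - S.lg l z)) := by
      funext z
      rw [e1]
      show J S.lev (l + 1) _ z = _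
      rw [hdep.J_mul, ih, mul_one]
    rw [e2]
    have e3 : (fun z => Real.exp (S.m (l + 1) * (S.lg (l + 1) z - S.lg l z))) =
        fun z => Real.exp (-(S.m (l + 1) * S.lg l z)) * Real.exp (S.m (l + 1) * S.lg (l + 1) z) := by
      funext z
      rw [← Real.exp_add]
      congr 1
      ring
    have hdep2 : Dep S.lev l fun z => Real.exp (-(S.m (l + 1) * S.lg l z)) := by
      intro z w
      dsimp only
      rw [hS.dep_lg hl.le z w]
    rw [e3, hdep2.J_mul, hS.J_exp_lg hl, ← Real.exp_add, neg_add_cancel, Real.exp_zero]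

/-! ### The Gibbs average -/

lemma gb_pos (S : Sy ι X) (z : ι → ℝ) (x : X) : 0 < S.gb z x :=
  div_pos (Real.exp_pos _) (sum_exp_pos z)

lemma sum_gb (S : Sy ι X) (z : ι → ℝ) : ∑ x, S.gb z x = 1 := by
  unfold gb
  rw [← Finset.sum_div, div_self (sum_exp_pos z).ne']

lemma Reg.eg_gb (hS : S.Reg) (x : X) : EG (fun z => S.gb z x) := by
  refine EG.of_bdd (C := 1) ?_ ?_
  · unfold gb
    exact ((hS.lip x).measurable.exp).div
      (Finset.measurable_sum _ fun x' _ => (hS.lip x').measurable.exp)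
  · intro y
    rw [abs_of_pos (gb_pos S y x), ← sum_gb S y]
    exact Finset.single_le_sum (f := fun x => S.gb y x) (fun x _ => (gb_pos S y x).le)
      (Finset.mem_univ x)

lemma av_add (S : Sy ι X) (f g : (ι → ℝ) → X → ℝ) (z : ι → ℝ) :
    S.av (fun z x => f z x + g z x) z = S.av f z + S.av g z := by
  unfold av
  rw [← Finset.sum_add_distrib]
  exact Finset.sum_congr rfl fun x _ => mul_add _ _ _

lemma av_sub (S : Sy ι X) (f g : (ι → ℝ) → X → ℝ) (z : ι → ℝ) :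
    S.av (fun z x => f z x - g z x) z = S.av f z - S.av g z := by
  unfold av
  rw [← Finset.sum_sub_distrib]
  exact Finset.sum_congr rfl fun x _ => mul_sub _ _ _

lemma av_sum (S : Sy ι X) {κ : Type*} (s : Finset κ) (f : κ → (ι → ℝ) → X → ℝ) (z : ι → ℝ) :
    S.av (fun z x => ∑ i ∈ s, f i z x) z = ∑ i ∈ s, S.av (f i) z := by
  unfold av
  rw [Finset.sum_comm]
  exact Finset.sum_congr rfl fun x _ => Finset.mul_sum _ _ _

/-- Functions of the Gaussian coordinates can be taken out of the Gibbs average. -/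
lemma av_mul_left (S : Sy ι X) (φ : (ι → ℝ) → ℝ) (f : (ι → ℝ) → X → ℝ) (z : ι → ℝ) :
    S.av (fun z x => φ z * f z x) z = φ z * S.av f z := by
  unfold av
  rw [Finset.mul_sum]
  exact Finset.sum_congr rfl fun x _ => by ring

lemma av_fst (S : Sy ι X) (φ : (ι → ℝ) → ℝ) (z : ι → ℝ) : S.av (fun z _ => φ z) z = φ z := by
  unfold av
  rw [← Finset.sum_mul, sum_gb, one_mul]

lemma av_mono (S : Sy ι X) {f g : (ι → ℝ) → X → ℝ} {z : ι → ℝ} (h : ∀ x, f z x ≤ g z x) :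
    S.av f z ≤ S.av g z :=
  Finset.sum_le_sum fun x _ => mul_le_mul_of_nonneg_left (h x) (gb_pos S z x).le

lemma sq_av_le (S : Sy ι X) (f : (ι → ℝ) → X → ℝ) (z : ι → ℝ) :
    S.av f z ^ 2 ≤ S.av (fun z x => f z x ^ 2) z := by
  obtain ⟨c, hc⟩ : ∃ c, c = S.av f z := ⟨_, rfl⟩
  have h0 : 0 ≤ S.av (fun z x => (f z x - c) ^ 2) z :=
    Finset.sum_nonneg fun x _ => mul_nonneg (gb_pos S z x).le (sq_nonneg _)
  have h1 : S.av (fun z x => (f z x - c) ^ 2) z =
      S.av (fun z x => f z x ^ 2) z - 2 * c * S.av f z + c ^ 2 := by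
    have e : (fun (z : ι → ℝ) (x : X) => (f z x - c) ^ 2) =
        fun z x => (f z x ^ 2 - (fun _ => 2 * c) z * f z x) + (fun _ _ => c ^ 2) z x := by
      funext z x
      ring
    rw [e, av_add S, av_sub S, av_mul_left S, av_fst S (fun _ => c ^ 2)]
  rw [h1, ← hc] at h0
  rw [← hc]
  nlinarith

lemma Reg.eg_av (hS : S.Reg) {h : (ι → ℝ) → X → ℝ} (hh : Nh h) : EG (S.av h) :=
  EG.sum _ fun x _ => (hS.eg_gb x).mul (hh x)

/-! ### Observables -/

lemma Nh.add {f g : (ι → ℝ) → X → ℝ} (hf : Nh f) (hg : Nh g) : Nh fun z x => f z x + g z x :=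
  fun x => (hf x).add (hg x)

lemma Nh.sub {f g : (ι → ℝ) → X → ℝ} (hf : Nh f) (hg : Nh g) : Nh fun z x => f z x - g z x :=
  fun x => (hf x).sub (hg x)

lemma Nh.mul {f g : (ι → ℝ) → X → ℝ} (hf : Nh f) (hg : Nh g) : Nh fun z x => f z x * g z x :=
  fun x => (hf x).mul (hg x)

lemma Nh.const_mul {f : (ι → ℝ) → X → ℝ} (c : ℝ) (hf : Nh f) : Nh fun z x => c * f z x :=
  fun x => (hf x).const_mul c

lemma Nh.abs {f : (ι → ℝ) → X → ℝ} (hf : Nh f) : Nh fun z x => |f z x| := fun x => (hf x).abs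

lemma Nh.pow {f : (ι → ℝ) → X → ℝ} (hf : Nh f) (n : ℕ) : Nh fun z x => f z x ^ n :=
  fun x => (hf x).pow n

lemma Nh.fst {φ : (ι → ℝ) → ℝ} (h : EG φ) : Nh (X := X) fun z _ => φ z := fun _ => h

lemma Nh.snd (f : X → ℝ) : Nh (ι := ι) fun _ x => f x := fun _ => EG.const _

lemma Nh.sum {κ : Type*} (s : Finset κ) {f : κ → (ι → ℝ) → X → ℝ} (hf : ∀ i ∈ s, Nh (f i)) :
    Nh fun z x => ∑ i ∈ s, f i z x := fun x => EG.sum s fun i hi => hf i hi x

/-! ### The tilted conditional average -/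

lemma Reg.eg_T (hS : S.Reg) {l : ℕ} (hl : l ≤ S.K) {h : (ι → ℝ) → X → ℝ} (hh : Nh h) :
    EG (S.T l h) := ((hS.eg_dn hl).mul (hS.eg_av hh)).J _ _

lemma dep_T (S : Sy ι X) (l : ℕ) (h : (ι → ℝ) → X → ℝ) : Dep S.lev l (S.T l h) := dep_J _ _ _

lemma Reg.T_add (hS : S.Reg) {l : ℕ} (hl : l ≤ S.K) {f g : (ι → ℝ) → X → ℝ} (hf : Nh f)
    (hg : Nh g) (z : ι → ℝ) : S.T l (fun z x => f z x + g z x) z = S.T l f z + S.T l g z := by
  unfold T
  rw [← J_add ((hS.eg_dn hl).mul (hS.eg_av hf)) ((hS.eg_dn hl).mul (hS.eg_av hg))]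
  congr 1
  funext z
  rw [av_add S, mul_add]

lemma Reg.T_sub (hS : S.Reg) {l : ℕ} (hl : l ≤ S.K) {f g : (ι → ℝ) → X → ℝ} (hf : Nh f)
    (hg : Nh g) (z : ι → ℝ) : S.T l (fun z x => f z x - g z x) z = S.T l f z - S.T l g z := by
  unfold T
  rw [← J_sub ((hS.eg_dn hl).mul (hS.eg_av hf)) ((hS.eg_dn hl).mul (hS.eg_av hg))]
  congr 1
  funext z
  rw [av_sub S, mul_sub]

lemma Reg.T_sum (hS : S.Reg) {l : ℕ} (hl : l ≤ S.K) {κ : Type*} (s : Finset κ)
    {f : κ → (ι → ℝ) → X → ℝ} (hf : ∀ i ∈ s, Nh (f i)) (z : ι → ℝ) :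
    S.T l (fun z x => ∑ i ∈ s, f i z x) z = ∑ i ∈ s, S.T l (f i) z := by
  unfold T
  rw [← J_sum s fun i hi => (hS.eg_dn hl).mul (hS.eg_av (hf i hi))]
  congr 1
  funext z
  rw [av_sum S, Finset.mul_sum]

lemma T_const_mul (S : Sy ι X) (l : ℕ) (c : ℝ) (f : (ι → ℝ) → X → ℝ) (z : ι → ℝ) :
    S.T l (fun z x => c * f z x) z = c * S.T l f z := by
  unfold T
  rw [← J_const_mul]
  congr 1
  funext z
  rw [av_mul_left S (fun _ => c)]
  ring

/-- Functions of the levels at most `l` can be taken out. -/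
lemma T_mul_left (S : Sy ι X) {l : ℕ} {φ : (ι → ℝ) → ℝ} (hφ : Dep S.lev l φ)
    (f : (ι → ℝ) → X → ℝ) (z : ι → ℝ) : S.T l (fun z x => φ z * f z x) z = φ z * S.T l f z := by
  unfold T
  rw [← hφ.J_mul]
  congr 1
  funext z
  rw [av_mul_left S φ]
  ring

lemma Reg.T_fst (hS : S.Reg) {l : ℕ} (hl : l ≤ S.K) {φ : (ι → ℝ) → ℝ} (hφ : Dep S.lev l φ)
    (z : ι → ℝ) : S.T l (fun z _ => φ z) z = φ z := by
  have e : S.T l (fun z _ => φ z) z = J S.lev l (fun z => φ z * S.dn l z) z := by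
    unfold T
    congr 1
    funext z
    rw [av_fst S φ, mul_comm]
  rw [e, hφ.J_mul, hS.J_dn hl, mul_one]

lemma Reg.T_const (hS : S.Reg) {l : ℕ} (hl : l ≤ S.K) (c : ℝ) (z : ι → ℝ) :
    S.T l (fun _ _ => c) z = c := hS.T_fst hl (φ := fun _ => c) (fun _ _ => rfl) z

lemma Reg.T_mono (hS : S.Reg) {l : ℕ} (hl : l ≤ S.K) {f g : (ι → ℝ) → X → ℝ} (hf : Nh f)
    (hg : Nh g) (h : ∀ z x, f z x ≤ g z x) (z : ι → ℝ) : S.T l f z ≤ S.T l g z :=
  J_mono ((hS.eg_dn hl).mul (hS.eg_av hf)) ((hS.eg_dn hl).mul (hS.eg_av hg))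
    (fun z => mul_le_mul_of_nonneg_left (av_mono S (h z)) (dn_pos S l z).le) z

lemma Reg.abs_T_le (hS : S.Reg) {l : ℕ} (hl : l ≤ S.K) {f : (ι → ℝ) → X → ℝ} (hf : Nh f)
    {C : ℝ} (h : ∀ z x, |f z x| ≤ C) (z : ι → ℝ) : |S.T l f z| ≤ C := by
  rw [abs_le]
  constructor
  · rw [← hS.T_const hl (-C) z]
    exact hS.T_mono hl (fun _ => EG.const _) hf (fun z x => (abs_le.1 (h z x)).1) z
  · rw [← hS.T_const hl C z]
    exact hS.T_mono hl hf (fun _ => EG.const _) (fun z x => (abs_le.1 (h z x)).2) z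

/-- Jensen. -/
lemma Reg.sq_T_le (hS : S.Reg) {l : ℕ} (hl : l ≤ S.K) {f : (ι → ℝ) → X → ℝ} (hf : Nh f)
    (z : ι → ℝ) : S.T l f z ^ 2 ≤ S.T l (fun z x => f z x ^ 2) z := by
  obtain ⟨c, hc⟩ : ∃ c, c = S.T l f z := ⟨_, rfl⟩
  have h0 : 0 ≤ S.T l (fun z x => (f z x - c) ^ 2) z := by
    have h1 := hS.T_mono hl (f := fun _ _ => 0) (g := fun z x => (f z x - c) ^ 2)
      (fun _ => EG.const _) (Nh.pow (Nh.sub hf (fun _ => EG.const c)) 2)
      (fun z x => sq_nonneg _) z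
    rwa [hS.T_const hl] at h1
  have h1 : S.T l (fun z x => (f z x - c) ^ 2) z =
      S.T l (fun z x => f z x ^ 2) z - 2 * c * S.T l f z + c ^ 2 := by
    have e : (fun (z : ι → ℝ) (x : X) => (f z x - c) ^ 2) =
        fun z x => (f z x ^ 2 - 2 * c * f z x) + c ^ 2 := by
      funext z x
      ring
    rw [e, hS.T_add hl (Nh.sub (Nh.pow hf 2) (Nh.const_mul _ hf)) (fun _ => EG.const _),
      hS.T_sub hl (Nh.pow hf 2) (Nh.const_mul _ hf), T_const_mul, hS.T_const hl]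
  rw [h1, ← hc] at h0
  rw [← hc]
  nlinarith

lemma Reg.T_top (hS : S.Reg) (f : (ι → ℝ) → X → ℝ) (z : ι → ℝ) : S.T S.K f z = S.av f z := by
  unfold T J
  simp only [mix_top hS.lev, dn_top, one_mul]
  simp

/-- The tower property. -/
lemma Reg.T_T (hS : S.Reg) {l l' : ℕ} (hl : l ≤ l') (hl' : l' ≤ S.K) {f : (ι → ℝ) → X → ℝ}
    (hf : Nh f) (z : ι → ℝ) : S.T l (fun z _ => S.T l' f z) z = S.T l f z := by
  have hll : l ≤ S.K := hl.trans hl'
  obtain ⟨P, hP⟩ : ∃ P : (ι → ℝ) → ℝ, P = fun z =>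
    Real.exp (∑ i ∈ Finset.Ico l l', S.m (i + 1) * (S.lg (i + 1) z - S.lg i z)) := ⟨_, rfl⟩
  have hdn : ∀ z, S.dn l z = P z * S.dn l' z := by
    intro z
    rw [hP]
    unfold dn
    rw [← Real.exp_add, Finset.sum_Ico_consecutive _ hl hl']
  have hPd : Dep S.lev l' P := by
    rw [hP]
    intro z w
    dsimp only
    congr 1
    refine Finset.sum_congr rfl fun i hi => ?_
    rw [Finset.mem_Ico] at hi
    rw [(hS.dep_lg (l := i + 1) (by omega)).mono (show i + 1 ≤ l' by omega) z w,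
      (hS.dep_lg (l := i) (by omega)).mono (show i ≤ l' by omega) z w]
  have hPe : EG P := by
    rw [hP]
    exact lc_eg_exp (lc_lip_sum hS hl')
  have hTe := hS.eg_T hl' hf
  have e1 : S.T l (fun z _ => S.T l' f z) z =
      J S.lev l (fun z => (P z * S.T l' f z) * S.dn l' z) z := by
    unfold T
    congr 1
    funext z
    rw [av_fst S (fun z => J S.lev l' (fun z => S.dn l' z * S.av f z) z), hdn]
    ring
  have e2 : S.T l f z = J S.lev l (fun z => P z * (S.dn l' z * S.av f z)) z := by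
    unfold T
    congr 1
    funext z
    rw [hdn]
    ring
  have hd2 : Dep S.lev l' fun z => P z * S.T l' f z := lc_dep_mul hPd (dep_T S l' f)
  rw [e1, e2, ← J_J hl ((hPe.mul hTe).mul (hS.eg_dn hl')),
    ← J_J hl (hPe.mul ((hS.eg_dn hl').mul (hS.eg_av hf)))]
  congr 1
  funext z
  rw [hd2.J_mul, hPd.J_mul, hS.J_dn hl', mul_one]
  rfl

/-! ### The tilted average -/

lemma lc_int (hS : S.Reg) {f : (ι → ℝ) → X → ℝ} (hf : Nh f) :
    Integrable (fun z => S.dn 0 z * S.av f z) (gI ι) :=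
  ((hS.eg_dn (Nat.zero_le _)).mul (hS.eg_av hf)).integrable

lemma Reg.Ex_add (hS : S.Reg) {f g : (ι → ℝ) → X → ℝ} (hf : Nh f) (hg : Nh g) :
    S.Ex (fun z x => f z x + g z x) = S.Ex f + S.Ex g := by
  unfold Ex
  rw [← integral_add (lc_int hS hf) (lc_int hS hg)]
  congr 1
  funext z
  rw [av_add S, mul_add]

lemma Reg.Ex_sub (hS : S.Reg) {f g : (ι → ℝ) → X → ℝ} (hf : Nh f) (hg : Nh g) :
    S.Ex (fun z x => f z x - g z x) = S.Ex f - S.Ex g := by
  unfold Ex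
  rw [← integral_sub (lc_int hS hf) (lc_int hS hg)]
  congr 1
  funext z
  rw [av_sub S, mul_sub]

lemma Reg.Ex_sum (hS : S.Reg) {κ : Type*} (s : Finset κ) {f : κ → (ι → ℝ) → X → ℝ}
    (hf : ∀ i ∈ s, Nh (f i)) : S.Ex (fun z x => ∑ i ∈ s, f i z x) = ∑ i ∈ s, S.Ex (f i) := by
  unfold Ex
  rw [← integral_finsetSum s fun i hi => lc_int hS (hf i hi)]
  congr 1
  funext z
  rw [av_sum S, Finset.mul_sum]

lemma Ex_const_mul (S : Sy ι X) (c : ℝ) (f : (ι → ℝ) → X → ℝ) :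
    S.Ex (fun z x => c * f z x) = c * S.Ex f := by
  unfold Ex
  rw [← integral_const_mul]
  congr 1
  funext z
  rw [av_mul_left S (fun _ => c)]
  ring

lemma lc_Ex_T0 (hS : S.Reg) {f : (ι → ℝ) → X → ℝ} (hf : Nh f) :
    S.Ex f = ∫ z, S.T 0 f z ∂(gI ι) :=
  (integral_J ((hS.eg_dn (Nat.zero_le _)).mul (hS.eg_av hf))).symm

lemma Reg.Ex_const (hS : S.Reg) (c : ℝ) : S.Ex (fun _ _ => c) = c := by
  rw [lc_Ex_T0 hS (fun _ => EG.const c)]
  simp only [hS.T_const (Nat.zero_le _)]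
  simp

lemma Reg.Ex_mono (hS : S.Reg) {f g : (ι → ℝ) → X → ℝ} (hf : Nh f) (hg : Nh g)
    (h : ∀ z x, f z x ≤ g z x) : S.Ex f ≤ S.Ex g :=
  integral_mono (lc_int hS hf) (lc_int hS hg)
    fun z => mul_le_mul_of_nonneg_left (av_mono S (h z)) (dn_pos S 0 z).le

lemma Reg.abs_Ex_le (hS : S.Reg) {f : (ι → ℝ) → X → ℝ} (hf : Nh f) :
    |S.Ex f| ≤ S.Ex (fun z x => |f z x|) := by
  rw [abs_le]
  constructor
  · have h := hS.Ex_mono (f := fun z x => -1 * |f z x|) (Nh.const_mul (-1) (Nh.abs hf)) hf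
      (fun z x => by
        have := neg_abs_le (f z x)
        linarith)
    rw [Ex_const_mul] at h
    linarith
  · exact hS.Ex_mono hf (Nh.abs hf) fun z x => le_abs_self _

/-- Cauchy-Schwarz. -/
lemma Reg.Ex_cs (hS : S.Reg) {f g : (ι → ℝ) → X → ℝ} (hf : Nh f) (hg : Nh g) :
    S.Ex (fun z x => f z x * g z x) ^ 2 ≤
      S.Ex (fun z x => f z x ^ 2) * S.Ex (fun z x => g z x ^ 2) := by
  have h0 : ∀ t : ℝ, 0 ≤ S.Ex (fun z x => g z x ^ 2) * (t * t) +
      (-2 * S.Ex (fun z x => f z x * g z x)) * t + S.Ex (fun z x => f z x ^ 2) := by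
    intro t
    have h1 : 0 ≤ S.Ex (fun z x => (f z x - t * g z x) ^ 2) := by
      have h2 := hS.Ex_mono (f := fun _ _ => 0) (g := fun z x => (f z x - t * g z x) ^ 2)
        (fun _ => EG.const _) (Nh.pow (Nh.sub hf (Nh.const_mul t hg)) 2)
        (fun z x => sq_nonneg _)
      rwa [hS.Ex_const] at h2
    have h2 : S.Ex (fun z x => (f z x - t * g z x) ^ 2) = S.Ex (fun z x => f z x ^ 2) -
        2 * t * S.Ex (fun z x => f z x * g z x) + t * t * S.Ex (fun z x => g z x ^ 2) := by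
      have e : (fun (z : ι → ℝ) (x : X) => (f z x - t * g z x) ^ 2) =
          fun z x => (f z x ^ 2 - 2 * t * (f z x * g z x)) + t * t * g z x ^ 2 := by
        funext z x
        ring
      rw [e, hS.Ex_add (Nh.sub (Nh.pow hf 2) (Nh.const_mul _ (Nh.mul hf hg)))
        (Nh.const_mul _ (Nh.pow hg 2)), hS.Ex_sub (Nh.pow hf 2) (Nh.const_mul _ (Nh.mul hf hg)),
        Ex_const_mul, Ex_const_mul]
    rw [h2] at h1
    linarith
  have h3 := discrim_le_zero h0
  unfold discrim at h3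
  nlinarith

lemma Reg.Ex_T (hS : S.Reg) {l : ℕ} (hl : l ≤ S.K) {f : (ι → ℝ) → X → ℝ} (hf : Nh f) :
    S.Ex (fun z _ => S.T l f z) = S.Ex f := by
  rw [lc_Ex_T0 hS (fun _ => hS.eg_T hl hf), lc_Ex_T0 hS hf]
  simp only [hS.T_T (Nat.zero_le _) hl hf]

lemma Reg.Ex_mul_T (hS : S.Reg) {l : ℕ} (hl : l ≤ S.K) {φ : (ι → ℝ) → ℝ} (hφ : Dep S.lev l φ)
    (hφe : EG φ) {f : (ι → ℝ) → X → ℝ} (hf : Nh f) :
    S.Ex (fun z _ => φ z * S.T l f z) = S.Ex (fun z x => φ z * f z x) := by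
  rw [← hS.Ex_T hl (f := fun z x => φ z * f z x) (fun x => hφe.mul (hf x))]
  congr 1
  funext z _
  rw [T_mul_left S hφ]

/-- At the level zero the law is not tilted. -/
lemma Reg.Ex_dep (hS : S.Reg) {φ : (ι → ℝ) → ℝ} (hφ : Dep S.lev 0 φ) (hφe : EG φ) :
    S.Ex (fun z _ => φ z) = ∫ z, φ z ∂(gI ι) := by
  rw [lc_Ex_T0 hS (fun _ => hφe)]
  simp only [hS.T_fst (Nat.zero_le _) hφ]

end Sy

end Vale.Agent.P157.Lv
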