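import Vale.Agent.P157.LvChain

/-!
Derivatives of the log-weights and of the tilted averages, integration by parts.
-/

open MeasureTheory ProbabilityTheory Filter Topology

namespace Vale.Agent.P157.Lv

set_option linter.unusedSectionVars false

variable {ι X : Type} [Fintype ι] [DecidableEq ι] [Fintype X] [Nonempty X] {S : Sy ι X}
  {D : ι → (ι → ℝ) → X → ℝ}

namespace Sy

lemma RegD.nh (hS : S.RegD D) (e : ι) : Nh (D e) := by
  obtain ⟨C, hC⟩ := hS.bd
  exact fun x => EG.of_bdd (hS.md e x) (C := C) fun y => hC e y x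

/-- The derivative of the log-partition function. -/
lemma RegD.pd_top (hS : S.RegD D) (e : ι) : PD e S.top (S.av (D e)) := by
  have h1 : PD e (fun z => ∑ x, Real.exp (S.H z x)) (fun z => ∑ x, Real.exp (S.H z x) * D e z x) :=
    PD.sum Finset.univ fun x _ => (hS.pd e x).exp
  refine (h1.log fun z => (sum_exp_pos z).ne').congr fun z => ?_
  simp only [av, gb, Finset.sum_div]
  exact Finset.sum_congr rfl fun x _ => by ring

/-- One step of the tilted conditional averages. -/
lemma Reg.T_stepI (hS : S.Reg) {l : ℕ} (hl : l < S.K) {h : (ι → ℝ) → X → ℝ} (hh : Nh h)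
    (z : ι → ℝ) : S.T l h z =
      J S.lev l (fun z => Real.exp (S.m (l + 1) * (S.lg (l + 1) z - S.lg l z)) *
        S.T (l + 1) h z) z := by
  have hEG : EG (fun z => S.dn l z * S.av h z) := (hS.eg_dn hl.le).mul (hS.eg_av hh)
  have hdep : Dep S.lev (l + 1) (fun z => Real.exp (S.m (l + 1) * (S.lg (l + 1) z - S.lg l z))) := by
    intro z w
    have h1 := hS.dep_lg (l := l + 1) hl z w
    have h2 := (hS.dep_lg (l := l) hl.le).mono (Nat.le_succ l) z w
    simp only [h1, h2]
  have key : J S.lev (l + 1) (fun z => S.dn l z * S.av h z) =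
      fun z => Real.exp (S.m (l + 1) * (S.lg (l + 1) z - S.lg l z)) * S.T (l + 1) h z := by
    funext z
    have := hdep.J_mul (fun z => S.dn (l + 1) z * S.av h z) z
    rw [T, ← this]
    congr 1
    funext z
    rw [dn_step S hl z]
    ring
  rw [← key]
  exact (J_J (Nat.le_succ l) hEG z).symm

/-- `∂_e X_l = T_l(∂_e H)`, for the coordinates of level at most `l`. -/
theorem RegD.pd_lg (hS : S.RegD D) {l : ℕ} (hl : l ≤ S.K) {e : ι} (he : S.lev e ≤ l) :
    PD e (S.lg l) (S.T l (D e)) := by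
  revert he
  refine down_ind (P := fun l => S.lev e ≤ l → PD e (S.lg l) (S.T l (D e))) ?_ ?_ l hl
  · intro _
    rw [lg_top]
    exact (hS.pd_top e).congr fun z => (hS.toReg.T_top (D e) z).symm
  · intro l hl ih he
    have h1 := ih (he.trans (Nat.le_succ l))
    have hm : 0 < S.m (l + 1) := hS.toReg.m_pos (Nat.succ_le_succ (Nat.zero_le l)) (by omega)
    have hLip := hS.toReg.lip_lg (l := l + 1) hl
    have hEGe : EG (fun z => Real.exp (S.m (l + 1) * S.lg (l + 1) z)) := hLip.exp_eg _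
    have hEGT : EG (S.T (l + 1) (D e)) := hS.toReg.eg_T hl (hS.nh e)
    have h2 : PD e (J S.lev l (fun z => Real.exp (S.m (l + 1) * S.lg (l + 1) z)))
        (J S.lev l (fun z => Real.exp (S.m (l + 1) * S.lg (l + 1) z) *
          (S.m (l + 1) * S.T (l + 1) (D e) z))) :=
      PD.J (h1.const_mul (S.m (l + 1))).exp hEGe (hEGe.mul (hEGT.const_mul _)) he
    have hne : ∀ z, J S.lev l (fun z => Real.exp (S.m (l + 1) * S.lg (l + 1) z)) z ≠ 0 :=
      fun z => by rw [hS.toReg.J_exp_lg hl z]; exact (Real.exp_pos _).ne'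
    have h3 := (h2.log hne).const_mul (1 / S.m (l + 1))
    rw [lg_step S hl]
    refine PD.congr (H := S.stp l (S.lg (l + 1))) h3 fun z => ?_
    rw [hS.toReg.J_exp_lg hl z, hS.toReg.T_stepI hl (hS.nh e) z]
    have hdep : Dep S.lev l (fun z => Real.exp (-(S.m (l + 1) * S.lg l z))) := by
      intro z w
      have h2 := (hS.toReg.dep_lg (l := l) hl.le) z w
      simp only [h2]
    have h4 := hdep.J_mul (fun z => Real.exp (S.m (l + 1) * S.lg (l + 1) z) *
      (S.m (l + 1) * S.T (l + 1) (D e) z)) z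
    have h5 : J S.lev l (fun z => Real.exp (-(S.m (l + 1) * S.lg l z)) *
        (Real.exp (S.m (l + 1) * S.lg (l + 1) z) * (S.m (l + 1) * S.T (l + 1) (D e) z))) z =
        S.m (l + 1) * J S.lev l (fun z => Real.exp (S.m (l + 1) * (S.lg (l + 1) z - S.lg l z)) *
        S.T (l + 1) (D e) z) z := by
      rw [← J_const_mul]
      congr 1
      funext z
      have : Real.exp (S.m (l + 1) * (S.lg (l + 1) z - S.lg l z)) =
          Real.exp (-(S.m (l + 1) * S.lg l z)) * Real.exp (S.m (l + 1) * S.lg (l + 1) z) := by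
        rw [← Real.exp_add]; congr 1; ring
      rw [this]; ring
    have h6 := h4.symm.trans h5
    rw [Real.exp_neg] at h6
    rw [div_mul_eq_mul_div, one_mul, div_div, div_eq_iff (by positivity)]
    rw [inv_mul_eq_div, div_eq_iff (Real.exp_pos _).ne'] at h6
    rw [h6]; ring

/-- Derivative of the Gibbs weights. -/
theorem RegD.pd_gb (hS : S.RegD D) (e : ι) (x : X) :
    PD e (fun z => S.gb z x) (fun z => S.gb z x * (D e z x - S.T S.K (D e) z)) := by
  have h1 : PD e (fun z => ∑ x, Real.exp (S.H z x)) (fun z => ∑ x, Real.exp (S.H z x) * D e z x) :=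
    PD.sum Finset.univ fun x _ => (hS.pd e x).exp
  refine ((hS.pd e x).exp.div h1 fun z => (sum_exp_pos z).ne').congr fun z => ?_
  rw [hS.toReg.T_top]
  have h0 := (sum_exp_pos (S := S) z).ne'
  have h2 : S.av (D e) z = (∑ x, Real.exp (S.H z x) * D e z x) / ∑ x, Real.exp (S.H z x) := by
    simp only [av, gb, Finset.sum_div]
    exact Finset.sum_congr rfl fun x _ => by ring
  rw [h2, gb]
  field_simp

/-- Abel summation. -/
lemma abel (m f : ℕ → ℝ) {l K : ℕ} (h : l ≤ K) :
    ∑ i ∈ Finset.Ico l K, m (i + 1) * (f (i + 1) - f i) =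
      m (K + 1) * f K - ∑ i ∈ Finset.Ico (l + 1) (K + 1), (m (i + 1) - m i) * f i -
        m (l + 1) * f l := by
  induction K, h using Nat.le_induction with
  | base => simp
  | succ K hK ih =>
    rw [Finset.sum_Ico_succ_top hK, ih, Finset.sum_Ico_succ_top (Nat.succ_le_succ hK)]
    ring

/-- The derivative of the full density `dn l * gb`, for coordinates of level at most `l`. -/
theorem RegD.pd_dn (hS : S.RegD D) {l : ℕ} (hl : l ≤ S.K) {e : ι} (he : S.lev e ≤ l) :
    PD e (S.dn l) (fun z => S.dn l z * (S.T S.K (D e) z -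
      ∑ i ∈ Finset.Ico (l + 1) (S.K + 1), S.p i * S.T i (D e) z - S.m (l + 1) * S.T l (D e) z)) := by
  have h1 : PD e (fun z => ∑ i ∈ Finset.Ico l S.K, S.m (i + 1) * (S.lg (i + 1) z - S.lg i z))
      (fun z => ∑ i ∈ Finset.Ico l S.K, S.m (i + 1) * (S.T (i + 1) (D e) z - S.T i (D e) z)) := by
    refine PD.sum _ fun i hi => ?_
    obtain ⟨hi1, hi2⟩ := Finset.mem_Ico.1 hi
    exact ((hS.pd_lg (l := i + 1) hi2 (by omega)).sub
      (hS.pd_lg (l := i) hi2.le (by omega))).const_mul _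
  refine h1.exp.congr fun z => ?_
  rw [abel S.m (fun i => S.T i (D e) z) hl, hS.mK, one_mul]
  rfl

/-- The derivative of the density for a coordinate of any level. -/
lemma RegD.pd_dn_zero (hS : S.RegD D) (e : ι) :
    PD e (S.dn 0) (fun z => S.dn 0 z * (S.T S.K (D e) z -
      ∑ i ∈ Finset.Ico (S.lev e) (S.K + 1), S.p i * S.T i (D e) z)) := by
  have hlg : ∀ i ≤ S.K, PD e (S.lg i) (fun z => if S.lev e ≤ i then S.T i (D e) z else 0) := by
    intro i hi
    by_cases he : S.lev e ≤ i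
    · simp only [he, if_true]
      exact hS.pd_lg hi he
    · simp only [he, if_false]
      exact (hS.toReg.dep_lg hi).pd (not_le.1 he)
  have h1 : PD e (fun z => ∑ i ∈ Finset.Ico 0 S.K, S.m (i + 1) * (S.lg (i + 1) z - S.lg i z))
      (fun z => ∑ i ∈ Finset.Ico 0 S.K, S.m (i + 1) *
        ((if S.lev e ≤ i + 1 then S.T (i + 1) (D e) z else 0) -
          (if S.lev e ≤ i then S.T i (D e) z else 0))) := by
    refine PD.sum _ fun i hi => ?_
    obtain ⟨_, hi2⟩ := Finset.mem_Ico.1 hi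
    exact ((hlg (i + 1) hi2).sub (hlg i hi2.le)).const_mul _
  refine h1.exp.congr fun z => ?_
  rw [abel S.m (fun i => if S.lev e ≤ i then S.T i (D e) z else 0) (Nat.zero_le S.K), hS.mK,
    one_mul, if_pos (hS.lev e)]
  have h2 : ∑ i ∈ Finset.Ico (S.lev e) (S.K + 1), S.p i * S.T i (D e) z =
      ∑ i ∈ Finset.Ico 0 (S.K + 1), S.p i * (if S.lev e ≤ i then S.T i (D e) z else 0) := by
    have : Finset.Ico (S.lev e) (S.K + 1) =
        (Finset.Ico 0 (S.K + 1)).filter fun i => S.lev e ≤ i := by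
      ext i; simp only [Finset.mem_Ico, Finset.mem_filter]; omega
    rw [this, Finset.sum_filter]
    exact Finset.sum_congr rfl fun i _ => by split_ifs <;> simp
  have h3 := Finset.sum_eq_sum_Ico_succ_bot (Nat.succ_pos S.K)
    (fun i => S.p i * (if S.lev e ≤ i then S.T i (D e) z else 0))
  rw [h2]
  have h4 : S.p 0 = S.m (0 + 1) := by simp [p, hS.m0]
  rw [h3, h4]
  simp only [p, dn]
  ring

/-- The derivative of a Gibbs average multiplied by a function. -/
lemma RegD.pd_mul_av (hS : S.RegD D) {e : ι} {Y A : (ι → ℝ) → ℝ}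
    (hY : PD e Y (fun z => Y z * (S.T S.K (D e) z - A z)))
    {h h' : (ι → ℝ) → X → ℝ} (hd : ∀ x, PD e (fun z => h z x) (fun z => h' z x)) :
    PD e (fun z => Y z * S.av h z)
      (fun z => Y z * S.av (fun z x => h' z x + h z x * (D e z x - A z)) z) := by
  have h1 : PD e (S.av h) (fun z => ∑ x, (S.gb z x * (D e z x - S.T S.K (D e) z) * h z x +
      S.gb z x * h' z x)) :=
    PD.sum Finset.univ fun x _ => (hS.pd_gb e x).mul (hd x)
  refine (hY.mul h1).congr fun z => ?_
  simp only [av, Finset.mul_sum]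
  rw [← Finset.sum_add_distrib]
  exact Finset.sum_congr rfl fun x _ => by ring

/-- Derivative of a tilted average. -/
theorem RegD.pd_T (hS : S.RegD D) {l : ℕ} (hl : l ≤ S.K) {e : ι} (he : S.lev e ≤ l)
    {h h' : (ι → ℝ) → X → ℝ} (hd : ∀ x, PD e (fun z => h z x) (fun z => h' z x)) (hh : Nh h)
    (hh' : Nh h') :
    PD e (S.T l h) (S.T l (fun z x => h' z x + h z x * (D e z x -
      ∑ i ∈ Finset.Ico (l + 1) (S.K + 1), S.p i * S.T i (D e) z - S.m (l + 1) * S.T l (D e) z))) := by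
  have hT : ∀ i ≤ S.K, EG (S.T i (D e)) := fun i hi => hS.toReg.eg_T hi (hS.nh e)
  have hA : EG (fun z => ∑ i ∈ Finset.Ico (l + 1) (S.K + 1), S.p i * S.T i (D e) z) :=
    EG.sum _ fun i hi => (hT i (by have := Finset.mem_Ico.1 hi; omega)).const_mul _
  have hB : EG (fun z => S.m (l + 1) * S.T l (D e) z) := (hT l hl).const_mul _
  have hN : Nh (fun z x => h' z x + h z x * (D e z x -
      ∑ i ∈ Finset.Ico (l + 1) (S.K + 1), S.p i * S.T i (D e) z - S.m (l + 1) * S.T l (D e) z)) :=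
    Nh.add hh' (Nh.mul hh (Nh.sub (Nh.sub (hS.nh e) (Nh.fst hA)) (Nh.fst hB)))
  have h1 : PD e (fun z => S.dn l z * S.av h z) (fun z => S.dn l z * S.av (fun z x =>
      h' z x + h z x * (D e z x - ∑ i ∈ Finset.Ico (l + 1) (S.K + 1), S.p i * S.T i (D e) z -
        S.m (l + 1) * S.T l (D e) z)) z) := by
    have h2 := hS.pd_mul_av (A := fun z => ∑ i ∈ Finset.Ico (l + 1) (S.K + 1),
      S.p i * S.T i (D e) z + S.m (l + 1) * S.T l (D e) z)
      ((hS.pd_dn hl he).congr fun z => by rw [sub_sub]) hd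
    refine h2.congr fun z => ?_
    simp only [sub_sub]
  exact PD.J h1 ((hS.toReg.eg_dn hl).mul (hS.toReg.eg_av hh))
    ((hS.toReg.eg_dn hl).mul (hS.toReg.eg_av hN)) he

/-- **Integration by parts.** -/
theorem RegD.ibp (hS : S.RegD D) (e : ι) {h h' : (ι → ℝ) → X → ℝ}
    (hd : ∀ x, PD e (fun z => h z x) (fun z => h' z x)) (hh : Nh h) (hh' : Nh h') :
    S.Ex (fun z x => z e * h z x) = S.Ex (fun z x => h' z x + h z x * (D e z x -
      ∑ l ∈ Finset.Ico (S.lev e) (S.K + 1), S.p l * S.T l (D e) z)) := by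
  have hT : ∀ i ≤ S.K, EG (S.T i (D e)) := fun i hi => hS.toReg.eg_T hi (hS.nh e)
  have hA : EG (fun z => ∑ i ∈ Finset.Ico (S.lev e) (S.K + 1), S.p i * S.T i (D e) z) :=
    EG.sum _ fun i hi => (hT i (by have := Finset.mem_Ico.1 hi; omega)).const_mul _
  have hN : Nh (fun z x => h' z x + h z x * (D e z x -
      ∑ i ∈ Finset.Ico (S.lev e) (S.K + 1), S.p i * S.T i (D e) z)) :=
    Nh.add hh' (Nh.mul hh (Nh.sub (hS.nh e) (Nh.fst hA)))
  have h1 := hS.pd_mul_av (hS.pd_dn_zero e) hd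
  have h2 := PD.stein h1 ((hS.toReg.eg_dn (Nat.zero_le _)).mul (hS.toReg.eg_av hh))
    ((hS.toReg.eg_dn (Nat.zero_le _)).mul (hS.toReg.eg_av hN))
  rw [Ex, Ex, ← h2]
  congr 1
  funext z
  rw [av_mul_left S (fun z => z e) h z]
  ring

end Sy

end Vale.Agent.P157.Lv
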