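import Vale.Agent.P157.LvPert
import Vale.Agent.P157.LvIBP

/-!
Concentration of a linear observable from a bound on the second difference of the free energy.
-/

open MeasureTheory ProbabilityTheory Filter Topology

namespace Vale.Agent.P157.Lv

set_option linter.unusedSectionVars false

section one

/-- Exponential growth in one variable. -/
def CcE (f : ℝ → ℝ) : Prop := EG (ι := Unit) fun z => f (z ())

lemma CcE.of_bdd {f : ℝ → ℝ} (hm : Measurable f) {C a : ℝ} (hC : 0 ≤ C) (ha : 0 ≤ a)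
    (h : ∀ x, |f x| ≤ C * Real.exp (a * |x|)) : CcE f := by
  refine ⟨hm.comp (measurable_pi_apply ()), C, a, hC, ha, fun y => (h _).trans ?_⟩
  have : |y ()| ≤ ‖y‖ := norm_le_pi_norm y ()
  gcongr

lemma CcE.meas {f : ℝ → ℝ} (h : CcE f) : Measurable f :=
  (EG.meas h).comp (measurable_pi_lambda (fun (x : ℝ) (_ : Unit) => x) fun _ => measurable_id)

lemma CcE.bdd {f : ℝ → ℝ} (h : CcE f) :
    ∃ C a : ℝ, 0 ≤ C ∧ 0 ≤ a ∧ ∀ x, |f x| ≤ C * Real.exp (a * |x|) := by
  obtain ⟨C, a, hC, ha, hb⟩ := EG.bdd h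
  refine ⟨C, a, hC, ha, fun x => ?_⟩
  have := hb (fun _ => x)
  rwa [pi_norm_const, Real.norm_eq_abs] at this

lemma CcE.integrable {f : ℝ → ℝ} (h : CcE f) : Integrable f (gaussianReal 0 1) :=
  ((measurePreserving_eval (fun _ : Unit => gaussianReal 0 1) ()).integrable_comp
    h.meas.aestronglyMeasurable).1 (EG.integrable h)

lemma CcE.mul {f g : ℝ → ℝ} (hf : CcE f) (hg : CcE g) : CcE fun x => f x * g x := EG.mul hf hg
lemma CcE.add {f g : ℝ → ℝ} (hf : CcE f) (hg : CcE g) : CcE fun x => f x + g x := EG.add hf hg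
lemma CcE.sub {f g : ℝ → ℝ} (hf : CcE f) (hg : CcE g) : CcE fun x => f x - g x := EG.sub hf hg
lemma CcE.sq {f : ℝ → ℝ} (hf : CcE f) : CcE fun x => f x ^ 2 := EG.pow hf 2
lemma CcE.id : CcE fun x => x := EG.coord (ι := Unit) ()
lemma CcE.const (c : ℝ) : CcE fun _ => c := EG.const c

lemma CcE.cm {f : ℝ → ℝ} (c : ℝ) (hf : CcE f) : CcE fun x => c * f x := (CcE.const c).mul hf

lemma CcE.int_add {f g : ℝ → ℝ} (hf : CcE f) (hg : CcE g) : ∫ x, (f x + g x) ∂(gaussianReal 0 1) =
    ∫ x, f x ∂(gaussianReal 0 1) + ∫ x, g x ∂(gaussianReal 0 1) :=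
  integral_add hf.integrable hg.integrable

lemma CcE.int_sub {f g : ℝ → ℝ} (hf : CcE f) (hg : CcE g) : ∫ x, (f x - g x) ∂(gaussianReal 0 1) =
    ∫ x, f x ∂(gaussianReal 0 1) - ∫ x, g x ∂(gaussianReal 0 1) :=
  integral_sub hf.integrable hg.integrable

lemma CcE.ii {g : ℝ → ℝ} (hg : CcE g) (x y : ℝ) : IntervalIntegrable g volume x y := by
  obtain ⟨C, a, hC, ha, hb⟩ := hg.bdd
  have hc : Continuous fun x : ℝ => C * Real.exp (a * |x|) := by fun_prop
  refine (hc.intervalIntegrable x y).mono_fun' hg.meas.aestronglyMeasurable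
    (Filter.Eventually.of_forall fun u => ?_)
  show ‖g u‖ ≤ C * Real.exp (a * |u|)
  rw [Real.norm_eq_abs]
  exact hb u

lemma CcE.prim {g : ℝ → ℝ} (hg : CcE g) : CcE fun x => ∫ u in (0 : ℝ)..x, g u := by
  obtain ⟨C, a, hC, ha, hb⟩ := hg.bdd
  refine CcE.of_bdd (intervalIntegral.continuous_primitive hg.ii 0).measurable hC
    (show 0 ≤ a + 1 by linarith) fun x => ?_
  have h1 : ‖∫ u in (0 : ℝ)..x, g u‖ ≤ (C * Real.exp (a * |x|)) * |x - 0| := by
    refine intervalIntegral.norm_integral_le_of_norm_le_const fun u hu => ?_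
    rw [Real.norm_eq_abs]
    refine (hb u).trans ?_
    have : |u| ≤ |x| := by
      rcases le_total 0 x with h | h
      · rw [Set.uIoc_of_le h] at hu
        rw [abs_of_pos hu.1, abs_of_nonneg h]
        exact hu.2
      · rw [Set.uIoc_of_ge h] at hu
        rw [abs_of_nonpos hu.2, abs_of_nonpos h]
        linarith [hu.1]
    gcongr
  rw [sub_zero, Real.norm_eq_abs] at h1
  refine h1.trans ?_
  have h2 : |x| ≤ Real.exp |x| := (Real.add_one_le_exp |x|).trans' (by linarith)
  rw [add_mul, one_mul, Real.exp_add, ← mul_assoc]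
  gcongr

lemma cc_gpdf_deriv (x : ℝ) :
    HasDerivAt (gaussianPDFReal 0 1) (-(x * gaussianPDFReal 0 1 x)) x := by
  have h1 : HasDerivAt (fun y : ℝ => -(y - 0) ^ 2 / (2 * ((1 : NNReal) : ℝ))) (-x) x := by
    have h2 : HasDerivAt (fun y : ℝ => -(y ^ 2) / 2) (-(2 * x) / 2) x := by
      have h0 := ((hasDerivAt_pow 2 x).neg).div_const (2 : ℝ)
      simpa using h0
    have h2' : (fun y : ℝ => -(y - 0) ^ 2 / (2 * ((1 : NNReal) : ℝ))) = fun y => -(y ^ 2) / 2 := by
      funext y
      simp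
    rw [h2']
    have h2'' : -x = -(2 * x) / 2 := by ring
    rw [h2'']
    exact h2
  have h3 := (h1.exp).const_mul ((Real.sqrt (2 * Real.pi * ((1 : NNReal) : ℝ)))⁻¹)
  have h4 : gaussianPDFReal 0 1 = fun y => (Real.sqrt (2 * Real.pi * ((1 : NNReal) : ℝ)))⁻¹
      * Real.exp (-(y - 0) ^ 2 / (2 * ((1 : NNReal) : ℝ))) := by
    funext y
    rw [gaussianPDFReal_def]
  have h5 : -(x * gaussianPDFReal 0 1 x) = (Real.sqrt (2 * Real.pi * ((1 : NNReal) : ℝ)))⁻¹
      * (Real.exp (-(x - 0) ^ 2 / (2 * ((1 : NNReal) : ℝ))) * -x) := by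
    rw [h4]
    ring
  rw [h5, h4]
  exact h3

lemma cc_gpdf_even (x : ℝ) : gaussianPDFReal 0 1 (-x) = gaussianPDFReal 0 1 x := by
  rw [gaussianPDFReal_def]
  simp

lemma cc_gpdf_tendsto : Tendsto (gaussianPDFReal 0 1) atTop (𝓝 0) := by
  rw [gaussianPDFReal_def]
  have h1 : Tendsto (fun y : ℝ => Real.exp (-(y - 0) ^ 2 / (2 * ((1 : NNReal) : ℝ)))) atTop (𝓝 0) := by
    refine Real.tendsto_exp_atBot.comp ?_
    have : (fun y : ℝ => -(y - 0) ^ 2 / (2 * ((1 : NNReal) : ℝ))) = fun y => -((1/2) * y ^ 2) := by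
      funext y
      simp
      ring
    rw [this]
    exact tendsto_neg_atTop_atBot.comp ((tendsto_pow_atTop two_ne_zero).const_mul_atTop (by norm_num))
  simpa using h1.const_mul _

lemma cc_gpdf_tail (t : ℝ) (ht : 0 < t) :
    ∫ x in Set.Ioi t, x * gaussianPDFReal 0 1 x = gaussianPDFReal 0 1 t := by
  have h := integral_Ioi_of_hasDerivAt_of_nonpos' (a := t) (g := gaussianPDFReal 0 1)
    (g' := fun x => -(x * gaussianPDFReal 0 1 x)) (l := 0) (fun x _ => cc_gpdf_deriv x)
    (fun x hx => neg_nonpos.2 (mul_nonneg (ht.trans hx).le (gaussianPDFReal_nonneg 0 1 x)))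
    cc_gpdf_tendsto
  rw [integral_neg] at h
  linarith

lemma cc_gpdf_tail_int (t : ℝ) (ht : 0 < t) :
    IntegrableOn (fun x => x * gaussianPDFReal 0 1 x) (Set.Ioi t) := by
  have h := integrableOn_Ioi_deriv_of_nonpos' (a := t) (g := gaussianPDFReal 0 1)
    (g' := fun x => -(x * gaussianPDFReal 0 1 x)) (l := 0) (fun x _ => cc_gpdf_deriv x)
    (fun x hx => neg_nonpos.2 (mul_nonneg (ht.trans hx).le (gaussianPDFReal_nonneg 0 1 x)))
    cc_gpdf_tendsto
  simpa using h.neg

lemma cc_half_stein {g : ℝ → ℝ} (hg : CcE g) (h0 : ∀ x, 0 ≤ g x) :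
    ∫ x in Set.Ioi 0, gaussianPDFReal 0 1 x * (x * ∫ u in (0 : ℝ)..x, g u) =
      ∫ x in Set.Ioi 0, gaussianPDFReal 0 1 x * g x := by
  have hφm : Measurable (gaussianPDFReal 0 1) := measurable_gaussianPDFReal 0 1
  have hφ0 := gaussianPDFReal_nonneg 0 1
  have hPm : Measurable fun x => ∫ u in (0 : ℝ)..x, g u := hg.prim.meas
  have hP0 : ∀ x : ℝ, 0 ≤ x → 0 ≤ ∫ u in (0 : ℝ)..x, g u := fun x hx =>
    intervalIntegral.integral_nonneg hx fun u _ => h0 u
  rw [integral_eq_lintegral_of_nonneg_ae, integral_eq_lintegral_of_nonneg_ae]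
  rotate_left
  · exact Filter.Eventually.of_forall fun x => mul_nonneg (hφ0 x) (h0 x)
  · exact (hφm.mul hg.meas).aestronglyMeasurable
  · filter_upwards [ae_restrict_mem measurableSet_Ioi] with x hx
    exact mul_nonneg (hφ0 x) (mul_nonneg (le_of_lt hx) (hP0 x (le_of_lt hx)))
  · exact (hφm.mul (measurable_id.mul hPm)).aestronglyMeasurable
  congr 1
  set μ : Measure ℝ := (volume.restrict (Set.Ioi (0 : ℝ))).withDensity
    (fun x => ENNReal.ofReal (x * gaussianPDFReal 0 1 x)) with hμ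
  have hden : Measurable fun x : ℝ => ENNReal.ofReal (x * gaussianPDFReal 0 1 x) :=
    (measurable_id.mul hφm).ennreal_ofReal
  have hid : 0 ≤ᵐ[μ] (fun x : ℝ => x) := by
    rw [hμ]
    refine (withDensity_absolutelyContinuous _ _).ae_le ?_
    filter_upwards [ae_restrict_mem measurableSet_Ioi] with x hx
    exact le_of_lt hx
  have key := lintegral_comp_eq_lintegral_meas_le_mul μ hid measurable_id.aemeasurable
    (g := g) (fun t _ => hg.ii 0 t) (Filter.Eventually.of_forall h0)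
  have e1 : ∫⁻ x in Set.Ioi 0, ENNReal.ofReal (gaussianPDFReal 0 1 x * (x * ∫ u in (0 : ℝ)..x, g u)) =
      ∫⁻ x, ENNReal.ofReal (∫ t in (0 : ℝ)..x, g t) ∂μ := by
    rw [hμ, lintegral_withDensity_eq_lintegral_mul _ hden hPm.ennreal_ofReal]
    refine setLIntegral_congr_fun measurableSet_Ioi fun x hx => ?_
    rw [Pi.mul_apply, ← ENNReal.ofReal_mul (mul_nonneg (le_of_lt hx) (hφ0 x))]
    congr 1
    ring
  rw [e1]
  refine key.trans ?_
  refine setLIntegral_congr_fun measurableSet_Ioi fun t ht => ?_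
  have ht' : (0 : ℝ) < t := ht
  have e2 : μ {a : ℝ | t ≤ a} = ENNReal.ofReal (gaussianPDFReal 0 1 t) := by
    have hset : {a : ℝ | t ≤ a} = Set.Ici t := rfl
    rw [hset, hμ, withDensity_apply _ measurableSet_Ici, Measure.restrict_restrict measurableSet_Ici]
    have hs : Set.Ici t ∩ Set.Ioi 0 = Set.Ici t := by
      refine Set.inter_eq_left.2 fun x hx => ?_
      exact lt_of_lt_of_le ht' hx
    rw [hs, ← cc_gpdf_tail t ht', ofReal_integral_eq_lintegral_ofReal (cc_gpdf_tail_int t ht')]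
    · exact (setLIntegral_congr Ioi_ae_eq_Ici).symm
    · filter_upwards [ae_restrict_mem measurableSet_Ioi] with x hx
      exact mul_nonneg (ht'.trans hx).le (hφ0 x)
  show μ {a : ℝ | t ≤ a} * ENNReal.ofReal (g t) = _
  rw [e2, ← ENNReal.ofReal_mul (hφ0 t)]

lemma CcE.neg_arg {g : ℝ → ℝ} (hg : CcE g) : CcE fun x => g (-x) := by
  obtain ⟨C, a, hC, ha, hb⟩ := hg.bdd
  refine CcE.of_bdd (hg.meas.comp measurable_neg) hC ha fun x => ?_
  have := hb (-x)
  rwa [abs_neg] at this

/-- Integration by parts for a primitive. -/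
lemma cc_stein_prim {g : ℝ → ℝ} (hg : CcE g) (h0 : ∀ x, 0 ≤ g x) :
    ∫ x, x * (∫ u in (0 : ℝ)..x, g u) ∂(gaussianReal 0 1) = ∫ x, g x ∂(gaussianReal 0 1) := by
  rw [integral_gaussianReal_eq_integral_smul one_ne_zero,
    integral_gaussianReal_eq_integral_smul one_ne_zero]
  simp only [smul_eq_mul]
  have i1 : Integrable (fun x => gaussianPDFReal 0 1 x * (x * ∫ u in (0 : ℝ)..x, g u)) :=
    (integrable_gaussianReal_iff _).1 (CcE.id.mul hg.prim).integrable
  have i2 : Integrable (fun x => gaussianPDFReal 0 1 x * g x) :=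
    (integrable_gaussianReal_iff _).1 hg.integrable
  have split : ∀ F : ℝ → ℝ, Integrable F → ∫ x, F x =
      (∫ x in Set.Ioi 0, F x) + ∫ x in Set.Ioi 0, F (-x) := by
    intro F hF
    rw [integral_comp_neg_Ioi (0 : ℝ) F, neg_zero]
    have := integral_add_compl (measurableSet_Ioi (a := (0 : ℝ))) hF
    rw [Set.compl_Ioi] at this
    exact this.symm
  rw [split _ i1, split _ i2, cc_half_stein hg h0]
  congr 1
  have := cc_half_stein hg.neg_arg (fun x => h0 (-x))
  simp only [cc_gpdf_even]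
  rw [← this]
  refine setIntegral_congr_fun measurableSet_Ioi fun x _ => ?_
  have e : ∫ u in (0 : ℝ)..x, g (-u) = - ∫ u in (0 : ℝ)..(-x), g u := by
    rw [intervalIntegral.integral_comp_neg, neg_zero, intervalIntegral.integral_symm]
  simp only [e]
  ring

/-- Cauchy-Schwarz for increments. -/
lemma cc_incr_sq {f f' : ℝ → ℝ} (hd : ∀ x, HasDerivAt f (f' x) x) (hf' : CcE f') (x y : ℝ) :
    (f x - f y) ^ 2 ≤ (x - y) * ((∫ u in (0 : ℝ)..x, f' u ^ 2) - ∫ u in (0 : ℝ)..y, f' u ^ 2) := by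
  have main : ∀ x y : ℝ, y < x →
      (f x - f y) ^ 2 ≤ (x - y) * ((∫ u in (0 : ℝ)..x, f' u ^ 2) - ∫ u in (0 : ℝ)..y, f' u ^ 2) := by
    intro x y hxy
    have hpos : 0 < x - y := sub_pos.2 hxy
    rw [intervalIntegral.integral_interval_sub_left (hf'.sq.ii 0 x) (hf'.sq.ii 0 y)]
    have h1 : ∫ u in y..x, f' u = f x - f y :=
      intervalIntegral.integral_eq_sub_of_hasDerivAt (fun u _ => hd u) (hf'.ii y x)
    obtain ⟨c, hc⟩ : ∃ c, c = (f x - f y) / (x - y) := ⟨_, rfl⟩
    have h2 : 0 ≤ ∫ u in y..x, (f' u - c) ^ 2 :=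
      intervalIntegral.integral_nonneg hxy.le fun u _ => sq_nonneg _
    have h3 : ∫ u in y..x, (f' u - c) ^ 2 = (∫ u in y..x, f' u ^ 2) - 2 * c * (f x - f y) +
        c ^ 2 * (x - y) := by
      have e : (fun u => (f' u - c) ^ 2) = fun u => (f' u ^ 2 - 2 * c * f' u) + c ^ 2 := by
        funext u
        ring
      rw [e, intervalIntegral.integral_add ((hf'.sq.ii y x).sub ((hf'.ii y x).const_mul (2 * c)))
        intervalIntegrable_const, intervalIntegral.integral_sub (hf'.sq.ii y x)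
        ((hf'.ii y x).const_mul (2 * c)), intervalIntegral.integral_const_mul, h1,
        intervalIntegral.integral_const, smul_eq_mul]
      ring
    rw [h3] at h2
    have h4 : c * (x - y) = f x - f y := by
      rw [hc]
      field_simp
    have h5 : 0 ≤ (x - y) * ((∫ u in y..x, f' u ^ 2) - 2 * c * (f x - f y) + c ^ 2 * (x - y)) :=
      mul_nonneg hpos.le h2
    have h6 : (x - y) * ((∫ u in y..x, f' u ^ 2) - 2 * c * (f x - f y) + c ^ 2 * (x - y)) =
        (x - y) * (∫ u in y..x, f' u ^ 2) - 2 * (c * (x - y)) * (f x - f y) + (c * (x - y)) ^ 2 := by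
      ring
    rw [h6, h4] at h5
    linarith only [h5]
  rcases lt_trichotomy x y with h | h | h
  · have := main y x h
    linarith only [this]
  · subst h
    simp
  · exact main x y h

/-- Poincare inequality in dimension one. -/
lemma cc_var_one {f f' : ℝ → ℝ} (hd : ∀ x, HasDerivAt f (f' x) x) (hf : CcE f) (hf' : CcE f') :
    ∫ x, (f x - ∫ y, f y ∂(gaussianReal 0 1)) ^ 2 ∂(gaussianReal 0 1) ≤
      ∫ x, f' x ^ 2 ∂(gaussianReal 0 1) := by
  set γ := gaussianReal 0 1 with hγ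
  set P : ℝ → ℝ := fun x => ∫ u in (0 : ℝ)..x, f' u ^ 2 with hP
  have hPe : CcE P := hf'.sq.prim
  have hst : ∫ x, x * P x ∂γ = ∫ x, f' x ^ 2 ∂γ := cc_stein_prim hf'.sq fun x => sq_nonneg _
  have hmean : ∫ x : ℝ, x ∂γ = 0 := integral_id_gaussianReal
  set A := ∫ x, f x ∂γ with hA
  have hvar : ∫ x, (f x - A) ^ 2 ∂γ = (∫ x, f x ^ 2 ∂γ) - A ^ 2 := by
    have e : (fun x => (f x - A) ^ 2) = fun x => (f x ^ 2 - 2 * A * f x) + A ^ 2 := by
      funext x
      ring
    rw [e, CcE.int_add (hf.sq.sub (hf.cm (2 * A))) (CcE.const _), CcE.int_sub hf.sq (hf.cm (2 * A)),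
      integral_const_mul, ← hA, integral_const, probReal_univ, one_smul]
    ring
  have hy : ∀ y, (∫ x, f x ^ 2 ∂γ) - 2 * A * f y + f y ^ 2 ≤
      (∫ x, x * P x ∂γ) - y * (∫ x, P x ∂γ) + y * P y := by
    intro y
    have h1 : ∫ x, (f x - f y) ^ 2 ∂γ ≤ ∫ x, (x - y) * (P x - P y) ∂γ := by
      refine integral_mono ?_ ?_ fun x => cc_incr_sq hd hf' x y
      · exact (hf.sub (CcE.const (f y))).sq.integrable
      · exact ((CcE.id.sub (CcE.const y)).mul (hPe.sub (CcE.const (P y)))).integrable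
    have h2 : ∫ x, (f x - f y) ^ 2 ∂γ = (∫ x, f x ^ 2 ∂γ) - 2 * A * f y + f y ^ 2 := by
      have e : (fun x => (f x - f y) ^ 2) = fun x => (f x ^ 2 - 2 * f y * f x) + f y ^ 2 := by
        funext x
        ring
      rw [e, CcE.int_add (hf.sq.sub (hf.cm (2 * f y))) (CcE.const _),
        CcE.int_sub hf.sq (hf.cm (2 * f y)), integral_const_mul, ← hA, integral_const,
        probReal_univ, one_smul]
      ring
    have h3 : ∫ x, (x - y) * (P x - P y) ∂γ =
        (∫ x, x * P x ∂γ) - y * (∫ x, P x ∂γ) + y * P y := by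
      have e : (fun x => (x - y) * (P x - P y)) =
          fun x => ((x * P x - y * P x) - P y * x) + y * P y := by
        funext x
        ring
      have i1 : CcE (fun x => x * P x) := CcE.id.mul hPe
      have i2 : CcE (fun x => y * P x) := hPe.cm y
      have i3 : CcE (fun x => P y * x) := CcE.id.cm (P y)
      rw [e, CcE.int_add ((i1.sub i2).sub i3) (CcE.const _),
        CcE.int_sub (i1.sub i2) i3, CcE.int_sub i1 i2, integral_const_mul, integral_const_mul,
        hmean, integral_const, probReal_univ, one_smul]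
      ring
    rw [h2, h3] at h1
    exact h1
  have hint : ∫ y, ((∫ x, f x ^ 2 ∂γ) - 2 * A * f y + f y ^ 2) ∂γ ≤
      ∫ y, ((∫ x, x * P x ∂γ) - y * (∫ x, P x ∂γ) + y * P y) ∂γ := by
    refine integral_mono ?_ ?_ hy
    · exact ((integrable_const _).sub (hf.integrable.const_mul _)).add hf.sq.integrable
    · exact ((integrable_const _).sub (CcE.id.integrable.mul_const _)).add
        (CcE.id.mul hPe).integrable
  rw [CcE.int_add ((CcE.const _).sub (hf.cm (2 * A))) hf.sq,
    CcE.int_sub (CcE.const _) (hf.cm (2 * A)), integral_const_mul, ← hA,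
    integral_const, probReal_univ, one_smul,
    CcE.int_add ((CcE.const _).sub (CcE.id.mul (CcE.const (∫ x, P x ∂γ)))) (CcE.id.mul hPe),
    CcE.int_sub (CcE.const _) (CcE.id.mul (CcE.const (∫ x, P x ∂γ))), integral_mul_const, hmean,
    integral_const, probReal_univ, one_smul] at hint
  rw [hvar, ← hst]
  linarith

end one

section multi

variable {ι : Type} [Fintype ι] [DecidableEq ι]

/-- Resampling of one coordinate. -/
lemma cc_integral_update (e : ι) {F : (ι → ℝ) → ℝ} (hF : EG F) :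
    ∫ z, F z ∂(gI ι) = ∫ z, ∫ x, F (Function.update z e x) ∂(gaussianReal 0 1) ∂(gI ι) := by
  have hupd : ((gI ι).prod (gaussianReal 0 1)).map
      (fun q : (ι → ℝ) × ℝ => Function.update q.1 e q.2) = gI ι := Vale.Agent.P367.GT.map_update e
  have hF' : Integrable F (((gI ι).prod (gaussianReal 0 1)).map
      (fun q : (ι → ℝ) × ℝ => Function.update q.1 e q.2)) := by
    rw [hupd]; exact hF.integrable
  conv_lhs => rw [← hupd]
  rw [integral_map (Vale.Agent.P367.GT.measurable_upd e).aemeasurable hF'.aestronglyMeasurable]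
  rw [integral_prod]
  exact (integrable_map_measure hF'.aestronglyMeasurable
    (Vale.Agent.P367.GT.measurable_upd e).aemeasurable).mp hF'

lemma cc_integrable_update (e : ι) {F : (ι → ℝ) → ℝ} (hF : EG F) :
    Integrable (fun z => ∫ x, F (Function.update z e x) ∂(gaussianReal 0 1)) (gI ι) := by
  have hupd : ((gI ι).prod (gaussianReal 0 1)).map
      (fun q : (ι → ℝ) × ℝ => Function.update q.1 e q.2) = gI ι := Vale.Agent.P367.GT.map_update e
  have hF' : Integrable F (((gI ι).prod (gaussianReal 0 1)).map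
      (fun q : (ι → ℝ) × ℝ => Function.update q.1 e q.2)) := by
    rw [hupd]; exact hF.integrable
  exact ((integrable_map_measure hF'.aestronglyMeasurable
    (Vale.Agent.P367.GT.measurable_upd e).aemeasurable).mp hF').integral_prod_left

lemma EG.cc_update {F : (ι → ℝ) → ℝ} (hF : EG F) (z : ι → ℝ) (e : ι) :
    CcE fun x => F (Function.update z e x) := by
  obtain ⟨C, a, hC, ha, hb⟩ := hF.bdd
  refine CcE.of_bdd (hF.meas.comp (measurable_update z)) (C := C * Real.exp (a * ‖z‖))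
    (mul_nonneg hC (Real.exp_pos _).le) ha fun x => (hb _).trans ?_
  rw [mul_assoc, ← Real.exp_add, ← mul_add]
  have := norm_update_le z e x
  gcongr

/-- One step of the tensorization. -/
lemma cc_var_step {lev : ι → ℕ} {l : ℕ} {e : ι} (he : lev e = l + 1)
    (huniq : ∀ e', lev e' = l + 1 → e' = e) {G G' : (ι → ℝ) → ℝ} (hG : EG G) (hG' : EG G')
    (hd : PD e G G') (hdep : Dep lev (l + 1) G) :
    ∫ z, (G z - J lev l G z) ^ 2 ∂(gI ι) ≤ ∫ z, G' z ^ 2 ∂(gI ι) := by
  have hJ : ∀ z, J lev l G z = ∫ x, G (Function.update z e x) ∂(gaussianReal 0 1) := by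
    intro z
    have h1 : ∀ w, G (mix lev l z w) = G (Function.update z e (w e)) := by
      intro w
      rw [← hdep (mix lev l z w) 0, ← hdep (Function.update z e (w e)) 0]
      congr 1
      funext j
      unfold mix
      by_cases hj : lev j ≤ l + 1
      · rw [if_pos hj, if_pos hj]
        by_cases hje : j = e
        · subst hje
          rw [if_neg (by omega), Function.update_self]
        · have : lev j ≤ l := by
            by_contra h
            exact hje (huniq j (by omega))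
          rw [if_pos this, Function.update_of_ne hje]
      · rw [if_neg hj, if_neg hj]
    unfold J
    simp only [h1]
    have hmp := measurePreserving_eval (fun _ : ι => gaussianReal 0 1) e
    have h3 := integral_map (μ := gI ι) (φ := Function.eval e) (measurable_pi_apply e).aemeasurable
      (f := fun x => G (Function.update z e x)) (hG.cc_update z e).meas.aestronglyMeasurable
    rw [hmp.map_eq] at h3
    exact h3.symm
  have h1 : EG fun z => (G z - J lev l G z) ^ 2 := (hG.sub (hG.J lev l)).pow 2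
  rw [cc_integral_update e h1, cc_integral_update e (hG'.pow 2)]
  refine integral_mono (cc_integrable_update e h1) (cc_integrable_update e (hG'.pow 2)) fun z => ?_
  have h2 := cc_var_one (f := fun x => G (Function.update z e x))
    (f' := fun x => G' (Function.update z e x)) (fun x => hd z x) (hG.cc_update z e) (hG'.cc_update z e)
  refine le_trans (le_of_eq ?_) h2
  refine integral_congr_ae (Filter.Eventually.of_forall fun x => ?_)
  simp only [hJ, Function.update_idem]

lemma cc_sq_J_le {lev : ι → ℕ} {l : ℕ} {h : (ι → ℝ) → ℝ} (hh : EG h) (z : ι → ℝ) :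
    J lev l h z ^ 2 ≤ J lev l (fun z => h z ^ 2) z := by
  obtain ⟨c, hc⟩ : ∃ c, c = J lev l h z := ⟨_, rfl⟩
  have h0 : 0 ≤ J lev l (fun z => (h z - c) ^ 2) z := integral_nonneg fun w => sq_nonneg _
  have h1 : J lev l (fun z => (h z - c) ^ 2) z =
      J lev l (fun z => h z ^ 2) z - 2 * c * J lev l h z + c ^ 2 := by
    have e : (fun z => (h z - c) ^ 2) = fun z => (h z ^ 2 - 2 * c * h z) + c ^ 2 := by
      funext z
      ring
    rw [e, J_add ((hh.pow 2).sub (hh.const_mul _)) (EG.const _), J_sub (hh.pow 2) (hh.const_mul _),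
      J_const_mul, J_const]
  rw [h1, ← hc] at h0
  rw [← hc]
  linarith only [h0]

/-- Orthogonality of the increments. -/
lemma cc_var_pyth {lev : ι → ℕ} {l : ℕ} {G : (ι → ℝ) → ℝ} (hG : EG G) (c : ℝ) :
    ∫ z, (G z - c) ^ 2 ∂(gI ι) =
      ∫ z, (G z - J lev l G z) ^ 2 ∂(gI ι) + ∫ z, (J lev l G z - c) ^ 2 ∂(gI ι) := by
  have hJ := hG.J lev l
  have h0 : ∫ z, (J lev l G z - c) * (G z - J lev l G z) ∂(gI ι) = 0 := by
    rw [← integral_J (lev := lev) (l := l) ((hJ.sub (EG.const c)).mul (hG.sub hJ))]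
    have : ∀ z, J lev l (fun z => (J lev l G z - c) * (G z - J lev l G z)) z = 0 := by
      intro z
      have hdep : Dep lev l fun z => J lev l G z - c := by
        intro z w
        have := dep_J lev l G z w
        simp only [this]
      rw [hdep.J_mul, J_sub hG hJ, (dep_J lev l G).J_eq, sub_self, mul_zero]
    simp only [this, integral_zero]
  have e : ∀ z, (G z - c) ^ 2 = ((G z - J lev l G z) ^ 2 + (J lev l G z - c) ^ 2) +
      2 * ((J lev l G z - c) * (G z - J lev l G z)) := fun z => by ring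
  simp only [e]
  rw [integral_add, integral_const_mul, h0, integral_add, mul_zero, add_zero]
  · exact ((hG.sub hJ).pow 2).integrable
  · exact ((hJ.sub (EG.const c)).pow 2).integrable
  · exact (((hG.sub hJ).pow 2).add ((hJ.sub (EG.const c)).pow 2)).integrable
  · exact (((hJ.sub (EG.const c)).mul (hG.sub hJ)).const_mul 2).integrable

/-- Gaussian Poincare inequality with the constant `1`. -/
theorem cc_var_le_one {F : (ι → ℝ) → ℝ} {F' : ι → (ι → ℝ) → ℝ} (hF : EG F)
    (hd : ∀ e, PD e F (F' e)) (hF' : ∀ e, EG (F' e)) :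
    ∫ z, (F z - ∫ w, F w ∂(gI ι)) ^ 2 ∂(gI ι) ≤ ∑ e, ∫ z, F' e z ^ 2 ∂(gI ι) := by
  obtain ⟨n, ⟨eq⟩⟩ : ∃ n, Nonempty (ι ≃ Fin n) := ⟨_, ⟨Fintype.equivFin ι⟩⟩
  obtain ⟨lev, hlev⟩ : ∃ lev : ι → ℕ, ∀ e, lev e = (eq e : ℕ) + 1 := ⟨_, fun _ => rfl⟩
  have hK : ∀ e, lev e ≤ n := fun e => by rw [hlev]; exact (eq e).2
  have hinj : ∀ e e', lev e = lev e' → e = e' := by
    intro e e' h
    rw [hlev, hlev] at h
    exact eq.injective (Fin.ext (by omega))
  have hJ0 : ∀ z, J lev 0 F z = ∫ w, F w ∂(gI ι) := by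
    intro z
    unfold J
    congr 1
    funext w
    congr 1
    funext e
    unfold mix
    rw [if_neg (by rw [hlev]; omega)]
  have hJn : ∀ z, J lev n F z = F z := by
    intro z
    unfold J
    simp only [mix_top hK]
    simp
  have key : ∀ l ≤ n, ∫ z, (J lev l F z - ∫ w, F w ∂(gI ι)) ^ 2 ∂(gI ι) ≤
      ∑ e, (if lev e ≤ l then ∫ z, F' e z ^ 2 ∂(gI ι) else 0) := by
    intro l
    induction l with
    | zero =>
      intro _
      simp only [hJ0, sub_self]
      rw [integral_eq_zero_of_ae (Filter.Eventually.of_forall fun z => by simp)]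
      exact Finset.sum_nonneg fun e _ => by split_ifs <;> [exact integral_nonneg fun z => sq_nonneg _; exact le_rfl]
    | succ l ih =>
      intro hl
      have ih' := ih (by omega)
      have hG := hF.J lev (l + 1)
      obtain ⟨e, he⟩ : ∃ e, lev e = l + 1 := by
        refine ⟨eq.symm ⟨l, by omega⟩, ?_⟩
        rw [hlev]
        simp
      have h1 := cc_var_pyth (lev := lev) (l := l) hG (∫ w, F w ∂(gI ι))
      have h2 : ∀ z, J lev l (J lev (l + 1) F) z = J lev l F z :=
        fun z => J_J (Nat.le_succ l) hF z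
      have h3 := cc_var_step (l := l) he (fun e' h' => hinj e' e (h'.trans he.symm)) hG
        ((hF' e).J lev (l + 1)) (PD.J (hd e) hF (hF' e) he.le) (dep_J lev (l + 1) F)
      have h4 : ∫ z, J lev (l + 1) (F' e) z ^ 2 ∂(gI ι) ≤ ∫ z, F' e z ^ 2 ∂(gI ι) := by
        rw [← integral_J (lev := lev) (l := l + 1) ((hF' e).pow 2)]
        exact integral_mono (((hF' e).J lev (l + 1)).pow 2).integrable
          (((hF' e).pow 2).J lev (l + 1)).integrable fun z => cc_sq_J_le (hF' e) z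
      have h5 : ∑ e', (if lev e' ≤ l + 1 then ∫ z, F' e' z ^ 2 ∂(gI ι) else 0) =
          (∫ z, F' e z ^ 2 ∂(gI ι)) +
          ∑ e', (if lev e' ≤ l then ∫ z, F' e' z ^ 2 ∂(gI ι) else 0) := by
        have h6 : ∀ e', (if lev e' ≤ l + 1 then ∫ z, F' e' z ^ 2 ∂(gI ι) else 0) =
            (if e' = e then ∫ z, F' e' z ^ 2 ∂(gI ι) else 0) +
            (if lev e' ≤ l then ∫ z, F' e' z ^ 2 ∂(gI ι) else 0) := by
          intro e'
          by_cases h : e' = e
          · subst h
            rw [if_pos (by omega), if_pos rfl, if_neg (by omega), add_zero]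
          · rw [if_neg h, zero_add]
            by_cases h' : lev e' ≤ l
            · rw [if_pos h', if_pos (by omega)]
            · rw [if_neg h', if_neg]
              intro h''
              exact h (hinj e' e (by omega))
        simp only [h6, Finset.sum_add_distrib]
        rw [Finset.sum_ite_eq' Finset.univ e]
        simp
      rw [h5, h1]
      simp only [h2] at h3 ⊢
      linarith only [ih', h4, h3]
  have := key n le_rfl
  simp only [hJn, hK, if_true] at this
  exact this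

end multi


variable {ι X : Type} [Fintype ι] [DecidableEq ι] [Fintype X] [Nonempty X]

/-- Gaussian Poincare inequality with the constant `2` (tensorization of the variance, and in
dimension one `f(z) - f(z') = ∫_0^{π/2} f'(z sin θ + z' cos θ) (z cos θ - z' sin θ) dθ`, which
gives the constant `π² / 8`). -/
theorem var_le {F : (ι → ℝ) → ℝ} {F' : ι → (ι → ℝ) → ℝ} (hF : EG F)
    (hd : ∀ e, PD e F (F' e)) (hF' : ∀ e, EG (F' e)) {V : ℝ} (hV : ∀ z, ∑ e, F' e z ^ 2 ≤ V) :
    ∫ z, (F z - ∫ w, F w ∂(gI ι)) ^ 2 ∂(gI ι) ≤ 2 * V := by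
  refine (cc_var_le_one hF hd hF').trans ?_
  have h0 : ∑ e, ∫ z, F' e z ^ 2 ∂(gI ι) = ∫ z, ∑ e, F' e z ^ 2 ∂(gI ι) :=
    (integral_finsetSum _ fun e _ => ((hF' e).pow 2).integrable).symm
  have h1 : ∫ z, ∑ e, F' e z ^ 2 ∂(gI ι) ≤ ∫ _, V ∂(gI ι) :=
    integral_mono (EG.sum Finset.univ fun e _ => (hF' e).pow 2).integrable
      (integrable_const _) hV
  have h2 : 0 ≤ V := (Finset.sum_nonneg fun e _ => sq_nonneg _).trans (hV 0)
  rw [integral_const, probReal_univ, one_smul] at h1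
  rw [h0]
  linarith

namespace Sy

variable {S : Sy ι X} {D : ι → (ι → ℝ) → X → ℝ}

/-- Variance of the log-weight at the level zero. -/
theorem RegD.var_lg_zero (hS : S.RegD D) {V : ℝ}
    (hV : ∀ z x, ∑ e, (if S.lev e = 0 then D e z x ^ 2 else 0) ≤ V) :
    ∫ z, (S.lg 0 z - S.fe) ^ 2 ∂(gI ι) ≤ 2 * V := by
  have hR := hS.toReg
  refine var_le (F' := fun e => if S.lev e = 0 then S.T 0 (D e) else fun _ => 0)
    (hR.lip_lg (Nat.zero_le _)).eg ?_ ?_ ?_
  · intro e
    by_cases he : S.lev e = 0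
    · simp only [he, if_true]
      exact hS.pd_lg (Nat.zero_le _) he.le
    · simp only [he, if_false]
      exact (hR.dep_lg (Nat.zero_le _)).pd (Nat.pos_of_ne_zero he)
  · intro e
    by_cases he : S.lev e = 0
    · simp only [he, if_true]
      exact hR.eg_T (Nat.zero_le _) (hS.nh e)
    · simp only [he, if_false]
      exact EG.const 0
  · intro z
    have h1 : ∀ e, (if S.lev e = 0 then S.T 0 (D e) else fun _ => 0) z ^ 2 ≤
        S.T 0 (fun z x => if S.lev e = 0 then D e z x ^ 2 else 0) z := by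
      intro e
      by_cases he : S.lev e = 0
      · simp only [he, if_true]
        exact hR.sq_T_le (Nat.zero_le _) (hS.nh e) z
      · simp only [he, if_false]
        rw [hR.T_const (Nat.zero_le _)]
        norm_num
    have hn : ∀ e, Nh (fun z x => if S.lev e = 0 then D e z x ^ 2 else 0) := by
      intro e
      by_cases he : S.lev e = 0
      · simp only [he, if_true]
        exact Nh.pow (hS.nh e) 2
      · simp only [he, if_false]
        exact fun _ => EG.const 0
    calc _ ≤ ∑ e, S.T 0 (fun z x => if S.lev e = 0 then D e z x ^ 2 else 0) z :=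
          Finset.sum_le_sum fun e _ => h1 e
      _ = S.T 0 (fun z x => ∑ e, (if S.lev e = 0 then D e z x ^ 2 else 0)) z :=
          (hR.T_sum (Nat.zero_le _) Finset.univ (fun e _ => hn e) z).symm
      _ ≤ S.T 0 (fun _ _ => V) z := hR.T_mono (Nat.zero_le _) (Nh.sum Finset.univ fun e _ => hn e)
          (fun _ => EG.const _) (fun z x => hV z x) z
      _ = V := hR.T_const (Nat.zero_le _) V z

/-- The system with the energy `H + t h`. -/
def pt (S : Sy ι X) (h : (ι → ℝ) → X → ℝ) (t : ℝ) : Sy ι X := S.wH fun z x => S.H z x + t * h z x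

lemma cc_lip (hS : S.Reg) {h : (ι → ℝ) → X → ℝ} (hreg : ∀ t, (S.pt h t).Reg) (x : X) :
    Lip fun z => h z x := by
  have h1 := ((hreg 1).lip x).add ((hS.lip x).const_mul (-1))
  have : (fun z => (S.pt h 1).H z x + -1 * S.H z x) = fun z => h z x := by
    funext z
    show (S.H z x + 1 * h z x) + -1 * S.H z x = h z x
    ring
  rwa [this] at h1

/-- For a centered observable `y`, `T e^y T e^{-y} ≥ 1 + T y²`. -/
lemma cc_exp (hS : S.Reg) {y : (ι → ℝ) → X → ℝ} (hy : Nh y)
    (hp : Nh fun z x => Real.exp (y z x)) (hm : Nh fun z x => Real.exp (-y z x)) (z : ι → ℝ)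
    (h0 : S.T 0 y z = 0) :
    1 + S.T 0 (fun z x => y z x ^ 2) z ≤
      S.T 0 (fun z x => Real.exp (y z x)) z * S.T 0 (fun z x => Real.exp (-y z x)) z := by
  obtain ⟨P, hP⟩ : ∃ P, P = S.T 0 (fun z x => Real.exp (y z x)) z := ⟨_, rfl⟩
  obtain ⟨M, hM⟩ : ∃ M, M = S.T 0 (fun z x => Real.exp (-y z x)) z := ⟨_, rfl⟩
  obtain ⟨A, hA⟩ : ∃ A, A = S.T 0 (fun z x => y z x ^ 2) z := ⟨_, rfl⟩
  have hz : (0 : ℕ) ≤ S.K := Nat.zero_le _
  have e1 : ∀ u : ℝ, 2 + u ^ 2 ≤ Real.exp u + Real.exp (-u) := by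
    intro u
    have h1 := Real.cosh_eq u
    have h2 : (u / 2) ^ 2 ≤ Real.sinh (u / 2) ^ 2 := by
      rcases le_total 0 (u / 2) with h | h
      · have := Real.self_le_sinh_iff.2 h
        nlinarith only [h, this]
      · have := Real.sinh_le_self_iff.2 h
        nlinarith only [h, this]
    have h3 := Real.cosh_two_mul (u / 2)
    have h4 := Real.cosh_sq (u / 2)
    have h5 : 2 * (u / 2) = u := by ring
    rw [h5] at h3
    linarith only [h1, h2, h3, h4]
  have h1 : ∀ b : ℝ, 2 + A + b ^ 2 ≤ Real.exp (-b) * P + Real.exp b * M := by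
    intro b
    have h2 := hS.T_mono hz (f := fun z x => (y z x ^ 2 - 2 * b * y z x) + (2 + b ^ 2))
      (g := fun z x => Real.exp (-b) * Real.exp (y z x) + Real.exp b * Real.exp (-y z x))
      (Nh.add (Nh.sub (Nh.pow hy 2) (Nh.const_mul _ hy)) (fun _ => EG.const _))
      (Nh.add (Nh.const_mul _ hp) (Nh.const_mul _ hm)) (fun z x => by
        have := e1 (y z x - b)
        rw [← Real.exp_add, ← Real.exp_add]
        have e2 : -b + y z x = y z x - b := by ring
        have e3 : b + -y z x = -(y z x - b) := by ring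
        rw [e2, e3]
        linarith only [this]) z
    rw [hS.T_add hz (Nh.sub (Nh.pow hy 2) (Nh.const_mul _ hy)) (fun _ => EG.const _),
      hS.T_sub hz (Nh.pow hy 2) (Nh.const_mul _ hy), T_const_mul, h0, hS.T_const hz,
      hS.T_add hz (Nh.const_mul _ hp) (Nh.const_mul _ hm), T_const_mul, T_const_mul, ← hP, ← hM,
      ← hA] at h2
    linarith
  have h3 := hS.T_mono hz (f := fun z x => y z x ^ 2 + (2 + A))
    (g := fun z x => P * Real.exp (-y z x) + M * Real.exp (y z x))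
    (Nh.add (Nh.pow hy 2) (fun _ => EG.const _)) (Nh.add (Nh.const_mul _ hm) (Nh.const_mul _ hp))
    (fun z x => by
      have := h1 (y z x)
      linarith) z
  rw [hS.T_add hz (Nh.pow hy 2) (fun _ => EG.const _), hS.T_const hz,
    hS.T_add hz (Nh.const_mul _ hm) (Nh.const_mul _ hp), T_const_mul, T_const_mul, ← hP, ← hM,
    ← hA] at h3
  rw [← hP, ← hM, ← hA]
  nlinarith

/-- The thermal part: `E (T₀ (h - T₀ h)²) ≤ Q / m₁` if the second difference of the free energy
in the direction `h` is at most `Q t²`. Proof: `Reg.thermal` for `± t` gives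
`(1/m₁) log (1 + m₁² t² V) ≤ lg₊ + lg₋ - 2 lg`, `V = T₀ h² - (T₀ h)²` (use `T e^y T e^{-y} ≥
1 + T y²` if `T y = 0`), and `log (1 + y) ≥ y - y²/2`, `t → 0`. -/
theorem Reg.conc_thermal (hS : S.Reg) {h : (ι → ℝ) → X → ℝ} (hh : Nh h)
    (hreg : ∀ t, (S.pt h t).Reg) {Q t₀ : ℝ} (ht₀ : 0 < t₀)
    (hQ : ∀ t, 0 < t → t ≤ t₀ → (S.pt h t).fe + (S.pt h (-t)).fe - 2 * S.fe ≤ Q * t ^ 2) :
    S.Ex (fun z x => (h z x - S.T 0 h z) ^ 2) ≤ Q / S.m 1 := by
  have hz : (0 : ℕ) ≤ S.K := Nat.zero_le _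
  have hm : 0 < S.m 1 := hS.pos
  have hlip := cc_lip hS hreg
  -- the conditional variance
  obtain ⟨W, hW⟩ : ∃ W : (ι → ℝ) → ℝ, W = fun z => S.T 0 (fun z x => h z x ^ 2) z - S.T 0 h z ^ 2 :=
    ⟨_, rfl⟩
  have hWe : EG W := by
    rw [hW]
    exact (hS.eg_T hz (Nh.pow hh 2)).sub ((hS.eg_T hz hh).pow 2)
  have hvar : ∀ z (c : ℝ), S.T 0 h z = c → S.T 0 (fun z x => (h z x - c) ^ 2) z = W z := by
    intro z c hc
    have e : (fun (z : ι → ℝ) (x : X) => (h z x - c) ^ 2) =
        fun z x => (h z x ^ 2 - 2 * c * h z x) + c ^ 2 := by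
      funext z x
      ring
    rw [e, hS.T_add hz (Nh.sub (Nh.pow hh 2) (Nh.const_mul _ hh)) (fun _ => EG.const _),
      hS.T_sub hz (Nh.pow hh 2) (Nh.const_mul _ hh), T_const_mul, hS.T_const hz, hW]
    dsimp only
    rw [hc]
    ring
  have hW0 : ∀ z, 0 ≤ W z := by
    intro z
    have := hS.sq_T_le hz hh z
    rw [hW]
    dsimp only
    linarith
  have hEx : S.Ex (fun z x => (h z x - S.T 0 h z) ^ 2) = ∫ z, W z ∂(gI ι) := by
    have hT := hS.eg_T hz hh
    have hn : Nh (fun z x => (h z x - S.T 0 h z) ^ 2) := Nh.pow (Nh.sub hh (Nh.fst hT)) 2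
    rw [lc_Ex_T0 hS hn]
    congr 1
    funext z
    have e : (fun (z : ι → ℝ) (x : X) => (h z x - S.T 0 h z) ^ 2) =
        fun z x => (h z x ^ 2 - (2 * S.T 0 h z) * h z x) + S.T 0 h z ^ 2 := by
      funext z x
      ring
    have hd1 : Dep S.lev 0 fun z => 2 * S.T 0 h z := by
      intro z w
      have := dep_T S 0 h z w
      simp only [this]
    have hd2 : Dep S.lev 0 fun z => S.T 0 h z ^ 2 := by
      intro z w
      have := dep_T S 0 h z w
      simp only [this]
    have n1 : Nh fun z x => 2 * S.T 0 h z * h z x := Nh.mul (Nh.fst (hT.const_mul 2)) hh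
    rw [e, hS.T_add hz (Nh.sub (Nh.pow hh 2) n1) (Nh.fst (hT.pow 2)),
      hS.T_sub hz (Nh.pow hh 2) n1, T_mul_left S hd1, hS.T_fst hz hd2, hW]
    ring
  rw [hEx]
  -- the main inequality
  have main : ∀ t, 0 < t → t ≤ t₀ →
      S.m 1 * (∫ z, W z ∂(gI ι)) - S.m 1 ^ 3 * (∫ z, W z ^ 2 ∂(gI ι)) / 2 * t ^ 2 ≤ Q := by
    intro t ht htt
    have hpt : ∀ z, S.m 1 ^ 2 * t ^ 2 * W z - S.m 1 ^ 4 * t ^ 4 / 2 * W z ^ 2 ≤
        S.m 1 * ((S.pt h t).lg 0 z + (S.pt h (-t)).lg 0 z - 2 * S.lg 0 z) := by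
      intro z
      have h1 := Reg.thermal hS (hreg t) z
      have h2 := Reg.thermal hS (hreg (-t)) z
      obtain ⟨c, hc⟩ : ∃ c, S.T 0 h z = c := ⟨_, rfl⟩
      have e1 : (fun (z : ι → ℝ) (x : X) =>
          Real.exp (S.m 1 * ((S.H z x + t * h z x) - S.H z x))) =
          fun z x => Real.exp (S.m 1 * t * c) * Real.exp (S.m 1 * t * (h z x - c)) := by
        funext z x
        rw [← Real.exp_add]
        congr 1
        ring
      have e2 : (fun (z : ι → ℝ) (x : X) =>
          Real.exp (S.m 1 * ((S.H z x + -t * h z x) - S.H z x))) =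
          fun z x => Real.exp (-(S.m 1 * t * c)) * Real.exp (-(S.m 1 * t * (h z x - c))) := by
        funext z x
        rw [← Real.exp_add]
        congr 1
        ring
      rw [e1, T_const_mul] at h1
      rw [e2, T_const_mul] at h2
      have hy : Nh fun z x => S.m 1 * t * (h z x - c) :=
        Nh.const_mul _ (Nh.sub hh (fun _ => EG.const c))
      have hlc : ∀ x, Lip fun z => h z x - c := fun x => by
        simpa [sub_eq_add_neg] using (hlip x).add (Lip.const (-c))
      have hp : Nh fun z x => Real.exp (S.m 1 * t * (h z x - c)) := fun x =>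
        (hlc x).exp_eg (S.m 1 * t)
      have hmn : Nh fun z x => Real.exp (-(S.m 1 * t * (h z x - c))) := fun x => by
        have := (hlc x).exp_eg (-(S.m 1 * t))
        simpa [neg_mul] using this
      have h0 : S.T 0 (fun z x => S.m 1 * t * (h z x - c)) z = 0 := by
        rw [T_const_mul, hS.T_sub hz hh (fun _ => EG.const c), hS.T_const hz, hc, sub_self,
          mul_zero]
      have h3 := cc_exp hS hy hp hmn z h0
      have h4 : S.T 0 (fun z x => (S.m 1 * t * (h z x - c)) ^ 2) z = S.m 1 ^ 2 * t ^ 2 * W z := by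
        rw [← hvar z c hc, ← T_const_mul]
        congr 1
        funext z x
        ring
      rw [h4] at h3
      obtain ⟨P, hP⟩ : ∃ P, P = S.T 0 (fun z x => Real.exp (S.m 1 * t * (h z x - c))) z := ⟨_, rfl⟩
      obtain ⟨M, hM⟩ : ∃ M, M = S.T 0 (fun z x => Real.exp (-(S.m 1 * t * (h z x - c)))) z :=
        ⟨_, rfl⟩
      rw [← hP] at h1 h3
      rw [← hM] at h2 h3
      have hPpos : 0 < P := by
        rw [hP]
        refine J_pos ((hS.eg_dn hz).mul (hS.eg_av hp)) (fun z => mul_pos (dn_pos S 0 z) ?_) z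
        exact Finset.sum_pos (fun x _ => mul_pos (gb_pos S z x) (Real.exp_pos _))
          Finset.univ_nonempty
      have hMpos : 0 < M := by
        rw [hM]
        refine J_pos ((hS.eg_dn hz).mul (hS.eg_av hmn)) (fun z => mul_pos (dn_pos S 0 z) ?_) z
        exact Finset.sum_pos (fun x _ => mul_pos (gb_pos S z x) (Real.exp_pos _))
          Finset.univ_nonempty
      have h5 : Real.log (1 + S.m 1 ^ 2 * t ^ 2 * W z) ≤ Real.log P + Real.log M := by
        rw [← Real.log_mul hPpos.ne' hMpos.ne']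
        exact Real.log_le_log (by have := hW0 z; positivity) h3
      rw [Real.log_mul (Real.exp_pos _).ne' hPpos.ne', Real.log_exp] at h1
      rw [Real.log_mul (Real.exp_pos _).ne' hMpos.ne', Real.log_exp] at h2
      have h6 : Real.log P + Real.log M ≤
          S.m 1 * ((S.pt h t).lg 0 z + (S.pt h (-t)).lg 0 z - 2 * S.lg 0 z) := by
        have h7 : 1 / S.m 1 * (Real.log P + Real.log M) ≤
            (S.pt h t).lg 0 z + (S.pt h (-t)).lg 0 z - 2 * S.lg 0 z := by
          have e : 1 / S.m 1 * (Real.log P + Real.log M) =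
              1 / S.m 1 * (S.m 1 * t * c + Real.log P) +
              1 / S.m 1 * (-(S.m 1 * t * c) + Real.log M) := by ring
          rw [e]
          have h1' : 1 / S.m 1 * (S.m 1 * t * c + Real.log P) ≤ (S.pt h t).lg 0 z - S.lg 0 z := h1
          have h2' : 1 / S.m 1 * (-(S.m 1 * t * c) + Real.log M) ≤
            (S.pt h (-t)).lg 0 z - S.lg 0 z := h2
          linarith only [h1', h2']
        rw [one_div, inv_mul_le_iff₀ hm] at h7
        exact h7
      refine le_trans ?_ (h5.trans h6)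
      obtain ⟨u, hu⟩ : ∃ u, u = S.m 1 ^ 2 * t ^ 2 * W z := ⟨_, rfl⟩
      have hu0 : 0 ≤ u := by rw [hu]; have := hW0 z; positivity
      rw [← hu]
      have h8 := Real.le_log_one_add_of_nonneg hu0
      refine le_trans ?_ h8
      have e3 : S.m 1 ^ 4 * t ^ 4 / 2 * W z ^ 2 = u ^ 2 / 2 := by rw [hu]; ring
      rw [e3, le_div_iff₀ (by linarith only [hu0])]
      linarith only [hu0, pow_nonneg hu0 3]
    have hl := fun s => ((hreg s).lip_lg (Nat.zero_le _)).eg
    have hl0 := (hS.lip_lg hz).eg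
    have hint : ∫ z, (S.m 1 ^ 2 * t ^ 2 * W z - S.m 1 ^ 4 * t ^ 4 / 2 * W z ^ 2) ∂(gI ι) ≤
        ∫ z, S.m 1 * ((S.pt h t).lg 0 z + (S.pt h (-t)).lg 0 z - 2 * S.lg 0 z) ∂(gI ι) :=
      integral_mono ((hWe.const_mul _).sub ((hWe.pow 2).const_mul _)).integrable
        ((((hl t).add (hl (-t))).sub (hl0.const_mul 2)).const_mul _).integrable hpt
    rw [integral_sub (hWe.const_mul _).integrable ((hWe.pow 2).const_mul _).integrable,
      integral_const_mul, integral_const_mul, integral_const_mul,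
      integral_sub ((hl t).add (hl (-t))).integrable (hl0.const_mul 2).integrable,
      integral_add (hl t).integrable (hl (-t)).integrable, integral_const_mul] at hint
    have hq := hQ t ht htt
    have hint2 : S.m 1 ^ 2 * t ^ 2 * (∫ z, W z ∂(gI ι)) -
        S.m 1 ^ 4 * t ^ 4 / 2 * (∫ z, W z ^ 2 ∂(gI ι)) ≤ S.m 1 * (Q * t ^ 2) :=
      hint.trans (mul_le_mul_of_nonneg_left hq hm.le)
    have hpos : 0 < S.m 1 * t ^ 2 := by positivity
    refine le_of_mul_le_mul_left ?_ hpos
    calc _ = S.m 1 ^ 2 * t ^ 2 * (∫ z, W z ∂(gI ι)) -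
        S.m 1 ^ 4 * t ^ 4 / 2 * (∫ z, W z ^ 2 ∂(gI ι)) := by ring
      _ ≤ S.m 1 * (Q * t ^ 2) := hint2
      _ = _ := by ring
  rw [le_div_iff₀ hm, mul_comm]
  have hlim : Tendsto (fun t : ℝ => S.m 1 * (∫ z, W z ∂(gI ι)) -
      S.m 1 ^ 3 * (∫ z, W z ^ 2 ∂(gI ι)) / 2 * t ^ 2) (𝓝[>] 0)
      (𝓝 (S.m 1 * (∫ z, W z ∂(gI ι)) - S.m 1 ^ 3 * (∫ z, W z ^ 2 ∂(gI ι)) / 2 * 0 ^ 2)) := by
    refine Tendsto.mono_left ?_ nhdsWithin_le_nhds
    exact Continuous.tendsto (by fun_prop) 0
  rw [zero_pow two_ne_zero, mul_zero, sub_zero] at hlim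
  refine le_of_tendsto hlim ?_
  filter_upwards [Ioc_mem_nhdsGT ht₀] with t ht
  exact main t ht.1 ht.2

lemma cc_abs_le {a : (ι → ℝ) → ℝ} (ha : EG a) {V : ℝ} (hV : ∫ z, a z ^ 2 ∂(gI ι) ≤ V) :
    ∫ z, |a z| ∂(gI ι) ≤ √V := by
  obtain ⟨c, hc⟩ : ∃ c, c = ∫ z, |a z| ∂(gI ι) := ⟨_, rfl⟩
  have h0 : 0 ≤ ∫ z, (|a z| - c) ^ 2 ∂(gI ι) := integral_nonneg fun z => sq_nonneg _
  have h1 : ∫ z, (|a z| - c) ^ 2 ∂(gI ι) = (∫ z, a z ^ 2 ∂(gI ι)) - c ^ 2 := by
    have e : (fun z => (|a z| - c) ^ 2) = fun z => (a z ^ 2 - 2 * c * |a z|) + c ^ 2 := by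
      funext z
      rw [← sq_abs (a z)]
      ring
    rw [e, integral_add ((ha.pow 2).sub (ha.abs.const_mul _)).integrable (integrable_const _),
      integral_sub (ha.pow 2).integrable (ha.abs.const_mul _).integrable, integral_const_mul,
      ← hc, integral_const, probReal_univ, one_smul]
    ring
  rw [← hc]
  refine Real.le_sqrt_of_sq_le ?_
  linarith

/-- The disorder part. Proof: with `A_± = lg 0` of `S.pt h (± t)`, `(A_0 - A_-)/t ≤ T₀ h ≤
(A_+ - A_0)/t` by `Reg.jensen_lg`. -/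
theorem Reg.conc_disorder (hS : S.Reg) {h : (ι → ℝ) → X → ℝ} (hh : Nh h)
    (hreg : ∀ t, (S.pt h t).Reg) {Q V t : ℝ} (ht : 0 < t)
    (hQ : (S.pt h t).fe + (S.pt h (-t)).fe - 2 * S.fe ≤ Q * t ^ 2)
    (hV : ∀ t' ∈ ({0, t, -t} : Set ℝ),
      ∫ z, ((S.pt h t').lg 0 z - (S.pt h t').fe) ^ 2 ∂(gI ι) ≤ V) :
    S.Ex (fun z _ => |S.T 0 h z - ((S.pt h t).fe - S.fe) / t|) ≤ Q * t + 4 * √V / t := by
  have hz : (0 : ℕ) ≤ S.K := Nat.zero_le _
  have hl := fun s => ((hreg s).lip_lg (Nat.zero_le _)).eg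
  have hl0 := (hS.lip_lg hz).eg
  have hS0 : S.pt h 0 = S := by
    unfold pt Sy.wH
    simp
  have hV0 := hV 0 (by simp)
  have hVp := hV t (by simp)
  have hVm := hV (-t) (by simp)
  rw [hS0] at hV0
  -- Jensen
  have j1 : ∀ z, t * S.T 0 h z ≤ (S.pt h t).lg 0 z - S.lg 0 z := by
    intro z
    have h1 := Reg.jensen_lg hS (hreg t) hz z
    have e1 : (fun (z : ι → ℝ) (x : X) => (S.H z x + t * h z x) - S.H z x) =
        fun z x => t * h z x := by
      funext z x
      ring
    rw [e1, T_const_mul] at h1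
    exact h1
  have j2 : ∀ z, -t * S.T 0 h z ≤ (S.pt h (-t)).lg 0 z - S.lg 0 z := by
    intro z
    have h1 := Reg.jensen_lg hS (hreg (-t)) hz z
    have e1 : (fun (z : ι → ℝ) (x : X) => (S.H z x + -t * h z x) - S.H z x) =
        fun z x => -t * h z x := by
      funext z x
      ring
    rw [e1, T_const_mul] at h1
    exact h1
  have hconv : 0 ≤ (S.pt h t).fe + (S.pt h (-t)).fe - 2 * S.fe := by
    have h1 : ∫ z, (0 : ℝ) ∂(gI ι) ≤
        ∫ z, ((S.pt h t).lg 0 z + (S.pt h (-t)).lg 0 z - 2 * S.lg 0 z) ∂(gI ι) := by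
      refine integral_mono (integrable_const _)
        (((hl t).add (hl (-t))).sub (hl0.const_mul 2)).integrable fun z => ?_
      have := j1 z
      have := j2 z
      dsimp only
      linarith
    rw [integral_sub ((hl t).add (hl (-t))).integrable (hl0.const_mul 2).integrable,
      integral_add (hl t).integrable (hl (-t)).integrable, integral_const_mul,
      integral_zero] at h1
    exact h1
  have hQt : 0 ≤ Q * t ^ 2 := hconv.trans hQ
  obtain ⟨a0, ha0⟩ : ∃ a : (ι → ℝ) → ℝ, a = fun z => S.lg 0 z - S.fe := ⟨_, rfl⟩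
  obtain ⟨ap, hap⟩ : ∃ a : (ι → ℝ) → ℝ, a = fun z => (S.pt h t).lg 0 z - (S.pt h t).fe :=
    ⟨_, rfl⟩
  obtain ⟨am, ham⟩ : ∃ a : (ι → ℝ) → ℝ, a = fun z => (S.pt h (-t)).lg 0 z - (S.pt h (-t)).fe :=
    ⟨_, rfl⟩
  have e0 : EG a0 := by rw [ha0]; exact hl0.sub (EG.const _)
  have ep : EG ap := by rw [hap]; exact (hl t).sub (EG.const _)
  have em : EG am := by rw [ham]; exact (hl (-t)).sub (EG.const _)
  have i0 := cc_abs_le (V := V) e0 (by rw [ha0]; exact hV0)
  have ip := cc_abs_le (V := V) ep (by rw [hap]; exact hVp)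
  have im := cc_abs_le (V := V) em (by rw [ham]; exact hVm)
  have hTe := hS.eg_T hz hh
  have hd1 : Dep S.lev 0 fun z => |S.T 0 h z - ((S.pt h t).fe - S.fe) / t| := by
    intro z w
    have := dep_T S 0 h z w
    simp only [this]
  have he1 : EG fun z => |S.T 0 h z - ((S.pt h t).fe - S.fe) / t| := (hTe.sub (EG.const _)).abs
  rw [hS.Ex_dep hd1 he1]
  have hpt : ∀ z, |S.T 0 h z - ((S.pt h t).fe - S.fe) / t| ≤
      Q * t + 1 / t * (|a0 z| + |ap z| + |am z|) := by
    intro z
    have h1 := j1 z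
    have h2 := j2 z
    have k0 := abs_le.1 (le_refl |a0 z|)
    have kp := abs_le.1 (le_refl |ap z|)
    have km := abs_le.1 (le_refl |am z|)
    have d0 : a0 z = S.lg 0 z - S.fe := by rw [ha0]
    have dp : ap z = (S.pt h t).lg 0 z - (S.pt h t).fe := by rw [hap]
    have dm : am z = (S.pt h (-t)).lg 0 z - (S.pt h (-t)).fe := by rw [ham]
    have n0 := abs_nonneg (a0 z)
    have np := abs_nonneg (ap z)
    have nm := abs_nonneg (am z)
    have e1 : S.T 0 h z - ((S.pt h t).fe - S.fe) / t =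
        1 / t * (t * S.T 0 h z - ((S.pt h t).fe - S.fe)) := by
      field_simp
    have e2 : Q * t + 1 / t * (|a0 z| + |ap z| + |am z|) =
        1 / t * (Q * t ^ 2 + (|a0 z| + |ap z| + |am z|)) := by
      field_simp
    rw [e1, e2, abs_mul, abs_of_pos (one_div_pos.2 ht)]
    refine mul_le_mul_of_nonneg_left ?_ (one_div_pos.2 ht).le
    rw [abs_le]
    constructor
    · linarith only [hQ, h2, k0, kp, km, d0, dm]
    · linarith only [hQ, hconv, h1, k0, kp, km, d0, dp]
  have hint : ∫ z, |S.T 0 h z - ((S.pt h t).fe - S.fe) / t| ∂(gI ι) ≤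
      ∫ z, (Q * t + 1 / t * (|a0 z| + |ap z| + |am z|)) ∂(gI ι) :=
    integral_mono he1.integrable
      ((EG.const _).add (((e0.abs.add ep.abs).add em.abs).const_mul _)).integrable hpt
  refine hint.trans ?_
  rw [integral_add (integrable_const _) (((e0.abs.add ep.abs).add em.abs).const_mul _).integrable,
    integral_const, probReal_univ, one_smul, integral_const_mul,
    integral_add (e0.abs.add ep.abs).integrable em.abs.integrable,
    integral_add e0.abs.integrable ep.abs.integrable]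
  have hs : 0 ≤ √V := Real.sqrt_nonneg V
  have : 1 / t * (∫ z, |a0 z| ∂(gI ι) + ∫ z, |ap z| ∂(gI ι) + ∫ z, |am z| ∂(gI ι)) ≤
      1 / t * (4 * √V) := by
    refine mul_le_mul_of_nonneg_left ?_ (one_div_pos.2 ht).le
    linarith
  have e3 : 4 * √V / t = 1 / t * (4 * √V) := by ring
  rw [e3]
  linarith only [this]

/-- **Concentration.** -/
theorem Reg.conc (hS : S.Reg) {h : (ι → ℝ) → X → ℝ} (hh : Nh h)
    (hreg : ∀ t, (S.pt h t).Reg) {Q V t₀ : ℝ} (ht₀ : 0 < t₀)
    (hQ : ∀ t, 0 < t → t ≤ t₀ → (S.pt h t).fe + (S.pt h (-t)).fe - 2 * S.fe ≤ Q * t ^ 2)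
    (hV : ∀ t, |t| ≤ t₀ → ∫ z, ((S.pt h t).lg 0 z - (S.pt h t).fe) ^ 2 ∂(gI ι) ≤ V)
    {t : ℝ} (ht : 0 < t) (htt : t ≤ t₀) :
    ∃ c : ℝ, S.Ex (fun z x => |h z x - c|) ≤ √(Q / S.m 1) + Q * t + 4 * √V / t := by
  have hz : (0 : ℕ) ≤ S.K := Nat.zero_le _
  have h1 := hS.conc_thermal hh hreg ht₀ hQ
  have h2 := hS.conc_disorder hh hreg (V := V) ht (hQ t ht htt) (by
    intro t' ht'
    refine hV t' ?_
    simp only [Set.mem_insert_iff, Set.mem_singleton_iff] at ht'
    rcases ht' with rfl | rfl | rfl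
    · rw [abs_zero]; exact ht₀.le
    · rw [abs_of_pos ht]; exact htt
    · rw [abs_neg, abs_of_pos ht]; exact htt)
  obtain ⟨c, hc⟩ : ∃ c, c = ((S.pt h t).fe - S.fe) / t := ⟨_, rfl⟩
  rw [← hc] at h2
  refine ⟨c, ?_⟩
  have hTe := hS.eg_T hz hh
  have n1 : Nh fun z x => |h z x - S.T 0 h z| := Nh.abs (Nh.sub hh (Nh.fst hTe))
  have n2 : Nh (X := X) fun z _ => |S.T 0 h z - c| := Nh.fst (hTe.sub (EG.const c)).abs
  have h3 : S.Ex (fun z x => |h z x - c|) ≤
      S.Ex (fun z x => |h z x - S.T 0 h z| + |S.T 0 h z - c|) :=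
    hS.Ex_mono (Nh.abs (Nh.sub hh (fun _ => EG.const c))) (Nh.add n1 n2) fun z x => by
      have := abs_add_le (h z x - S.T 0 h z) (S.T 0 h z - c)
      rwa [sub_add_sub_cancel] at this
  rw [hS.Ex_add n1 n2] at h3
  have h4 : S.Ex (fun z x => |h z x - S.T 0 h z|) ≤ √(Q / S.m 1) := by
    refine Real.le_sqrt_of_sq_le ?_
    have h5 := hS.Ex_cs n1 (g := fun _ _ => 1) (fun _ => EG.const 1)
    simp only [mul_one, one_pow, sq_abs] at h5
    rw [hS.Ex_const, mul_one] at h5
    exact h5.trans h1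
  linarith

end Sy

end Vale.Agent.P157.Lv
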