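import Vale.Agent.P157.ParUDefs

/-!
Definitions for the upper bound for general potentials (module U-ALL): a finite system with
standard Gaussian coordinates `z : ι → ℝ` organized in levels, the exponents `m`, the tilted
conditional averages `T l` and the tilted average `Ex`.
-/

open MeasureTheory ProbabilityTheory

namespace Vale.Agent.P157.Lv

/-- The standard Gaussian measure on `ι → ℝ`. -/
noncomputable abbrev gI (ι : Type) [Fintype ι] : Measure (ι → ℝ) :=
  Measure.pi fun _ => gaussianReal 0 1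

variable {ι X : Type}

/-- The coordinates of level at most `l` are taken from `z`, the others from `w`. -/
def mix (lev : ι → ℕ) (l : ℕ) (z w : ι → ℝ) : ι → ℝ := fun e => if lev e ≤ l then z e else w e

/-- The average over the coordinates of level larger than `l`. -/
noncomputable def J [Fintype ι] (lev : ι → ℕ) (l : ℕ) (h : (ι → ℝ) → ℝ) : (ι → ℝ) → ℝ :=
  fun z => ∫ w, h (mix lev l z w) ∂(gI ι)

/-- `h` depends only on the coordinates of level at most `l`. -/
def Dep (lev : ι → ℕ) (l : ℕ) (h : (ι → ℝ) → ℝ) : Prop := ∀ z w, h (mix lev l z w) = h z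

/-- Measurable functions of at most exponential growth. -/
structure EG [Fintype ι] (h : (ι → ℝ) → ℝ) : Prop where
  meas : Measurable h
  bdd : ∃ C a : ℝ, 0 ≤ C ∧ 0 ≤ a ∧ ∀ y, |h y| ≤ C * Real.exp (a * ‖y‖)

/-- Lipschitz functions. -/
def Lip [Fintype ι] (G : (ι → ℝ) → ℝ) : Prop :=
  ∃ L : ℝ, 0 ≤ L ∧ ∀ y y', |G y - G y'| ≤ L * ‖y - y'‖

/-- `H'` is the partial derivative of `H` in the coordinate `e`. -/
def PD [DecidableEq ι] (e : ι) (H H' : (ι → ℝ) → ℝ) : Prop :=
  ∀ (y : ι → ℝ) (x : ℝ), HasDerivAt (fun t => H (Function.update y e t))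
    (H' (Function.update y e x)) x

/-- A system: the levels of the Gaussian coordinates, the number of levels (they are
`0, …, K`), the exponents and the energy. -/
structure Sy (ι X : Type) where
  lev : ι → ℕ
  K : ℕ
  m : ℕ → ℝ
  H : (ι → ℝ) → X → ℝ

namespace Sy

variable [Fintype ι] [Fintype X] (S : Sy ι X)

/-- The log-partition function. -/
noncomputable def top (z : ι → ℝ) : ℝ := Real.log (∑ x, Real.exp (S.H z x))

/-- One step of the recursion, from the level `l + 1` to the level `l`. -/
noncomputable def stp (l : ℕ) (F : (ι → ℝ) → ℝ) : (ι → ℝ) → ℝ := fun z =>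
  1 / S.m (l + 1) * Real.log (J S.lev l (fun z => Real.exp (S.m (l + 1) * F z)) z)

/-- The value at the level `l` of the recursion started at the level `l + d`. -/
noncomputable def rec' : ℕ → ℕ → (ι → ℝ) → ℝ
  | _, 0 => S.top
  | l, d + 1 => S.stp l (rec' (l + 1) d)

/-- The log-weight at the level `l`. -/
noncomputable def lg (l : ℕ) : (ι → ℝ) → ℝ := S.rec' l (S.K - l)

/-- The free energy. -/
noncomputable def fe : ℝ := ∫ z, S.lg 0 z ∂(gI ι)

/-- The density of the tilted law of the levels larger than `l`. -/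
noncomputable def dn (l : ℕ) (z : ι → ℝ) : ℝ :=
  Real.exp (∑ i ∈ Finset.Ico l S.K, S.m (i + 1) * (S.lg (i + 1) z - S.lg i z))

/-- The Gibbs weights. -/
noncomputable def gb (z : ι → ℝ) (x : X) : ℝ := Real.exp (S.H z x) / ∑ x', Real.exp (S.H z x')

/-- The Gibbs average. -/
noncomputable def av (h : (ι → ℝ) → X → ℝ) : (ι → ℝ) → ℝ := fun z => ∑ x, S.gb z x * h z x

/-- The tilted conditional average given the levels at most `l`. -/
noncomputable def T (l : ℕ) (h : (ι → ℝ) → X → ℝ) : (ι → ℝ) → ℝ :=
  J S.lev l (fun z => S.dn l z * S.av h z)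

/-- The tilted average. -/
noncomputable def Ex (h : (ι → ℝ) → X → ℝ) : ℝ := ∫ z, S.dn 0 z * S.av h z ∂(gI ι)

/-- The weights of the levels. -/
def p (l : ℕ) : ℝ := S.m (l + 1) - S.m l

/-- Regularity of a system. -/
structure Reg : Prop where
  m0 : S.m 0 = 0
  mK : S.m (S.K + 1) = 1
  mono : ∀ l ≤ S.K, S.m l ≤ S.m (l + 1)
  pos : 0 < S.m 1
  lev : ∀ e, S.lev e ≤ S.K
  lip : ∀ x, Lip fun z => S.H z x

/-- Regularity of a system with the partial derivatives `D e` of the energy. -/
structure RegD [DecidableEq ι] (D : ι → (ι → ℝ) → X → ℝ) : Prop extends S.Reg where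
  pd : ∀ e x, PD e (fun z => S.H z x) (fun z => D e z x)
  md : ∀ e x, Measurable fun z => D e z x
  bd : ∃ C : ℝ, ∀ e z x, |D e z x| ≤ C

end Sy

/-- The system with another energy. -/
def Sy.wH (S : Sy ι X) (H' : (ι → ℝ) → X → ℝ) : Sy ι X := { S with H := H' }

/-- Observables of exponential growth. -/
def Nh [Fintype ι] (h : (ι → ℝ) → X → ℝ) : Prop := ∀ x, EG fun z => h z x

end Vale.Agent.P157.Lv
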