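import Vale.Agent.P157.LvChain

/-!
Comparison of two systems which differ by their energies.
-/

open MeasureTheory ProbabilityTheory Filter Topology

namespace Vale.Agent.P157.Lv

set_option linter.unusedSectionVars false

variable {ι X : Type} [Fintype ι] [Fintype X] [Nonempty X] {S : Sy ι X}
  {H' : (ι → ℝ) → X → ℝ}

namespace Sy

/-! ### One step of the recursion -/

/-- The density of one step. -/
noncomputable def pW (S : Sy ι X) (l : ℕ) (z : ι → ℝ) : ℝ :=
  Real.exp (S.m (l + 1) * (S.lg (l + 1) z - S.lg l z))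

lemma pW_pos (S : Sy ι X) (l : ℕ) (z : ι → ℝ) : 0 < S.pW l z := Real.exp_pos _

lemma Reg.pW_dep (hS : S.Reg) {l : ℕ} (hl : l < S.K) : Dep S.lev (l + 1) (S.pW l) := by
  intro z w
  have h1 := hS.dep_lg (l := l + 1) hl z w
  have h2 := Dep.mono (Nat.le_succ l) (hS.dep_lg hl.le) z w
  unfold pW
  rw [h1, h2]

lemma Reg.pW_eg (hS : S.Reg) {l : ℕ} (hl : l < S.K) : EG (S.pW l) := by
  have h1 := (hS.lip_lg (l := l + 1) hl).add ((hS.lip_lg hl.le).const_mul (-1))
  have h2 := h1.exp_eg (S.m (l + 1))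
  have h3 : S.pW l = fun y => Real.exp (S.m (l + 1) * (S.lg (l + 1) y + -1 * S.lg l y)) := by
    funext y
    unfold pW
    congr 1
    ring
  rw [h3]
  exact h2

/-- `exp (m (lg' l - lg l))` is the tilted average of `exp (m (lg' (l + 1) - lg (l + 1)))`. -/
lemma Reg.J_pW_exp (hS : S.Reg) (hS' : (S.wH H').Reg) {l : ℕ} (hl : l < S.K) (z : ι → ℝ) :
    J S.lev l (fun z => S.pW l z *
      Real.exp (S.m (l + 1) * ((S.wH H').lg (l + 1) z - S.lg (l + 1) z))) z =
      Real.exp (S.m (l + 1) * ((S.wH H').lg l z - S.lg l z)) := by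
  have h1 := hS'.J_exp_lg (l := l) hl z
  have h2 : Dep S.lev l (fun z => Real.exp (-(S.m (l + 1) * S.lg l z))) := by
    intro z w
    simp only [hS.dep_lg hl.le z w]
  have h3 := h2.J_mul (fun z => Real.exp (S.m (l + 1) * (S.wH H').lg (l + 1) z)) z
  have h4 : (fun z => S.pW l z *
      Real.exp (S.m (l + 1) * ((S.wH H').lg (l + 1) z - S.lg (l + 1) z))) =
      fun z => Real.exp (-(S.m (l + 1) * S.lg l z)) *
        Real.exp (S.m (l + 1) * (S.wH H').lg (l + 1) z) := by
    funext y
    unfold pW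
    rw [← Real.exp_add, ← Real.exp_add]
    congr 1
    ring
  rw [h4, h3]
  have h5 : J S.lev l (fun z => Real.exp (S.m (l + 1) * (S.wH H').lg (l + 1) z)) z =
      Real.exp (S.m (l + 1) * (S.wH H').lg l z) := h1
  rw [h5, ← Real.exp_add]
  congr 1
  ring

lemma Reg.J_pW (hS : S.Reg) {l : ℕ} (hl : l < S.K) (z : ι → ℝ) : J S.lev l (S.pW l) z = 1 := by
  have h1 : (S.wH S.H) = S := rfl
  have h := Reg.J_pW_exp (H' := S.H) hS (by rw [h1]; exact hS) hl z
  rw [h1] at h
  simpa using h

lemma Reg.T_step (hS : S.Reg) {l : ℕ} (hl : l < S.K) {h : (ι → ℝ) → X → ℝ} (hh : Nh h)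
    (z : ι → ℝ) : S.T l h z = J S.lev l (fun z => S.pW l z * S.T (l + 1) h z) z := by
  have h1 : (fun z => S.dn l z * S.av h z) =
      fun z => S.pW l z * (S.dn (l + 1) z * S.av h z) := by
    funext y
    rw [S.dn_step hl y]
    unfold pW
    ring
  have h2 : (fun z => S.pW l z * S.T (l + 1) h z) =
      J S.lev (l + 1) (fun z => S.pW l z * (S.dn (l + 1) z * S.av h z)) := by
    funext y
    exact ((hS.pW_dep hl).J_mul (fun z => S.dn (l + 1) z * S.av h z) y).symm
  rw [h2, J_J (Nat.le_succ l) ((hS.pW_eg hl).mul ((hS.eg_dn (l := l + 1) hl).mul (hS.eg_av hh))) z]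
  unfold T
  rw [h1]

/-- The comparison of `top`. -/
lemma exp_top_sub (z : ι → ℝ) :
    Real.exp ((S.wH H').top z - S.top z) = ∑ x, S.gb z x * Real.exp (H' z x - S.H z x) := by
  have h1 := S.sum_exp_pos z
  have h2 := (S.wH H').sum_exp_pos z
  unfold top
  rw [Real.exp_sub, Real.exp_log h2, Real.exp_log h1, Finset.sum_div]
  refine Finset.sum_congr rfl fun x _ => ?_
  unfold gb
  rw [Real.exp_sub]
  have h3 := Real.exp_pos (S.H z x)
  change Real.exp (H' z x) / _ = _
  field_simp

lemma gb_eq (S : Sy ι X) (z : ι → ℝ) (x : X) : S.gb z x = Real.exp (S.H z x - S.top z) := by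
  unfold gb top
  rw [Real.exp_sub, Real.exp_log (S.sum_exp_pos z)]

lemma Reg.lip_diff (hS : S.Reg) (hS' : (S.wH H').Reg) (x : X) :
    Lip fun z => H' z x - S.H z x := by
  have h1 : Lip fun z => H' z x := hS'.lip x
  have h2 := h1.add ((hS.lip x).const_mul (-1))
  have h3 : (fun z => H' z x - S.H z x) = fun z => H' z x + -1 * S.H z x := by
    funext y
    ring
  rw [h3]
  exact h2

lemma Reg.nh_diff (hS : S.Reg) (hS' : (S.wH H').Reg) : Nh fun z x => H' z x - S.H z x :=
  fun x => (hS.lip_diff hS' x).eg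

/-- The differences of the log-weights. -/
noncomputable def pD (S : Sy ι X) (H' : (ι → ℝ) → X → ℝ) (l : ℕ) (z : ι → ℝ) : ℝ :=
  (S.wH H').lg l z - S.lg l z

lemma Reg.lip_pD (hS : S.Reg) (hS' : (S.wH H').Reg) {l : ℕ} (hl : l ≤ S.K) :
    Lip (S.pD H' l) := by
  have h1 : Lip ((S.wH H').lg l) := hS'.lip_lg hl
  have h2 := h1.add ((hS.lip_lg hl).const_mul (-1))
  have h3 : S.pD H' l = fun z => (S.wH H').lg l z + -1 * S.lg l z := by
    funext y
    unfold pD
    ring
  rw [h3]
  exact h2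

/-- Pointwise version. -/
theorem Reg.jensen_lg (hS : S.Reg) (hS' : (S.wH H').Reg) {l : ℕ} (hl : l ≤ S.K) (z : ι → ℝ) :
    S.T l (fun z x => H' z x - S.H z x) z ≤ (S.wH H').lg l z - S.lg l z := by
  have key : ∀ l ≤ S.K, ∀ z, S.T l (fun z x => H' z x - S.H z x) z ≤ S.pD H' l z := by
    refine down_ind (P := fun l => ∀ z, S.T l (fun z x => H' z x - S.H z x) z ≤ S.pD H' l z)
      ?_ ?_
    · intro z
      rw [hS.T_top]
      unfold pD
      rw [lg_top S]
      have h1 : (S.wH H').lg S.K = (S.wH H').top := lg_top (S.wH H')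
      rw [h1, ← Real.exp_le_exp, exp_top_sub]
      have h2 := convexOn_exp.map_sum_le (t := Finset.univ) (w := fun x => S.gb z x)
        (p := fun x => H' z x - S.H z x) (fun x _ => (S.gb_pos z x).le) (S.sum_gb z)
        (fun x _ => Set.mem_univ _)
      simpa [av, smul_eq_mul] using h2
    · intro l hl ih z
      rw [hS.T_step hl (hS.nh_diff hS') z]
      have hm : 0 < S.m (l + 1) := hS.m_pos (by omega) (by omega)
      have hW := hS.pW_eg hl
      have hD := hS.lip_pD hS' (l := l + 1) hl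
      have h1 : J S.lev l (fun z => S.pW l z * S.T (l + 1) (fun z x => H' z x - S.H z x) z) z ≤
          J S.lev l (fun z => S.pW l z * S.pD H' (l + 1) z) z :=
        J_mono (hW.mul (hS.eg_T (l := l + 1) hl (hS.nh_diff hS'))) (hW.mul hD.eg)
          (fun y => mul_le_mul_of_nonneg_left (ih y) (S.pW_pos l y).le) z
      refine h1.trans ?_
      set a : ℝ := J S.lev l (fun z => S.pW l z * S.pD H' (l + 1) z) z with ha
      have h2 := hS.J_pW_exp hS' hl z
      have h3 : Real.exp (S.m (l + 1) * a) ≤ Real.exp (S.m (l + 1) * S.pD H' l z) := by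
        have h4 : J S.lev l (fun z => Real.exp (S.m (l + 1) * a) * (S.pW l z +
            (S.m (l + 1) * (S.pW l z * S.pD H' (l + 1) z) -
              S.m (l + 1) * a * S.pW l z))) z ≤
            J S.lev l (fun z => S.pW l z * Real.exp (S.m (l + 1) * S.pD H' (l + 1) z)) z := by
          refine J_mono ?_ (hW.mul (hD.exp_eg _)) (fun y => ?_) z
          · exact (hW.add (((hW.mul hD.eg).const_mul _).sub (hW.const_mul _))).const_mul _
          · have h5 := Real.add_one_le_exp
              (S.m (l + 1) * S.pD H' (l + 1) y - S.m (l + 1) * a)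
            have h6 : Real.exp (S.m (l + 1) * S.pD H' (l + 1) y) =
                Real.exp (S.m (l + 1) * a) *
                  Real.exp (S.m (l + 1) * S.pD H' (l + 1) y - S.m (l + 1) * a) := by
              rw [← Real.exp_add]
              congr 1
              ring
            rw [h6]
            have h7 := mul_le_mul_of_nonneg_left h5
              (mul_pos (Real.exp_pos (S.m (l + 1) * a)) (S.pW_pos l y)).le
            nlinarith [h7]
        rw [J_const_mul, J_add hW (((hW.mul hD.eg).const_mul _).sub (hW.const_mul _)),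
          J_sub ((hW.mul hD.eg).const_mul _) (hW.const_mul _), J_const_mul, J_const_mul,
          ← ha, hS.J_pW hl z] at h4
        have h8 : J S.lev l (fun z => S.pW l z * Real.exp (S.m (l + 1) * S.pD H' (l + 1) z)) z =
          Real.exp (S.m (l + 1) * S.pD H' l z) := h2
        rw [h8] at h4
        calc Real.exp (S.m (l + 1) * a) = Real.exp (S.m (l + 1) * a) *
            (1 + (S.m (l + 1) * a - S.m (l + 1) * a * 1)) := by ring
          _ ≤ _ := h4
      rw [Real.exp_le_exp] at h3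
      exact le_of_mul_le_mul_left h3 hm
  exact key l hl z

lemma Reg.Ex_eq_T (hS : S.Reg) {h : (ι → ℝ) → X → ℝ} (hh : Nh h) :
    S.Ex h = ∫ z, S.T 0 h z ∂(gI ι) := by
  unfold Ex T
  rw [integral_J ((hS.eg_dn (Nat.zero_le _)).mul (hS.eg_av hh))]

lemma Reg.fe_sub (hS : S.Reg) (hS' : (S.wH H').Reg) :
    (S.wH H').fe - S.fe = ∫ z, S.pD H' 0 z ∂(gI ι) := by
  unfold fe pD
  rw [integral_sub (hS'.integrable_lg (Nat.zero_le _)) (hS.integrable_lg (Nat.zero_le _))]

/-- Jensen's inequality: the free energy is above its tangents. -/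
theorem Reg.jensen (hS : S.Reg) (hS' : (S.wH H').Reg) :
    S.Ex (fun z x => H' z x - S.H z x) ≤ (S.wH H').fe - S.fe := by
  rw [hS.Ex_eq_T (hS.nh_diff hS'), hS.fe_sub hS']
  refine integral_mono (hS.eg_T (Nat.zero_le _) (hS.nh_diff hS')).integrable
    (hS.lip_pD hS' (Nat.zero_le _)).eg.integrable fun z => ?_
  exact hS.jensen_lg hS' (Nat.zero_le _) z

theorem Reg.lg_sub_le (hS : S.Reg) (hS' : (S.wH H').Reg) {B : ℝ}
    (hB : ∀ z x, |H' z x - S.H z x| ≤ B) {l : ℕ} (hl : l ≤ S.K) (z : ι → ℝ) :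
    |(S.wH H').lg l z - S.lg l z| ≤ B := by
  have key : ∀ l ≤ S.K, ∀ z, |S.pD H' l z| ≤ B := by
    refine down_ind (P := fun l => ∀ z, |S.pD H' l z| ≤ B) ?_ ?_
    · intro z
      unfold pD
      rw [lg_top S]
      have h1 : (S.wH H').lg S.K = (S.wH H').top := lg_top (S.wH H')
      rw [h1, abs_le]
      constructor
      · rw [← Real.exp_le_exp, exp_top_sub]
        calc Real.exp (-B) = ∑ x, S.gb z x * Real.exp (-B) := by
              rw [← Finset.sum_mul, S.sum_gb z, one_mul]
          _ ≤ _ := Finset.sum_le_sum fun x _ => mul_le_mul_of_nonneg_left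
              (Real.exp_le_exp.2 (abs_le.1 (hB z x)).1) (S.gb_pos z x).le
      · rw [← Real.exp_le_exp, exp_top_sub]
        calc _ ≤ ∑ x, S.gb z x * Real.exp B := Finset.sum_le_sum fun x _ =>
              mul_le_mul_of_nonneg_left (Real.exp_le_exp.2 (abs_le.1 (hB z x)).2)
                (S.gb_pos z x).le
          _ = Real.exp B := by rw [← Finset.sum_mul, S.sum_gb z, one_mul]
    · intro l hl ih z
      have hm : 0 < S.m (l + 1) := hS.m_pos (by omega) (by omega)
      have hW := hS.pW_eg hl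
      have hD := hS.lip_pD hS' (l := l + 1) hl
      have h2 : J S.lev l (fun z => S.pW l z * Real.exp (S.m (l + 1) * S.pD H' (l + 1) z)) z =
          Real.exp (S.m (l + 1) * S.pD H' l z) := hS.J_pW_exp hS' hl z
      have hc : ∀ c : ℝ, J S.lev l (fun z => c * S.pW l z) z = c := by
        intro c
        rw [J_const_mul, hS.J_pW hl z, mul_one]
      rw [abs_le]
      constructor
      · have h3 : Real.exp (S.m (l + 1) * -B) ≤ Real.exp (S.m (l + 1) * S.pD H' l z) := by
          rw [← h2, ← hc (Real.exp (S.m (l + 1) * -B))]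
          refine J_mono (hW.const_mul _) (hW.mul (hD.exp_eg _)) (fun y => ?_) z
          rw [mul_comm]
          refine mul_le_mul_of_nonneg_left (Real.exp_le_exp.2 ?_) (S.pW_pos l y).le
          exact mul_le_mul_of_nonneg_left (abs_le.1 (ih y)).1 hm.le
        rw [Real.exp_le_exp] at h3
        exact le_of_mul_le_mul_left h3 hm
      · have h3 : Real.exp (S.m (l + 1) * S.pD H' l z) ≤ Real.exp (S.m (l + 1) * B) := by
          rw [← h2, ← hc (Real.exp (S.m (l + 1) * B))]
          refine J_mono (hW.mul (hD.exp_eg _)) (hW.const_mul _) (fun y => ?_) z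
          rw [mul_comm (Real.exp (S.m (l + 1) * B))]
          refine mul_le_mul_of_nonneg_left (Real.exp_le_exp.2 ?_) (S.pW_pos l y).le
          exact mul_le_mul_of_nonneg_left (abs_le.1 (ih y)).2 hm.le
        rw [Real.exp_le_exp] at h3
        exact le_of_mul_le_mul_left h3 hm
  exact key l hl z

theorem Reg.fe_sub_le (hS : S.Reg) (hS' : (S.wH H').Reg) {B : ℝ}
    (hB : ∀ z x, |H' z x - S.H z x| ≤ B) : |(S.wH H').fe - S.fe| ≤ B := by
  rw [hS.fe_sub hS']
  have h1 := norm_integral_le_of_norm_le_const (μ := gI ι) (f := S.pD H' 0) (C := B)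
    (Filter.Eventually.of_forall fun z => by
      rw [Real.norm_eq_abs]
      exact hS.lg_sub_le hS' hB (Nat.zero_le _) z)
  simpa using h1

/-- Comparison of the densities. Proof: with `Φ_i = lg' i - lg i`, `|Φ_i| ≤ B`, the logarithm of
the ratio is `H' - H - Φ_K + ∑_{i=l}^{K-1} m_{i+1} (Φ_{i+1} - Φ_i)` and one sums by parts. -/
theorem Reg.dn_gb_le (hS : S.Reg) (hS' : (S.wH H').Reg) {B : ℝ}
    (hB : ∀ z x, |H' z x - S.H z x| ≤ B) {l : ℕ} (hl : l ≤ S.K) (z : ι → ℝ) (x : X) :
    (S.wH H').dn l z * (S.wH H').gb z x ≤ Real.exp (2 * B) * (S.dn l z * S.gb z x) := by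
  have hΦ : ∀ i ≤ S.K, |S.pD H' i z| ≤ B := fun i hi => hS.lg_sub_le hS' hB hi z
  have key : ∀ l ≤ S.K, (∑ i ∈ Finset.Ico l S.K, S.m (i + 1) *
      (S.pD H' (i + 1) z - S.pD H' i z)) - S.pD H' S.K z ≤
      -(S.m (l + 1) * S.pD H' l z) + (1 - S.m (l + 1)) * B := by
    refine down_ind ?_ ?_
    · rw [Finset.Ico_self, Finset.sum_empty, hS.mK]
      linarith
    · intro l hl ih
      rw [Finset.sum_eq_sum_Ico_succ_bot hl]
      have h1 := hS.mono (l + 1) hl
      have h2 := (abs_le.1 (hΦ (l + 1) hl)).1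
      nlinarith [mul_le_mul_of_nonneg_left h2 (sub_nonneg.2 h1)]
  have h1 := key l hl
  have hm0 : 0 < S.m (l + 1) := hS.m_pos (by omega) (by omega)
  have h2 := (abs_le.1 (hΦ l hl)).1
  have h3 : (∑ i ∈ Finset.Ico l S.K, S.m (i + 1) *
      (S.pD H' (i + 1) z - S.pD H' i z)) - S.pD H' S.K z ≤ B := by
    nlinarith [mul_le_mul_of_nonneg_left h2 hm0.le]
  have h4 := (abs_le.1 (hB z x)).2
  rw [gb_eq, gb_eq]
  unfold dn
  rw [← Real.exp_add, ← Real.exp_add, ← Real.exp_add, Real.exp_le_exp]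
  have h5 : (∑ i ∈ Finset.Ico l S.K, S.m (i + 1) *
      (S.pD H' (i + 1) z - S.pD H' i z)) =
      (∑ i ∈ Finset.Ico l S.K, S.m (i + 1) * ((S.wH H').lg (i + 1) z - (S.wH H').lg i z)) -
      ∑ i ∈ Finset.Ico l S.K, S.m (i + 1) * (S.lg (i + 1) z - S.lg i z) := by
    rw [← Finset.sum_sub_distrib]
    refine Finset.sum_congr rfl fun i _ => ?_
    unfold pD
    ring
  have h6 : S.pD H' S.K z = (S.wH H').top z - S.top z := by
    unfold pD
    rw [lg_top S]
    have h7 : (S.wH H').lg S.K = (S.wH H').top := lg_top (S.wH H')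
    rw [h7]
  rw [h5, h6] at h3
  have h8 : (∑ i ∈ Finset.Ico l (S.wH H').K, (S.wH H').m (i + 1) *
      ((S.wH H').lg (i + 1) z - (S.wH H').lg i z)) =
      ∑ i ∈ Finset.Ico l S.K, S.m (i + 1) * ((S.wH H').lg (i + 1) z - (S.wH H').lg i z) := rfl
  have h9 : (S.wH H').H z x = H' z x := rfl
  rw [h8, h9]
  linarith

lemma Reg.dn_av_le (hS : S.Reg) (hS' : (S.wH H').Reg) {B : ℝ}
    (hB : ∀ z x, |H' z x - S.H z x| ≤ B) {l : ℕ} (hl : l ≤ S.K) {h : (ι → ℝ) → X → ℝ}
    (h0 : ∀ z x, 0 ≤ h z x) (z : ι → ℝ) :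
    (S.wH H').dn l z * (S.wH H').av h z ≤ Real.exp (2 * B) * (S.dn l z * S.av h z) := by
  unfold av
  rw [Finset.mul_sum, Finset.mul_sum, Finset.mul_sum]
  refine Finset.sum_le_sum fun x _ => ?_
  have h1 := mul_le_mul_of_nonneg_right (hS.dn_gb_le hS' hB hl z x) (h0 z x)
  linarith

theorem Reg.T_pert_le (hS : S.Reg) (hS' : (S.wH H').Reg) {B : ℝ}
    (hB : ∀ z x, |H' z x - S.H z x| ≤ B) {l : ℕ} (hl : l ≤ S.K) {h : (ι → ℝ) → X → ℝ}
    (hh : Nh h) (h0 : ∀ z x, 0 ≤ h z x) (z : ι → ℝ) :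
    (S.wH H').T l h z ≤ Real.exp (2 * B) * S.T l h z := by
  unfold T
  rw [← J_const_mul]
  have h1 : EG fun z => (S.wH H').dn l z * (S.wH H').av h z :=
    (hS'.eg_dn (l := l) hl).mul (hS'.eg_av hh)
  exact J_mono h1 (((hS.eg_dn hl).mul (hS.eg_av hh)).const_mul _)
    (fun y => hS.dn_av_le hS' hB hl h0 y) z

theorem Reg.Ex_pert_le (hS : S.Reg) (hS' : (S.wH H').Reg) {B : ℝ}
    (hB : ∀ z x, |H' z x - S.H z x| ≤ B) {h : (ι → ℝ) → X → ℝ}
    (hh : Nh h) (h0 : ∀ z x, 0 ≤ h z x) :
    (S.wH H').Ex h ≤ Real.exp (2 * B) * S.Ex h := by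
  unfold Ex
  rw [← integral_const_mul]
  have h1 : EG fun z => (S.wH H').dn 0 z * (S.wH H').av h z :=
    (hS'.eg_dn (Nat.zero_le _)).mul (hS'.eg_av hh)
  exact integral_mono h1.integrable
    (((hS.eg_dn (Nat.zero_le _)).mul (hS.eg_av hh)).const_mul _).integrable
    (fun y => hS.dn_av_le hS' hB (Nat.zero_le _) h0 y)

/-- Concavity of the power `θ`. -/
lemma exp_mul_le_tangent {θ : ℝ} (h0 : 0 ≤ θ) (h1 : θ ≤ 1) (u : ℝ) :
    Real.exp (θ * u) ≤ (1 - θ) + θ * Real.exp u := by
  have h := convexOn_exp.2 (Set.mem_univ (0 : ℝ)) (Set.mem_univ u) (sub_nonneg.2 h1) h0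
    (by ring)
  simpa [smul_eq_mul] using h

/-- The exponents only help: `lg' 0 - lg 0 ≥ (1/m₁) log T₀ exp(m₁ (H' - H))`. Proof: downward
induction `lg' l - lg l ≥ (1/m₁) log T_l exp(m₁ (H' - H))`, by Jensen for `x ↦ x^(m_{l+1}/m₁)`. -/
theorem Reg.thermal (hS : S.Reg) (hS' : (S.wH H').Reg) (z : ι → ℝ) :
    1 / S.m 1 * Real.log (S.T 0 (fun z x => Real.exp (S.m 1 * (H' z x - S.H z x))) z) ≤
      (S.wH H').lg 0 z - S.lg 0 z := by
  have hm1 : 0 < S.m 1 := hS.pos
  have hm1' : S.m 1 ≤ 1 := hS.m_le_one (by omega)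
  set f : (ι → ℝ) → X → ℝ := fun z x => Real.exp (S.m 1 * (H' z x - S.H z x)) with hf
  have hNf : Nh f := fun x => (hS.lip_diff hS' x).exp_eg (S.m 1)
  have key : ∀ l ≤ S.K, ∀ z, S.T l f z ≤ Real.exp (S.m 1 * S.pD H' l z) := by
    refine down_ind (P := fun l => ∀ z, S.T l f z ≤ Real.exp (S.m 1 * S.pD H' l z)) ?_ ?_
    · intro z
      rw [hS.T_top]
      have h6 : S.pD H' S.K z = (S.wH H').top z - S.top z := by
        unfold pD
        rw [lg_top S]
        have h7 : (S.wH H').lg S.K = (S.wH H').top := lg_top (S.wH H')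
        rw [h7]
      rw [h6]
      set c : ℝ := (S.wH H').top z - S.top z with hc
      have h1 : Real.exp c = ∑ x, S.gb z x * Real.exp (H' z x - S.H z x) := exp_top_sub z
      have h2 : ∑ x, S.gb z x * Real.exp (S.m 1 * (H' z x - S.H z x - c)) ≤ 1 := by
        calc ∑ x, S.gb z x * Real.exp (S.m 1 * (H' z x - S.H z x - c)) ≤
            ∑ x, S.gb z x * ((1 - S.m 1) + S.m 1 * Real.exp (H' z x - S.H z x - c)) :=
              Finset.sum_le_sum fun x _ => mul_le_mul_of_nonneg_left
                (exp_mul_le_tangent hm1.le hm1' _) (S.gb_pos z x).le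
          _ = (1 - S.m 1) * ∑ x, S.gb z x + S.m 1 * Real.exp (-c) *
              ∑ x, S.gb z x * Real.exp (H' z x - S.H z x) := by
              rw [Finset.mul_sum, Finset.mul_sum, ← Finset.sum_add_distrib]
              refine Finset.sum_congr rfl fun x _ => ?_
              have h3 : Real.exp (H' z x - S.H z x - c) =
                  Real.exp (-c) * Real.exp (H' z x - S.H z x) := by
                rw [← Real.exp_add]
                congr 1
                ring
              rw [h3]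
              ring
          _ = 1 := by
              rw [S.sum_gb z, ← h1, mul_assoc, ← Real.exp_add]
              simp
      have h3 : S.av f z = Real.exp (S.m 1 * c) *
          ∑ x, S.gb z x * Real.exp (S.m 1 * (H' z x - S.H z x - c)) := by
        unfold av
        rw [Finset.mul_sum]
        refine Finset.sum_congr rfl fun x _ => ?_
        have h4 : f z x = Real.exp (S.m 1 * c) *
            Real.exp (S.m 1 * (H' z x - S.H z x - c)) := by
          change Real.exp (S.m 1 * (H' z x - S.H z x)) = _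
          rw [← Real.exp_add]
          congr 1
          ring
        rw [h4]
        ring
      rw [h3]
      exact mul_le_of_le_one_right (Real.exp_pos _).le h2
    · intro l hl ih z
      rw [hS.T_step hl hNf z]
      have hm : 0 < S.m (l + 1) := hS.m_pos (by omega) (by omega)
      have hmm : S.m 1 ≤ S.m (l + 1) := hS.m_mono (by omega) (by omega)
      have hW := hS.pW_eg hl
      have hD := hS.lip_pD hS' (l := l + 1) hl
      have h1 : J S.lev l (fun z => S.pW l z * S.T (l + 1) f z) z ≤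
          J S.lev l (fun z => S.pW l z * Real.exp (S.m 1 * S.pD H' (l + 1) z)) z :=
        J_mono (hW.mul (hS.eg_T (l := l + 1) hl hNf)) (hW.mul (hD.exp_eg _))
          (fun y => mul_le_mul_of_nonneg_left (ih y) (S.pW_pos l y).le) z
      refine h1.trans ?_
      set c : ℝ := S.pD H' l z with hc
      set θ : ℝ := S.m 1 / S.m (l + 1) with hθ
      have hθ0 : 0 ≤ θ := by positivity
      have hθ1 : θ ≤ 1 := (div_le_one hm).2 hmm
      have hθm : θ * S.m (l + 1) = S.m 1 := div_mul_cancel₀ _ hm.ne'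
      have h2 : J S.lev l (fun z => S.pW l z * Real.exp (S.m (l + 1) * S.pD H' (l + 1) z)) z =
          Real.exp (S.m (l + 1) * c) := hS.J_pW_exp hS' hl z
      have h3 : J S.lev l (fun z => S.pW l z * Real.exp (S.m 1 * S.pD H' (l + 1) z)) z ≤
          J S.lev l (fun z => Real.exp (S.m 1 * c) * ((1 - θ) * S.pW l z +
            θ * Real.exp (-(S.m (l + 1) * c)) *
              (S.pW l z * Real.exp (S.m (l + 1) * S.pD H' (l + 1) z)))) z := by
        refine J_mono (hW.mul (hD.exp_eg _)) (((hW.const_mul _).add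
          ((hW.mul (hD.exp_eg _)).const_mul _)).const_mul _) (fun y => ?_) z
        have h4 := exp_mul_le_tangent hθ0 hθ1 (S.m (l + 1) * (S.pD H' (l + 1) y - c))
        rw [← mul_assoc, hθm] at h4
        have h5 : Real.exp (S.m 1 * S.pD H' (l + 1) y) = Real.exp (S.m 1 * c) *
            Real.exp (S.m 1 * (S.pD H' (l + 1) y - c)) := by
          rw [← Real.exp_add]
          congr 1
          ring
        have h6 : Real.exp (S.m (l + 1) * (S.pD H' (l + 1) y - c)) =
            Real.exp (-(S.m (l + 1) * c)) * Real.exp (S.m (l + 1) * S.pD H' (l + 1) y) := by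
          rw [← Real.exp_add]
          congr 1
          ring
        rw [h6] at h4
        rw [h5]
        have h7 := mul_le_mul_of_nonneg_left h4
          (mul_pos (S.pW_pos l y) (Real.exp_pos (S.m 1 * c))).le
        calc S.pW l y * (Real.exp (S.m 1 * c) * Real.exp (S.m 1 * (S.pD H' (l + 1) y - c))) =
            S.pW l y * Real.exp (S.m 1 * c) *
              Real.exp (S.m 1 * (S.pD H' (l + 1) y - c)) := by ring
          _ ≤ _ := h7
          _ = _ := by ring
      rw [J_const_mul, J_add (hW.const_mul _) ((hW.mul (hD.exp_eg _)).const_mul _),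
        J_const_mul, J_const_mul, h2, hS.J_pW hl z] at h3
      refine h3.trans (le_of_eq ?_)
      rw [mul_assoc θ, ← Real.exp_add]
      simp
  have h1 := key 0 (Nat.zero_le _) z
  have hpos : 0 < S.T 0 f z := by
    unfold T
    refine J_pos ((hS.eg_dn (Nat.zero_le _)).mul (hS.eg_av hNf)) (fun y => ?_) z
    refine mul_pos (S.dn_pos 0 y) ?_
    unfold av
    exact Finset.sum_pos (fun x _ => mul_pos (S.gb_pos y x) (Real.exp_pos _))
      Finset.univ_nonempty
  have h2 := Real.log_le_log hpos h1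
  rw [Real.log_exp] at h2
  calc 1 / S.m 1 * Real.log (S.T 0 f z) ≤ 1 / S.m 1 * (S.m 1 * S.pD H' 0 z) :=
        mul_le_mul_of_nonneg_left h2 (by positivity)
    _ = (S.wH H').lg 0 z - S.lg 0 z := by
        unfold pD
        field_simp

end Sy

end Vale.Agent.P157.Lv
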