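import Vale.Agent.P157.ParLevels

open MeasureTheory ProbabilityTheory Filter Topology Finset

namespace Vale.Agent.P157.Par

/-- The increments of a path. -/
def incr (q : ℕ → ℝ) : ℕ → ℝ
  | 0 => q 0
  | l + 1 => q (l + 1) - q l

lemma incr_zero_def (q : ℕ → ℝ) : incr q 0 = q 0 := rfl

lemma incr_succ_def (q : ℕ → ℝ) (l : ℕ) : incr q (l + 1) = q (l + 1) - q l := rfl

/-! ### The cascade in terms of the weights -/

lemma flowW_log {m v a : ℝ} (hm : 0 < m) (ha : 0 < a) {W : ℝ → ℝ} (hWm : Measurable W)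
    (hWa : ∀ x, a ≤ W x) (hW1 : ∀ x, W x ≤ 1) (x : ℝ) :
    gstep m v (fun y => Real.log (W y)) x = Real.log (flowW m v W 0 x) := by
  have h1 := heat_mem_Icc (g := fun y => W y ^ m) (hWm.pow_const m) (pow_mem_Icc hm ha hWa hW1)
    (v - 0) x
  have ham : 0 < a ^ m := Real.rpow_pos_of_pos ha m
  unfold gstep flowW
  rw [Real.log_rpow (ham.trans_le h1.1), sub_zero]
  unfold heat
  congr 2
  refine integral_congr_ae (Filter.Eventually.of_forall fun z => ?_)
  simp only
  rw [Real.rpow_def_of_pos (ha.trans_le (hWa _)), mul_comm]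

lemma lvW_shift {m v : ℕ → ℝ} {k : ℕ} {W : ℝ → ℝ} : ∀ l ≤ k, lvW m v (k + 1) W l =
    lvW m v k (flowW (m (k + 1)) (v (k + 1)) W 0) l := by
  apply down_ind
  · rw [lvW_succ (Nat.lt_succ_self k), lvW_top, lvW_top]
  · intro l hl ih
    rw [lvW_succ (by omega), lvW_succ hl, ih]

theorem cascade_log {m q : ℕ → ℝ} {k : ℕ} (hm : ∀ l, 1 ≤ l → l ≤ k → 0 < m l) {a : ℝ}
    (ha : 0 < a) {W : ℝ → ℝ} (hW : ∃ W' W'', CB2 W W' W'') (hWa : ∀ x, a ≤ W x)
    (hW1 : ∀ x, W x ≤ 1) (x : ℝ) :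
    cascade m q k (fun x => Real.log (W x)) x = Real.log (lvW m (incr q) k W 0 x) := by
  induction k generalizing W with
  | zero => rw [lvW_top]; rfl
  | succ k ih =>
    obtain ⟨W', W'', hW⟩ := hW
    have hm' := hm (k + 1) (by omega) le_rfl
    have h1 : gstep (m (k + 1)) (q (k + 1) - q k) (fun x => Real.log (W x)) =
        fun x => Real.log (flowW (m (k + 1)) (incr q (k + 1)) W 0 x) := by
      funext y
      exact flowW_log hm' ha hW.cont.measurable hWa hW1 y
    rw [cascade, h1, lvW_shift 0 (Nat.zero_le k)]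
    exact ih (fun l hl hl' => hm l hl (by omega)) (flowW_cb2 hm' ha hW hWa hW1)
      (fun y => (flowW_mem hm' ha hW.cont.measurable hWa hW1 y).1)
      (fun y => (flowW_mem hm' ha hW.cont.measurable hWa hW1 y).2)

lemma val_integrable_exp_lip {F : ℝ → ℝ} {L : NNReal} (hF : LipschitzWith L F) (m v x : ℝ) :
    Integrable (fun z => Real.exp (m * F (x + √v * z))) (gaussianReal 0 1) := by
  have hF0 : ∀ y, |F y| ≤ |F 0| + L * |y| := by
    intro y
    have h := hF.dist_le_mul y 0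
    rw [Real.dist_eq, Real.dist_eq, sub_zero] at h
    have := abs_sub_abs_le_abs_sub (F y) (F 0)
    linarith
  set c : ℝ := |m| * L * √v with hc
  have hc0 : 0 ≤ c := by positivity
  have hint : Integrable (fun z : ℝ => Real.exp (|m| * (|F 0| + L * |x|)) *
      (Real.exp (c * z) + Real.exp (-c * z))) (gaussianReal 0 1) :=
    ((integrable_exp_mul_gaussianReal c).add (integrable_exp_mul_gaussianReal (-c))).const_mul _
  refine hint.mono' ?_ (Filter.Eventually.of_forall fun z => ?_)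
  · have := hF.continuous
    exact (by fun_prop : Continuous fun z : ℝ =>
      Real.exp (m * F (x + √v * z))).aestronglyMeasurable
  · rw [Real.norm_eq_abs, Real.abs_exp]
    have h1 : m * F (x + √v * z) ≤ |m| * (|F 0| + L * |x|) + c * |z| := by
      calc m * F (x + √v * z) ≤ |m * F (x + √v * z)| := le_abs_self _
        _ = |m| * |F (x + √v * z)| := abs_mul _ _
        _ ≤ |m| * (|F 0| + L * (|x| + √v * |z|)) := by
            have h2 := hF0 (x + √v * z)
            have h3 : |x + √v * z| ≤ |x| + √v * |z| := by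
              refine (abs_add_le _ _).trans ?_
              rw [abs_mul, abs_of_nonneg (Real.sqrt_nonneg v)]
            have h4 : (L : ℝ) * |x + √v * z| ≤ L * (|x| + √v * |z|) :=
              mul_le_mul_of_nonneg_left h3 L.2
            exact mul_le_mul_of_nonneg_left (by linarith) (abs_nonneg m)
        _ = _ := by rw [hc]; ring
    refine (Real.exp_le_exp.2 h1).trans ?_
    rw [Real.exp_add]
    refine mul_le_mul_of_nonneg_left ?_ (Real.exp_pos _).le
    rcases le_total 0 z with hz | hz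
    · rw [abs_of_nonneg hz]
      linarith [Real.exp_pos (-c * z)]
    · rw [abs_of_nonpos hz]
      have : c * -z = -c * z := by ring
      rw [this]
      linarith [Real.exp_pos (c * z)]

lemma val_integral_exp_lip_pos {F : ℝ → ℝ} {L : NNReal} (hF : LipschitzWith L F) (m v x : ℝ) :
    0 < ∫ z, Real.exp (m * F (x + √v * z)) ∂(gaussianReal 0 1) :=
  integral_exp_pos (val_integrable_exp_lip hF m v x)

lemma val_gstep_lip {m v : ℝ} (hm : 0 < m) {F : ℝ → ℝ} {L : NNReal} (hF : LipschitzWith L F) :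
    LipschitzWith L (gstep m v F) := by
  have key : ∀ x y, gstep m v F x ≤ gstep m v F y + L * |x - y| := by
    intro x y
    unfold gstep
    have h1 : ∫ z, Real.exp (m * F (x + √v * z)) ∂(gaussianReal 0 1) ≤
        Real.exp (m * (L * |x - y|)) * ∫ z, Real.exp (m * F (y + √v * z)) ∂(gaussianReal 0 1) := by
      rw [← integral_const_mul]
      refine integral_mono (val_integrable_exp_lip hF m v x)
        ((val_integrable_exp_lip hF m v y).const_mul _) fun z => ?_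
      simp only
      rw [← Real.exp_add, Real.exp_le_exp, ← mul_add]
      refine mul_le_mul_of_nonneg_left ?_ hm.le
      have h := hF.dist_le_mul (x + √v * z) (y + √v * z)
      rw [Real.dist_eq, Real.dist_eq] at h
      have e : x + √v * z - (y + √v * z) = x - y := by ring
      rw [e] at h
      have := le_abs_self (F (x + √v * z) - F (y + √v * z))
      linarith
    have h2 := Real.log_le_log (val_integral_exp_lip_pos hF m v x) h1
    rw [Real.log_mul (Real.exp_pos _).ne' (val_integral_exp_lip_pos hF m v y).ne', Real.log_exp] at h2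
    have h3 := mul_le_mul_of_nonneg_left h2 (by positivity : 0 ≤ 1 / m)
    rw [mul_add] at h3
    have h4 : 1 / m * (m * (L * |x - y|)) = L * |x - y| := by field_simp
    linarith
  refine LipschitzWith.of_dist_le_mul fun x y => ?_
  rw [Real.dist_eq, Real.dist_eq, abs_le]
  have h1 := key x y
  have h2 := key y x
  rw [abs_sub_comm y x] at h2
  constructor <;> linarith

lemma val_gstep_add_const {m v : ℝ} (hm : 0 < m) {F : ℝ → ℝ} {L : NNReal} (hF : LipschitzWith L F)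
    (c x : ℝ) : gstep m v (fun x => F x + c) x = gstep m v F x + c := by
  unfold gstep
  have h1 : ∫ z, Real.exp (m * (F (x + √v * z) + c)) ∂(gaussianReal 0 1) =
      Real.exp (m * c) * ∫ z, Real.exp (m * F (x + √v * z)) ∂(gaussianReal 0 1) := by
    rw [← integral_const_mul]
    refine integral_congr_ae (Filter.Eventually.of_forall fun z => ?_)
    simp only
    rw [← Real.exp_add]
    congr 1
    ring
  rw [h1, Real.log_mul (Real.exp_pos _).ne' (val_integral_exp_lip_pos hF m v x).ne', Real.log_exp]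
  field_simp
  ring

theorem cascade_add_const {m q : ℕ → ℝ} {k : ℕ} (hm : ∀ l, 1 ≤ l → l ≤ k → 0 < m l)
    {F : ℝ → ℝ} {L : NNReal} (hF : LipschitzWith L F) (c x : ℝ) :
    cascade m q k (fun x => F x + c) x = cascade m q k F x + c := by
  induction k generalizing F with
  | zero => rfl
  | succ k ih =>
    have hm' := hm (k + 1) (by omega) le_rfl
    have h1 : gstep (m (k + 1)) (q (k + 1) - q k) (fun x => F x + c) =
        fun x => gstep (m (k + 1)) (q (k + 1) - q k) F x + c := by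
      funext y
      exact val_gstep_add_const hm' hF c y
    rw [cascade, h1, cascade]
    exact ih (fun l hl hl' => hm l hl (by omega)) (val_gstep_lip hm' hF)

lemma val_log_lip {a : ℝ} (ha : 0 < a) {W W' W'' : ℝ → ℝ} (hW : CB2 W W' W'')
    (hWa : ∀ x, a ≤ W x) : ∃ L : NNReal, LipschitzWith L fun x => Real.log (W x) := by
  obtain ⟨C, hC⟩ := hW.b1
  have hC0 : 0 ≤ C := (abs_nonneg _).trans (hC 0)
  refine ⟨(C / a).toNNReal, ?_⟩
  refine lipschitzWith_of_nnnorm_deriv_le (fun x => ?_) (fun x => ?_)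
  · exact ((hW.d1 x).log (ha.trans_le (hWa x)).ne').differentiableAt
  · rw [((hW.d1 x).log (ha.trans_le (hWa x)).ne').deriv, ← NNReal.coe_le_coe, coe_nnnorm,
      Real.norm_eq_abs, abs_div, abs_of_pos (ha.trans_le (hWa x)),
      Real.coe_toNNReal _ (by positivity)]
    exact div_le_div₀ hC0 (hC x) ha (hWa x)

/-- The pattern part. -/
theorem patternPart_eq {m q : ℕ → ℝ} {k : ℕ} (hm : ∀ l, 1 ≤ l → l ≤ k → 0 < m l)
    {f : ℝ → ℝ} {c a : ℝ} (hc : 0 < c) (ha : 0 < a)
    (hW : ∃ W' W'', CB2 (fun x => Real.exp (f x) / c) W' W'')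
    (hWa : ∀ x, a ≤ Real.exp (f x) / c) (hW1 : ∀ x, Real.exp (f x) / c ≤ 1) (hq : q k ≤ 1) :
    patternPart f k m q = Real.log c +
      ∫ z, Real.log (lvW m (incr q) k (flowW 1 (1 - q k) (fun x => Real.exp (f x) / c) 0) 0
        (√(incr q 0) * z)) ∂(gaussianReal 0 1) := by
  obtain ⟨W', W'', hW⟩ := hW
  set W : ℝ → ℝ := fun x => Real.exp (f x) / c with hWdef
  set V : ℝ → ℝ := flowW 1 (1 - q k) W 0 with hV
  have hVcb : ∃ V' V'', CB2 V V' V'' := flowW_cb2 one_pos ha hW hWa hW1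
  have hVa : ∀ x, a ≤ V x := fun x => (flowW_mem one_pos ha hW.cont.measurable hWa hW1 x).1
  have hV1 : ∀ x, V x ≤ 1 := fun x => (flowW_mem one_pos ha hW.cont.measurable hWa hW1 x).2
  have h1 : (fun x => Real.log (∫ y, Real.exp (f (x + √(1 - q k) * y)) ∂(gaussianReal 0 1))) =
      fun x => Real.log (V x) + Real.log c := by
    funext x
    have e1 : ∫ y, Real.exp (f (x + √(1 - q k) * y)) ∂(gaussianReal 0 1) = V x * c := by
      rw [hV]
      unfold flowW heat
      rw [sub_zero, div_one, Real.rpow_one, ← integral_mul_const]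
      refine integral_congr_ae (Filter.Eventually.of_forall fun z => ?_)
      simp only [hWdef, Real.rpow_one]
      field_simp
    rw [e1, Real.log_mul (ha.trans_le (hVa x)).ne' hc.ne']
  obtain ⟨V', V'', hVc⟩ := hVcb
  obtain ⟨L, hL⟩ := val_log_lip ha hVc hVa
  unfold patternPart
  rw [h1]
  have h2 : ∀ z, cascade m q k (fun x => Real.log (V x) + Real.log c) (√(q 0) * z) =
      Real.log (lvW m (incr q) k V 0 (√(incr q 0) * z)) + Real.log c := by
    intro z
    rw [cascade_add_const hm hL, cascade_log hm ha ⟨V', V'', hVc⟩ hVa hV1]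
    rfl
  simp only [h2]
  obtain ⟨⟨U', U'', hU⟩, h3, h4⟩ := lvW_spec (v := incr q) hm ha ⟨V', V'', hVc⟩ hVa hV1 0
    (Nat.zero_le k)
  have hint : Integrable (fun z => Real.log (lvW m (incr q) k V 0 (√(incr q 0) * z)))
      (gaussianReal 0 1) := by
    refine Integrable.mono' (integrable_const (|Real.log a|)) ?_
      (Filter.Eventually.of_forall fun z => ?_)
    · exact ((Real.measurable_log.comp hU.cont.measurable).comp
        (by fun_prop)).aestronglyMeasurable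
    · rw [Real.norm_eq_abs]
      have h5 := Real.log_le_log ha (h3 (√(incr q 0) * z))
      have h6 := Real.log_nonpos (ha.le.trans (h3 (√(incr q 0) * z))) (h4 (√(incr q 0) * z))
      rw [abs_of_nonpos h6, abs_of_nonpos (h5.trans h6)]
      linarith
  rw [integral_add hint (integrable_const _), integral_const]
  simp only [probReal_univ, one_smul]
  ring

/-! ### Pair values -/

lemma val_flowh_mono {m σ a : ℝ} (hm : 0 < m) (ha : 0 < a) {W : ℝ → ℝ} (hWm : Measurable W)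
    (hWa : ∀ x, a ≤ W x) (hW1 : ∀ x, W x ≤ 1) {h g : ℝ → ℝ} (hh : Measurable h)
    (hg : Measurable g) {B C : ℝ} (hB : ∀ x, |h x| ≤ B) (hC : ∀ x, |g x| ≤ C)
    (hle : ∀ x, h x ≤ g x) (x : ℝ) : flowh m σ W h 0 x ≤ flowh m σ W g 0 x := by
  have hpow := pow_mem_Icc hm ha hWa hW1
  have hgm : Measurable fun y => W y ^ m := hWm.pow_const m
  have h1 := heat_mem_Icc (g := fun y => W y ^ m) hgm hpow (σ - 0) x
  have ham : 0 < a ^ m := Real.rpow_pos_of_pos ha m
  have hbd : ∀ {p : ℝ → ℝ} {D : ℝ}, (∀ x, |p x| ≤ D) → ∀ x, |p x * W x ^ m| ≤ D := by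
    intro p D hD x
    have h2 := (hpow x).1
    have h3 := (hpow x).2
    rw [Real.one_rpow] at h3
    rw [abs_mul, abs_of_nonneg (ham.le.trans h2)]
    calc |p x| * W x ^ m ≤ |p x| * 1 := mul_le_mul_of_nonneg_left h3 (abs_nonneg _)
      _ ≤ D := by rw [mul_one]; exact hD x
  unfold flowh
  refine div_le_div_of_nonneg_right ?_ (ham.le.trans h1.1)
  unfold heat
  refine integral_mono (integrable_heat (hh.mul hgm) (hbd hB) _ _)
    (integrable_heat (hg.mul hgm) (hbd hC) _ _) fun z => ?_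
  simp only
  exact mul_le_mul_of_nonneg_right (hle _) (ham.le.trans (hpow _).1)

lemma val_flowh_const {m σ a : ℝ} (hm : 0 < m) (ha : 0 < a) {W : ℝ → ℝ} (hWm : Measurable W)
    (hWa : ∀ x, a ≤ W x) (hW1 : ∀ x, W x ≤ 1) (c x : ℝ) :
    flowh m σ W (fun _ => c) 0 x = c := by
  have h1 := flowh_one (t := 0) (σ := σ) hm ha hWm hWa hW1 x
  unfold flowh at h1 ⊢
  have e : heat (σ - 0) (fun y => c * W y ^ m) x = c * heat (σ - 0) (fun y => 1 * W y ^ m) x := by
    unfold heat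
    rw [← integral_const_mul]
    refine integral_congr_ae (Filter.Eventually.of_forall fun z => ?_)
    simp only
    ring
  rw [e, mul_div_assoc, h1, mul_one]

section

variable {m v : ℕ → ℝ} {k : ℕ} {V : ℕ → ℝ → ℝ} {s : ℕ}

lemma lvh_mono (hm : ∀ l, 1 ≤ l → l ≤ k → 0 < m l) {a : ℝ} (ha : 0 < a)
    (hV : ∀ l ≤ k, (∃ V' V'', CB2 (V l) V' V'') ∧ (∀ x, a ≤ V l x) ∧ ∀ x, V l x ≤ 1)
    (hs : s ≤ k) {h g : ℝ → ℝ} (hh : ∃ h' h'', CB2 h h' h'') (hg : ∃ h' h'', CB2 g h' h'')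
    (hle : ∀ x, h x ≤ g x) : ∀ l ≤ s, ∀ x, lvh m v V s h l x ≤ lvh m v V s g l x := by
  have hh1 := lvh_spec (v := v) hm ha hV hs hh
  have hg1 := lvh_spec (v := v) hm ha hV hs hg
  apply down_ind
  · intro x
    rw [lvh_top, lvh_top]
    exact hle x
  · intro l hl ih x
    have hm' := hm (l + 1) (by omega) (by omega)
    obtain ⟨⟨V', V'', hV0⟩, h1, h2⟩ := hV (l + 1) (by omega)
    obtain ⟨p', p'', hp⟩ := hh1 (l + 1) (by omega)
    obtain ⟨r', r'', hr⟩ := hg1 (l + 1) (by omega)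
    obtain ⟨B, hB⟩ := hp.b0
    obtain ⟨C, hC⟩ := hr.b0
    rw [lvh_succ hl, lvh_succ hl]
    exact val_flowh_mono hm' ha hV0.cont.measurable h1 h2 hp.cont.measurable hr.cont.measurable
      hB hC ih x

lemma lvh_const (hm : ∀ l, 1 ≤ l → l ≤ k → 0 < m l) {a : ℝ} (ha : 0 < a)
    (hV : ∀ l ≤ k, (∃ V' V'', CB2 (V l) V' V'') ∧ (∀ x, a ≤ V l x) ∧ ∀ x, V l x ≤ 1)
    (hs : s ≤ k) (c : ℝ) : ∀ l ≤ s, lvh m v V s (fun _ => c) l = fun _ => c := by
  apply down_ind
  · rw [lvh_top]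
  · intro l hl ih
    have hm' := hm (l + 1) (by omega) (by omega)
    obtain ⟨⟨V', V'', hV0⟩, h1, h2⟩ := hV (l + 1) (by omega)
    rw [lvh_succ hl, ih]
    funext x
    exact val_flowh_const hm' ha hV0.cont.measurable h1 h2 c x

end

lemma CB2.const_fn (c : ℝ) : ∃ p' p'', CB2 (fun _ : ℝ => c) p' p'' :=
  ⟨fun _ => 0, fun _ => 0, ⟨fun x => hasDerivAt_const x c, fun x => hasDerivAt_const x 0,
    continuous_const, ⟨|c|, by simp⟩, ⟨0, by simp⟩, ⟨0, by simp⟩⟩⟩

lemma CB2.sq_fn {g g' g'' : ℝ → ℝ} (h : CB2 g g' g'') : ∃ p' p'', CB2 (fun x => g x ^ 2) p' p'' := by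
  have h4 := h.mul h
  have h5 : (fun x => g x ^ 2) = fun x => g x * g x := by funext x; ring
  rw [h5]
  exact ⟨_, _, h4⟩

lemma CB2.integrable_fn {g g' g'' : ℝ → ℝ} (h : CB2 g g' g'') (t : ℝ) :
    Integrable (fun z => g (t * z)) (gaussianReal 0 1) := by
  obtain ⟨C, hC⟩ := h.b0
  refine Integrable.mono' (integrable_const C) ?_ (Filter.Eventually.of_forall fun z => hC _)
  exact (h.cont.measurable.comp (by fun_prop)).aestronglyMeasurable

section

variable {m v : ℕ → ℝ} {k : ℕ} {a : ℝ} {W h : ℝ → ℝ}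

/-- Regularity of the square of the observable at the level `l`. -/
lemma pair_spec (hm : ∀ l, 1 ≤ l → l ≤ k → 0 < m l)
    (ha : 0 < a) (hW : ∃ W' W'', CB2 W W' W'') (hWa : ∀ x, a ≤ W x)
    (hW1 : ∀ x, W x ≤ 1) (hh : ∃ h' h'', CB2 h h' h'') {l : ℕ} (hl : l ≤ k) :
    (∃ p' p'', CB2 (fun x => lvh m v (lvW m v k W) k h l x ^ 2) p' p'') ∧
    ∃ p' p'', CB2 (lvh m v (lvW m v k W) l (fun x => lvh m v (lvW m v k W) k h l x ^ 2) 0)
      p' p'' := by
  have hspec := lvW_spec (v := v) hm ha hW hWa hW1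
  obtain ⟨g', g'', hg⟩ := lvh_spec (v := v) hm ha hspec le_rfl hh l hl
  exact ⟨hg.sq_fn, lvh_spec (v := v) hm ha hspec hl hg.sq_fn 0 (Nat.zero_le l)⟩

end

theorem pairVal_nonneg {m v : ℕ → ℝ} {k : ℕ} (hm : ∀ l, 1 ≤ l → l ≤ k → 0 < m l) {a : ℝ}
    (ha : 0 < a) {W h : ℝ → ℝ} (hW : ∃ W' W'', CB2 W W' W'') (hWa : ∀ x, a ≤ W x)
    (hW1 : ∀ x, W x ≤ 1) (hh : ∃ h' h'', CB2 h h' h'') {l : ℕ} (hl : l ≤ k) :
    0 ≤ Arr.pairVal m v k W h l := by
  have hspec := lvW_spec (v := v) hm ha hW hWa hW1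
  obtain ⟨h1, -⟩ := pair_spec (v := v) hm ha hW hWa hW1 hh hl
  have h2 := lvh_mono (v := v) hm ha hspec hl (CB2.const_fn 0) h1 (fun x => sq_nonneg _) 0
    (Nat.zero_le l)
  rw [lvh_const (v := v) hm ha hspec hl 0 0 (Nat.zero_le l)] at h2
  exact integral_nonneg fun z => h2 _

theorem pairVal_mono {m v : ℕ → ℝ} {k : ℕ} (hm : ∀ l, 1 ≤ l → l ≤ k → 0 < m l) {a : ℝ}
    (ha : 0 < a) {W h : ℝ → ℝ} (hW : ∃ W' W'', CB2 W W' W'') (hWa : ∀ x, a ≤ W x)
    (hW1 : ∀ x, W x ≤ 1) (hh : ∃ h' h'', CB2 h h' h'') {l : ℕ} (hl : l < k) :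
    Arr.pairVal m v k W h l ≤ Arr.pairVal m v k W h (l + 1) := by
  have hspec := lvW_spec (v := v) hm ha hW hWa hW1
  obtain ⟨h1, g', g'', hg⟩ := pair_spec (v := v) hm ha hW hWa hW1 hh (l := l) (by omega)
  obtain ⟨h2, r', r'', hr⟩ := pair_spec (v := v) hm ha hW hWa hW1 hh (l := l + 1) (by omega)
  set V := lvW m v k W with hV
  have hm' := hm (l + 1) (by omega) (by omega)
  obtain ⟨⟨V', V'', hV0⟩, h3, h4⟩ := hspec (l + 1) (by omega)
  obtain ⟨u', u'', hu⟩ := lvh_spec (v := v) hm ha hspec le_rfl hh (l + 1) (by omega)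
  obtain ⟨C, hC⟩ := hu.b0
  have h5 : ∀ x, lvh m v V k h l x ^ 2 ≤
      lvh m v V (l + 1) (fun x => lvh m v V k h (l + 1) x ^ 2) l x := by
    intro x
    rw [lvh_succ hl, lvh_succ (Nat.lt_succ_self l), lvh_top]
    exact flowh_sq hm' ha hV0.cont.measurable h3 h4 hu.cont.measurable hC x
  have h6 : ∃ h' h'', CB2 (lvh m v V (l + 1) (fun x => lvh m v V k h (l + 1) x ^ 2) l) h' h'' :=
    lvh_spec (v := v) hm ha hspec (by omega) h2 l (by omega)
  have h7 := lvh_mono (v := v) hm ha hspec (s := l) (by omega) h1 h6 h5 0 (Nat.zero_le l)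
  rw [lvh_lvh (Nat.le_succ l) 0 (Nat.zero_le l)] at h7
  exact integral_mono (hg.integrable_fn _) (hr.integrable_fn _) fun z => h7 _

theorem pairVal_le {m v : ℕ → ℝ} {k : ℕ} (hm : ∀ l, 1 ≤ l → l ≤ k → 0 < m l) {a : ℝ}
    (ha : 0 < a) {W h : ℝ → ℝ} (hW : ∃ W' W'', CB2 W W' W'') (hWa : ∀ x, a ≤ W x)
    (hW1 : ∀ x, W x ≤ 1) (hh : ∃ h' h'', CB2 h h' h'') {B : ℝ} (hB : ∀ x, |h x| ≤ B) {l : ℕ}
    (hl : l ≤ k) : Arr.pairVal m v k W h l ≤ B ^ 2 := by
  have hspec := lvW_spec (v := v) hm ha hW hWa hW1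
  obtain ⟨h1, g', g'', hg⟩ := pair_spec (v := v) hm ha hW hWa hW1 hh hl
  have h2 := lvh_mono (v := v) hm ha hspec le_rfl hh (CB2.const_fn B)
    (fun x => (le_abs_self _).trans (hB x)) l hl
  have h3 := lvh_mono (v := v) hm ha hspec le_rfl (CB2.const_fn (-B)) hh
    (fun x => (abs_le.1 (hB x)).1) l hl
  rw [lvh_const (v := v) hm ha hspec le_rfl _ l hl] at h2 h3
  have h4 : ∀ x, lvh m v (lvW m v k W) k h l x ^ 2 ≤ B ^ 2 := fun x =>
    sq_le_sq' (h3 x) (h2 x)
  have h5 := lvh_mono (v := v) hm ha hspec hl h1 (CB2.const_fn (B ^ 2)) h4 0 (Nat.zero_le l)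
  rw [lvh_const (v := v) hm ha hspec hl _ 0 (Nat.zero_le l)] at h5
  have h6 : Arr.pairVal m v k W h l ≤ ∫ _, B ^ 2 ∂(gaussianReal 0 1) :=
    integral_mono (hg.integrable_fn _) (integrable_const _) fun z => h5 _
  simpa using h6

/-- with the observable `1` the pair value is `1` -/
theorem pairVal_one {m v : ℕ → ℝ} {k : ℕ} (hm : ∀ l, 1 ≤ l → l ≤ k → 0 < m l) {a : ℝ}
    (ha : 0 < a) {W : ℝ → ℝ} (hW : ∃ W' W'', CB2 W W' W'') (hWa : ∀ x, a ≤ W x)
    (hW1 : ∀ x, W x ≤ 1) {l : ℕ} (hl : l ≤ k) : Arr.pairVal m v k W (fun _ => 1) l = 1 := by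
  have hspec := lvW_spec (v := v) hm ha hW hWa hW1
  unfold Arr.pairVal
  rw [lvh_one (v := v) hm ha hspec le_rfl l hl]
  simp only [one_pow]
  rw [lvh_one (v := v) hm ha hspec hl 0 (Nat.zero_le l)]
  simp

end Vale.Agent.P157.Par
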