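import Vale.Agent.P157.LvPair
import Vale.Agent.P157.LvPert
import Vale.Agent.P157.ParVal

/-!
Trigonometric interpolation between two Gaussian fields with disjoint sets of coordinates, and the
step from the pattern field to the tree field.
-/

open MeasureTheory ProbabilityTheory Filter Topology

namespace Vale.Agent.P157.Lv

set_option linter.unusedSectionVars false

open Par (incr Path)

/-- Potentials with bounded first and second derivatives. -/
structure Pot (f f' f'' : ℝ → ℝ) (C₁ C₂ : ℝ) : Prop where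
  d1 : ∀ x, HasDerivAt f (f' x) x
  d2 : ∀ x, HasDerivAt f' (f'' x) x
  b1 : ∀ x, |f' x| ≤ C₁
  b2 : ∀ x, |f'' x| ≤ C₂

variable {ι X : Type} [Fintype ι] [DecidableEq ι] [Fintype X] [DecidableEq X] [Nonempty X]
  {S : Sy ι X} {D : ι → (ι → ℝ) → X → ℝ} {f f' f'' : ℝ → ℝ} {C₁ C₂ : ℝ} {α β : X → ι → ℝ}

/-- The linear field with the coefficients `a`. -/
def lin (a : ι → ℝ) (z : ι → ℝ) : ℝ := ∑ e, a e * z e

/-- The interpolated field. -/
noncomputable def itU (α β : X → ι → ℝ) (θ : ℝ) (z : ι → ℝ) (x : X) : ℝ :=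
  Real.sin θ * lin (α x) z + Real.cos θ * lin (β x) z

/-- The interpolated energy. -/
noncomputable def it (H : (ι → ℝ) → X → ℝ) (f : ℝ → ℝ) (α β : X → ι → ℝ) (θ : ℝ) :
    (ι → ℝ) → X → ℝ := fun z x => H z x + f (itU α β θ z x)

/-- The partial derivatives of the interpolated energy. -/
noncomputable def itD (D : ι → (ι → ℝ) → X → ℝ) (f' : ℝ → ℝ) (α β : X → ι → ℝ) (θ : ℝ) :
    ι → (ι → ℝ) → X → ℝ := fun e z x =>
  D e z x + f' (itU α β θ z x) * (Real.sin θ * α x e + Real.cos θ * β x e)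

/-- The two fields use disjoint sets of coordinates, and the energy does not depend on these. -/
structure Sep (D : ι → (ι → ℝ) → X → ℝ) (α β : X → ι → ℝ) : Prop where
  disj : ∀ e x x', α x e * β x' e = 0
  indep : ∀ e x, (α x e ≠ 0 ∨ β x e ≠ 0) → ∀ z y, D e z y = 0

/-- The bracket of the derivative of the free energy. -/
noncomputable def brk (S : Sy ι X) (f f' f'' : ℝ → ℝ) (α β : X → ι → ℝ) (θ : ℝ) : ℝ :=
  (S.wH (it S.H f α β θ)).Ex (fun z x => (f'' (itU α β θ z x) + f' (itU α β θ z x) ^ 2) *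
    (∑ e, α x e ^ 2 - ∑ e, β x e ^ 2)) -
  ∑ l ∈ Finset.range (S.K + 1), S.p l * ∑ e, if S.lev e ≤ l then
    ((S.wH (it S.H f α β θ)).Ex (fun z _ =>
        (S.wH (it S.H f α β θ)).T l (fun z x => f' (itU α β θ z x) * α x e) z ^ 2) -
      (S.wH (it S.H f α β θ)).Ex (fun z _ =>
        (S.wH (it S.H f α β θ)).T l (fun z x => f' (itU α β θ z x) * β x e) z ^ 2)) else 0

open Sy

lemma Pot.measurable (hf : Pot f f' f'' C₁ C₂) : Measurable f ∧ Measurable f' ∧ Measurable f'' := by
  have h1 : Continuous f := continuous_iff_continuousAt.2 fun x => (hf.d1 x).continuousAt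
  have h2 : Continuous f' := continuous_iff_continuousAt.2 fun x => (hf.d2 x).continuousAt
  have h3 : f'' = deriv f' := funext fun x => (hf.d2 x).deriv.symm
  refine ⟨h1.measurable, h2.measurable, ?_⟩
  rw [h3]
  exact measurable_deriv f'

lemma Pot.lip (hf : Pot f f' f'' C₁ C₂) (x y : ℝ) : |f x - f y| ≤ C₁ * |x - y| := by
  have h := Convex.norm_image_sub_le_of_norm_hasDerivWithin_le (s := Set.univ) (f := f) (f' := f')
    (C := C₁) (x := y) (y := x) (fun t _ => (hf.d1 t).hasDerivWithinAt)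
    (fun t _ => by rw [Real.norm_eq_abs]; exact hf.b1 t) convex_univ (Set.mem_univ _)
    (Set.mem_univ _)
  simpa only [Real.norm_eq_abs] using h

lemma Pot.lip' (hf : Pot f f' f'' C₁ C₂) (x y : ℝ) : |f' x - f' y| ≤ C₂ * |x - y| := by
  have h := Convex.norm_image_sub_le_of_norm_hasDerivWithin_le (s := Set.univ) (f := f')
    (f' := f'') (C := C₂) (x := y) (y := x) (fun t _ => (hf.d2 t).hasDerivWithinAt)
    (fun t _ => by rw [Real.norm_eq_abs]; exact hf.b2 t) convex_univ (Set.mem_univ _)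
    (Set.mem_univ _)
  simpa only [Real.norm_eq_abs] using h

lemma Pot.C1_nonneg (hf : Pot f f' f'' C₁ C₂) : 0 ≤ C₁ := (abs_nonneg _).trans (hf.b1 0)

lemma itU_lip (α β : X → ι → ℝ) (θ : ℝ) (x : X) : Lip fun z => itU α β θ z x := by
  have h1 : ∀ a : ι → ℝ, Lip fun z => lin a z := fun a =>
    Lip.sum Finset.univ fun e _ => (Lip.coord e).const_mul (a e)
  exact ((h1 (α x)).const_mul _).add ((h1 (β x)).const_mul _)

lemma itU_measurable (α β : X → ι → ℝ) (θ : ℝ) (x : X) : Measurable fun z => itU α β θ z x :=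
  (itU_lip α β θ x).measurable

lemma lin_pd (a : ι → ℝ) (e : ι) : PD e (fun z => lin a z) (fun _ => a e) := by
  have h1 : PD e (fun z : ι → ℝ => ∑ e', a e' * z e')
      (fun _ => ∑ e', a e' * (if e' = e then 1 else 0)) :=
    PD.sum Finset.univ fun e' _ => (PD.coord e').const_mul (a e')
  refine h1.congr fun _ => ?_
  simp

lemma itU_pd (α β : X → ι → ℝ) (θ : ℝ) (x : X) (e : ι) :
    PD e (fun z => itU α β θ z x) (fun _ => Real.sin θ * α x e + Real.cos θ * β x e) :=
  ((lin_pd (α x) e).const_mul _).add ((lin_pd (β x) e).const_mul _)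

lemma Pot.eg1 (hf : Pot f f' f'' C₁ C₂) (α β : X → ι → ℝ) (θ : ℝ) :
    Nh fun z x => f' (itU α β θ z x) := fun x =>
  EG.of_bdd (hf.measurable.2.1.comp (itU_measurable α β θ x)) fun _ => hf.b1 _

lemma Pot.eg2 (hf : Pot f f' f'' C₁ C₂) (α β : X → ι → ℝ) (θ : ℝ) :
    Nh fun z x => f'' (itU α β θ z x) := fun x =>
  EG.of_bdd (hf.measurable.2.2.comp (itU_measurable α β θ x)) fun _ => hf.b2 _

theorem regD_it (hS : S.RegD D) (hf : Pot f f' f'' C₁ C₂) (θ : ℝ) :
    (S.wH (it S.H f α β θ)).RegD (itD D f' α β θ) := by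
  refine { m0 := hS.m0, mK := hS.mK, mono := hS.mono, pos := hS.pos, lev := hS.lev, lip := ?_,
           pd := ?_, md := ?_, bd := ?_ }
  · intro x
    exact (hS.lip x).add ((itU_lip α β θ x).comp hf.C1_nonneg hf.lip)
  · intro e x
    exact (hS.pd e x).add ((itU_pd α β θ x e).comp hf.d1)
  · intro e x
    exact (hS.md e x).add ((hf.measurable.2.1.comp (itU_measurable α β θ x)).mul_const _)
  · obtain ⟨C, hC⟩ := hS.bd
    refine ⟨C + C₁ * ∑ x, ∑ e, (|α x e| + |β x e|), fun e z x => ?_⟩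
    refine (abs_add_le _ _).trans (add_le_add (hC e z x) ?_)
    rw [abs_mul]
    refine mul_le_mul (hf.b1 _) ?_ (abs_nonneg _) hf.C1_nonneg
    have h1 : |Real.sin θ * α x e + Real.cos θ * β x e| ≤ |α x e| + |β x e| := by
      refine (abs_add_le _ _).trans (add_le_add ?_ ?_)
      · rw [abs_mul]
        exact mul_le_of_le_one_left (abs_nonneg _) (Real.abs_sin_le_one θ)
      · rw [abs_mul]
        exact mul_le_of_le_one_left (abs_nonneg _) (Real.abs_cos_le_one θ)
    refine h1.trans ?_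
    have h2 : |α x e| + |β x e| ≤ ∑ e, (|α x e| + |β x e|) :=
      Finset.single_le_sum (f := fun e => |α x e| + |β x e|)
        (fun e _ => add_nonneg (abs_nonneg _) (abs_nonneg _)) (Finset.mem_univ e)
    exact h2.trans (Finset.single_le_sum (f := fun x => ∑ e, (|α x e| + |β x e|))
      (fun x _ => Finset.sum_nonneg fun e _ => add_nonneg (abs_nonneg _) (abs_nonneg _))
      (Finset.mem_univ x))

/-- The term of the coordinate `e` and the level `l`. -/
lemma lvi_level {R : Sy ι X} (hR : R.Reg) {l : ℕ} (hl : l ≤ R.K) {A B : (ι → ℝ) → X → ℝ}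
    (hA : Nh A) (hB : Nh B) (s c : ℝ) (h0 : (∀ z x, A z x = 0) ∨ ∀ z x, B z x = 0) :
    R.Ex (fun z x => (c * A z x - s * B z x) * R.T l (fun z x => s * A z x + c * B z x) z) =
      s * c * (R.Ex (fun z _ => R.T l A z ^ 2) - R.Ex (fun z _ => R.T l B z ^ 2)) := by
  have hN1 : Nh fun z x => c * A z x - s * B z x := Nh.sub (Nh.const_mul c hA) (Nh.const_mul s hB)
  have hN2 : Nh fun z x => s * A z x + c * B z x := Nh.add (Nh.const_mul s hA) (Nh.const_mul c hB)
  have e1 : R.Ex (fun z x => (c * A z x - s * B z x) *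
      R.T l (fun z x => s * A z x + c * B z x) z) =
      R.Ex (fun z _ => R.T l (fun z x => s * A z x + c * B z x) z *
        R.T l (fun z x => c * A z x - s * B z x) z) := by
    rw [hR.Ex_mul_T hl (R.dep_T l _) (hR.eg_T hl hN2) hN1]
    congr 1
    funext z x
    ring
  have e2 : ∀ z, R.T l (fun z x => s * A z x + c * B z x) z = s * R.T l A z + c * R.T l B z := by
    intro z
    rw [hR.T_add hl (Nh.const_mul s hA) (Nh.const_mul c hB), R.T_const_mul, R.T_const_mul]
  have e3 : ∀ z, R.T l (fun z x => c * A z x - s * B z x) z = c * R.T l A z - s * R.T l B z := by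
    intro z
    rw [hR.T_sub hl (Nh.const_mul c hA) (Nh.const_mul s hB), R.T_const_mul, R.T_const_mul]
  have e4 : ∀ z, R.T l A z * R.T l B z = 0 := by
    intro z
    rcases h0 with h | h
    · have : A = fun _ _ => (0 : ℝ) := by
        funext z x
        exact h z x
      rw [this, hR.T_const hl, zero_mul]
    · have : B = fun _ _ => (0 : ℝ) := by
        funext z x
        exact h z x
      rw [this, hR.T_const hl, mul_zero]
  rw [e1, ← hR.Ex_sub (Nh.pow (Nh.fst (hR.eg_T hl hA)) 2) (Nh.pow (Nh.fst (hR.eg_T hl hB)) 2),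
    ← R.Ex_const_mul]
  congr 1
  funext z _
  rw [e2, e3]
  linear_combination (c ^ 2 - s ^ 2) * e4 z

/-- The term of the coordinate `e`. -/
lemma lvi_coord (hS : S.RegD D) (hf : Pot f f' f'' C₁ C₂) (hs : Sep D α β) (θ : ℝ) (e : ι) :
    (S.wH (it S.H f α β θ)).Ex (fun z x => z e * (f' (itU α β θ z x) *
      (Real.cos θ * α x e - Real.sin θ * β x e))) =
    Real.sin θ * Real.cos θ * ((S.wH (it S.H f α β θ)).Ex (fun z x =>
      (f'' (itU α β θ z x) + f' (itU α β θ z x) ^ 2) * (α x e ^ 2 - β x e ^ 2)) -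
      ∑ l ∈ Finset.range (S.K + 1), S.p l * (if S.lev e ≤ l then
        ((S.wH (it S.H f α β θ)).Ex (fun z _ =>
            (S.wH (it S.H f α β θ)).T l (fun z x => f' (itU α β θ z x) * α x e) z ^ 2) -
          (S.wH (it S.H f α β θ)).Ex (fun z _ =>
            (S.wH (it S.H f α β θ)).T l (fun z x => f' (itU α β θ z x) * β x e) z ^ 2))
        else 0)) := by
  obtain ⟨R, hRdef⟩ : ∃ R, R = S.wH (it S.H f α β θ) := ⟨_, rfl⟩
  have hR : R.RegD (itD D f' α β θ) := by rw [hRdef]; exact regD_it hS hf θ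
  have hRK : R.K = S.K := by rw [hRdef]; rfl
  have hRp : R.p = S.p := by rw [hRdef]; rfl
  have hRlev : R.lev = S.lev := by rw [hRdef]; rfl
  rw [← hRdef]
  obtain ⟨s, hsd⟩ : ∃ s, s = Real.sin θ := ⟨_, rfl⟩
  obtain ⟨c, hcd⟩ : ∃ c, c = Real.cos θ := ⟨_, rfl⟩
  rw [← hsd, ← hcd]
  have hN1 := hf.eg1 α β θ
  have hN2 := hf.eg2 α β θ
  have hNα : Nh fun z x => f' (itU α β θ z x) * α x e := Nh.mul hN1 (Nh.snd fun x => α x e)
  have hNβ : Nh fun z x => f' (itU α β θ z x) * β x e := Nh.mul hN1 (Nh.snd fun x => β x e)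
  have hz : (∀ x, α x e = 0) ∨ ∀ x, β x e = 0 := by
    by_contra hcon
    push Not at hcon
    obtain ⟨⟨x, hx⟩, x', hx'⟩ := hcon
    exact mul_ne_zero hx hx' (hs.disj e x x')
  have h0 : (∀ (z : ι → ℝ) x, f' (itU α β θ z x) * α x e = 0) ∨
      ∀ (z : ι → ℝ) x, f' (itU α β θ z x) * β x e = 0 := by
    rcases hz with h | h
    · left
      intro z x
      rw [h x, mul_zero]
    · right
      intro z x
      rw [h x, mul_zero]
  have hxy : ∀ x, α x e * β x e = 0 := fun x => hs.disj e x x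
  -- the observable and its derivative
  have hh : Nh fun z x => f' (itU α β θ z x) * (c * α x e - s * β x e) :=
    Nh.mul hN1 (Nh.snd fun x => c * α x e - s * β x e)
  have hh' : Nh fun z x => f'' (itU α β θ z x) * (s * α x e + c * β x e) *
      (c * α x e - s * β x e) :=
    Nh.mul (Nh.mul hN2 (Nh.snd fun x => s * α x e + c * β x e))
      (Nh.snd fun x => c * α x e - s * β x e)
  have hd : ∀ x, PD e (fun z => f' (itU α β θ z x) * (c * α x e - s * β x e))
      (fun z => f'' (itU α β θ z x) * (s * α x e + c * β x e) * (c * α x e - s * β x e)) := by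
    intro x
    have h1 := ((itU_pd α β θ x e).comp hf.d2).mul (PD.const (c * α x e - s * β x e))
    refine h1.congr fun z => ?_
    rw [hsd, hcd]
    ring
  rw [hR.ibp e hd hh hh']
  -- the derivatives of the energy at the level `l`
  have hsupp : (∀ x, α x e = 0 ∧ β x e = 0) ∨ ∀ z y, D e z y = 0 := by
    by_cases h : ∃ x, α x e ≠ 0 ∨ β x e ≠ 0
    · right
      obtain ⟨x, hx⟩ := h
      exact hs.indep e x hx
    · left
      push Not at h
      exact h
  have hlev : ∀ l ≤ R.K, R.Ex (fun z x => f' (itU α β θ z x) * (c * α x e - s * β x e) *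
      R.T l (itD D f' α β θ e) z) =
      s * c * (R.Ex (fun z _ => R.T l (fun z x => f' (itU α β θ z x) * α x e) z ^ 2) -
        R.Ex (fun z _ => R.T l (fun z x => f' (itU α β θ z x) * β x e) z ^ 2)) := by
    intro l hl
    rcases hsupp with h | h
    · have e1 : (fun (z : ι → ℝ) (x : X) => f' (itU α β θ z x) * (c * α x e - s * β x e) *
          R.T l (itD D f' α β θ e) z) = fun _ _ => 0 := by
        funext z x
        rw [(h x).1, (h x).2]
        ring
      have e2 : (fun (z : ι → ℝ) (x : X) => f' (itU α β θ z x) * α x e) = fun _ _ => 0 := by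
        funext z x
        rw [(h x).1, mul_zero]
      have e3 : (fun (z : ι → ℝ) (x : X) => f' (itU α β θ z x) * β x e) = fun _ _ => 0 := by
        funext z x
        rw [(h x).2, mul_zero]
      rw [e1, e2, e3, hR.toReg.Ex_const]
      ring
    · rw [← lvi_level hR.toReg hl hNα hNβ s c h0]
      have e1 : itD D f' α β θ e = fun z x => s * (f' (itU α β θ z x) * α x e) +
          c * (f' (itU α β θ z x) * β x e) := by
        funext z x
        simp only [itD]
        rw [h z x, hsd, hcd]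
        ring
      rw [e1]
      congr 1
      funext z x
      ring
  have hNT : ∀ l ∈ Finset.Ico (R.lev e) (R.K + 1), Nh fun z x =>
      R.p l * (f' (itU α β θ z x) * (c * α x e - s * β x e) * R.T l (itD D f' α β θ e) z) := by
    intro l hl
    have hl' := (Finset.mem_Ico.1 hl).2
    exact Nh.const_mul _ (Nh.mul hh (Nh.fst (hR.toReg.eg_T (by omega) (hR.nh e))))
  have hNm : Nh fun z x => s * c * ((f'' (itU α β θ z x) + f' (itU α β θ z x) ^ 2) *
      (α x e ^ 2 - β x e ^ 2)) :=
    Nh.const_mul _ (Nh.mul (Nh.add hN2 (Nh.pow hN1 2)) (Nh.snd fun x => α x e ^ 2 - β x e ^ 2))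
  have e1 : (fun (z : ι → ℝ) (x : X) => f'' (itU α β θ z x) * (s * α x e + c * β x e) *
      (c * α x e - s * β x e) + f' (itU α β θ z x) * (c * α x e - s * β x e) *
        (itD D f' α β θ e z x - ∑ l ∈ Finset.Ico (R.lev e) (R.K + 1), R.p l *
          R.T l (itD D f' α β θ e) z)) =
      fun z x => s * c * ((f'' (itU α β θ z x) + f' (itU α β θ z x) ^ 2) *
        (α x e ^ 2 - β x e ^ 2)) -
        ∑ l ∈ Finset.Ico (R.lev e) (R.K + 1), R.p l * (f' (itU α β θ z x) *
          (c * α x e - s * β x e) * R.T l (itD D f' α β θ e) z) := by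
    funext z x
    have h1 : f' (itU α β θ z x) * (c * α x e - s * β x e) * D e z x = 0 := by
      rcases hsupp with h | h
      · rw [(h x).1, (h x).2]
        ring
      · rw [h z x, mul_zero]
    have h2 : ∑ l ∈ Finset.Ico (R.lev e) (R.K + 1), R.p l * (f' (itU α β θ z x) *
          (c * α x e - s * β x e) * R.T l (itD D f' α β θ e) z) =
        f' (itU α β θ z x) * (c * α x e - s * β x e) *
          ∑ l ∈ Finset.Ico (R.lev e) (R.K + 1), R.p l * R.T l (itD D f' α β θ e) z := by
      rw [Finset.mul_sum]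
      refine Finset.sum_congr rfl fun l _ => ?_
      ring
    have h3 := hxy x
    rw [h2]
    have h4 : itD D f' α β θ e z x = D e z x + f' (itU α β θ z x) * (s * α x e + c * β x e) := by
      rw [hsd, hcd]
      rfl
    rw [h4]
    linear_combination h1 + (f'' (itU α β θ z x) + f' (itU α β θ z x) ^ 2) *
      (c ^ 2 - s ^ 2) * h3
  rw [e1, hR.toReg.Ex_sub hNm (Nh.sum _ hNT), R.Ex_const_mul, hR.toReg.Ex_sum _ hNT, mul_sub]
  congr 1
  have e2 : ∀ l ∈ Finset.Ico (R.lev e) (R.K + 1), R.Ex (fun z x => R.p l *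
      (f' (itU α β θ z x) * (c * α x e - s * β x e) * R.T l (itD D f' α β θ e) z)) =
      s * c * (R.p l * (R.Ex (fun z _ => R.T l (fun z x => f' (itU α β θ z x) * α x e) z ^ 2) -
        R.Ex (fun z _ => R.T l (fun z x => f' (itU α β θ z x) * β x e) z ^ 2))) := by
    intro l hl
    have hl' := (Finset.mem_Ico.1 hl).2
    rw [R.Ex_const_mul, hlev l (by omega)]
    ring
  rw [Finset.sum_congr rfl e2, ← Finset.mul_sum]
  congr 1
  have e3 : Finset.Ico (R.lev e) (R.K + 1) =
      (Finset.range (S.K + 1)).filter fun l => S.lev e ≤ l := by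
    ext l
    simp only [Finset.mem_Ico, Finset.mem_filter, Finset.mem_range, hRK, hRlev]
    omega
  rw [e3, Finset.sum_filter]
  refine Finset.sum_congr rfl fun l _ => ?_
  rw [hRp]
  split_ifs
  · rfl
  · rw [mul_zero]

/-- The derivative in the angle, integrated by parts (`RegD.ibp` for each coordinate `e`, the
observable `f'(u) (cos θ α_e - sin θ β_e)`). -/
theorem ex_deriv (hS : S.RegD D) (hf : Pot f f' f'' C₁ C₂) (hs : Sep D α β) (θ : ℝ) :
    (S.wH (it S.H f α β θ)).Ex (fun z x => f' (itU α β θ z x) *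
      (Real.cos θ * lin (α x) z - Real.sin θ * lin (β x) z)) =
    Real.sin θ * Real.cos θ * brk S f f' f'' α β θ := by
  have hR := (regD_it (α := α) (β := β) hS hf θ).toReg
  have hN1 := hf.eg1 α β θ
  have hN2 := hf.eg2 α β θ
  have e1 : (fun (z : ι → ℝ) (x : X) => f' (itU α β θ z x) *
      (Real.cos θ * lin (α x) z - Real.sin θ * lin (β x) z)) =
      fun z x => ∑ e, z e * (f' (itU α β θ z x) *
        (Real.cos θ * α x e - Real.sin θ * β x e)) := by
    funext z x
    simp only [lin, Finset.mul_sum]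
    rw [← Finset.sum_sub_distrib, Finset.mul_sum]
    refine Finset.sum_congr rfl fun e _ => ?_
    ring
  have hNe : ∀ e ∈ (Finset.univ : Finset ι), Nh fun z x => z e * (f' (itU α β θ z x) *
      (Real.cos θ * α x e - Real.sin θ * β x e)) := fun e _ =>
    Nh.mul (Nh.fst (EG.coord e)) (Nh.mul hN1 (Nh.snd fun x =>
      Real.cos θ * α x e - Real.sin θ * β x e))
  rw [e1, hR.Ex_sum _ hNe, Finset.sum_congr rfl fun e _ => lvi_coord hS hf hs θ e,
    ← Finset.mul_sum, Finset.sum_sub_distrib]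
  unfold brk
  congr 2
  · have hNq : ∀ e ∈ (Finset.univ : Finset ι), Nh fun z x =>
        (f'' (itU α β θ z x) + f' (itU α β θ z x) ^ 2) * (α x e ^ 2 - β x e ^ 2) := fun e _ =>
      Nh.mul (Nh.add hN2 (Nh.pow hN1 2)) (Nh.snd fun x => α x e ^ 2 - β x e ^ 2)
    rw [← hR.Ex_sum _ hNq]
    congr 1
    funext z x
    rw [← Finset.sum_sub_distrib, Finset.mul_sum]
  · rw [Finset.sum_comm]
    refine Finset.sum_congr rfl fun l _ => ?_
    rw [Finset.mul_sum]

end Vale.Agent.P157.Lv
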