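import Vale.Agent.P157.LvInt2

/-!
The step from the field of a pattern to a tree field.
-/

open MeasureTheory ProbabilityTheory Filter Topology

namespace Vale.Agent.P157.Lv

set_option linter.unusedSectionVars false

open Par (incr Path)

open Sy

variable {ι X : Type} [Fintype ι] [DecidableEq ι] [Fintype X] [DecidableEq X] [Nonempty X]
  {S : Sy ι X} {D : ι → (ι → ℝ) → X → ℝ} {f f' f'' : ℝ → ℝ} {C₁ C₂ : ℝ} {α β : X → ι → ℝ}

/-! ### One pattern -/

variable {N : ℕ}

/-- The field of a pattern. -/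
noncomputable def pf (φ : X → Fin N → ℝ) (g : Fin N → ι) (z : ι → ℝ) (x : X) : ℝ :=
  1 / √(N : ℝ) * ∑ i, φ x i * z (g i)

/-- The tree field with the path `R`. -/
noncomputable def tf (y : ℕ → ι) (K : ℕ) (R : ℕ → ℝ) (z : ι → ℝ) : ℝ :=
  ∑ l ∈ Finset.range (K + 1), √(incr R l) * z (y l)

/-- New coordinates for a pattern and for a tree field. -/
structure NewC (S : Sy ι X) (D : ι → (ι → ℝ) → X → ℝ) (g : Fin N → ι) (y : ℕ → ι) : Prop where
  inj : Function.Injective g
  gl : ∀ i, S.lev (g i) = 0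
  yl : ∀ l ≤ S.K, S.lev (y l) = l
  ne : ∀ i, ∀ l ≤ S.K, g i ≠ y l
  Dg : ∀ i z x, D (g i) z x = 0
  Dy : ∀ l ≤ S.K, ∀ z x, D (y l) z x = 0

theorem Sy.Reg.pairEx_pert_le (hS : S.Reg) {H' : (ι → ℝ) → X → ℝ} (hS' : (S.wH H').Reg) {B : ℝ}
    (hB : ∀ z x, |H' z x - S.H z x| ≤ B) {l : ℕ} (hl : l ≤ S.K) {ψ : X → X → ℝ}
    (h0 : ∀ x x', 0 ≤ ψ x x') :
    (S.wH H').pairEx l ψ ≤ Real.exp (6 * B) * S.pairEx l ψ := by
  have hl' : l ≤ (S.wH H').K := hl
  have hpr : ∀ z x, (S.wH H').pr l z x ≤ Real.exp (2 * B) * S.pr l z x := by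
    intro z x
    refine hS.T_pert_le hS' hB hl (Nh.snd fun y => if y = x then (1 : ℝ) else 0) ?_ z
    intro z y
    split_ifs <;> norm_num
  have h1 : (S.wH H').pairEx l ψ ≤
      (S.wH H').Ex (fun z _ => Real.exp (4 * B) *
        ∑ x, ∑ x', S.pr l z x * S.pr l z x' * ψ x x') := by
    refine hS'.Ex_mono (Nh.fst (hS'.nh_pair hl' ψ)) (Nh.fst ((hS.nh_pair hl ψ).const_mul _))
      fun z _ => ?_
    rw [Finset.mul_sum]
    refine Finset.sum_le_sum fun x _ => ?_
    rw [Finset.mul_sum]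
    refine Finset.sum_le_sum fun x' _ => ?_
    have e : Real.exp (4 * B) * (S.pr l z x * S.pr l z x' * ψ x x') =
        (Real.exp (2 * B) * S.pr l z x) * (Real.exp (2 * B) * S.pr l z x') * ψ x x' := by
      rw [show (4 : ℝ) * B = 2 * B + 2 * B by ring, Real.exp_add]
      ring
    rw [e]
    refine mul_le_mul_of_nonneg_right ?_ (h0 x x')
    exact mul_le_mul (hpr z x) (hpr z x') (hS'.pr_nonneg hl' z x')
      (mul_nonneg (Real.exp_pos _).le (hS.pr_nonneg hl z x))
  refine h1.trans ?_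
  have h2 := hS.Ex_pert_le hS' hB (h := fun z _ => Real.exp (4 * B) *
        ∑ x, ∑ x', S.pr l z x * S.pr l z x' * ψ x x') (Nh.fst ((hS.nh_pair hl ψ).const_mul _))
      (fun z _ => mul_nonneg (Real.exp_pos _).le (Finset.sum_nonneg fun x _ =>
        Finset.sum_nonneg fun x' _ => mul_nonneg (mul_nonneg (hS.pr_nonneg hl z x)
          (hS.pr_nonneg hl z x')) (h0 x x')))
  refine h2.trans (le_of_eq ?_)
  rw [Sy.Ex_const_mul, Sy.pairEx, ← mul_assoc, ← Real.exp_add]
  congr 2
  ring

/-! ### The coefficients -/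

/-- The coefficients of the field of the pattern. -/
noncomputable def li3a (φ : X → Fin N → ℝ) (g : Fin N → ι) (x : X) (e : ι) : ℝ :=
  ∑ i, if g i = e then φ x i / √(N : ℝ) else 0

/-- The coefficients of the tree field. -/
noncomputable def li3b (y : ℕ → ι) (K : ℕ) (R : ℕ → ℝ) (_ : X) (e : ι) : ℝ :=
  ∑ l ∈ Finset.range (K + 1), if y l = e then √(incr R l) else 0

lemma li3_lin_a (φ : X → Fin N → ℝ) (g : Fin N → ι) (x : X) (z : ι → ℝ) :
    lin (li3a φ g x) z = pf φ g z x := by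
  unfold lin li3a pf
  simp_rw [Finset.sum_mul]
  rw [Finset.sum_comm, Finset.mul_sum]
  refine Finset.sum_congr rfl fun i _ => ?_
  rw [Finset.sum_eq_single (g i)]
  · rw [if_pos rfl]
    ring
  · intro e _ he
    rw [if_neg (Ne.symm he), zero_mul]
  · intro h
    exact absurd (Finset.mem_univ _) h

lemma li3_lin_b (y : ℕ → ι) (K : ℕ) (R : ℕ → ℝ) (x : X) (z : ι → ℝ) :
    lin (li3b y K R x) z = tf y K R z := by
  unfold lin li3b tf
  simp_rw [Finset.sum_mul]
  rw [Finset.sum_comm]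
  refine Finset.sum_congr rfl fun l _ => ?_
  rw [Finset.sum_eq_single (y l)]
  · rw [if_pos rfl]
  · intro e _ he
    rw [if_neg (Ne.symm he), zero_mul]
  · intro h
    exact absurd (Finset.mem_univ _) h

lemma li3a_g {φ : X → Fin N → ℝ} {g : Fin N → ι} (hg : Function.Injective g) (x : X)
    (i : Fin N) : li3a φ g x (g i) = φ x i / √(N : ℝ) := by
  unfold li3a
  rw [Finset.sum_eq_single i]
  · rw [if_pos rfl]
  · intro j _ hj
    rw [if_neg fun h => hj (hg h)]
  · intro h
    exact absurd (Finset.mem_univ _) h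

lemma li3a_ne {φ : X → Fin N → ℝ} {g : Fin N → ι} {x : X} {e : ι} (h : li3a φ g x e ≠ 0) :
    ∃ i, g i = e := by
  by_contra hc
  push Not at hc
  apply h
  unfold li3a
  exact Finset.sum_eq_zero fun i _ => if_neg (hc i)

lemma li3b_y {y : ℕ → ι} {K : ℕ} (hy : ∀ l ≤ K, ∀ l' ≤ K, y l = y l' → l = l') (R : ℕ → ℝ)
    (x : X) {l : ℕ} (hl : l ≤ K) : li3b y K R x (y l) = √(incr R l) := by
  unfold li3b
  rw [Finset.sum_eq_single l]
  · rw [if_pos rfl]
  · intro j hj hne
    rw [if_neg fun h => hne (hy j (by simpa [Nat.lt_succ_iff] using hj) l hl h)]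
  · intro h
    exact absurd (Finset.mem_range.2 (Nat.lt_succ_of_le hl)) h

lemma li3b_ne {y : ℕ → ι} {K : ℕ} {R : ℕ → ℝ} {x : X} {e : ι} (h : li3b y K R x e ≠ 0) :
    ∃ l ≤ K, y l = e := by
  by_contra hc
  push Not at hc
  apply h
  unfold li3b
  refine Finset.sum_eq_zero fun l hl => if_neg (hc l ?_)
  simpa [Nat.lt_succ_iff] using hl

/-- Sums over the new coordinates of the pattern. -/
lemma li3_sum_a {φ : X → Fin N → ℝ} {g : Fin N → ι} (hg : Function.Injective g)
    {Q : (X → ℝ) → ℝ} (hQ : Q (fun _ => 0) = 0) {P : ι → Prop} [DecidablePred P]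
    (hP : ∀ i, P (g i)) :
    ∑ e, (if P e then Q (fun x => li3a φ g x e) else 0) =
      ∑ i, Q (fun x => φ x i / √(N : ℝ)) := by
  have h1 : ∑ i, Q (fun x => φ x i / √(N : ℝ)) =
      ∑ i, (fun e => if P e then Q (fun x => li3a φ g x e) else 0) (g i) := by
    refine Finset.sum_congr rfl fun i _ => ?_
    simp only [hP i, if_true, li3a_g hg]
  rw [h1]
  symm
  have h2 := Finset.sum_image (s := (Finset.univ : Finset (Fin N))) (g := g)
    (f := fun e => if P e then Q (fun x => li3a φ g x e) else 0) (fun i _ j _ h => hg h)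
  rw [← h2]
  refine Finset.sum_subset (Finset.subset_univ _) fun e _ he => ?_
  have h3 : (fun x => li3a φ g x e) = fun _ => 0 := by
    funext x
    by_contra hc
    obtain ⟨i, hi⟩ := li3a_ne hc
    exact he (Finset.mem_image.2 ⟨i, Finset.mem_univ _, hi⟩)
  rw [h3, hQ, ite_self]

/-- Sums over the new coordinates of the tree field. -/
lemma li3_sum_b {y : ℕ → ι} {K : ℕ} (hy : ∀ l ≤ K, ∀ l' ≤ K, y l = y l' → l = l') (R : ℕ → ℝ)
    {Q : (X → ℝ) → ℝ} (hQ : Q (fun _ => 0) = 0) {P : ι → Prop} [DecidablePred P] {k : ℕ}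
    (hk : k ≤ K) (hP : ∀ l ≤ K, (P (y l) ↔ l ≤ k)) :
    ∑ e, (if P e then Q (fun x => li3b y K R x e) else 0) =
      ∑ l ∈ Finset.range (k + 1), Q (fun _ => √(incr R l)) := by
  have h1 : ∑ l ∈ Finset.range (k + 1), Q (fun _ : X => √(incr R l)) =
      ∑ l ∈ Finset.range (k + 1), (fun e => if P e then Q (fun x => li3b y K R x e) else 0)
        (y l) := by
    refine Finset.sum_congr rfl fun l hl => ?_
    have hl1 : l ≤ k := by simpa [Nat.lt_succ_iff] using hl
    have hl2 : l ≤ K := hl1.trans hk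
    simp only [(hP l hl2).2 hl1, if_true, li3b_y hy R _ hl2]
  rw [h1]
  symm
  have h2 := Finset.sum_image (s := Finset.range (k + 1)) (g := y)
    (f := fun e => if P e then Q (fun x => li3b y K R x e) else 0) (fun i hi j hj h => by
      have hi1 : i ≤ k := by simpa [Nat.lt_succ_iff] using hi
      have hj1 : j ≤ k := by simpa [Nat.lt_succ_iff] using hj
      exact hy i (hi1.trans hk) j (hj1.trans hk) h)
  rw [← h2]
  refine Finset.sum_subset (Finset.subset_univ _) fun e _ he => ?_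
  by_cases hPe : P e
  · have h3 : (fun x : X => li3b y K R x e) = fun _ => 0 := by
      funext x
      by_contra hc
      obtain ⟨l, hl, hi⟩ := li3b_ne hc
      refine he (Finset.mem_image.2 ⟨l, ?_, hi⟩)
      rw [← hi] at hPe
      exact Finset.mem_range.2 (Nat.lt_succ_of_le ((hP l hl).1 hPe))
    rw [h3, hQ, ite_self]
  · rw [if_neg hPe]

lemma li3_sum_incr (R : ℕ → ℝ) (k : ℕ) : ∑ l ∈ Finset.range (k + 1), incr R l = R k := by
  induction k with
  | zero => simp [Par.incr_zero_def]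
  | succ k ih => rw [Finset.sum_range_succ, ih, Par.incr_succ_def]; ring

lemma li3_incr_nonneg {K : ℕ} {R : ℕ → ℝ} (hR : Path K R) {l : ℕ} (hl : l ≤ K) :
    0 ≤ incr R l := by
  cases l with
  | zero => exact hR.1
  | succ l => exact sub_nonneg.2 (hR.2 l hl)

/-- The tilted average of an observable in terms of the averages of its restrictions to the
points. -/
lemma li3_T {S : Sy ι X} (hS : S.Reg) {l : ℕ} (hl : l ≤ S.K) {h : (ι → ℝ) → X → ℝ} (hh : Nh h)
    (a : X → ℝ) (z : ι → ℝ) :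
    S.T l (fun z x => h z x * a x) z =
      ∑ y, S.T l (fun z x => h z x * (if x = y then 1 else 0)) z * a y := by
  have e : (fun (z : ι → ℝ) (x : X) => h z x * a x) =
      fun z x => ∑ y, a y * (h z x * (if x = y then 1 else 0)) := by
    funext z x
    rw [Finset.sum_eq_single x]
    · rw [if_pos rfl]
      ring
    · intro y _ hy
      rw [if_neg (Ne.symm hy)]
      ring
    · intro h
      exact absurd (Finset.mem_univ _) h
  have hn : ∀ y : X, Nh fun (z : ι → ℝ) (x : X) => h z x * (if x = y then 1 else 0) :=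
    fun y => Nh.mul hh (Nh.snd fun x => if x = y then (1 : ℝ) else 0)
  rw [e, hS.T_sum hl _ fun y _ => Nh.const_mul _ (hn y)]
  refine Finset.sum_congr rfl fun y _ => ?_
  rw [Sy.T_const_mul, mul_comm]

/-- The bound of the bracket at one level. -/
lemma li3_level {S : Sy ι X} (hS : S.Reg) {l : ℕ} (hl : l ≤ S.K) {h : (ι → ℝ) → X → ℝ}
    (hh : Nh h) {C : ℝ} (hC : ∀ z x, |h z x| ≤ C) {φ : X → Fin N → ℝ} (hN : 0 < N)
    {R : ℕ → ℝ} (hR : Path S.K R) :
    ∑ k ∈ Finset.range (l + 1), S.Ex (fun z _ => S.T l (fun z x => h z x * √(incr R k)) z ^ 2) -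
      ∑ i, S.Ex (fun z _ => S.T l (fun z x => h z x * (φ x i / √(N : ℝ))) z ^ 2) ≤
      C ^ 2 * S.pairEx l (fun x x' => |Rov φ x x' - R l|) := by
  set c : (ι → ℝ) → X → ℝ := fun z y => S.T l (fun z x => h z x * (if x = y then 1 else 0)) z
    with hc
  have hC0 : 0 ≤ C := (abs_nonneg _).trans (hC 0 (Classical.arbitrary X))
  have hn : ∀ y : X, Nh fun (z : ι → ℝ) (x : X) => h z x * (if x = y then 1 else 0) :=
    fun y => Nh.mul hh (Nh.snd fun x => if x = y then (1 : ℝ) else 0)
  have hcE : ∀ y, EG fun z => c z y := fun y => hS.eg_T hl (hn y)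
  have hcb : ∀ z y, |c z y| ≤ C * S.pr l z y := by
    intro z y
    have hb : ∀ (z : ι → ℝ) (x : X), |h z x * (if x = y then 1 else 0)| ≤
        C * (if x = y then 1 else 0) := by
      intro z x
      split_ifs
      · simpa using hC z x
      · simp
    have hn1 : Nh fun (_ : ι → ℝ) (x : X) => C * (if x = y then (1 : ℝ) else 0) :=
      Nh.snd fun x => C * (if x = y then (1 : ℝ) else 0)
    have e1 : S.T l (fun _ x => C * (if x = y then (1 : ℝ) else 0)) z = C * S.pr l z y :=
      Sy.T_const_mul S l C _ z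
    rw [abs_le, ← e1]
    constructor
    · have h2 := hS.T_mono hl (f := fun _ x => (-1) * (C * (if x = y then (1 : ℝ) else 0)))
        (g := fun z x => h z x * (if x = y then 1 else 0)) (Nh.const_mul (-1) hn1) (hn y)
        (fun z x => by
          have := (abs_le.1 (hb z x)).1
          linarith) z
      rw [Sy.T_const_mul] at h2
      linarith
    · exact hS.T_mono hl (hn y) hn1 (fun z x => (abs_le.1 (hb z x)).2) z
  have hT : ∀ (a : X → ℝ) z, S.T l (fun z x => h z x * a x) z = ∑ y, c z y * a y :=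
    fun a z => li3_T hS hl hh a z
  have hTE : ∀ (a : X → ℝ), Nh (X := X) fun z _ => S.T l (fun z x => h z x * a x) z ^ 2 :=
    fun a => Nh.pow (Nh.fst (hS.eg_T hl (Nh.mul hh (Nh.snd a)))) 2
  rw [← hS.Ex_sum _ (fun k _ => hTE fun _ => √(incr R k)),
    ← hS.Ex_sum _ (fun i _ => hTE fun x => φ x i / √(N : ℝ)),
    ← hS.Ex_sub (Nh.sum _ fun k _ => hTE fun _ => √(incr R k))
      (Nh.sum _ fun i _ => hTE fun x => φ x i / √(N : ℝ))]
  have hpE := (hS.nh_pair hl (fun x x' => |Rov φ x x' - R l|)).const_mul (C ^ 2)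
  rw [Sy.pairEx, ← Sy.Ex_const_mul]
  refine hS.Ex_mono (Nh.sub (Nh.sum _ fun k _ => hTE fun _ => √(incr R k))
      (Nh.sum _ fun i _ => hTE fun x => φ x i / √(N : ℝ))) (Nh.fst hpE) fun z _ => ?_
  have hNpos : (0 : ℝ) < N := by exact_mod_cast hN
  have e2 : ∑ k ∈ Finset.range (l + 1), S.T l (fun z x => h z x * √(incr R k)) z ^ 2 =
      ∑ x, ∑ x', c z x * c z x' * R l := by
    have e3 : ∀ k ∈ Finset.range (l + 1), S.T l (fun z x => h z x * √(incr R k)) z ^ 2 =
        incr R k * (∑ x, ∑ x', c z x * c z x') := by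
      intro k hk
      have hk1 : k ≤ l := by simpa [Nat.lt_succ_iff] using hk
      rw [hT (fun _ => √(incr R k)) z, ← Finset.sum_mul, mul_pow,
        Real.sq_sqrt (li3_incr_nonneg hR (hk1.trans hl)), sq, Finset.sum_mul_sum]
      ring
    rw [Finset.sum_congr rfl e3, ← Finset.sum_mul, li3_sum_incr, Finset.mul_sum]
    refine Finset.sum_congr rfl fun x _ => ?_
    rw [Finset.mul_sum]
    refine Finset.sum_congr rfl fun x' _ => ?_
    ring
  have e4 : ∑ i, S.T l (fun z x => h z x * (φ x i / √(N : ℝ))) z ^ 2 =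
      ∑ x, ∑ x', c z x * c z x' * Rov φ x x' := by
    have e5 : ∀ i : Fin N, S.T l (fun z x => h z x * (φ x i / √(N : ℝ))) z ^ 2 =
        ∑ x, ∑ x', c z x * c z x' * (1 / N * (φ x i * φ x' i)) := by
      intro i
      rw [hT (fun x => φ x i / √(N : ℝ)) z, sq, Finset.sum_mul_sum]
      refine Finset.sum_congr rfl fun x _ => Finset.sum_congr rfl fun x' _ => ?_
      have h3 : √(N : ℝ) * √(N : ℝ) = N := Real.mul_self_sqrt hNpos.le
      have h4 : √(N : ℝ) ≠ 0 := (Real.sqrt_pos.2 hNpos).ne'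
      field_simp
      rw [sq, h3]
      ring
    simp_rw [e5]
    rw [Finset.sum_comm]
    refine Finset.sum_congr rfl fun x _ => ?_
    rw [Finset.sum_comm]
    refine Finset.sum_congr rfl fun x' _ => ?_
    unfold Rov
    rw [← Finset.mul_sum, ← Finset.mul_sum]
  rw [e2, e4, ← Finset.sum_sub_distrib, Finset.mul_sum]
  refine Finset.sum_le_sum fun x _ => ?_
  rw [← Finset.sum_sub_distrib, Finset.mul_sum]
  refine Finset.sum_le_sum fun x' _ => ?_
  have h5 : c z x * c z x' * R l - c z x * c z x' * Rov φ x x' =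
      -(c z x * c z x' * (Rov φ x x' - R l)) := by ring
  rw [h5]
  refine (neg_le_abs _).trans ?_
  rw [abs_mul, abs_mul]
  have h6 : |c z x| * |c z x'| ≤ (C * S.pr l z x) * (C * S.pr l z x') :=
    mul_le_mul (hcb z x) (hcb z x') (abs_nonneg _)
      (mul_nonneg hC0 (hS.pr_nonneg hl z x))
  refine (mul_le_mul_of_nonneg_right h6 (abs_nonneg _)).trans (le_of_eq ?_)
  ring

/-- **One pattern.** Proof: `int_le` with `α x e = φ x i / √N` if `e = g i` and
`β x e = √(incr R l)` if `e = y l`; both have square sum `1`; with `c_x = T_l (f'(u) 1_x)`,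
`|c_x| ≤ C₁ pr l x`, the bracket is `-∑_l p_l Ex_θ ∑_{x,x'} c_x c_{x'} (Rov x x' - R l)`. -/
theorem pattern_step {φ : X → Fin N → ℝ} {zc : ℕ → Fin N → ι} {s : ℕ → ℝ}
    (F : Fld S D φ zc s) {g : Fin N → ι} {y : ℕ → ι} (hn : NewC S D g y)
    (hf : Pot f f' f'' C₁ C₂) {B : ℝ} (hB : ∀ x, |f x| ≤ B) {R : ℕ → ℝ} (hR : Path S.K R)
    (hR1 : R S.K = 1) :
    (S.wH fun z x => S.H z x + f (pf φ g z x)).fe -
      (S.wH fun z x => S.H z x + f (tf y S.K R z)).fe ≤
      1 / 2 * C₁ ^ 2 * Real.exp (6 * B) *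
        ∑ l ∈ Finset.range (S.K + 1), S.p l * S.pairEx l (fun x x' => |Rov φ x x' - R l|) := by
  have hS := F.hreg
  have hNpos := F.N_pos
  have hyi : ∀ l ≤ S.K, ∀ l' ≤ S.K, y l = y l' → l = l' := by
    intro l hl l' hl' h
    rw [← hn.yl l hl, ← hn.yl l' hl', h]
  have hP : ∀ l ≤ S.K, 0 ≤ S.p l := fun l hl => sub_nonneg.2 (hS.mono l hl)
  -- the square sums
  have ha : ∀ x, ∑ e, li3a φ g x e ^ 2 = 1 := by
    intro x
    have h := li3_sum_a (φ := φ) (g := g) hn.inj (Q := fun a : X → ℝ => a x ^ 2) (by simp)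
      (P := fun _ => True) (fun _ => trivial)
    simp only [if_true] at h
    rw [h]
    simp_rw [div_pow, Real.sq_sqrt hNpos.le]
    rw [← Finset.sum_div, F.norm x]
    exact div_self hNpos.ne'
  have hb : ∀ x : X, ∑ e, li3b y S.K R x e ^ 2 = 1 := by
    intro x
    have h := li3_sum_b (y := y) (K := S.K) hyi R (Q := fun a : X → ℝ => a x ^ 2) (by simp)
      (P := fun _ => True) (le_refl S.K) (fun l hl => ⟨fun _ => hl, fun _ => trivial⟩)
    simp only [if_true] at h
    rw [h]
    have e : ∀ l ∈ Finset.range (S.K + 1), √(incr R l) ^ 2 = incr R l := fun l hl =>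
      Real.sq_sqrt (li3_incr_nonneg hR (by simpa [Nat.lt_succ_iff] using hl))
    rw [Finset.sum_congr rfl e, li3_sum_incr, hR1]
  -- separation
  have hs : Sep D (li3a φ g) (li3b (X := X) y S.K R) := by
    constructor
    · intro e x x'
      by_contra hc
      obtain ⟨i, hi⟩ := li3a_ne (left_ne_zero_of_mul hc)
      obtain ⟨l, hl, hl'⟩ := li3b_ne (right_ne_zero_of_mul hc)
      exact hn.ne i l hl (hi.trans hl'.symm)
    · intro e x hx z x'
      rcases hx with hx | hx
      · obtain ⟨i, hi⟩ := li3a_ne hx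
        rw [← hi]
        exact hn.Dg i z x'
      · obtain ⟨l, hl, hl'⟩ := li3b_ne hx
        rw [← hl']
        exact hn.Dy l hl z x'
  set b : ℝ := C₁ ^ 2 * Real.exp (6 * B) *
        ∑ l ∈ Finset.range (S.K + 1), S.p l * S.pairEx l (fun x x' => |Rov φ x x' - R l|)
    with hbdef
  have key : ∀ θ, 0 ≤ θ → θ ≤ Real.pi / 2 →
      brk S f f' f'' (li3a φ g) (li3b (X := X) y S.K R) θ ≤ b := by
    intro θ _ _
    obtain ⟨H', hH'⟩ : ∃ H', H' = it S.H f (li3a φ g) (li3b (X := X) y S.K R) θ := ⟨_, rfl⟩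
    have hS' : (S.wH H').Reg := by
      rw [hH']
      exact (regD_it F.reg hf θ).toReg
    have hH'B : ∀ z x, |H' z x - S.H z x| ≤ B := by
      intro z x
      rw [hH', it, add_sub_cancel_left]
      exact hB _
    have hmu : ∀ x, Measurable fun z => itU (li3a φ g) (li3b (X := X) y S.K R) θ z x := by
      intro x
      unfold itU lin
      exact ((Finset.measurable_sum _ fun e _ =>
        (measurable_pi_apply e).const_mul _).const_mul _).add
        ((Finset.measurable_sum _ fun e _ => (measurable_pi_apply e).const_mul _).const_mul _)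
    have hh : Nh fun z x => f' (itU (li3a φ g) (li3b (X := X) y S.K R) θ z x) := fun x =>
      EG.of_bdd (hf.measurable.2.1.comp (hmu x)) fun z => hf.b1 _
    unfold brk
    rw [← hH']
    have z1 : (S.wH H').Ex (fun z x => (f'' (itU (li3a φ g) (li3b (X := X) y S.K R) θ z x) +
        f' (itU (li3a φ g) (li3b (X := X) y S.K R) θ z x) ^ 2) *
        (∑ e, li3a φ g x e ^ 2 - ∑ e, li3b (X := X) y S.K R x e ^ 2)) = 0 := by
      have e : (fun (z : ι → ℝ) (x : X) =>
          (f'' (itU (li3a φ g) (li3b (X := X) y S.K R) θ z x) +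
            f' (itU (li3a φ g) (li3b (X := X) y S.K R) θ z x) ^ 2) *
          (∑ e, li3a φ g x e ^ 2 - ∑ e, li3b (X := X) y S.K R x e ^ 2)) = fun _ _ => 0 := by
        funext z x
        rw [ha, hb, sub_self, mul_zero]
      rw [e, hS'.Ex_const]
    rw [z1, zero_sub, ← Finset.sum_neg_distrib, hbdef, Finset.mul_sum]
    refine Finset.sum_le_sum fun l hl => ?_
    have hl1 : l ≤ S.K := by simpa [Nat.lt_succ_iff] using hl
    have hl2 : l ≤ (S.wH H').K := hl1
    set h : (ι → ℝ) → X → ℝ := fun z x => f' (itU (li3a φ g) (li3b (X := X) y S.K R) θ z x)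
      with hhdef
    have s1 := li3_sum_a (φ := φ) (g := g) hn.inj
      (Q := fun a : X → ℝ => (S.wH H').Ex (fun z _ => (S.wH H').T l (fun z x => h z x * a x) z ^ 2))
      (by
        have e : (fun (z : ι → ℝ) (_ : X) =>
            (S.wH H').T l (fun z x => h z x * (fun _ => (0 : ℝ)) x) z ^ 2) = fun _ _ => 0 := by
          funext z _
          simp only [mul_zero]
          rw [hS'.T_const hl2]
          norm_num
        rw [e, hS'.Ex_const])
      (P := fun e => S.lev e ≤ l) (fun i => by rw [hn.gl i]; exact Nat.zero_le _)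
    have s2 := li3_sum_b (y := y) (K := S.K) hyi R
      (Q := fun a : X → ℝ => (S.wH H').Ex (fun z _ => (S.wH H').T l (fun z x => h z x * a x) z ^ 2))
      (by
        have e : (fun (z : ι → ℝ) (_ : X) =>
            (S.wH H').T l (fun z x => h z x * (fun _ => (0 : ℝ)) x) z ^ 2) = fun _ _ => 0 := by
          funext z _
          simp only [mul_zero]
          rw [hS'.T_const hl2]
          norm_num
        rw [e, hS'.Ex_const])
      (P := fun e => S.lev e ≤ l) hl1 (fun k hk => by rw [hn.yl k hk])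
    have s3 : (∑ e, if S.lev e ≤ l then
        ((S.wH H').Ex (fun z _ => (S.wH H').T l (fun z x => h z x * li3a φ g x e) z ^ 2) -
        (S.wH H').Ex (fun z _ => (S.wH H').T l (fun z x => h z x * li3b (X := X) y S.K R x e) z ^ 2))
        else 0) =
        ∑ i, (S.wH H').Ex (fun z _ => (S.wH H').T l (fun z x => h z x * (φ x i / √(N : ℝ))) z ^ 2) -
        ∑ k ∈ Finset.range (l + 1),
          (S.wH H').Ex (fun z _ => (S.wH H').T l (fun z x => h z x * √(incr R k)) z ^ 2) := by
      rw [← s1, ← s2, ← Finset.sum_sub_distrib]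
      refine Finset.sum_congr rfl fun e _ => ?_
      split_ifs
      · rfl
      · rw [sub_zero]
    have s4 := li3_level hS' hl2 hh (fun z x => hf.b1 _) (φ := φ) F.N0
      (R := R) (show Path (S.wH H').K R from hR)
    have s5 := hS.pairEx_pert_le hS' hH'B hl1 (ψ := fun x x' => |Rov φ x x' - R l|)
      (fun x x' => abs_nonneg _)
    have s6 : -(S.p l * ∑ e, if S.lev e ≤ l then
        ((S.wH H').Ex (fun z _ => (S.wH H').T l (fun z x => h z x * li3a φ g x e) z ^ 2) -
        (S.wH H').Ex (fun z _ => (S.wH H').T l (fun z x => h z x * li3b (X := X) y S.K R x e) z ^ 2))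
        else 0) ≤ S.p l * (C₁ ^ 2 * (Real.exp (6 * B) *
          S.pairEx l (fun x x' => |Rov φ x x' - R l|))) := by
      rw [s3, ← mul_neg, neg_sub]
      refine mul_le_mul_of_nonneg_left ?_ (hP l hl1)
      refine s4.trans ?_
      exact mul_le_mul_of_nonneg_left s5 (sq_nonneg _)
    refine s6.trans (le_of_eq ?_)
    ring
  have hfin := int_le F.reg hf hs key
  have e1 : it S.H f (li3a φ g) (li3b (X := X) y S.K R) (Real.pi / 2) =
      fun z x => S.H z x + f (pf φ g z x) := by
    funext z x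
    rw [it, itU, Real.sin_pi_div_two, Real.cos_pi_div_two, one_mul, zero_mul, add_zero,
      li3_lin_a]
  have e2 : it S.H f (li3a φ g) (li3b (X := X) y S.K R) 0 =
      fun z x => S.H z x + f (tf y S.K R z) := by
    funext z x
    rw [it, itU, Real.sin_zero, Real.cos_zero, one_mul, zero_mul, zero_add, li3_lin_b]
  rw [e1, e2] at hfin
  refine hfin.trans (le_of_eq ?_)
  rw [hbdef]
  ring

end Vale.Agent.P157.Lv
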