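import Vale.Agent.P157.LvBridge
import Vale.Agent.P157.LvField
import Vale.Agent.P157.LvConc

/-!
The model: `A` possible patterns of which the first `a` are active, fields of the levels
`0, …, K` with the strengths `s`, and spare coordinates for a tree field.
-/

open MeasureTheory ProbabilityTheory Filter Topology

namespace Vale.Agent.P157.Lv

set_option linter.unusedSectionVars false

open Par (incr Path Exponents cascade gstep patternPart spinPart topN lw)

/-- The coordinates: patterns, fields, tree. -/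
abbrev Ix (A N K : ℕ) : Type := (Fin A × Fin N) ⊕ ((Fin (K + 1) × Fin N) ⊕ Fin (K + 1))

/-- The levels. -/
def lvl {A N K : ℕ} : Ix A N K → ℕ
  | Sum.inl _ => 0
  | Sum.inr (Sum.inl p) => p.1
  | Sum.inr (Sum.inr l) => l

/-- The coordinates of the field of the level `l`. -/
def zco {A N K : ℕ} (l : ℕ) (i : Fin N) : Ix A N K := Sum.inr (Sum.inl (Fin.ofNat (K + 1) l, i))

/-- The coordinates of the tree field. -/
def yco {A N K : ℕ} (l : ℕ) : Ix A N K := Sum.inr (Sum.inr (Fin.ofNat (K + 1) l))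

/-- The coordinates of the pattern `b`. -/
def gco {A N K : ℕ} (b : Fin A) (i : Fin N) : Ix A N K := Sum.inl (b, i)

variable {X : Type} {A N K : ℕ}

/-- The energy with the first `a` patterns. -/
noncomputable def en (f : ℝ → ℝ) (u : X → ℝ) (φ : X → Fin N → ℝ) (s : ℕ → ℝ) (a : ℕ) :
    (Ix A N K → ℝ) → X → ℝ := fun z x =>
  u x + ∑ b : Fin A, (if (b : ℕ) < a then f (pf φ (gco b) z x) else 0) +
    ∑ l ∈ Finset.range (K + 1), s l * ∑ i, z (zco l i) * φ x i

/-- The partial derivatives of the energy. -/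
noncomputable def enD (f' : ℝ → ℝ) (φ : X → Fin N → ℝ) (s : ℕ → ℝ) (a : ℕ) :
    Ix A N K → (Ix A N K → ℝ) → X → ℝ
  | Sum.inl p, z, x => if (p.1 : ℕ) < a then f' (pf φ (gco p.1) z x) * (1 / √(N : ℝ) * φ x p.2) else 0
  | Sum.inr (Sum.inl p), _, x => s p.1 * φ x p.2
  | Sum.inr (Sum.inr _), _, _ => 0

/-- The model. -/
noncomputable def mdl (A : ℕ) (K : ℕ) (m : ℕ → ℝ) (f : ℝ → ℝ) (u : X → ℝ) (φ : X → Fin N → ℝ)
    (s : ℕ → ℝ) (a : ℕ) : Sy (Ix A N K) X := ⟨lvl, K, m, en f u φ s a⟩

/-- The extensive field of the level `j`. -/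
noncomputable def hx (φ : X → Fin N → ℝ) (j : ℕ) : (Ix A N K → ℝ) → X → ℝ :=
  fun z x => ∑ i, z (zco j i) * φ x i

variable [Fintype X] [DecidableEq X] [Nonempty X]

/-- Standing hypotheses on the model. -/
structure MD (K : ℕ) (m : ℕ → ℝ) (f f' f'' : ℝ → ℝ) (B C₁ C₂ : ℝ) (u : X → ℝ)
    (φ : X → Fin N → ℝ) : Prop where
  hm : Exponents K m
  hf : Pot f f' f'' C₁ C₂
  hB : ∀ x, |f x| ≤ B
  N0 : 0 < N
  norm : ∀ x, ∑ i, φ x i ^ 2 = N

variable {m : ℕ → ℝ} {f f' f'' : ℝ → ℝ} {B C₁ C₂ : ℝ} {u : X → ℝ} {φ : X → Fin N → ℝ}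
  {s : ℕ → ℝ} {a : ℕ}

/-! ### Preparations -/

lemma lm_lvl_zco {l : ℕ} (hl : l ≤ K) (i : Fin N) : lvl (zco l i : Ix A N K) = l := by
  show (Fin.ofNat (K + 1) l : ℕ) = l
  simp [Fin.ofNat, Nat.mod_eq_of_lt (Nat.lt_succ_of_le hl)]

lemma lm_lvl_yco {l : ℕ} (hl : l ≤ K) : lvl (yco l : Ix A N K) = l := by
  show (Fin.ofNat (K + 1) l : ℕ) = l
  simp [Fin.ofNat, Nat.mod_eq_of_lt (Nat.lt_succ_of_le hl)]

lemma lm_val {l : ℕ} (hl : l ≤ K) : (Fin.ofNat (K + 1) l : ℕ) = l := by
  simp [Fin.ofNat, Nat.mod_eq_of_lt (Nat.lt_succ_of_le hl)]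

lemma lm_Npos (h : MD K m f f' f'' B C₁ C₂ u φ) : (0 : ℝ) < N := by exact_mod_cast h.N0

lemma lm_B0 (h : MD K m f f' f'' B C₁ C₂ u φ) : 0 ≤ B := (abs_nonneg _).trans (h.hB 0)

lemma lm_C0 (h : MD K m f f' f'' B C₁ C₂ u φ) : 0 ≤ C₁ := (abs_nonneg _).trans (h.hf.b1 0)

lemma lm_f_lip (h : MD K m f f' f'' B C₁ C₂ u φ) (x y : ℝ) : |f x - f y| ≤ C₁ * |x - y| := by
  have h1 := Convex.norm_image_sub_le_of_norm_hasDerivWithin_le (f := f) (f' := f') (C := C₁)
    (s := Set.univ) (fun x _ => (h.hf.d1 x).hasDerivWithinAt) (fun x _ => h.hf.b1 x)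
    convex_univ (Set.mem_univ y) (Set.mem_univ x)
  simpa [Real.norm_eq_abs] using h1

lemma lm_f'_meas (h : MD K m f f' f'' B C₁ C₂ u φ) : Measurable f' :=
  (continuous_iff_continuousAt.2 fun x => (h.hf.d2 x).continuousAt).measurable

lemma lm_lip_pf {ι : Type} [Fintype ι] (φ : X → Fin N → ℝ) (g : Fin N → ι) (x : X) :
    Lip fun z => pf φ g z x :=
  (Lip.sum _ fun i _ => (Lip.coord (g i)).const_mul (φ x i)).const_mul _

lemma lm_pd_pf {ι : Type} [Fintype ι] [DecidableEq ι] (φ : X → Fin N → ℝ) (g : Fin N → ι) (x : X)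
    (e : ι) : PD e (fun z => pf φ g z x)
      (fun _ => 1 / √(N : ℝ) * ∑ i, φ x i * (if g i = e then 1 else 0)) :=
  (PD.sum Finset.univ fun i _ => (PD.coord (e := e) (g i)).const_mul (φ x i)).const_mul _

lemma lm_lip_en (h : MD K m f f' f'' B C₁ C₂ u φ) (x : X) :
    Lip fun z : Ix A N K → ℝ => en f u φ s a z x := by
  refine ((Lip.const (u x)).add (Lip.sum _ fun b _ => ?_)).add (Lip.sum _ fun l _ =>
    (Lip.sum _ fun i _ => ?_).const_mul (s l))
  · by_cases hb : (b : ℕ) < a
    · simp only [if_pos hb]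
      exact (lm_lip_pf φ (gco b) x).comp (lm_C0 h) (lm_f_lip h)
    · simp only [if_neg hb]
      exact Lip.const 0
  · have h1 := (Lip.coord (zco l i : Ix A N K)).const_mul (φ x i)
    simpa only [mul_comm] using h1

lemma lm_pd_en (h : MD K m f f' f'' B C₁ C₂ u φ) (e : Ix A N K) (x : X) :
    PD e (fun z => en f u φ s a z x) (fun z => enD f' φ s a e z x) := by
  have h1 : PD e (fun z => en f u φ s a z x) (fun z => 0 +
      ∑ b : Fin A, (if (b : ℕ) < a then f' (pf φ (gco b) z x) *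
        (1 / √(N : ℝ) * ∑ i, φ x i * (if (gco b i : Ix A N K) = e then 1 else 0)) else 0) +
      ∑ l ∈ Finset.range (K + 1), s l * ∑ i, (φ x i * (if (zco l i : Ix A N K) = e then 1 else 0))) := by
    refine ((PD.const (u x)).add (PD.sum _ fun b _ => ?_)).add (PD.sum _ fun l _ =>
      (PD.sum _ fun i _ => ?_).const_mul (s l))
    · by_cases hb : (b : ℕ) < a
      · simp only [if_pos hb]
        exact (lm_pd_pf φ (gco b) x e).comp h.hf.d1
      · simp only [if_neg hb]
        exact PD.const 0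
    · have h1 := (PD.coord (e := e) (zco l i : Ix A N K)).const_mul (φ x i)
      simpa only [mul_comm] using h1
  refine h1.congr fun z => ?_
  rw [zero_add]
  rcases e with ⟨b, i⟩ | ⟨l, i⟩ | l
  · have e2 : ∀ (l : ℕ) (j : Fin N), (zco l j : Ix A N K) ≠ Sum.inl (b, i) := by
      intro l j hh
      exact absurd hh (by simp [zco])
    simp only [e2, if_false, mul_zero, Finset.sum_const_zero, add_zero]
    rw [Finset.sum_eq_single b]
    · simp only [enD]
      congr 2
      rw [Finset.sum_eq_single i]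
      · simp [gco]
      · intro j _ hj
        simp [gco, hj]
      · intro hh
        exact absurd (Finset.mem_univ _) hh
    · intro b' _ hb'
      have e3 : ∀ j : Fin N, (gco b' j : Ix A N K) ≠ Sum.inl (b, i) := by
        intro j hh
        simp only [gco, Sum.inl.injEq, Prod.mk.injEq] at hh
        exact hb' hh.1
      simp [e3]
    · intro hh
      exact absurd (Finset.mem_univ _) hh
  · have e2 : ∀ (b : Fin A) (j : Fin N), (gco b j : Ix A N K) ≠ Sum.inr (Sum.inl (l, i)) := by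
      intro b j hh
      exact absurd hh (by simp [gco])
    simp only [e2, if_false, mul_zero, Finset.sum_const_zero, ite_self, zero_add]
    have hl : (l : ℕ) ∈ Finset.range (K + 1) := Finset.mem_range.2 l.2
    rw [Finset.sum_eq_single_of_mem (l : ℕ) hl]
    · simp only [enD]
      congr 1
      rw [Finset.sum_eq_single i]
      · simp [zco]
      · intro j _ hj
        simp [zco, hj]
      · intro hh
        exact absurd (Finset.mem_univ _) hh
    · intro l' hl' hne
      have e3 : ∀ j : Fin N, (zco l' j : Ix A N K) ≠ Sum.inr (Sum.inl (l, i)) := by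
        intro j hh
        simp only [zco, Sum.inr.injEq, Sum.inl.injEq, Prod.mk.injEq] at hh
        apply hne
        have := congrArg Fin.val hh.1
        rw [lm_val (Nat.lt_succ_iff.1 (Finset.mem_range.1 hl'))] at this
        exact this
      simp [e3]
  · have e2 : ∀ (b : Fin A) (j : Fin N), (gco b j : Ix A N K) ≠ Sum.inr (Sum.inr l) := by
      intro b j hh
      exact absurd hh (by simp [gco])
    have e3 : ∀ (l' : ℕ) (j : Fin N), (zco l' j : Ix A N K) ≠ Sum.inr (Sum.inr l) := by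
      intro l' j hh
      exact absurd hh (by simp [zco])
    simp [e2, e3, enD]

lemma lm_meas_enD (h : MD K m f f' f'' B C₁ C₂ u φ) (e : Ix A N K) (x : X) :
    Measurable fun z => enD f' φ s a e z x := by
  rcases e with ⟨b, i⟩ | ⟨l, i⟩ | l
  · by_cases hb : (b : ℕ) < a
    · simp only [enD, if_pos hb]
      exact ((lm_f'_meas h).comp (lm_lip_pf φ (gco b) x).measurable).mul_const _
    · simp only [enD, if_neg hb]
      exact measurable_const
  · exact measurable_const
  · exact measurable_const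

lemma lm_bd_enD (h : MD K m f f' f'' B C₁ C₂ u φ) :
    ∃ C : ℝ, ∀ (e : Ix A N K) (z : Ix A N K → ℝ) (x : X), |enD f' φ s a e z x| ≤ C := by
  refine ⟨∑ x : X, ∑ i : Fin N, C₁ * |1 / √(N : ℝ) * φ x i| +
    ∑ l : Fin (K + 1), ∑ x : X, ∑ i : Fin N, |s l * φ x i|, ?_⟩
  have hC0 := lm_C0 h
  have h1 : 0 ≤ ∑ x : X, ∑ i : Fin N, C₁ * |1 / √(N : ℝ) * φ x i| :=
    Finset.sum_nonneg fun _ _ => Finset.sum_nonneg fun _ _ => by positivity
  have h2 : 0 ≤ ∑ l : Fin (K + 1), ∑ x : X, ∑ i : Fin N, |s l * φ x i| :=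
    Finset.sum_nonneg fun _ _ => Finset.sum_nonneg fun _ _ => Finset.sum_nonneg fun _ _ => by
      positivity
  intro e z x
  rcases e with ⟨b, i⟩ | ⟨l, i⟩ | l
  · by_cases hb : (b : ℕ) < a
    · simp only [enD, if_pos hb]
      rw [abs_mul]
      have h3 : |f' (pf φ (gco b) z x)| * |1 / √(N : ℝ) * φ x i| ≤
          C₁ * |1 / √(N : ℝ) * φ x i| :=
        mul_le_mul_of_nonneg_right (h.hf.b1 _) (abs_nonneg _)
      have h4 : C₁ * |1 / √(N : ℝ) * φ x i| ≤ ∑ i : Fin N, C₁ * |1 / √(N : ℝ) * φ x i| :=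
        Finset.single_le_sum (f := fun i => C₁ * |1 / √(N : ℝ) * φ x i|)
          (fun _ _ => by positivity) (Finset.mem_univ i)
      have h5 : ∑ i : Fin N, C₁ * |1 / √(N : ℝ) * φ x i| ≤
          ∑ x : X, ∑ i : Fin N, C₁ * |1 / √(N : ℝ) * φ x i| :=
        Finset.single_le_sum (f := fun x => ∑ i : Fin N, C₁ * |1 / √(N : ℝ) * φ x i|)
          (fun _ _ => Finset.sum_nonneg fun _ _ => by positivity) (Finset.mem_univ x)
      linarith only [h2, h3, h4, h5]
    · simp only [enD, if_neg hb, abs_zero]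
      linarith
  · simp only [enD]
    have h3 : |s l * φ x i| ≤ ∑ i : Fin N, |s l * φ x i| :=
      Finset.single_le_sum (f := fun i => |s l * φ x i|) (fun _ _ => abs_nonneg _)
        (Finset.mem_univ i)
    have h4 : ∑ i : Fin N, |s l * φ x i| ≤ ∑ x : X, ∑ i : Fin N, |s l * φ x i| :=
      Finset.single_le_sum (f := fun x => ∑ i : Fin N, |s l * φ x i|)
        (fun _ _ => Finset.sum_nonneg fun _ _ => abs_nonneg _) (Finset.mem_univ x)
    have h5 : ∑ x : X, ∑ i : Fin N, |s l * φ x i| ≤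
        ∑ l : Fin (K + 1), ∑ x : X, ∑ i : Fin N, |s l * φ x i| :=
      Finset.single_le_sum (f := fun l : Fin (K + 1) => ∑ x : X, ∑ i : Fin N, |s l * φ x i|)
        (fun _ _ => Finset.sum_nonneg fun _ _ => Finset.sum_nonneg fun _ _ => abs_nonneg _)
        (Finset.mem_univ l)
    linarith
  · simp only [enD, abs_zero]
    linarith

theorem mdl_regD (h : MD K m f f' f'' B C₁ C₂ u φ) :
    (mdl A K m f u φ s a).RegD (enD f' φ s a) where
  m0 := h.hm.1
  mK := h.hm.2.1
  mono := fun l hl => (h.hm.2.2 l hl).le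
  pos := by
    have h1 := h.hm.2.2 0 (Nat.zero_le _)
    rw [h.hm.1] at h1
    exact h1
  lev := by
    intro e
    show lvl e ≤ K
    rcases e with ⟨b, i⟩ | ⟨l, i⟩ | l
    · exact Nat.zero_le _
    · exact Nat.lt_succ_iff.1 l.2
    · exact Nat.lt_succ_iff.1 l.2
  lip := fun x => lm_lip_en h x
  pd := fun e x => lm_pd_en h e x
  md := fun e x => lm_meas_enD h e x
  bd := lm_bd_enD h

theorem mdl_fld (h : MD K m f f' f'' B C₁ C₂ u φ) (hs : ∀ l ≤ K, 0 ≤ s l) :
    Fld (mdl A K m f u φ s a) (enD f' φ s a) φ zco s where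
  reg := mdl_regD h
  N0 := h.N0
  norm := h.norm
  lev := fun _ hl i => lm_lvl_zco (A := A) (K := K) hl i
  D := by
    intro l hl i z x
    have hl' : l ≤ K := hl
    show s (Fin.ofNat (K + 1) l : ℕ) * φ x i = s l * φ x i
    rw [lm_val hl']
  pos := hs

theorem mdl_new (h : MD K m f f' f'' B C₁ C₂ u φ) (ha : a < A) :
    NewC (mdl A K m f u φ s a) (enD f' φ s a) (gco ⟨a, ha⟩) yco where
  inj := by
    intro i j hij
    simp only [gco, Sum.inl.injEq, Prod.mk.injEq] at hij
    exact hij.2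
  gl := fun _ => rfl
  yl := fun _ hl => lm_lvl_yco (A := A) (N := N) (K := K) hl
  ne := by
    intro i l _ hh
    exact absurd hh (by simp [gco, yco])
  Dg := by
    intro i z x
    show (if a < a then _ else (0 : ℝ)) = 0
    rw [if_neg (lt_irrefl a)]
  Dy := fun _ _ _ _ => rfl

/-- Adding a pattern. -/
theorem en_succ (ha : a < A) (z : Ix A N K → ℝ) (x : X) :
    en f u φ s (a + 1) z x = en f u φ s a z x + f (pf φ (gco (⟨a, ha⟩ : Fin A)) z x) := by
  unfold en
  have h1 : ∑ b : Fin A, (if (b : ℕ) < a + 1 then f (pf φ (gco b) z x) else 0) =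
      ∑ b : Fin A, (if (b : ℕ) < a then f (pf φ (gco b) z x) else 0) +
        f (pf φ (gco (⟨a, ha⟩ : Fin A)) z x) := by
    have h2 : ∀ b : Fin A, (if (b : ℕ) < a + 1 then f (pf φ (gco b) z x) else 0) =
        (if (b : ℕ) < a then f (pf φ (gco b) z x) else 0) +
          (if b = ⟨a, ha⟩ then f (pf φ (gco b) z x) else 0) := by
      intro b
      by_cases hb : b = ⟨a, ha⟩
      · rw [if_pos hb, hb]
        simp
      · have hb' : (b : ℕ) ≠ a := fun hh => hb (Fin.ext hh)
        rw [if_neg hb, add_zero]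
        by_cases hb2 : (b : ℕ) < a
        · rw [if_pos hb2, if_pos (by omega)]
        · rw [if_neg hb2, if_neg (by omega)]
    rw [Finset.sum_congr rfl fun b _ => h2 b, Finset.sum_add_distrib]
    congr 1
    rw [Finset.sum_ite_eq' Finset.univ (⟨a, ha⟩ : Fin A)]
    simp
  rw [h1]
  ring

theorem mdl_succ (ha : a < A) : mdl A K m f u φ s (a + 1) = (mdl A K m f u φ s a).wH
    (fun z x => (mdl A K m f u φ s a).H z x + f (pf φ (gco (⟨a, ha⟩ : Fin A)) z x)) := by
  have h1 : en f u φ s (a + 1) = fun (z : Ix A N K → ℝ) x =>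
      en f u φ s a z x + f (pf φ (gco (⟨a, ha⟩ : Fin A)) z x) := by
    funext z x
    exact en_succ ha z x
  unfold mdl Sy.wH
  rw [h1]

/-- Changing the strength of the level `j`. -/
theorem mdl_pt {j : ℕ} (hj : j ≤ K) (t : ℝ) :
    mdl A K m f u φ (Function.update s j (s j + t)) a = (mdl A K m f u φ s a).pt (hx φ j) t := by
  have h1 : en f u φ (Function.update s j (s j + t)) a = fun (z : Ix A N K → ℝ) x =>
      en f u φ s a z x + t * hx φ j z x := by
    funext z x
    unfold en hx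
    have hj' : j ∈ Finset.range (K + 1) := Finset.mem_range.2 (Nat.lt_succ_of_le hj)
    rw [← Finset.add_sum_erase _ _ hj', ← Finset.add_sum_erase _ _ hj', Function.update_self]
    have h2 : ∑ l ∈ (Finset.range (K + 1)).erase j, Function.update s j (s j + t) l *
        ∑ i, z (zco l i) * φ x i = ∑ l ∈ (Finset.range (K + 1)).erase j, s l *
        ∑ i, z (zco l i) * φ x i := by
      refine Finset.sum_congr rfl fun l hl => ?_
      rw [Function.update_of_ne (Finset.ne_of_mem_erase hl)]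
    rw [h2]
    ring
  unfold mdl Sy.pt Sy.wH
  rw [h1]

/-- The level zero derivatives. -/
theorem sum_enD_le (h : MD K m f f' f'' B C₁ C₂ u φ) (z : Ix A N K → ℝ) (x : X) :
    ∑ e : Ix A N K, (if lvl e = 0 then enD f' φ s a e z x ^ 2 else 0) ≤
      A * C₁ ^ 2 + N * s 0 ^ 2 := by
  have hN := lm_Npos h
  rw [Fintype.sum_sum_type, Fintype.sum_sum_type]
  have h1 : ∑ p : Fin A × Fin N, (if lvl (Sum.inl p : Ix A N K) = 0 then
      enD f' φ s a (Sum.inl p) z x ^ 2 else 0) ≤ A * C₁ ^ 2 := by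
    rw [Fintype.sum_prod_type]
    have h2 : ∀ b : Fin A, ∑ i : Fin N, (if lvl (Sum.inl (b, i) : Ix A N K) = 0 then
        enD f' φ s a (Sum.inl (b, i)) z x ^ 2 else 0) ≤ C₁ ^ 2 := by
      intro b
      have h3 : ∀ i : Fin N, (if lvl (Sum.inl (b, i) : Ix A N K) = 0 then
          enD f' φ s a (Sum.inl (b, i)) z x ^ 2 else 0) ≤ C₁ ^ 2 * (1 / N) * φ x i ^ 2 := by
        intro i
        rw [if_pos (show lvl (Sum.inl (b, i) : Ix A N K) = 0 from rfl)]
        simp only [enD]
        by_cases hb : (b : ℕ) < a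
        · rw [if_pos hb]
          have h4 : f' (pf φ (gco b) z x) ^ 2 ≤ C₁ ^ 2 :=
            sq_le_sq' (abs_le.1 (h.hf.b1 _)).1 (abs_le.1 (h.hf.b1 _)).2
          have h5 : (f' (pf φ (gco b) z x) * (1 / √(N : ℝ) * φ x i)) ^ 2 =
              f' (pf φ (gco b) z x) ^ 2 * ((1 / N) * φ x i ^ 2) := by
            rw [mul_pow, mul_pow, div_pow, one_pow, Real.sq_sqrt hN.le]
          rw [h5, mul_assoc]
          exact mul_le_mul_of_nonneg_right h4 (by positivity)
        · rw [if_neg hb, zero_pow two_ne_zero]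
          positivity
      refine (Finset.sum_le_sum fun i _ => h3 i).trans (le_of_eq ?_)
      rw [← Finset.mul_sum, h.norm, mul_assoc, one_div_mul_cancel hN.ne', mul_one]
    refine (Finset.sum_le_sum fun b _ => h2 b).trans (le_of_eq ?_)
    simp
  have h2 : ∑ p : Fin (K + 1) × Fin N, (if lvl (Sum.inr (Sum.inl p) : Ix A N K) = 0 then
      enD f' φ s a (Sum.inr (Sum.inl p)) z x ^ 2 else 0) = N * s 0 ^ 2 := by
    rw [Fintype.sum_prod_type, Finset.sum_eq_single (0 : Fin (K + 1))]
    · have h3 : ∀ i : Fin N, (if lvl (Sum.inr (Sum.inl ((0 : Fin (K + 1)), i)) : Ix A N K) = 0 then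
          enD f' φ s a (Sum.inr (Sum.inl ((0 : Fin (K + 1)), i))) z x ^ 2 else 0) =
          s 0 ^ 2 * φ x i ^ 2 := by
        intro i
        rw [if_pos (by simp [lvl])]
        simp [enD, mul_pow]
      rw [Finset.sum_congr rfl fun i _ => h3 i, ← Finset.mul_sum, h.norm, mul_comm]
    · intro l _ hl
      refine Finset.sum_eq_zero fun i _ => if_neg ?_
      simp only [lvl]
      intro hh
      exact hl (Fin.ext hh)
    · intro hh
      exact absurd (Finset.mem_univ _) hh
  have h3 : ∑ l : Fin (K + 1), (if lvl (Sum.inr (Sum.inr l) : Ix A N K) = 0 then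
      enD f' φ s a (Sum.inr (Sum.inr l)) z x ^ 2 else 0) = 0 := by
    refine Finset.sum_eq_zero fun l _ => ?_
    simp [enD]
  rw [h2, h3]
  linarith

/-- The free energy per spin. -/
noncomputable def Fe (A K : ℕ) (m : ℕ → ℝ) (f : ℝ → ℝ) (u : X → ℝ) (φ : X → Fin N → ℝ) (a : ℕ)
    (s : ℕ → ℝ) : ℝ := 1 / N * (mdl A K m f u φ s a).fe

lemma lm_hx_eq (h : MD K m f f' f'' B C₁ C₂ u φ) (l : ℕ) (z : Ix A N K → ℝ) (x : X) :
    ∑ i, z (zco l i) * φ x i = N * hz φ zco l z x := by
  unfold hz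
  rw [← mul_assoc, mul_one_div_cancel (lm_Npos h).ne', one_mul]

lemma lm_nh_hz (φ : X → Fin N → ℝ) (l : ℕ) : Nh (hz φ (zco : ℕ → Fin N → Ix A N K) l) :=
  Sy.Nh.const_mul _ (Sy.Nh.sum _ fun i _ => Sy.Nh.mul (Sy.Nh.fst (EG.coord (zco l i))) (Sy.Nh.snd fun x => φ x i))

lemma lm_wH (s s' : ℕ → ℝ) (a a' : ℕ) : (mdl A K m f u φ s a).wH (en f u φ s' a') =
    mdl A K m f u φ s' a' := rfl

/-- The tangent inequality in the strengths. -/
theorem Fe_tangent (h : MD K m f f' f'' B C₁ C₂ u φ) (s s' : ℕ → ℝ) :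
    ∑ l ∈ Finset.range (K + 1), (s' l - s l) *
      (mdl A K m f u φ s a).Ex (hz φ zco l) ≤ Fe A K m f u φ a s' - Fe A K m f u φ a s := by
  have hN := lm_Npos h
  have hR : (mdl A K m f u φ s a).Reg := (mdl_regD h).toReg
  have hR' : ((mdl A K m f u φ s a).wH (en f u φ s' a)).Reg := (mdl_regD (s := s') h).toReg
  have h1 := hR.jensen hR'
  rw [lm_wH] at h1
  have h2 : (mdl A K m f u φ s a).Ex (fun z x => en f u φ s' a z x - (mdl A K m f u φ s a).H z x) =
      N * ∑ l ∈ Finset.range (K + 1), (s' l - s l) * (mdl A K m f u φ s a).Ex (hz φ zco l) := by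
    have h3 : (fun (z : Ix A N K → ℝ) x => en f u φ s' a z x - (mdl A K m f u φ s a).H z x) =
        fun z x => ∑ l ∈ Finset.range (K + 1), (N * (s' l - s l)) * hz φ zco l z x := by
      funext z x
      show en f u φ s' a z x - en f u φ s a z x = _
      unfold en
      rw [add_sub_add_left_eq_sub, ← Finset.sum_sub_distrib]
      refine Finset.sum_congr rfl fun l _ => ?_
      rw [lm_hx_eq h]
      ring
    rw [h3, hR.Ex_sum _ fun l _ => Sy.Nh.const_mul _ (lm_nh_hz φ l), Finset.mul_sum]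
    refine Finset.sum_congr rfl fun l _ => ?_
    rw [Sy.Ex_const_mul]
    ring
  rw [h2] at h1
  unfold Fe
  rw [← mul_sub, one_div, le_inv_mul_iff₀ hN]
  exact h1

/-- The fields increase the free energy. -/
theorem Fe_zero_le (h : MD K m f f' f'' B C₁ C₂ u φ) (s : ℕ → ℝ) :
    Fe A K m f u φ a (fun _ => 0) ≤ Fe A K m f u φ a s := by
  have h1 := Fe_tangent (A := A) (a := a) h (fun _ => 0) s
  have F := mdl_fld (A := A) (a := a) (s := fun _ => 0) h (fun _ _ => le_rfl)
  have h2 : ∑ l ∈ Finset.range (K + 1), (s l - (fun _ => (0 : ℝ)) l) *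
      (mdl A K m f u φ (fun _ => 0) a).Ex (hz φ zco l) = 0 := by
    refine Finset.sum_eq_zero fun l hl => ?_
    rw [F.Ex_hz (Nat.lt_succ_iff.1 (Finset.mem_range.1 hl)), zero_mul, mul_zero]
  rw [h2] at h1
  linarith

/-- The first `a` patterns change the free energy by at most `a B`. -/
theorem abs_Fe_sub_le (h : MD K m f f' f'' B C₁ C₂ u φ) (s : ℕ → ℝ) (ha : a ≤ A) :
    |Fe A K m f u φ a s - Fe A K m f u φ 0 s| ≤ a * B / N := by
  have hN := lm_Npos h
  have hB := lm_B0 h
  have hR : (mdl A K m f u φ s 0).Reg := (mdl_regD h).toReg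
  have hR' : ((mdl A K m f u φ s 0).wH (en f u φ s a)).Reg := (mdl_regD (a := a) h).toReg
  have h1 : ∀ (z : Ix A N K → ℝ) (x : X),
      |en f u φ s a z x - (mdl A K m f u φ s 0).H z x| ≤ a * B := by
    intro z x
    show |en f u φ s a z x - en f u φ s 0 z x| ≤ a * B
    have h2 : en f u φ s a z x - en f u φ s 0 z x =
        ∑ b : Fin A, (if (b : ℕ) < a then f (pf φ (gco b) z x) else 0) := by
      unfold en
      simp only [Nat.not_lt_zero, if_false, Finset.sum_const_zero]
      ring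
    rw [h2]
    refine (Finset.abs_sum_le_sum_abs _ _).trans ?_
    have h3 : ∀ b : Fin A, |(if (b : ℕ) < a then f (pf φ (gco b) z x) else 0)| ≤
        if (b : ℕ) < a then B else 0 := by
      intro b
      by_cases hb : (b : ℕ) < a
      · rw [if_pos hb, if_pos hb]
        exact h.hB _
      · rw [if_neg hb, if_neg hb, abs_zero]
    refine (Finset.sum_le_sum fun b _ => h3 b).trans ?_
    rw [← Finset.sum_filter, Finset.sum_const, nsmul_eq_mul]
    refine mul_le_mul_of_nonneg_right ?_ hB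
    have h4 : (Finset.univ.filter fun b : Fin A => (b : ℕ) < a).card ≤ a := by
      have h5 : (Finset.univ.filter fun b : Fin A => (b : ℕ) < a).card ≤
          (Finset.range a).card := by
        refine Finset.card_le_card_of_injOn (fun b : Fin A => (b : ℕ)) ?_ ?_
        · intro b hb
          simp only [Finset.coe_filter, Finset.mem_univ, true_and, Set.mem_ofPred_eq] at hb
          simpa using hb
        · intro b _ b' _ hbb
          exact Fin.ext hbb
      rwa [Finset.card_range] at h5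
    exact_mod_cast h4
  have h2 := hR.fe_sub_le hR' h1
  rw [lm_wH] at h2
  unfold Fe
  rw [← mul_sub, abs_mul, abs_of_pos (by positivity : (0 : ℝ) < 1 / N), one_div,
    inv_mul_le_iff₀ hN, mul_div_cancel₀ _ hN.ne']
  exact h2

/-- The coordinates of the patterns. -/
lemma lm_map_inl (α β : Type) [Fintype α] [Fintype β] :
    (gI (α ⊕ β)).map (fun z p => z (Sum.inl p)) = gI α := by
  symm
  apply Measure.pi_eq
  intro s hs
  have hm : Measurable fun (z : α ⊕ β → ℝ) (p : α) => z (Sum.inl p) := by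
    rw [measurable_pi_iff]
    intro p
    exact measurable_pi_apply _
  rw [Measure.map_apply hm (MeasurableSet.univ_pi hs)]
  have h1 : (fun (z : α ⊕ β → ℝ) (p : α) => z (Sum.inl p)) ⁻¹' (Set.univ.pi s) =
      Set.univ.pi (Sum.elim s fun _ => Set.univ) := by
    ext z
    simp only [Set.mem_preimage, Set.mem_pi, Set.mem_univ, forall_true_left]
    constructor
    · intro h e
      rcases e with p | q
      · exact h p
      · exact Set.mem_univ _
    · intro h p
      exact h (Sum.inl p)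
  rw [h1, Measure.pi_pi, Fintype.prod_sum_type]
  simp

/-- Currying. -/
lemma lm_map_curry (A N : ℕ) : (gI (Fin A × Fin N)).map (MeasurableEquiv.curry (Fin A) (Fin N) ℝ) =
    Measure.pi fun _ => Measure.pi fun _ => gaussianReal 0 1 := by
  have h := Measure.infinitePi_map_curry
    (fun (_ : Fin A) (_ : Fin N) => gaussianReal 0 1)
  simp_rw [Measure.infinitePi_eq_pi] at h
  exact h

/-- Without fields. -/
theorem Fe_no_field (h : MD K m f f' f'' B C₁ C₂ u φ) :
    Fe A K m f u φ A (fun _ => 0) = 1 / N * ∫ g : Fin A → Fin N → ℝ,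
      Real.log (∑ x, Real.exp (u x + ∑ b, f (1 / √(N : ℝ) * ∑ i, φ x i * g b i)))
        ∂(Measure.pi fun _ => Measure.pi fun _ => gaussianReal 0 1) := by
  have hR : (mdl A K m f u φ (fun _ => 0) A).Reg := (mdl_regD h).toReg
  have hen : ∀ (z : Ix A N K → ℝ) (x : X), en f u φ (fun _ => 0) A z x =
      u x + ∑ b : Fin A, f (1 / √(N : ℝ) * ∑ i, φ x i * z (Sum.inl (b, i))) := by
    intro z x
    unfold en
    simp only [zero_mul, Finset.sum_const_zero, add_zero, Fin.is_lt, if_true]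
    rfl
  unfold Fe
  congr 1
  rw [fe_level_zero hR]
  · have hfc : Continuous f := continuous_iff_continuousAt.2 fun x => (h.hf.d1 x).continuousAt
    have hG : Continuous fun g : Fin A → Fin N → ℝ =>
        Real.log (∑ x, Real.exp (u x + ∑ b, f (1 / √(N : ℝ) * ∑ i, φ x i * g b i))) := by
      refine Continuous.log ?_ fun g => ?_
      · fun_prop
      · exact (Finset.sum_pos (fun _ _ => Real.exp_pos _) Finset.univ_nonempty).ne'
    have hm : Measurable fun (z : Ix A N K → ℝ) (p : Fin A × Fin N) => z (Sum.inl p) := by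
      rw [measurable_pi_iff]
      intro p
      exact measurable_pi_apply _
    rw [← lm_map_curry A N, integral_map
      (MeasurableEquiv.curry (Fin A) (Fin N) ℝ).measurable.aemeasurable
      hG.aestronglyMeasurable, ← lm_map_inl (Fin A × Fin N) ((Fin (K + 1) × Fin N) ⊕ Fin (K + 1)),
      integral_map hm.aemeasurable]
    · refine integral_congr_ae (Filter.Eventually.of_forall fun z => ?_)
      show Real.log (∑ x, Real.exp (en f u φ (fun _ => 0) A z x)) = _
      simp only [hen]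
      rfl
    · exact (hG.measurable.comp
        (MeasurableEquiv.curry (Fin A) (Fin N) ℝ).measurable).aestronglyMeasurable
  · intro x z w
    show en f u φ (fun _ => 0) A (mix lvl 0 z w) x = en f u φ (fun _ => 0) A z x
    rw [hen, hen]
    rfl

/-- Without patterns. -/
theorem Fe_no_pattern (h : MD K m f f' f'' B C₁ C₂ u φ) (hs : ∀ l ≤ K, 0 ≤ s l) :
    Fe A K m f u φ 0 s =
      1 / N * topN m (fun l => ∑ j ∈ Finset.range (l + 1), s j ^ 2) K (lw φ 1 u) := by
  unfold Fe
  congr 1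
  have h1 := fe_field (S := mdl A K m f u φ s 0) (mdl_regD h) (φ := φ) (u := u) (zc := zco)
    (s := s) (fun l hl i => lm_lvl_zco (A := A) (K := K) hl i) (fun l hl i j hij => by
      simp only [zco, Sum.inr.injEq, Sum.inl.injEq, Prod.mk.injEq] at hij
      exact hij.2) hs (fun z x => by
      show en f u φ s 0 z x = _
      unfold en
      simp only [Nat.not_lt_zero, if_false, Finset.sum_const_zero, add_zero]
      rfl)
  exact h1

/-- Without patterns and fields. -/
theorem Fe_zero_zero (h : MD K m f f' f'' B C₁ C₂ u φ) :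
    Fe A K m f u φ 0 (fun _ => 0) = 1 / N * Real.log (∑ x, Real.exp (u x)) := by
  have hR : (mdl A K m f u φ (fun _ => 0) 0).Reg := (mdl_regD h).toReg
  have hen : ∀ (z : Ix A N K → ℝ) (x : X), en f u φ (fun _ => 0) 0 z x = u x := by
    intro z x
    unfold en
    simp
  unfold Fe
  congr 1
  rw [fe_level_zero hR]
  · have h1 : (mdl A K m f u φ (fun _ => 0) 0).top = fun _ => Real.log (∑ x, Real.exp (u x)) := by
      funext z
      show Real.log (∑ x, Real.exp (en f u φ (fun _ => 0) 0 z x)) = _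
      simp only [hen]
    rw [h1]
    simp
  · intro x z w
    show en f u φ (fun _ => 0) 0 (mix lvl 0 z w) x = en f u φ (fun _ => 0) 0 z x
    rw [hen, hen]

/-- The mean of the field of the level zero is at most one (the level zero is not tilted). -/
theorem Ex_hz_zero_le (h : MD K m f f' f'' B C₁ C₂ u φ) :
    (mdl A K m f u φ s a).Ex (hz φ zco 0) ≤ 1 := by
  have hN := lm_Npos h
  have hR : (mdl A K m f u φ s a).Reg := (mdl_regD h).toReg
  have hn := lm_nh_hz (A := A) (K := K) φ 0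
  have h1 := hR.Ex_cs hn (g := fun _ _ => 1) (Sy.Nh.snd fun _ => 1)
  simp only [mul_one, one_pow, hR.Ex_const] at h1
  set F : (Ix A N K → ℝ) → ℝ := fun z => 1 / N * ∑ i, z (zco 0 i) ^ 2 with hF
  have hFe : EG F := EG.const_mul _ (EG.sum _ fun i _ => (EG.coord (zco 0 i)).pow 2)
  have h2 : (mdl A K m f u φ s a).Ex (fun z x => hz φ zco 0 z x ^ 2) ≤
      (mdl A K m f u φ s a).Ex (fun z _ => F z) := by
    refine hR.Ex_mono (Sy.Nh.pow hn 2) (Sy.Nh.fst hFe) fun z x => ?_
    have h3 := Finset.sum_mul_sq_le_sq_mul_sq Finset.univ (fun i => z (zco 0 i)) (φ x)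
    rw [h.norm] at h3
    show (1 / N * ∑ i, z (zco 0 i) * φ x i) ^ 2 ≤ 1 / N * ∑ i, z (zco 0 i) ^ 2
    rw [mul_pow]
    calc (1 / (N : ℝ)) ^ 2 * (∑ i, z (zco 0 i) * φ x i) ^ 2 ≤
        (1 / (N : ℝ)) ^ 2 * ((∑ i, z (zco 0 i) ^ 2) * N) :=
          mul_le_mul_of_nonneg_left h3 (by positivity)
      _ = _ := by field_simp
  have h3 : (mdl A K m f u φ s a).Ex (fun z _ => F z) = ∫ z, F z ∂(gI _) := by
    refine hR.Ex_dep ?_ hFe
    intro z w
    show 1 / (N : ℝ) * ∑ i, mix lvl 0 z w (zco 0 i) ^ 2 = 1 / N * ∑ i, z (zco 0 i) ^ 2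
    have h4 : ∀ i : Fin N, mix lvl 0 z w (zco 0 i) = z (zco 0 i) := by
      intro i
      unfold mix
      rw [if_pos (lm_lvl_zco (Nat.zero_le _) i).le]
    simp only [h4]
  have h4 : ∫ z, F z ∂(gI (Ix A N K)) = 1 := by
    have h5 : ∀ e : Ix A N K, ∫ z : Ix A N K → ℝ, z e ^ 2 ∂(gI _) = 1 := by
      intro e
      have h6 := PD.stein (PD.coord (e := e) e) (EG.coord e) (EG.of_bdd (C := 1)
        measurable_const fun y => by simp)
      have h7 : (fun z : Ix A N K → ℝ => z e ^ 2) = fun z => z e * z e := by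
        funext z
        ring
      rw [h7, h6]
      simp
    rw [hF, integral_const_mul, integral_finsetSum _ fun i _ =>
      ((EG.coord (zco 0 i)).pow 2).integrable]
    simp only [h5]
    rw [Finset.sum_const, Finset.card_univ, Fintype.card_fin, nsmul_eq_mul, mul_one,
      one_div_mul_cancel hN.ne']
  rw [h3, h4] at h2
  have h5 : (mdl A K m f u φ s a).Ex (hz φ zco 0) ^ 2 ≤ 1 := h1.trans h2
  exact (le_abs_self _).trans (abs_le_one_iff_mul_self_le_one.2 (by linarith [sq ((mdl A K m f u φ s a).Ex (hz φ zco 0))]))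

end Vale.Agent.P157.Lv
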