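import Vale.Agent.P157.LvModel

/-!
The optimal strengths of the fields: existence, bounds, first and second order conditions,
concentration of the fields.
-/

open MeasureTheory ProbabilityTheory Filter Topology

namespace Vale.Agent.P157.Lv

set_option linter.unusedSectionVars false

open Par (incr Path Exponents cascade gstep patternPart spinPart topN lw)

/-- The coefficients `a_j = 1 - ∑_{l ≥ j} p_l q_l`. -/
noncomputable def aco (K : ℕ) (m q : ℕ → ℝ) (j : ℕ) : ℝ :=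
  1 - ∑ l ∈ Finset.Ico j (K + 1), (m (l + 1) - m l) * q l

/-- The penalty. -/
noncomputable def Pen (K : ℕ) (m q : ℕ → ℝ) (η : ℝ) (s : ℕ → ℝ) : ℝ :=
  ∑ j ∈ Finset.range (K + 1), (1 / 2 * (aco K m q j + η) * s j ^ 2 + η / s j)

lemma o8_m_nonneg {K : ℕ} {m : ℕ → ℝ} (hm : Exponents K m) : ∀ j ≤ K + 1, 0 ≤ m j := by
  intro j
  induction j with
  | zero => intro _; rw [hm.1]
  | succ j ih => intro hj; exact (ih (by omega)).trans (hm.2.2 j (by omega)).le

lemma o8_q_le {K : ℕ} {q : ℕ → ℝ} (hq : Path K q) (hq1 : q K ≤ 1) :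
    ∀ l ≤ K, 0 ≤ q l ∧ q l ≤ 1 := by
  have h0 : ∀ l ≤ K, 0 ≤ q l := by
    intro l
    induction l with
    | zero => intro _; exact hq.1
    | succ l ih => intro hl; exact (ih (by omega)).trans (hq.2 l (by omega))
  have h1 : ∀ d l, l + d = K → q l ≤ q K := by
    intro d
    induction d with
    | zero => intro l hl; rw [← hl]; simp
    | succ d ih => intro l hl; exact (hq.2 l (by omega)).trans (ih (l + 1) (by omega))
  intro l hl
  exact ⟨h0 l hl, (h1 (K - l) l (by omega)).trans hq1⟩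

lemma aco_nonneg {K : ℕ} {m q : ℕ → ℝ} (hm : Exponents K m) (hq : Path K q) (hq1 : q K ≤ 1)
    {j : ℕ} (hj : j ≤ K) : 0 ≤ aco K m q j := by
  have h1 : ∑ l ∈ Finset.Ico j (K + 1), (m (l + 1) - m l) * q l ≤
      ∑ l ∈ Finset.Ico j (K + 1), (m (l + 1) - m l) := by
    refine Finset.sum_le_sum fun l hl => ?_
    rw [Finset.mem_Ico] at hl
    have h2 := o8_q_le hq hq1 l (by omega)
    have h3 := hm.2.2 l (by omega)
    nlinarith only [h2, h3, h2.2]
  rw [Finset.sum_Ico_sub _ (by omega : j ≤ K + 1), hm.2.1] at h1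
  have h2 := o8_m_nonneg hm j (by omega)
  unfold aco
  linarith

lemma aco_le_one {K : ℕ} {m q : ℕ → ℝ} (hm : Exponents K m) (hq : Path K q)
    {j : ℕ} (hj : j ≤ K) : aco K m q j ≤ 1 := by
  have h0 : ∀ l ≤ K, 0 ≤ q l := by
    intro l
    induction l with
    | zero => intro _; exact hq.1
    | succ l ih => intro hl; exact (ih (by omega)).trans (hq.2 l (by omega))
  have h1 : 0 ≤ ∑ l ∈ Finset.Ico j (K + 1), (m (l + 1) - m l) * q l := by
    refine Finset.sum_nonneg fun l hl => ?_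
    rw [Finset.mem_Ico] at hl
    have h3 := hm.2.2 l (by omega)
    exact mul_nonneg (by linarith) (h0 l (by omega))
  unfold aco
  linarith

/-- Summation by parts: the quadratic part of the penalty in terms of the path `r`. -/
lemma sum_aco (K : ℕ) (m q s : ℕ → ℝ) :
    1 / 2 * ∑ j ∈ Finset.range (K + 1), aco K m q j * s j ^ 2 =
      1 / 2 * ∑ j ∈ Finset.range (K + 1), s j ^ 2 - 1 / 2 * ∑ l ∈ Finset.range (K + 1),
        (m (l + 1) - m l) * (∑ j ∈ Finset.range (l + 1), s j ^ 2) * q l := by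
  have h1 : ∑ j ∈ Finset.range (K + 1), aco K m q j * s j ^ 2 =
      ∑ j ∈ Finset.range (K + 1), s j ^ 2 - ∑ j ∈ Finset.range (K + 1),
        ∑ l ∈ Finset.Ico j (K + 1), (m (l + 1) - m l) * q l * s j ^ 2 := by
    rw [← Finset.sum_sub_distrib]
    refine Finset.sum_congr rfl fun j _ => ?_
    unfold aco
    rw [sub_mul, one_mul, Finset.sum_mul]
  have h2 : ∑ j ∈ Finset.range (K + 1),
      ∑ l ∈ Finset.Ico j (K + 1), (m (l + 1) - m l) * q l * s j ^ 2 =
      ∑ l ∈ Finset.range (K + 1), ∑ j ∈ Finset.range (l + 1),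
        (m (l + 1) - m l) * q l * s j ^ 2 := by
    refine Finset.sum_comm' fun j l => ?_
    simp only [Finset.mem_range, Finset.mem_Ico]
    omega
  have h3 : ∑ l ∈ Finset.range (K + 1), ∑ j ∈ Finset.range (l + 1),
        (m (l + 1) - m l) * q l * s j ^ 2 = ∑ l ∈ Finset.range (K + 1),
        (m (l + 1) - m l) * (∑ j ∈ Finset.range (l + 1), s j ^ 2) * q l := by
    refine Finset.sum_congr rfl fun l _ => ?_
    rw [← Finset.mul_sum]
    ring
  rw [h1, h2, h3]
  ring

variable {X : Type} [Fintype X] [DecidableEq X] [Nonempty X] {A N K : ℕ}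
  {m q : ℕ → ℝ} {f f' f'' : ℝ → ℝ} {B C₁ C₂ : ℝ} {u : X → ℝ} {φ : X → Fin N → ℝ}
  {s : ℕ → ℝ} {a : ℕ} {η : ℝ}

/-- The objective. -/
noncomputable def Ob (A K : ℕ) (m q : ℕ → ℝ) (η : ℝ) (f : ℝ → ℝ) (u : X → ℝ)
    (φ : X → Fin N → ℝ) (a : ℕ) (s : ℕ → ℝ) : ℝ := Fe A K m f u φ a s - Pen K m q η s

/-- Optimal strengths. -/
structure IsOpt (A K : ℕ) (m q : ℕ → ℝ) (η : ℝ) (f : ℝ → ℝ) (u : X → ℝ)
    (φ : X → Fin N → ℝ) (a : ℕ) (s : ℕ → ℝ) : Prop where
  pos : ∀ j ≤ K, 0 < s j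
  max : ∀ s' : ℕ → ℝ, (∀ j ≤ K, 0 < s' j) → Ob A K m q η f u φ a s' ≤ Ob A K m q η f u φ a s

/-- The objective depends only on the strengths of the levels `0, …, K`. -/
lemma o8_mdl_congr {s s' : ℕ → ℝ} (hs : ∀ j ≤ K, s j = s' j) :
    mdl A K m f u φ s a = mdl A K m f u φ s' a := by
  unfold mdl
  congr 1
  funext z x
  unfold en
  congr 1
  refine Finset.sum_congr rfl fun l hl => ?_
  rw [Finset.mem_range] at hl
  rw [hs l (by omega)]

lemma o8_Fe_congr {s s' : ℕ → ℝ} (hs : ∀ j ≤ K, s j = s' j) :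
    Fe A K m f u φ a s = Fe A K m f u φ a s' := by
  unfold Fe
  rw [o8_mdl_congr hs]

lemma o8_Pen_congr {s s' : ℕ → ℝ} (hs : ∀ j ≤ K, s j = s' j) :
    Pen K m q η s = Pen K m q η s' := by
  unfold Pen
  refine Finset.sum_congr rfl fun l hl => ?_
  rw [Finset.mem_range] at hl
  rw [hs l (by omega)]

lemma o8_Ob_congr {s s' : ℕ → ℝ} (hs : ∀ j ≤ K, s j = s' j) :
    Ob A K m q η f u φ a s = Ob A K m q η f u φ a s' := by
  unfold Ob
  rw [o8_Fe_congr hs, o8_Pen_congr hs]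

/-- Strengths from a vector. -/
def o8_ext (v : Fin (K + 1) → ℝ) (j : ℕ) : ℝ := if h : j < K + 1 then v ⟨j, h⟩ else 0

lemma o8_ext_apply (v : Fin (K + 1) → ℝ) {j : ℕ} (hj : j ≤ K) :
    o8_ext v j = v ⟨j, Nat.lt_succ_of_le hj⟩ := dif_pos _

lemma o8_ext_res (s : ℕ → ℝ) : ∀ j ≤ K, s j = o8_ext (fun i : Fin (K + 1) => s i) j := by
  intro j hj
  rw [o8_ext_apply _ hj]

/-- The upper bound of the objective. -/
lemma o8_Ob_le (h : MD K m f f' f'' B C₁ C₂ u φ) (hη : 0 < η) (ha : a ≤ A) {C : ℝ}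
    (hC : ∀ s : ℕ → ℝ, (∀ j ≤ K, 0 ≤ s j) → Fe A K m f u φ 0 s -
      1 / 2 * ∑ j ∈ Finset.range (K + 1), aco K m q j * s j ^ 2 ≤ C) (hs : ∀ j ≤ K, 0 < s j)
    {j : ℕ} (hj : j ≤ K) :
    η / 2 * s j ^ 2 + η / s j ≤ C + a * B / N - Ob A K m q η f u φ a s := by
  have h1 := hC s fun j hj => (hs j hj).le
  have h2 := (abs_le.1 (abs_Fe_sub_le (A := A) h s ha)).2
  have h3 : Pen K m q η s = 1 / 2 * ∑ j ∈ Finset.range (K + 1), aco K m q j * s j ^ 2 +
      ∑ j ∈ Finset.range (K + 1), (η / 2 * s j ^ 2 + η / s j) := by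
    unfold Pen
    rw [Finset.mul_sum, ← Finset.sum_add_distrib]
    refine Finset.sum_congr rfl fun l _ => ?_
    ring
  have h4 : η / 2 * s j ^ 2 + η / s j ≤
      ∑ j ∈ Finset.range (K + 1), (η / 2 * s j ^ 2 + η / s j) := by
    refine Finset.single_le_sum (f := fun j => η / 2 * s j ^ 2 + η / s j) (fun l hl => ?_)
      (Finset.mem_range.2 (by omega : j < K + 1))
    rw [Finset.mem_range] at hl
    have := hs l (by omega)
    positivity
  unfold Ob
  linarith only [h1, h2, h3, h4]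

/-- The free energy is convex in the strengths. -/
lemma o8_convex (h : MD K m f f' f'' B C₁ C₂ u φ) :
    ConvexOn ℝ Set.univ fun v : Fin (K + 1) → ℝ => Fe A K m f u φ a (o8_ext v) := by
  refine ⟨convex_univ, fun x _ y _ α β hα hβ hαβ => ?_⟩
  have h1 := Fe_tangent (A := A) (a := a) h (o8_ext (α • x + β • y)) (o8_ext x)
  have h2 := Fe_tangent (A := A) (a := a) h (o8_ext (α • x + β • y)) (o8_ext y)
  have h3 : α * (∑ l ∈ Finset.range (K + 1), (o8_ext x l - o8_ext (α • x + β • y) l) *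
      (mdl A K m f u φ (o8_ext (α • x + β • y)) a).Ex (hz φ zco l)) +
      β * (∑ l ∈ Finset.range (K + 1), (o8_ext y l - o8_ext (α • x + β • y) l) *
      (mdl A K m f u φ (o8_ext (α • x + β • y)) a).Ex (hz φ zco l)) = 0 := by
    rw [Finset.mul_sum, Finset.mul_sum, ← Finset.sum_add_distrib]
    refine Finset.sum_eq_zero fun l hl => ?_
    rw [Finset.mem_range] at hl
    have hl' : l ≤ K := by omega
    rw [o8_ext_apply _ hl', o8_ext_apply _ hl', o8_ext_apply _ hl']
    simp only [Pi.add_apply, Pi.smul_apply, smul_eq_mul]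
    generalize (mdl A K m f u φ (o8_ext (α • x + β • y)) a).Ex (hz φ zco l) = E
    have h4 : β = 1 - α := by linarith only [hαβ]
    subst h4
    ring
  have h4 := mul_le_mul_of_nonneg_left h1 hα
  have h5 := mul_le_mul_of_nonneg_left h2 hβ
  have h6 : Fe A K m f u φ a (o8_ext (α • x + β • y)) =
      α * Fe A K m f u φ a (o8_ext (α • x + β • y)) +
      β * Fe A K m f u φ a (o8_ext (α • x + β • y)) := by
    rw [← add_mul, hαβ, one_mul]
  simp only [smul_eq_mul]
  linarith only [h3, h4, h5, h6]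

/-- Existence. Proof: `Fe 0 s - (1/2) ∑ a_j s_j² ≤ C` and `abs_Fe_sub_le` make the objective tend to
`-∞` at infinity (like `-(η/2) |s|²`) and at the boundary of the orthant (like `-η / s_j`); it is
continuous (`Fe_tangent`). -/
theorem exists_opt (h : MD K m f f' f'' B C₁ C₂ u φ) (hη : 0 < η) (ha : a ≤ A) {C : ℝ}
    (hC : ∀ s : ℕ → ℝ, (∀ j ≤ K, 0 ≤ s j) → Fe A K m f u φ 0 s -
      1 / 2 * ∑ j ∈ Finset.range (K + 1), aco K m q j * s j ^ 2 ≤ C) :
    ∃ s, IsOpt A K m q η f u φ a s := by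
  classical
  obtain ⟨V, hV⟩ : ∃ V, V = Ob A K m q η f u φ a (fun _ => 1) := ⟨_, rfl⟩
  obtain ⟨M, hM⟩ : ∃ M, M = C + a * B / N - V := ⟨_, rfl⟩
  have hM0 : η / 2 + η ≤ M := by
    have := o8_Ob_le (q := q) (s := fun _ => (1 : ℝ)) h hη ha hC (fun _ _ => one_pos)
      (Nat.zero_le K)
    rw [hM, hV]
    simpa using this
  have hMpos : 0 < M := by linarith only [hη, hM0]
  -- strengths with a large value lie in a box
  have hbox : ∀ s : ℕ → ℝ, (∀ j ≤ K, 0 < s j) → V ≤ Ob A K m q η f u φ a s →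
      ∀ j ≤ K, η / M ≤ s j ∧ s j ≤ 1 + 2 * M / η := by
    intro s hs hVs j hj
    have h1 := o8_Ob_le h hη ha hC hs hj
    have hsj := hs j hj
    have h2 : 0 ≤ η / 2 * s j ^ 2 := by positivity
    have h3 : 0 ≤ η / s j := by positivity
    constructor
    · have h4 : η / s j ≤ M := by linarith only [hM, hVs, h1, h2]
      rw [div_le_iff₀ hsj] at h4
      rw [div_le_iff₀ hMpos]
      linarith only [h4]
    · have h4 : η / 2 * s j ^ 2 ≤ M := by linarith only [hM, hVs, h1, h3]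
      have h5 : s j ^ 2 ≤ 2 * M / η := by
        rw [le_div_iff₀ hη]
        linarith only [hM, hVs, h1, h3]
      linarith only [hsj, h5, sq_nonneg (s j - 1)]
  -- the maximum over the box
  obtain ⟨Kb, hKb⟩ : ∃ Kb : Set (Fin (K + 1) → ℝ),
      Kb = Set.Icc (fun _ => η / M) (fun _ => 1 + 2 * M / η) := ⟨_, rfl⟩
  have hcomp : IsCompact Kb := by rw [hKb]; exact isCompact_Icc
  have hpos : ∀ v ∈ Kb, ∀ j ≤ K, 0 < o8_ext v j := by
    intro v hv j hj
    rw [hKb] at hv
    rw [o8_ext_apply _ hj]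
    exact lt_of_lt_of_le (by positivity) (hv.1 _)
  have hFc : Continuous fun v : Fin (K + 1) → ℝ => Fe A K m f u φ a (o8_ext v) := by
    rw [← continuousOn_univ]
    exact (o8_convex h).continuousOn isOpen_univ
  have hPc : ContinuousOn (fun v : Fin (K + 1) → ℝ => Pen K m q η (o8_ext v)) Kb := by
    unfold Pen
    refine continuousOn_finsetSum _ fun j hj => ?_
    rw [Finset.mem_range] at hj
    have hj' : j ≤ K := by omega
    have hc : Continuous fun v : Fin (K + 1) → ℝ => o8_ext v j := by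
      have : (fun v : Fin (K + 1) → ℝ => o8_ext v j) =
          fun v => v ⟨j, Nat.lt_succ_of_le hj'⟩ := by
        funext v
        exact o8_ext_apply v hj'
      rw [this]
      exact continuous_apply _
    refine ContinuousOn.add ((hc.pow 2).const_mul _).continuousOn ?_
    exact continuousOn_const.div hc.continuousOn fun v hv => (hpos v hv j hj').ne'
  have hOc : ContinuousOn (fun v : Fin (K + 1) → ℝ => Ob A K m q η f u φ a (o8_ext v)) Kb :=
    hFc.continuousOn.sub hPc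
  have h1mem : (fun _ => (1 : ℝ)) ∈ Kb := by
    rw [hKb]
    have h2 := hbox (fun _ => 1) (fun _ _ => one_pos) hV.le 0 (Nat.zero_le _)
    exact ⟨fun _ => h2.1, fun _ => h2.2⟩
  obtain ⟨v, hv, hmax⟩ := hcomp.exists_isMaxOn ⟨_, h1mem⟩ hOc
  have hVv : V ≤ Ob A K m q η f u φ a (o8_ext v) := by
    have h2 : Ob A K m q η f u φ a (o8_ext (fun _ : Fin (K + 1) => (1 : ℝ))) ≤
      Ob A K m q η f u φ a (o8_ext v) := hmax h1mem
    rw [hV, o8_Ob_congr (o8_ext_res (K := K) fun _ => (1 : ℝ))]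
    exact h2
  refine ⟨o8_ext v, hpos v hv, fun s' hs' => ?_⟩
  by_cases hc : V ≤ Ob A K m q η f u φ a s'
  · have h2 := hbox s' hs' hc
    have h3 : (fun i : Fin (K + 1) => s' i) ∈ Kb := by
      rw [hKb]
      exact ⟨fun i => (h2 i (Nat.le_of_lt_succ i.2)).1, fun i => (h2 i (Nat.le_of_lt_succ i.2)).2⟩
    have h4 : Ob A K m q η f u φ a (o8_ext (fun i : Fin (K + 1) => s' i)) ≤
      Ob A K m q η f u φ a (o8_ext v) := hmax h3
    rw [o8_Ob_congr (o8_ext_res s')]
    exact h4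
  · exact (not_le.1 hc).le.trans hVv

/-- The penalty along one coordinate. -/
noncomputable def o8_pj (K : ℕ) (m q : ℕ → ℝ) (η : ℝ) (j : ℕ) (x : ℝ) : ℝ :=
  1 / 2 * (aco K m q j + η) * x ^ 2 + η / x

lemma o8_Pen_update {j : ℕ} (hj : j ≤ K) (x : ℝ) :
    Pen K m q η (Function.update s j x) - Pen K m q η s =
      o8_pj K m q η j x - o8_pj K m q η j (s j) := by
  unfold Pen
  rw [← Finset.sum_sub_distrib, Finset.sum_eq_single j]
  · rw [Function.update_self]
    rfl
  · intro l _ hl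
    rw [Function.update_of_ne hl, sub_self]
  · intro hl
    exact absurd (Finset.mem_range.2 (by omega)) hl

lemma IsOpt.o8_Fe_update (ho : IsOpt A K m q η f u φ a s) {j : ℕ} (hj : j ≤ K) {x : ℝ}
    (hx : 0 < x) : Fe A K m f u φ a (Function.update s j x) - Fe A K m f u φ a s ≤
      o8_pj K m q η j x - o8_pj K m q η j (s j) := by
  have h1 := ho.max (Function.update s j x) (fun l hl => by
    by_cases hlj : l = j
    · subst hlj
      rw [Function.update_self]
      exact hx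
    · rw [Function.update_of_ne hlj]
      exact ho.pos l hl)
  have h2 := o8_Pen_update (m := m) (q := q) (η := η) (s := s) hj x
  unfold Ob at h1
  linarith only [h1, h2]

/-- First order condition. -/
theorem IsOpt.first (h : MD K m f f' f'' B C₁ C₂ u φ) (ho : IsOpt A K m q η f u φ a s)
    {j : ℕ} (hj : j ≤ K) :
    (mdl A K m f u φ s a).Ex (hz φ zco j) = (aco K m q j + η) * s j - η / s j ^ 2 := by
  have hsj := ho.pos j hj
  obtain ⟨E, hE⟩ : ∃ E, E = (mdl A K m f u φ s a).Ex (hz φ zco j) := ⟨_, rfl⟩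
  rw [← hE]
  have hmin : IsLocalMin (fun x => o8_pj K m q η j x - E * x) (s j) := by
    filter_upwards [eventually_gt_nhds hsj] with x hx
    have h1 := ho.o8_Fe_update hj hx
    have h2 := Fe_tangent (A := A) (a := a) h s (Function.update s j x)
    have h3 : ∑ l ∈ Finset.range (K + 1), (Function.update s j x l - s l) *
        (mdl A K m f u φ s a).Ex (hz φ zco l) = (x - s j) * E := by
      rw [Finset.sum_eq_single j]
      · rw [Function.update_self, hE]
      · intro l _ hl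
        rw [Function.update_of_ne hl, sub_self, zero_mul]
      · intro hl
        exact absurd (Finset.mem_range.2 (by omega)) hl
    rw [h3] at h2
    linarith only [h1, h2]
  have hd : HasDerivAt (fun x => o8_pj K m q η j x - E * x)
      ((aco K m q j + η) * s j - η / s j ^ 2 - E) (s j) := by
    have h1 : HasDerivAt (fun x : ℝ => 1 / 2 * (aco K m q j + η) * x ^ 2)
        (1 / 2 * (aco K m q j + η) * (2 * s j)) (s j) := by
      have := (hasDerivAt_pow 2 (s j)).const_mul (1 / 2 * (aco K m q j + η))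
      simpa using this
    have h2 : HasDerivAt (fun x : ℝ => η / x) (-(η / s j ^ 2)) (s j) := by
      have := (hasDerivAt_inv hsj.ne').const_mul η
      refine (this.congr_of_eventuallyEq (Eventually.of_forall fun x => ?_)).congr_deriv ?_
      · exact div_eq_mul_inv _ _
      · ring
    have h3 := (h1.add h2).sub ((hasDerivAt_id (s j)).const_mul E)
    refine h3.congr_deriv ?_
    ring
  have h0 := hmin.hasDerivAt_eq_zero hd
  linarith only [h0]

/-- The overlaps at the optimum (from `Fld.Ex_hz`). -/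
theorem IsOpt.tails (h : MD K m f f' f'' B C₁ C₂ u φ) (ho : IsOpt A K m q η f u φ a s)
    {j : ℕ} (hj : j ≤ K) :
    ∑ l ∈ Finset.Ico j (K + 1), (m (l + 1) - m l) *
      ((mdl A K m f u φ s a).Rl φ l - q l) = η / s j ^ 3 - η := by
  have hsj := ho.pos j hj
  have h1 := ho.first h hj
  have h2 : (mdl A K m f u φ s a).Ex (hz φ zco j) =
      s j * (1 - ∑ i ∈ Finset.Ico j (K + 1), (m (i + 1) - m i) *
        (mdl A K m f u φ s a).Rl φ i) :=
    (mdl_fld (A := A) (a := a) h fun l hl => (ho.pos l hl).le).Ex_hz (l := j) hj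
  rw [h2] at h1
  unfold aco at h1
  have h3 : ∑ l ∈ Finset.Ico j (K + 1), (m (l + 1) - m l) *
      ((mdl A K m f u φ s a).Rl φ l - q l) =
      ∑ l ∈ Finset.Ico j (K + 1), (m (l + 1) - m l) * (mdl A K m f u φ s a).Rl φ l -
      ∑ l ∈ Finset.Ico j (K + 1), (m (l + 1) - m l) * q l := by
    rw [← Finset.sum_sub_distrib]
    exact Finset.sum_congr rfl fun l _ => by ring
  rw [h3]
  generalize ∑ l ∈ Finset.Ico j (K + 1), (m (l + 1) - m l) *
    (mdl A K m f u φ s a).Rl φ l = P at h1 ⊢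
  generalize ∑ l ∈ Finset.Ico j (K + 1), (m (l + 1) - m l) * q l = Q at h1 ⊢
  have h4 : s j * (P - Q) = s j * (η / s j ^ 3 - η) := by
    have h5 : s j * (η / s j ^ 3) = η / s j ^ 2 := by
      field_simp
    rw [mul_sub (s j) (η / s j ^ 3), h5]
    linarith only [h1]
  exact mul_left_cancel₀ hsj.ne' h4

/-- Second order condition, for the extensive free energy. -/
theorem IsOpt.second (h : MD K m f f' f'' B C₁ C₂ u φ) (ho : IsOpt A K m q η f u φ a s)
    (hη : 0 < η) {j : ℕ} (hj : j ≤ K) {t : ℝ} (ht : 0 < t) (ht' : t ≤ s j / 2) :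
    ((mdl A K m f u φ s a).pt (hx φ j) t).fe + ((mdl A K m f u φ s a).pt (hx φ j) (-t)).fe -
      2 * (mdl A K m f u φ s a).fe ≤ N * ((aco K m q j + η + 3 * η / s j ^ 3) * t ^ 2) := by
  have hsj := ho.pos j hj
  have hN : (0 : ℝ) < N := by exact_mod_cast h.N0
  have h1 := ho.o8_Fe_update hj (x := s j + t) (by linarith only [ht, ht'])
  have h2 := ho.o8_Fe_update hj (x := s j + -t) (by linarith only [ht, ht'])
  rw [← mdl_pt hj t, ← mdl_pt hj (-t)]
  have h3 : o8_pj K m q η j (s j + t) + o8_pj K m q η j (s j + -t) -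
      2 * o8_pj K m q η j (s j) ≤ (aco K m q j + η + 3 * η / s j ^ 3) * t ^ 2 := by
    have h4 : η / (s j + t) + η / (s j + -t) - 2 * (η / s j) ≤ 3 * η / s j ^ 3 * t ^ 2 := by
      have hp : 0 < s j + t := by linarith
      have hq : 0 < s j + -t := by linarith
      have h5 : η / (s j + t) + η / (s j + -t) - 2 * (η / s j) =
          η * (2 * t ^ 2) / (s j * ((s j + t) * (s j + -t))) := by
        field_simp
        ring
      have h6 : 3 * η / s j ^ 3 * t ^ 2 = η * (3 * t ^ 2) / s j ^ 3 := by ring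
      rw [h5, h6, div_le_div_iff₀ (by positivity) (by positivity)]
      have h7 : 2 * s j ^ 2 ≤ 3 * ((s j + t) * (s j + -t)) := by nlinarith only [ht, ht']
      have h8 : 0 ≤ η * t ^ 2 * s j := by positivity
      linarith only [mul_le_mul_of_nonneg_left h7 h8]
    unfold o8_pj
    linarith only [h4]
  have h4 : Fe A K m f u φ a (Function.update s j (s j + t)) +
      Fe A K m f u φ a (Function.update s j (s j + -t)) - 2 * Fe A K m f u φ a s ≤
      (aco K m q j + η + 3 * η / s j ^ 3) * t ^ 2 := by linarith only [h1, h2, h3]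
  have h5 := mul_le_mul_of_nonneg_left h4 hN.le
  unfold Fe at h5
  have h6 : ∀ y : ℝ, (N : ℝ) * (1 / N * y) = y := fun y => by field_simp
  have h7 : (N : ℝ) * (1 / N * (mdl A K m f u φ (Function.update s j (s j + t)) a).fe +
      1 / N * (mdl A K m f u φ (Function.update s j (s j + -t)) a).fe -
      2 * (1 / N * (mdl A K m f u φ s a).fe)) =
      (mdl A K m f u φ (Function.update s j (s j + t)) a).fe +
      (mdl A K m f u φ (Function.update s j (s j + -t)) a).fe -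
      2 * (mdl A K m f u φ s a).fe := by
    field_simp
  rw [h7] at h5
  exact h5

/-- The lower bound of the optimal strengths: `∑ η / s_j ≤ C + 2 a B / N + 3 (K + 1)`, by comparison
with the strengths equal to `η^(1/3)`. -/
theorem IsOpt.lower (h : MD K m f f' f'' B C₁ C₂ u φ) (ho : IsOpt A K m q η f u φ a s)
    (hq : Path K q) (hq1 : q K ≤ 1) (hη : 0 < η) (hη1 : η ≤ 1) (ha : a ≤ A) {C : ℝ}
    (hu : ∑ x, Real.exp (u x) = 1)
    (hC : ∀ s : ℕ → ℝ, (∀ j ≤ K, 0 ≤ s j) → Fe A K m f u φ 0 s -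
      1 / 2 * ∑ j ∈ Finset.range (K + 1), aco K m q j * s j ^ 2 ≤ C) {j : ℕ} (hj : j ≤ K) :
    η ≤ s j * (C + 2 * (a * B / N) + 3 * (K + 1)) := by
  have hsj := ho.pos j hj
  have h1 := o8_Ob_le h hη ha hC ho.pos hj
  have h2 := ho.max (fun _ => 1) (fun _ _ => one_pos)
  have h3 := Fe_zero_le (A := A) (a := a) h (fun _ => 1)
  have h4 := (abs_le.1 (abs_Fe_sub_le (A := A) h (fun _ => 0) ha)).1
  rw [Fe_zero_zero h, hu, Real.log_one, mul_zero] at h4
  have h5 : Pen K m q η (fun _ => 1) ≤ 2 * (K + 1) := by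
    have h6 : ∀ l ∈ Finset.range (K + 1),
        1 / 2 * (aco K m q l + η) * (1 : ℝ) ^ 2 + η / 1 ≤ 2 := by
      intro l hl
      rw [Finset.mem_range] at hl
      have := aco_le_one h.hm hq (by omega : l ≤ K)
      linarith only [hη1, this]
    have h7 := Finset.sum_le_sum h6
    rw [Finset.sum_const, Finset.card_range, nsmul_eq_mul] at h7
    unfold Pen
    push_cast at h7
    linarith only [h7]
  have h6 : 0 ≤ η / 2 * s j ^ 2 := by positivity
  have h7 : η / s j ≤ C + 2 * (a * B / N) + 2 * (K + 1) := by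
    have h8 : Ob A K m q η f u φ a (fun _ => 1) =
      Fe A K m f u φ a (fun _ => 1) - Pen K m q η (fun _ => 1) := rfl
    linarith only [h1, h2, h3, h4, h5, h6, h8]
  rw [div_le_iff₀ hsj] at h7
  have hK : (0 : ℝ) ≤ K := Nat.cast_nonneg K
  linarith only [h7, mul_pos hsj (show (0 : ℝ) < K + 1 by linarith)]

/-- The upper bound of the strength of the level zero. -/
theorem IsOpt.upper (h : MD K m f f' f'' B C₁ C₂ u φ) (ho : IsOpt A K m q η f u φ a s)
    (hq : Path K q) (hq1 : q K ≤ 1) (hη : 0 < η) {σ : ℝ} (hσ : 0 < σ) (hs : σ ≤ s 0) :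
    s 0 ≤ 1 / η + 1 / σ ^ 2 := by
  have hs0 := ho.pos 0 (Nat.zero_le _)
  have h1 := ho.first h (Nat.zero_le K)
  have h2 := Ex_hz_zero_le (A := A) (a := a) (s := s) h
  have h3 := aco_nonneg h.hm hq hq1 (Nat.zero_le K)
  have h4 : η / s 0 ^ 2 ≤ η / σ ^ 2 := by gcongr
  have h5 : η * s 0 ≤ 1 + η / σ ^ 2 := by
    have := mul_nonneg h3 hs0.le
    linarith only [h1, h2, h4, this]
  have h6 : s 0 ≤ (1 + η / σ ^ 2) / η := by
    rw [le_div_iff₀ hη]
    linarith only [h5]
  refine h6.trans (le_of_eq ?_)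
  field_simp

lemma o8_nh_hx (j : ℕ) : Nh (ι := Ix A N K) (hx φ j) := by
  intro x
  unfold hx
  exact EG.sum _ fun i _ => (EG.coord _).mul (EG.const _)

/-- The variance of the free energy near the optimum. -/
lemma o8_var (h : MD K m f f' f'' B C₁ C₂ u φ) (ho : IsOpt A K m q η f u φ a s)
    {σ S₀ α₀ : ℝ} (hs : ∀ j ≤ K, σ ≤ s j) (hs0 : s 0 ≤ S₀)
    (hA : (A : ℝ) ≤ α₀ * N) {j : ℕ} (hj : j ≤ K) {t : ℝ} (ht1 : |t| ≤ 1) (ht2 : |t| ≤ σ / 2) :
    ∫ z, (((mdl A K m f u φ s a).pt (hx φ j) t).lg 0 z -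
      ((mdl A K m f u φ s a).pt (hx φ j) t).fe) ^ 2 ∂(gI (Ix A N K)) ≤
      2 * (N * (α₀ * C₁ ^ 2 + (S₀ + 1) ^ 2)) := by
  have hN : (0 : ℝ) < N := by exact_mod_cast h.N0
  rw [← mdl_pt hj t]
  refine (mdl_regD (A := A) (a := a) (s := Function.update s j (s j + t)) h).var_lg_zero
    (V := N * (α₀ * C₁ ^ 2 + (S₀ + 1) ^ 2)) fun z x => ?_
  refine (sum_enD_le h z x).trans ?_
  have h0 := ho.pos 0 (Nat.zero_le _)
  have h1 := abs_le.1 ht1
  have h2 := abs_le.1 ht2
  have h3 : |Function.update s j (s j + t) 0| ≤ S₀ + 1 := by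
    by_cases hj0 : j = 0
    · subst hj0
      rw [Function.update_self, abs_le]
      have := hs 0 (Nat.zero_le _)
      constructor <;> linarith only [hs0, h0, this, h1.1, h1.2, h2.1, h2.2]
    · rw [Function.update_of_ne (Ne.symm hj0), abs_le]
      constructor <;> linarith only [hs0, h0]
  have h4 : (Function.update s j (s j + t) 0) ^ 2 ≤ (S₀ + 1) ^ 2 := by
    rw [← sq_abs]
    exact pow_le_pow_left₀ (abs_nonneg _) h3 2
  have h5 : (A : ℝ) * C₁ ^ 2 ≤ α₀ * N * C₁ ^ 2 := mul_le_mul_of_nonneg_right hA (sq_nonneg _)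
  linarith only [h5, mul_le_mul_of_nonneg_left h4 hN.le]

/-- **Concentration of the fields at the optimum**, uniformly in the system. The constants: `σ`
bounds the strengths from below, `t ≤ σ / 2`, `t ≤ 1`. Proof: `Reg.conc` for the observable
`hx φ j`, divided by `N`; variance: `sum_enD_le` with `s 0 + t`. -/
theorem IsOpt.conc (h : MD K m f f' f'' B C₁ C₂ u φ) (ho : IsOpt A K m q η f u φ a s)
    (hq : Path K q) (hq1 : q K ≤ 1) (hη : 0 < η) (hη1 : η ≤ 1) {σ S₀ α₀ : ℝ} (hσ : 0 < σ)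
    (hs : ∀ j ≤ K, σ ≤ s j) (hs0 : s 0 ≤ S₀) (hA : (A : ℝ) ≤ α₀ * N) {j : ℕ} (hj : j ≤ K) {t : ℝ}
    (ht : 0 < t) (ht1 : t ≤ 1) (ht2 : t ≤ σ / 2) :
    ∃ c : ℝ, (mdl A K m f u φ s a).Ex (fun z x => |hz φ zco j z x - c|) ≤
      √((2 + 3 / σ ^ 3) / (m 1 * N)) + (2 + 3 / σ ^ 3) * t +
        4 * √(2 * (α₀ * C₁ ^ 2 + (S₀ + 1) ^ 2) / N) / t := by
  have hN : (0 : ℝ) < N := by exact_mod_cast h.N0
  have hR : (mdl A K m f u φ s a).Reg := (mdl_regD h).toReg
  have hreg : ∀ t, ((mdl A K m f u φ s a).pt (hx φ j) t).Reg := fun t => by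
    rw [← mdl_pt hj t]
    exact (mdl_regD h).toReg
  obtain ⟨Q, hQ⟩ : ∃ Q, Q = (N : ℝ) * (2 + 3 / σ ^ 3) := ⟨_, rfl⟩
  obtain ⟨V, hV⟩ : ∃ V, V = 2 * ((N : ℝ) * (α₀ * C₁ ^ 2 + (S₀ + 1) ^ 2)) := ⟨_, rfl⟩
  have hsec : ∀ t', 0 < t' → t' ≤ min 1 (σ / 2) →
      ((mdl A K m f u φ s a).pt (hx φ j) t').fe + ((mdl A K m f u φ s a).pt (hx φ j) (-t')).fe -
        2 * (mdl A K m f u φ s a).fe ≤ Q * t' ^ 2 := by
    intro t' h1 h2
    have h3 := hs j hj
    refine (ho.second h hη hj h1 ((h2.trans (min_le_right _ _)).trans (by linarith only [h3]))).trans ?_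
    have h4 : 3 * η / s j ^ 3 ≤ 3 / σ ^ 3 := by
      have : 3 * η ≤ 3 := by linarith only [hη1]
      gcongr
    have h5 := aco_le_one h.hm hq hj
    have h6 : aco K m q j + η + 3 * η / s j ^ 3 ≤ 2 + 3 / σ ^ 3 := by linarith only [hη1, h4, h5]
    rw [hQ, mul_assoc]
    gcongr
  obtain ⟨c, hc⟩ := hR.conc (o8_nh_hx j) hreg (Q := Q) (V := V) (t₀ := min 1 (σ / 2))
    (lt_min one_pos (by positivity)) hsec (fun t' ht' => by
      rw [hV]
      exact o8_var h ho hs hs0 hA hj (ht'.trans (min_le_left _ _)) (ht'.trans (min_le_right _ _)))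
    ht (le_min ht1 ht2)
  refine ⟨1 / N * c, ?_⟩
  have e1 : (fun (z : Ix A N K → ℝ) x => |hz φ zco j z x - 1 / N * c|) =
      fun z x => 1 / (N : ℝ) * |hx φ j z x - c| := by
    funext z x
    have : hz φ zco j z x - 1 / N * c = 1 / N * (hx φ j z x - c) := by
      unfold hz hx
      ring
    rw [this, abs_mul, abs_of_pos (by positivity)]
  rw [e1, Sy.Ex_const_mul]
  have h1 := mul_le_mul_of_nonneg_left hc (show 0 ≤ 1 / (N : ℝ) by positivity)
  refine h1.trans (le_of_eq ?_)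
  have hsq : ∀ y : ℝ, 1 / (N : ℝ) * √(N * y) = √(y / N) := by
    intro y
    have e2 : y / N = (N * y) / N ^ 2 := by
      field_simp
    rw [e2, Real.sqrt_div' _ (sq_nonneg _), Real.sqrt_sq hN.le]
    ring
  have e3 : √(Q / (mdl A K m f u φ s a).m 1) = √(N * ((2 + 3 / σ ^ 3) / m 1)) := by
    congr 1
    show Q / m 1 = _
    rw [hQ]
    ring
  have e4 : √V = √(N * (2 * (α₀ * C₁ ^ 2 + (S₀ + 1) ^ 2))) := by
    congr 1
    rw [hV]
    ring
  have e5 : (2 + 3 / σ ^ 3) / (m 1 * N) = (2 + 3 / σ ^ 3) / m 1 / N := by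
    rw [div_div]
  rw [e3, e4, e5, ← hsq, ← hsq, hQ]
  field_simp

end Vale.Agent.P157.Lv
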