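import Mathlib

open MeasureTheory ProbabilityTheory

namespace Vale.Agent.P157

section
variable {E : Type*} [MeasurableSpace E] (μ : Measure E) [IsProbabilityMeasure μ]

lemma integral_pi_cons (M : ℕ) (G : (Fin (M + 1) → E) → ℝ) :
    ∫ x, G x ∂(Measure.pi fun _ : Fin (M + 1) => μ) =
      ∫ z : E × (Fin M → E), G (Fin.cons z.1 z.2) ∂(μ.prod (Measure.pi fun _ : Fin M => μ)) := by
  have h := ((measurePreserving_piFinSuccAbove (fun _ : Fin (M + 1) => μ) 0).symm).integral_comp'
    (g := G)
  rw [← h]
  refine integral_congr_ae (Filter.Eventually.of_forall fun z => ?_)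
  simp only [MeasurableEquiv.piFinSuccAbove_symm_apply, Fin.insertNthEquiv]
  congr 1
  simp

/-- Exponential-moment form of the bounded differences inequality. -/
theorem mgf_bounded_differences (M : ℕ) (F : (Fin M → E) → ℝ) (hF : Measurable F) {B c : ℝ}
    (hB : ∀ x, |F x| ≤ B) (hc0 : 0 ≤ c)
    (hc : ∀ x a e, |F (Function.update x a e) - F x| ≤ c) (t : ℝ) :
    ∫ x, Real.exp (t * (F x - ∫ y, F y ∂(Measure.pi fun _ : Fin M => μ)))
      ∂(Measure.pi fun _ : Fin M => μ) ≤ Real.exp (M * c ^ 2 * t ^ 2 / 2) := by
  induction M with
  | zero =>
    have h : ∀ x : Fin 0 → E, F x = ∫ y, F y ∂(Measure.pi fun _ : Fin 0 => μ) := by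
      intro x
      have h2 : ∀ y : Fin 0 → E, F y = F x := fun y => by congr 1; exact Subsingleton.elim _ _
      rw [integral_congr_ae (Filter.Eventually.of_forall h2)]
      simp
    have h3 : ∀ x : Fin 0 → E, Real.exp (t * (F x - ∫ y, F y ∂(Measure.pi fun _ : Fin 0 => μ)))
        = 1 := by
      intro x
      rw [← h x]; simp
    simp_rw [h3]
    simp
  | succ M ih =>
    have hB0 : ∀ x, F x ≤ B := fun x => (le_abs_self _).trans (hB x)
    set π := (Measure.pi fun _ : Fin M => μ) with hπ
    have hcons : Measurable fun z : E × (Fin M → E) => F (Fin.cons z.1 z.2) := by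
      refine hF.comp ?_
      have h := (MeasurableEquiv.piFinSuccAbove (fun _ : Fin (M + 1) => E) 0).symm.measurable
      convert h using 1
      funext z
      simp only [MeasurableEquiv.piFinSuccAbove_symm_apply, Fin.insertNthEquiv]
      simp
    set G : (Fin M → E) → ℝ := fun y => ∫ x, F (Fin.cons x y) ∂μ with hG
    have hcy : ∀ y : Fin M → E, Measurable fun x : E => F (Fin.cons x y) := fun y =>
      hcons.comp (measurable_id.prodMk measurable_const)
    have hGm : Measurable G := by
      exact (hcons.stronglyMeasurable.integral_prod_left' (μ := μ)).measurable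
    have hintF : ∀ y, Integrable (fun x => F (Fin.cons x y)) μ := fun y =>
      Integrable.of_bound (hcy y).aestronglyMeasurable B
        (Filter.Eventually.of_forall fun x => by simpa [Real.norm_eq_abs] using hB _)
    have hGB : ∀ y, |G y| ≤ B := by
      intro y
      have := norm_integral_le_of_norm_le_const (μ := μ) (f := fun x => F (Fin.cons x y)) (C := B)
        (Filter.Eventually.of_forall fun x => by simpa [Real.norm_eq_abs] using hB _)
      simpa [Real.norm_eq_abs] using this
    have hGc : ∀ y a e, |G (Function.update y a e) - G y| ≤ c := by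
      intro y a e
      rw [hG]
      simp only
      rw [← integral_sub (hintF _) (hintF _)]
      have := norm_integral_le_of_norm_le_const (μ := μ)
        (f := fun x => F (Fin.cons x (Function.update y a e)) - F (Fin.cons x y)) (C := c)
        (Filter.Eventually.of_forall fun x => by
          rw [Real.norm_eq_abs]
          have h := hc (Fin.cons x y : Fin (M + 1) → E) a.succ e
          rwa [Fin.cons_update])
      simpa [Real.norm_eq_abs] using this
    have ihG := ih G hGm hGB hGc
    have hmean : ∫ y, G y ∂π = ∫ y, F y ∂(Measure.pi fun _ : Fin (M + 1) => μ) := by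
      rw [integral_pi_cons, integral_prod_symm]
      exact Integrable.of_bound hcons.aestronglyMeasurable B
        (Filter.Eventually.of_forall fun x => by simpa [Real.norm_eq_abs] using hB _)
    set m := ∫ y, F y ∂(Measure.pi fun _ : Fin (M + 1) => μ) with hm
    have hmB : |m| ≤ B := by
      have := norm_integral_le_of_norm_le_const (μ := Measure.pi fun _ : Fin (M + 1) => μ)
        (f := F) (C := B)
        (Filter.Eventually.of_forall fun x => by simpa [Real.norm_eq_abs] using hB _)
      simpa [Real.norm_eq_abs] using this
    have hmm : Measurable fun z : E × (Fin M → E) =>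
        Real.exp (t * (F (Fin.cons z.1 z.2) - m)) :=
      Real.measurable_exp.comp ((hcons.sub_const m).const_mul t)
    rw [integral_pi_cons, integral_prod_symm]
    · have hinner : ∀ y : Fin M → E, ∫ x, Real.exp (t * (F (Fin.cons x y) - m)) ∂μ ≤
          Real.exp (c ^ 2 * t ^ 2 / 2) * Real.exp (t * (G y - m)) := by
        intro y
        have hbd : ∀ᵐ x ∂μ, (fun x => F (Fin.cons x y) - G y) x ∈ Set.Icc (-c) c := by
          refine Filter.Eventually.of_forall fun x => ?_
          have hx : ∀ x', |F (Fin.cons x y) - F (Fin.cons x' y)| ≤ c := by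
            intro x'
            have h := hc (Fin.cons x' y : Fin (M + 1) → E) 0 x
            rwa [Fin.update_cons_zero] at h
          have h1 : F (Fin.cons x y) - G y = ∫ x', (F (Fin.cons x y) - F (Fin.cons x' y)) ∂μ := by
            rw [integral_sub (integrable_const _) (hintF y)]
            simp [hG]
          have h2 : |F (Fin.cons x y) - G y| ≤ c := by
            rw [h1]
            have := norm_integral_le_of_norm_le_const (μ := μ)
              (f := fun x' => F (Fin.cons x y) - F (Fin.cons x' y)) (C := c)
              (Filter.Eventually.of_forall fun x' => by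
                rw [Real.norm_eq_abs]; exact hx x')
            simpa [Real.norm_eq_abs] using this
          exact abs_le.1 h2
        have hmz : ∫ x, (fun x => F (Fin.cons x y) - G y) x ∂μ = 0 := by
          simp only
          rw [integral_sub (hintF y) (integrable_const _)]
          simp [hG]
        have hs := hasSubgaussianMGF_of_mem_Icc_of_integral_eq_zero
          (((hcy y).sub_const _).aemeasurable) hbd hmz
        have h3 := hs.mgf_le t
        have h4 : ((‖c - -c‖₊ / 2 : NNReal) ^ 2 : NNReal) = (c ^ 2 : ℝ) := by
          push_cast
          rw [Real.norm_eq_abs, abs_of_nonneg (by linarith)]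
          ring
        rw [h4] at h3
        have h5 : ∀ x, Real.exp (t * (F (Fin.cons x y) - m)) =
            Real.exp (t * (F (Fin.cons x y) - G y)) * Real.exp (t * (G y - m)) := by
          intro x
          rw [← Real.exp_add]; congr 1; ring
        simp_rw [h5]
        rw [integral_mul_const]
        exact mul_le_mul_of_nonneg_right h3 (Real.exp_pos _).le
      have hbE : ∀ u : ℝ, |u| ≤ B → Real.exp (t * (u - m)) ≤ Real.exp (|t| * (B + B)) := by
        intro u hu
        apply Real.exp_le_exp.2
        refine (le_abs_self _).trans ?_
        rw [abs_mul]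
        exact mul_le_mul_of_nonneg_left ((abs_sub _ _).trans (add_le_add hu hmB)) (abs_nonneg _)
      calc ∫ y, ∫ x, Real.exp (t * (F (Fin.cons x y) - m)) ∂μ ∂π
          ≤ ∫ y, Real.exp (c ^ 2 * t ^ 2 / 2) * Real.exp (t * (G y - m)) ∂π := by
            refine integral_mono ?_ ?_ hinner
            · refine Integrable.of_bound (C := Real.exp (|t| * (B + B))) ?_ ?_
              · exact (hmm.stronglyMeasurable.integral_prod_left' (μ := μ)).aestronglyMeasurable
              · refine Filter.Eventually.of_forall fun y => ?_
                have := norm_integral_le_of_norm_le_const (μ := μ)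
                  (f := fun x => Real.exp (t * (F (Fin.cons x y) - m)))
                  (C := Real.exp (|t| * (B + B)))
                  (Filter.Eventually.of_forall fun x => by
                    rw [Real.norm_eq_abs, abs_of_pos (Real.exp_pos _)]; exact hbE _ (hB _))
                simpa using this
            · refine Integrable.const_mul ?_ _
              refine Integrable.of_bound (C := Real.exp (|t| * (B + B))) ?_ ?_
              · exact (by fun_prop : Measurable fun y => Real.exp (t * (G y - m))).aestronglyMeasurable
              · refine Filter.Eventually.of_forall fun y => ?_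
                rw [Real.norm_eq_abs, abs_of_pos (Real.exp_pos _)]; exact hbE _ (hGB _)
        _ = Real.exp (c ^ 2 * t ^ 2 / 2) * ∫ y, Real.exp (t * (G y - ∫ y, G y ∂π)) ∂π := by
            rw [integral_const_mul, hmean]
        _ ≤ Real.exp (c ^ 2 * t ^ 2 / 2) * Real.exp (M * c ^ 2 * t ^ 2 / 2) :=
            mul_le_mul_of_nonneg_left ihG (Real.exp_pos _).le
        _ = Real.exp ((M + 1 : ℕ) * c ^ 2 * t ^ 2 / 2) := by
            rw [← Real.exp_add]; congr 1; push_cast; ring
    · refine Integrable.of_bound (C := Real.exp (|t| * (B + B)))
        hmm.aestronglyMeasurable ?_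
      refine Filter.Eventually.of_forall fun z => ?_
      rw [Real.norm_eq_abs, abs_of_pos (Real.exp_pos _)]
      apply Real.exp_le_exp.2
      refine (le_abs_self _).trans ?_
      rw [abs_mul]
      exact mul_le_mul_of_nonneg_left ((abs_sub _ _).trans (add_le_add (hB _) hmB)) (abs_nonneg _)
end

end Vale.Agent.P157
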