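import Vale.Agent.P157.ParRhoDefs

/-! Adding one pattern: exchangeability of the patterns and separation of the first pattern. -/

open MeasureTheory ProbabilityTheory Filter Topology

namespace Vale.Agent.P157.Par

open Vale.Agent.P367.GT (gM)

namespace AddP

open Vale.Agent.P157.Par.Cube

/-- the weights -/
noncomputable def wA (f : ℝ → ℝ) (N M P : ℕ) (s : ℝ) (u : Fin P → ℝ)
    (z : (Fin M → Fin (N + 1) → ℝ) × (GI P (N + 1) → ℝ)) (y : Fin (N + 1) → Bool) : ℝ :=
  Real.exp (EE f s u z.1 z.2 y) / ∑ y', Real.exp (EE f s u z.1 z.2 y')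

/-- the averages -/
noncomputable def TV (f : ℝ → ℝ) (N M P : ℕ) (s : ℝ) (u : Fin P → ℝ) {n : ℕ}
    (G : (Fin M → Fin (N + 1) → ℝ) → (Fin n → Fin (N + 1) → Bool) → ℝ) : ℝ :=
  ∫ z : (Fin M → Fin (N + 1) → ℝ) × (GI P (N + 1) → ℝ),
    ∑ x : Fin n → Fin (N + 1) → Bool, (∏ i, wA f N M P s u z (x i)) * G z.1 x
    ∂((pm M N).prod (gM (GI P (N + 1))))

section conc

variable (f : ℝ → ℝ) (N M P : ℕ) (s : ℝ) (u : Fin P → ℝ)

lemma den_pos (z : (Fin M → Fin (N + 1) → ℝ) × (GI P (N + 1) → ℝ)) :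
    0 < ∑ y', Real.exp (EE f s u z.1 z.2 y') := Lin.sum_pos' fun _ => Real.exp_pos _

lemma wA_nonneg (z : (Fin M → Fin (N + 1) → ℝ) × (GI P (N + 1) → ℝ)) (y : Fin (N + 1) → Bool) :
    0 ≤ wA f N M P s u z y := div_nonneg (Real.exp_pos _).le (den_pos f N M P s u z).le

lemma wA_sum (z : (Fin M → Fin (N + 1) → ℝ) × (GI P (N + 1) → ℝ)) :
    ∑ y, wA f N M P s u z y = 1 := by
  unfold wA
  rw [← Finset.sum_div, div_self (den_pos f N M P s u z).ne']

lemma wA_le_one (z : (Fin M → Fin (N + 1) → ℝ) × (GI P (N + 1) → ℝ)) (y : Fin (N + 1) → Bool) :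
    wA f N M P s u z y ≤ 1 := by
  rw [← wA_sum f N M P s u z]
  exact Finset.single_le_sum (f := fun y => wA f N M P s u z y)
    (fun y _ => wA_nonneg f N M P s u z y) (Finset.mem_univ y)

lemma EE_meas (hf : Measurable f) (y : Fin (N + 1) → Bool) : Measurable
    fun z : (Fin M → Fin (N + 1) → ℝ) × (GI P (N + 1) → ℝ) => EE f s u z.1 z.2 y := by
  unfold EE
  refine Measurable.add ?_ ?_
  · refine Finset.measurable_sum _ fun a _ => hf.comp ?_
    unfold cubeS
    fun_prop
  · unfold lin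
    fun_prop

lemma wA_meas (hf : Measurable f) (y : Fin (N + 1) → Bool) : Measurable
    fun z : (Fin M → Fin (N + 1) → ℝ) × (GI P (N + 1) → ℝ) => wA f N M P s u z y := by
  unfold wA
  refine Measurable.div (EE_meas f N M P s u hf y).exp ?_
  exact Finset.measurable_sum _ fun y' _ => (EE_meas f N M P s u hf y').exp

lemma prod_wA_abs {n : ℕ} (z : (Fin M → Fin (N + 1) → ℝ) × (GI P (N + 1) → ℝ))
    (x : Fin n → Fin (N + 1) → Bool) : |∏ i, wA f N M P s u z (x i)| ≤ 1 := by
  rw [Finset.abs_prod]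
  refine Finset.prod_le_one (fun _ _ => abs_nonneg _) fun i _ => ?_
  rw [abs_of_nonneg (wA_nonneg f N M P s u z (x i))]
  exact wA_le_one f N M P s u z (x i)

lemma prod_wA_meas (hf : Measurable f) {n : ℕ} (x : Fin n → Fin (N + 1) → Bool) : Measurable
    fun z : (Fin M → Fin (N + 1) → ℝ) × (GI P (N + 1) → ℝ) => ∏ i, wA f N M P s u z (x i) :=
  Finset.measurable_prod _ fun i _ => wA_meas f N M P s u hf (x i)

lemma EE_perm (σ : Equiv.Perm (Fin M)) (t : Fin M → Fin (N + 1) → ℝ) (g : GI P (N + 1) → ℝ)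
    (y : Fin (N + 1) → Bool) : EE f s u (fun c => t (σ c)) g y = EE f s u t g y := by
  unfold EE
  rw [Equiv.sum_comp σ fun a => f (cubeS (t a) y)]

lemma wA_perm (σ : Equiv.Perm (Fin M)) (z : (Fin M → Fin (N + 1) → ℝ) × (GI P (N + 1) → ℝ))
    (y : Fin (N + 1) → Bool) : wA f N M P s u (fun c => z.1 (σ c), z.2) y =
      wA f N M P s u z y := by
  unfold wA
  simp only [EE_perm]

/-- Exchangeability of the patterns. -/
lemma TV_exch {n : ℕ} (a b : Fin M)
    (G : (Fin M → Fin (N + 1) → ℝ) → (Fin n → Fin (N + 1) → Bool) → ℝ) :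
    TV f N M P s u G = TV f N M P s u (fun t x => G (fun c => t (Equiv.swap a b c)) x) := by
  set σ : Equiv.Perm (Fin M) := Equiv.swap a b with hσ
  have hσσ : ∀ c, σ (σ c) = c := fun c => by rw [hσ, Equiv.swap_apply_self]
  set e0 : (Fin M → Fin (N + 1) → ℝ) ≃ᵐ (Fin M → Fin (N + 1) → ℝ) :=
    MeasurableEquiv.piCongrLeft (fun _ : Fin M => Fin (N + 1) → ℝ) σ with he0
  have he0a : ∀ t : Fin M → Fin (N + 1) → ℝ, e0 t = fun c => t (σ c) := by
    intro t
    funext c
    have h1 := MeasurableEquiv.piCongrLeft_apply_apply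
      (β := fun _ : Fin M => Fin (N + 1) → ℝ) σ t (σ c)
    rw [hσσ] at h1
    exact h1
  have mp0 : MeasurePreserving e0 (pm M N) (pm M N) :=
    measurePreserving_piCongrLeft (fun _ : Fin M => gM (Fin (N + 1))) σ
  set e1 := e0.prodCongr (MeasurableEquiv.refl (GI P (N + 1) → ℝ)) with he1
  have mp1 : MeasurePreserving e1 ((pm M N).prod (gM (GI P (N + 1))))
      ((pm M N).prod (gM (GI P (N + 1)))) := mp0.prod (MeasurePreserving.id _)
  unfold TV
  rw [← mp1.integral_comp' (g := fun z : (Fin M → Fin (N + 1) → ℝ) × (GI P (N + 1) → ℝ) =>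
        ∑ x : Fin n → Fin (N + 1) → Bool, (∏ i, wA f N M P s u z (x i)) * G z.1 x)]
  refine integral_congr_ae (Filter.Eventually.of_forall fun z => ?_)
  have e2 : e1 z = (fun c => z.1 (σ c), z.2) := by
    have : e1 z = (e0 z.1, z.2) := rfl
    rw [this, he0a]
  simp only [e2, wA_perm]

/-- A sum over the patterns. -/
lemma TV_sum_patterns (hf : Measurable f) {n : ℕ}
    {F : (Fin (N + 1) → ℝ) → (Fin n → Fin (N + 1) → Bool) → ℝ}
    (hFm : ∀ x, Measurable fun g => F g x) {B : ℝ} (hFB : ∀ g x, |F g x| ≤ B)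
    {G : (Fin (M + 1) → Fin (N + 1) → ℝ) → (Fin n → Fin (N + 1) → Bool) → ℝ}
    (hGm : ∀ x, Measurable fun t => G t x) {D : ℝ} (hGD : ∀ t x, |G t x| ≤ D)
    (hG : ∀ (a b : Fin (M + 1)) t x, G (fun c => t (Equiv.swap a b c)) x = G t x) :
    TV f N (M + 1) P s u (n := n) (fun t x => (∑ a, F (t a) x) * G t x) =
      (M + 1) * TV f N (M + 1) P s u (n := n) (fun t x => F (t 0) x * G t x) := by
  have h1 : ∀ a : Fin (M + 1), TV f N (M + 1) P s u (n := n) (fun t x => F (t a) x * G t x) =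
      TV f N (M + 1) P s u (n := n) (fun t x => F (t 0) x * G t x) := by
    intro a
    rw [TV_exch f N (M + 1) P s u 0 a]
    simp only [hG, Equiv.swap_apply_right]
  have hint : ∀ a : Fin (M + 1), Integrable
      (fun z : (Fin (M + 1) → Fin (N + 1) → ℝ) × (GI P (N + 1) → ℝ) =>
        ∑ x : Fin n → Fin (N + 1) → Bool, (∏ i, wA f N (M + 1) P s u z (x i)) *
          (F (z.1 a) x * G z.1 x)) ((pm (M + 1) N).prod (gM (GI P (N + 1)))) := by
    intro a
    refine integrable_finsetSum _ fun x _ => ?_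
    refine Integrable.mono' (integrable_const (|B| * |D|)) ?_
      (Filter.Eventually.of_forall fun z => ?_)
    · exact ((prod_wA_meas f N (M + 1) P s u hf x).mul
        (((hFm x).comp ((measurable_pi_apply a).comp measurable_fst)).mul
          ((hGm x).comp measurable_fst))).aestronglyMeasurable
    · rw [Real.norm_eq_abs, abs_mul, abs_mul]
      have k1 := prod_wA_abs f N (M + 1) P s u z x
      have k2 := (hFB (z.1 a) x).trans (le_abs_self B)
      have k3 := (hGD z.1 x).trans (le_abs_self D)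
      calc _ ≤ 1 * (|B| * |D|) := mul_le_mul k1
            (mul_le_mul k2 k3 (abs_nonneg _) (abs_nonneg _)) (by positivity) zero_le_one
        _ = _ := one_mul _
  have h2 : TV f N (M + 1) P s u (n := n) (fun t x => (∑ a, F (t a) x) * G t x) =
      ∑ a, TV f N (M + 1) P s u (n := n) (fun t x => F (t a) x * G t x) := by
    unfold TV
    rw [← integral_finsetSum _ fun a _ => hint a]
    refine integral_congr_ae (Filter.Eventually.of_forall fun z => ?_)
    simp only
    rw [Finset.sum_comm]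
    refine Finset.sum_congr rfl fun x _ => ?_
    rw [Finset.sum_mul, Finset.mul_sum]
  rw [h2, Finset.sum_congr rfl fun a _ => h1 a]
  simp

/-- the rearrangement of the variables: separation of the first pattern -/
noncomputable def eAg (E G : Type) [MeasurableSpace E] [MeasurableSpace G] :
    ((Fin (M + 1) → E) × G) ≃ᵐ (((Fin M → E) × G) × E) :=
  (((MeasurableEquiv.piFinSuccAbove (fun _ : Fin (M + 1) => E) 0).prodCongr
    (MeasurableEquiv.refl G)).trans MeasurableEquiv.prodAssoc).trans MeasurableEquiv.prodComm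

lemma mp_eAg {E G : Type} [MeasurableSpace E] [MeasurableSpace G] (μ : Measure E)
    [IsProbabilityMeasure μ] (ν : Measure G) [IsProbabilityMeasure ν] :
    MeasurePreserving (eAg M E G) ((Measure.pi fun _ => μ).prod ν)
      (((Measure.pi fun _ => μ).prod ν).prod μ) := by
  have mp1 : MeasurePreserving ((MeasurableEquiv.piFinSuccAbove
      (fun _ : Fin (M + 1) => E) 0).prodCongr (MeasurableEquiv.refl G))
      ((Measure.pi fun _ : Fin (M + 1) => μ).prod ν)
      ((μ.prod (Measure.pi fun _ : Fin M => μ)).prod ν) :=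
    (measurePreserving_piFinSuccAbove (fun _ : Fin (M + 1) => μ) 0).prod
      (MeasurePreserving.id _)
  have mp2 := measurePreserving_prodAssoc μ (Measure.pi fun _ : Fin M => μ) ν
  have mp3 := Measure.measurePreserving_swap (μ := μ)
    (ν := (Measure.pi fun _ : Fin M => μ).prod ν)
  exact mp3.comp (mp2.comp mp1)

/-- the rearrangement of the variables: separation of the first pattern -/
noncomputable abbrev eA : ((Fin (M + 1) → Fin (N + 1) → ℝ) × (GI P (N + 1) → ℝ)) ≃ᵐ
    (((Fin M → Fin (N + 1) → ℝ) × (GI P (N + 1) → ℝ)) × (Fin (N + 1) → ℝ)) :=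
  eAg M (Fin (N + 1) → ℝ) (GI P (N + 1) → ℝ)

lemma eA_apply (z : (Fin (M + 1) → Fin (N + 1) → ℝ) × (GI P (N + 1) → ℝ)) :
    eA N M P z = ((fun a => z.1 a.succ, z.2), z.1 0) := rfl

lemma mp_eA : MeasurePreserving (eA N M P) ((pm (M + 1) N).prod (gM (GI P (N + 1))))
    (((pm M N).prod (gM (GI P (N + 1)))).prod (gM (Fin (N + 1)))) :=
  mp_eAg M (gM (Fin (N + 1))) (gM (GI P (N + 1)))

variable {f}

/-- the weights with one more pattern -/
lemma wA_succ {W : ℝ → ℝ} {c₀ : ℝ} (hc₀ : 0 < c₀) (hW : ∀ x, W x = Real.exp (f x) / c₀)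
    (z : (Fin (M + 1) → Fin (N + 1) → ℝ) × (GI P (N + 1) → ℝ)) (y : Fin (N + 1) → Bool) :
    wA f N (M + 1) P s u z y =
      wA f N M P s u (eA N M P z).1 y * W (cubeS (z.1 0) y) /
        ∑ y', wA f N M P s u (eA N M P z).1 y' * W (cubeS (z.1 0) y') := by
  rw [eA_apply]
  simp only
  set z' : (Fin M → Fin (N + 1) → ℝ) × (GI P (N + 1) → ℝ) := (fun a => z.1 a.succ, z.2) with hz'
  have hE : ∀ y, EE f s u z.1 z.2 y = EE f s u z'.1 z'.2 y + f (cubeS (z.1 0) y) := by
    intro y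
    unfold EE
    rw [Fin.sum_univ_succ]
    ring
  have hD := den_pos f N M P s u z'
  set D := ∑ y', Real.exp (EE f s u z'.1 z'.2 y') with hDd
  have hexp : ∀ y, Real.exp (EE f s u z.1 z.2 y) =
      (wA f N M P s u z' y * W (cubeS (z.1 0) y)) * (D * c₀) := by
    intro y
    rw [hE, Real.exp_add, hW]
    unfold wA
    rw [← hDd]
    field_simp
  unfold wA at hexp ⊢
  simp_rw [hexp]
  rw [← Finset.sum_mul, mul_div_mul_right _ _ (by positivity)]

/-- Separation of the first pattern. -/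
lemma TV_add {n : ℕ} {Φ : (Fin M → Fin (N + 1) → ℝ) → (Fin n → Fin (N + 1) → Bool) → ℝ}
    {h : ℝ → ℝ} {W : ℝ → ℝ} {c₀ : ℝ} (hc₀ : 0 < c₀) (hW : ∀ x, W x = Real.exp (f x) / c₀) :
    TV f N (M + 1) P s u (n := n)
        (fun t x => Φ (fun a => t a.succ) x * ∏ i, h (cubeS (t 0) (x i))) =
      ∫ z : ((Fin M → Fin (N + 1) → ℝ) × (GI P (N + 1) → ℝ)) × (Fin (N + 1) → ℝ),
        (∑ x : Fin n → Fin (N + 1) → Bool, Φ z.1.1 x *
          ∏ i, (wA f N M P s u z.1 (x i) * (h (cubeS z.2 (x i)) * W (cubeS z.2 (x i))))) /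
          (∑ x, wA f N M P s u z.1 x * W (cubeS z.2 x)) ^ n
        ∂(((pm M N).prod (gM (GI P (N + 1)))).prod (gM (Fin (N + 1)))) := by
  rw [← (mp_eA N M P).integral_comp'
    (g := fun z : ((Fin M → Fin (N + 1) → ℝ) × (GI P (N + 1) → ℝ)) × (Fin (N + 1) → ℝ) =>
        (∑ x : Fin n → Fin (N + 1) → Bool, Φ z.1.1 x *
          ∏ i, (wA f N M P s u z.1 (x i) * (h (cubeS z.2 (x i)) * W (cubeS z.2 (x i))))) /
          (∑ x, wA f N M P s u z.1 x * W (cubeS z.2 x)) ^ n)]
  unfold TV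
  refine integral_congr_ae (Filter.Eventually.of_forall fun z => ?_)
  simp only
  rw [Finset.sum_div]
  refine Finset.sum_congr rfl fun x _ => ?_
  simp only [wA_succ N M P s u hc₀ hW]
  rw [Finset.prod_div_distrib, Finset.prod_const, Finset.card_univ, Fintype.card_fin]
  have e1 : (eA N M P z).1.1 = fun a => z.1 a.succ := rfl
  have e2 : (eA N M P z).2 = z.1 0 := rfl
  rw [e1, e2]
  simp only [Finset.prod_mul_distrib]
  ring

/-- the law of a field -/
lemma law_cubeS (y : Fin (N + 1) → Bool) :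
    (gM (Fin (N + 1))).map (fun g => cubeS g y) = gaussianReal 0 1 := by
  set U : Unit → Fin (N + 1) → ℝ := fun _ i => cubeφ N y i with hU
  set V : Unit → Unit → ℝ := fun _ _ => 1 with hV
  have hG : ∀ a b, gram U U a b = gram V V a b := by
    intro a b
    simp only [gram, hU, hV]
    have := Cube.sum_cubeφ_sq N y
    simp_rw [sq] at this
    rw [this]
    simp
  have h := map_lin_congr hG
  have mU : Measurable fun ξ : Fin (N + 1) → ℝ =>
      (WithLp.toLp 2 (lin U ξ) : EuclideanSpace ℝ Unit) := by unfold lin; fun_prop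
  have mV : Measurable fun ξ : Unit → ℝ =>
      (WithLp.toLp 2 (lin V ξ) : EuclideanSpace ℝ Unit) := by unfold lin; fun_prop
  have mE : Measurable fun z : EuclideanSpace ℝ Unit => z () := by fun_prop
  have h2 := congrArg (fun μ => Measure.map (fun z : EuclideanSpace ℝ Unit => z ()) μ) h
  simp only at h2
  rw [Measure.map_map mE mU, Measure.map_map mE mV] at h2
  have e1 : (fun z : EuclideanSpace ℝ Unit => z ()) ∘
      (fun ξ : Fin (N + 1) → ℝ => (WithLp.toLp 2 (lin U ξ) : EuclideanSpace ℝ Unit)) =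
      fun g => cubeS g y := by
    funext g
    simp only [Function.comp, lin, hU, cubeS]
    exact Finset.sum_congr rfl fun i _ => mul_comm _ _
  have e2 : (fun z : EuclideanSpace ℝ Unit => z ()) ∘
      (fun ξ : Unit → ℝ => (WithLp.toLp 2 (lin V ξ) : EuclideanSpace ℝ Unit)) =
      fun ξ => ξ () := by
    funext g
    simp [Function.comp, lin, hV]
  rw [e1, e2] at h2
  rw [h2]
  exact (measurePreserving_eval (fun _ : Unit => gaussianReal 0 1) ()).map_eq

lemma mpS (b : Fin (M + 1)) (y : Fin (N + 1) → Bool) : MeasurePreserving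
    (fun z : (Fin (M + 1) → Fin (N + 1) → ℝ) × (GI P (N + 1) → ℝ) => cubeS (z.1 b) y)
    ((pm (M + 1) N).prod (gM (GI P (N + 1)))) (gaussianReal 0 1) := by
  have m1 : MeasurePreserving (Prod.fst : (Fin (M + 1) → Fin (N + 1) → ℝ) ×
      (GI P (N + 1) → ℝ) → Fin (M + 1) → Fin (N + 1) → ℝ)
      ((pm (M + 1) N).prod (gM (GI P (N + 1)))) (pm (M + 1) N) := measurePreserving_fst
  have m2 : MeasurePreserving (Function.eval b) (pm (M + 1) N) (gM (Fin (N + 1))) :=
    measurePreserving_eval (fun _ : Fin (M + 1) => gM (Fin (N + 1))) b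
  have m3 : MeasurePreserving (fun g => cubeS g y) (gM (Fin (N + 1))) (gaussianReal 0 1) :=
    ⟨by unfold cubeS; fun_prop, law_cubeS N y⟩
  exact m3.comp (m2.comp m1)

/-- integrability for possibly unbounded functions of one field -/
lemma field_integrable (hf : Measurable f) {g : ℝ → ℝ} (hg : Integrable g (gaussianReal 0 1))
    (b : Fin (M + 1)) (x : Fin 1 → Fin (N + 1) → Bool) : Integrable
      (fun z : (Fin (M + 1) → Fin (N + 1) → ℝ) × (GI P (N + 1) → ℝ) =>
        (∏ i, wA f N (M + 1) P s u z (x i)) * g (cubeS (z.1 b) (x 0)))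
      ((pm (M + 1) N).prod (gM (GI P (N + 1)))) := by
  have h1 : Integrable (fun z : (Fin (M + 1) → Fin (N + 1) → ℝ) × (GI P (N + 1) → ℝ) =>
      g (cubeS (z.1 b) (x 0))) ((pm (M + 1) N).prod (gM (GI P (N + 1)))) :=
    (mpS N M P b (x 0)).integrable_comp_of_integrable hg
  exact h1.bdd_mul (c := 1) (prod_wA_meas f N (M + 1) P s u hf x).aestronglyMeasurable
    (Filter.Eventually.of_forall fun z => by
      rw [Real.norm_eq_abs]; exact prod_wA_abs f N (M + 1) P s u z x)

lemma sum_fin1 {Y : Type} [Fintype Y] (F : Y → ℝ) : ∑ x : Fin 1 → Y, F (x 0) = ∑ y, F y :=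
  Fintype.sum_equiv (Equiv.funUnique (Fin 1) Y) _ _ fun _ => rfl

/-- First moments of one field. -/
lemma TV_field_le (hf : Measurable f) {W : ℝ → ℝ} {c₀ a : ℝ} (hc₀ : 0 < c₀)
    (hW : ∀ x, W x = Real.exp (f x) / c₀) (ha : 0 < a) (hWa : ∀ x, a ≤ W x)
    (hW1 : ∀ x, W x ≤ 1) {g : ℝ → ℝ} (hg0 : ∀ x, 0 ≤ g x)
    (hg : Integrable g (gaussianReal 0 1)) (b : Fin (M + 1)) :
    TV f N (M + 1) P s u (n := 1) (fun t x => g (cubeS (t b) (x 0))) ≤
      1 / a * ∫ z, g z ∂(gaussianReal 0 1) := by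
  rw [TV_exch f N (M + 1) P s u b 0]
  simp only [Equiv.swap_apply_left]
  have h1 : TV f N (M + 1) P s u (n := 1) (fun t x => g (cubeS (t 0) (x 0))) =
      TV f N (M + 1) P s u (n := 1)
        (fun t x => (1 : ℝ) * ∏ i, g (cubeS (t 0) (x i))) := by
    congr 1
    funext t x
    simp
  have h2 := TV_add N M P s u (n := 1) (Φ := fun _ _ => (1 : ℝ)) (h := g) hc₀ hW
  rw [h1.trans h2]
  -- the comparison function
  have hi : ∀ y : Fin (N + 1) → Bool, Integrable
      (fun z : ((Fin M → Fin (N + 1) → ℝ) × (GI P (N + 1) → ℝ)) × (Fin (N + 1) → ℝ) =>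
        wA f N M P s u z.1 y * g (cubeS z.2 y))
      (((pm M N).prod (gM (GI P (N + 1)))).prod (gM (Fin (N + 1)))) := by
    intro y
    refine Integrable.mul_prod (f := fun z => wA f N M P s u z y)
      (g := fun z => g (cubeS z y)) ?_ ?_
    · refine Integrable.mono' (integrable_const 1) (wA_meas f N M P s u hf y).aestronglyMeasurable
        (Filter.Eventually.of_forall fun z => ?_)
      rw [Real.norm_eq_abs, abs_of_nonneg (wA_nonneg f N M P s u z y)]
      exact wA_le_one f N M P s u z y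
    · have m3 : MeasurePreserving (fun g => cubeS g y) (gM (Fin (N + 1))) (gaussianReal 0 1) :=
        ⟨by unfold cubeS; fun_prop, law_cubeS N y⟩
      exact m3.integrable_comp_of_integrable hg
  have hval : ∀ y : Fin (N + 1) → Bool,
      ∫ z : ((Fin M → Fin (N + 1) → ℝ) × (GI P (N + 1) → ℝ)) × (Fin (N + 1) → ℝ),
        wA f N M P s u z.1 y * g (cubeS z.2 y)
        ∂(((pm M N).prod (gM (GI P (N + 1)))).prod (gM (Fin (N + 1)))) =
      (∫ z, wA f N M P s u z y ∂((pm M N).prod (gM (GI P (N + 1))))) *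
        ∫ z, g z ∂(gaussianReal 0 1) := by
    intro y
    rw [integral_prod_mul (fun z => wA f N M P s u z y) (fun z => g (cubeS z y))]
    congr 1
    have hm : Measurable fun g : Fin (N + 1) → ℝ => cubeS g y := by unfold cubeS; fun_prop
    rw [← law_cubeS N y, integral_map hm.aemeasurable
      (by rw [law_cubeS N y]; exact hg.aestronglyMeasurable)]
  have hsum : ∑ y, (∫ z, wA f N M P s u z y ∂((pm M N).prod (gM (GI P (N + 1))))) = 1 := by
    rw [← integral_finsetSum]
    · simp_rw [wA_sum]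
      simp
    · intro y _
      refine Integrable.mono' (integrable_const 1) (wA_meas f N M P s u hf y).aestronglyMeasurable
        (Filter.Eventually.of_forall fun z => ?_)
      rw [Real.norm_eq_abs, abs_of_nonneg (wA_nonneg f N M P s u z y)]
      exact wA_le_one f N M P s u z y
  have hle : ∀ z : ((Fin M → Fin (N + 1) → ℝ) × (GI P (N + 1) → ℝ)) × (Fin (N + 1) → ℝ),
      0 ≤ (∑ x : Fin 1 → Fin (N + 1) → Bool, (1 : ℝ) *
          ∏ i, (wA f N M P s u z.1 (x i) * (g (cubeS z.2 (x i)) * W (cubeS z.2 (x i))))) /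
          (∑ x, wA f N M P s u z.1 x * W (cubeS z.2 x)) ^ 1 ∧
      (∑ x : Fin 1 → Fin (N + 1) → Bool, (1 : ℝ) *
          ∏ i, (wA f N M P s u z.1 (x i) * (g (cubeS z.2 (x i)) * W (cubeS z.2 (x i))))) /
          (∑ x, wA f N M P s u z.1 x * W (cubeS z.2 x)) ^ 1 ≤
      1 / a * ∑ y, wA f N M P s u z.1 y * g (cubeS z.2 y) := by
    intro z
    have e1 : (∑ x : Fin 1 → Fin (N + 1) → Bool, (1 : ℝ) *
          ∏ i, (wA f N M P s u z.1 (x i) * (g (cubeS z.2 (x i)) * W (cubeS z.2 (x i))))) =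
        ∑ y, wA f N M P s u z.1 y * (g (cubeS z.2 y) * W (cubeS z.2 y)) := by
      rw [← sum_fin1 fun y => wA f N M P s u z.1 y * (g (cubeS z.2 y) * W (cubeS z.2 y))]
      simp
    have e2 : a ≤ ∑ x, wA f N M P s u z.1 x * W (cubeS z.2 x) := by
      calc a = ∑ x, wA f N M P s u z.1 x * a := by
            rw [← Finset.sum_mul, wA_sum, one_mul]
        _ ≤ _ := Finset.sum_le_sum fun x _ =>
            mul_le_mul_of_nonneg_left (hWa _) (wA_nonneg f N M P s u z.1 x)
    have e3 : ∑ y, wA f N M P s u z.1 y * (g (cubeS z.2 y) * W (cubeS z.2 y)) ≤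
        ∑ y, wA f N M P s u z.1 y * g (cubeS z.2 y) := by
      refine Finset.sum_le_sum fun y _ => mul_le_mul_of_nonneg_left ?_
        (wA_nonneg f N M P s u z.1 y)
      exact mul_le_of_le_one_right (hg0 _) (hW1 _)
    have e4 : 0 ≤ ∑ y, wA f N M P s u z.1 y * (g (cubeS z.2 y) * W (cubeS z.2 y)) :=
      Finset.sum_nonneg fun y _ => mul_nonneg (wA_nonneg f N M P s u z.1 y)
        (mul_nonneg (hg0 _) (ha.le.trans (hWa _)))
    rw [e1, pow_one]
    have hD : 0 < ∑ x, wA f N M P s u z.1 x * W (cubeS z.2 x) := ha.trans_le e2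
    refine ⟨div_nonneg e4 hD.le, ?_⟩
    calc _ ≤ (∑ y, wA f N M P s u z.1 y * (g (cubeS z.2 y) * W (cubeS z.2 y))) / a :=
          div_le_div_of_nonneg_left e4 ha e2
      _ = 1 / a * ∑ y, wA f N M P s u z.1 y * (g (cubeS z.2 y) * W (cubeS z.2 y)) := by ring
      _ ≤ _ := mul_le_mul_of_nonneg_left e3 (by positivity)
  have hI : Integrable
      (fun z : ((Fin M → Fin (N + 1) → ℝ) × (GI P (N + 1) → ℝ)) × (Fin (N + 1) → ℝ) =>
        1 / a * ∑ y, wA f N M P s u z.1 y * g (cubeS z.2 y))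
      (((pm M N).prod (gM (GI P (N + 1)))).prod (gM (Fin (N + 1)))) :=
    (integrable_finsetSum _ fun y _ => hi y).const_mul _
  refine (integral_mono_of_nonneg (Filter.Eventually.of_forall fun z => (hle z).1) hI
    (Filter.Eventually.of_forall fun z => (hle z).2)).trans (le_of_eq ?_)
  rw [integral_const_mul, integral_finsetSum _ fun y _ => hi y]
  simp_rw [hval]
  rw [← Finset.sum_mul, hsum, one_mul]

end conc

end AddP

section ADD

variable {f : ℝ → ℝ} (hf : Measurable f) (C : ℝ) (hC : ∀ x, |f x| ≤ C) (N M P : ℕ) (s : ℝ)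
  (u : Fin P → ℝ)

lemma AddP.tav_eq {n : ℕ}
    (G : (Fin M → Fin (N + 1) → ℝ) → (Fin n → Fin (N + 1) → Bool) → ℝ) :
    (pS f hf C hC N M P s u).tav (n := n) G = AddP.TV f N M P s u G := by
  have h1 : (pS f hf C hC N M P s u).tav (n := n) G =
      ∫ z : (Fin M → Fin (N + 1) → ℝ) × (GI P (N + 1) → ℝ),
        ∑ x : Fin n → Fin (N + 1) → Bool, (∏ i, (pS f hf C hC N M P s u).w z (x i)) * G z.1 x
        ∂((Cube.pm M N).prod (gM (GI P (N + 1)))) := rfl
  refine h1.trans ?_
  unfold AddP.TV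
  refine integral_congr_ae (Filter.Eventually.of_forall fun z => ?_)
  refine Finset.sum_congr rfl fun x _ => ?_
  refine congrArg (fun t => t * G z.1 x) ?_
  exact Finset.prod_congr rfl fun i _ => Cube.w_eq hf C hC N M s u z (x i)

/-- Exchangeability of the patterns. -/
theorem tav_exch {n : ℕ} (a : Fin M)
    (b : Fin M) (G : (Fin M → Fin (N + 1) → ℝ) → (Fin n → Fin (N + 1) → Bool) → ℝ) :
    (pS f hf C hC N M P s u).tav (n := n) G =
      (pS f hf C hC N M P s u).tav (n := n) (fun t x => G (fun c => t (Equiv.swap a b c)) x) :=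
  (AddP.tav_eq hf C hC N M P s u G).trans ((AddP.TV_exch f N M P s u a b G).trans
    (AddP.tav_eq hf C hC N M P s u fun t x => G (fun c => t (Equiv.swap a b c)) x).symm)

/-- A sum over the patterns. -/
theorem tav_sum_patterns {n : ℕ} {F : (Fin (N + 1) → ℝ) → (Fin n → Fin (N + 1) → Bool) → ℝ}
    (hFm : ∀ x, Measurable fun g => F g x) {B : ℝ} (hFB : ∀ g x, |F g x| ≤ B)
    {G : (Fin (M + 1) → Fin (N + 1) → ℝ) → (Fin n → Fin (N + 1) → Bool) → ℝ}
    (hGm : ∀ x, Measurable fun t => G t x) {D : ℝ} (hGD : ∀ t x, |G t x| ≤ D)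
    (hG : ∀ (a b : Fin (M + 1)) t x, G (fun c => t (Equiv.swap a b c)) x = G t x) :
    (pS f hf C hC N (M + 1) P s u).tav (n := n) (fun t x => (∑ a, F (t a) x) * G t x) =
      (M + 1) * (pS f hf C hC N (M + 1) P s u).tav (n := n) (fun t x => F (t 0) x * G t x) :=
  (AddP.tav_eq hf C hC N (M + 1) P s u fun t x => (∑ a, F (t a) x) * G t x).trans
    ((AddP.TV_sum_patterns f N M P s u hf hFm hFB hGm hGD hG).trans
      (congrArg (fun r => ((M : ℝ) + 1) * r)
        (AddP.tav_eq hf C hC N (M + 1) P s u fun t x => F (t 0) x * G t x).symm))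

/-- Separation of the first pattern. -/
theorem tav_add {n : ℕ} {Φ : (Fin M → Fin (N + 1) → ℝ) → (Fin n → Fin (N + 1) → Bool) → ℝ}
    (_hΦm : ∀ x, Measurable fun t => Φ t x) {h : ℝ → ℝ} (_hh : Measurable h)
    {W : ℝ → ℝ} {c₀ : ℝ} (hc₀ : 0 < c₀) (hW : ∀ x, W x = Real.exp (f x) / c₀) :
    (pS f hf C hC N (M + 1) P s u).tav (n := n)
        (fun t x => Φ (fun a => t a.succ) x * ∏ i, h (cubeS (t 0) (x i))) =
      ∫ z : ((Fin M → Fin (N + 1) → ℝ) × (GI P (N + 1) → ℝ)) × (Fin (N + 1) → ℝ),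
        (∑ x : Fin n → Fin (N + 1) → Bool, Φ z.1.1 x *
          ∏ i, ((pS f hf C hC N M P s u).w z.1 (x i) *
            (h (lin (fun y j => cubeφ N y j) z.2 (x i)) *
              W (lin (fun y j => cubeφ N y j) z.2 (x i))))) /
          (∑ x, (pS f hf C hC N M P s u).w z.1 x * W (lin (fun y j => cubeφ N y j) z.2 x)) ^ n
        ∂((pS f hf C hC N M P s u).P.prod (gM (Fin (N + 1)))) := by
  refine (AddP.tav_eq hf C hC N (M + 1) P s u _).trans
    ((AddP.TV_add N M P s u (Φ := Φ) (h := h) hc₀ hW).trans ?_)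
  change ∫ z : ((Fin M → Fin (N + 1) → ℝ) × (GI P (N + 1) → ℝ)) × (Fin (N + 1) → ℝ), _
    ∂(((Cube.pm M N).prod (gM (GI P (N + 1)))).prod (gM (Fin (N + 1)))) =
    ∫ z : ((Fin M → Fin (N + 1) → ℝ) × (GI P (N + 1) → ℝ)) × (Fin (N + 1) → ℝ),
        (∑ x : Fin n → Fin (N + 1) → Bool, Φ z.1.1 x *
          ∏ i, ((pS f hf C hC N M P s u).w z.1 (x i) *
            (h (lin (fun y j => cubeφ N y j) z.2 (x i)) *
              W (lin (fun y j => cubeφ N y j) z.2 (x i))))) /
          (∑ x : Fin (N + 1) → Bool, (pS f hf C hC N M P s u).w z.1 x *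
            W (lin (fun y j => cubeφ N y j) z.2 x)) ^ n
    ∂(((Cube.pm M N).prod (gM (GI P (N + 1)))).prod (gM (Fin (N + 1))))
  refine integral_congr_ae (Filter.Eventually.of_forall fun z => ?_)
  have hw : ∀ y, (pS f hf C hC N M P s u).w z.1 y = AddP.wA f N M P s u z.1 y :=
    fun y => Cube.w_eq hf C hC N M s u z.1 y
  simp only [Cube.cubeS_eq_lin]
  refine congrArg₂ (fun p q : ℝ => p / q ^ n) ?_ ?_
  · refine Finset.sum_congr rfl fun x _ => congrArg (fun t => Φ z.1.1 x * t) ?_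
    refine Finset.prod_congr rfl fun i _ => ?_
    rw [← hw (x i)]
  · refine Finset.sum_congr rfl fun x _ => ?_
    rw [← hw x]

/-- First moments of one field, possibly unbounded. -/
theorem tav_field_le {W : ℝ → ℝ} {c₀ a : ℝ} (hc₀ : 0 < c₀)
    (hW : ∀ x, W x = Real.exp (f x) / c₀) (ha : 0 < a) (hWa : ∀ x, a ≤ W x)
    (hW1 : ∀ x, W x ≤ 1) {g : ℝ → ℝ} (hg0 : ∀ x, 0 ≤ g x)
    (hg : Integrable g (gaussianReal 0 1)) (_hgm : Measurable g) (b : Fin (M + 1)) :
    (∀ x : Fin 1 → Fin (N + 1) → Bool, Integrable (fun ω : (Fin (M + 1) → Fin (N + 1) → ℝ) ×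
        (GI P (N + 1) → ℝ) => (∏ i, (pS f hf C hC N (M + 1) P s u).w ω (x i)) *
          g (cubeS (ω.1 b) (x 0))) (pS f hf C hC N (M + 1) P s u).P) ∧
    (pS f hf C hC N (M + 1) P s u).tav (n := 1) (fun t x => g (cubeS (t b) (x 0))) ≤
      1 / a * ∫ z, g z ∂(gaussianReal 0 1) := by
  constructor
  · intro x
    have h1 := AddP.field_integrable N M P s u hf hg b x
    have h2 : (fun ω : (Fin (M + 1) → Fin (N + 1) → ℝ) ×
        (GI P (N + 1) → ℝ) => (∏ i, (pS f hf C hC N (M + 1) P s u).w ω (x i)) *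
          g (cubeS (ω.1 b) (x 0))) = fun z => (∏ i, AddP.wA f N (M + 1) P s u z (x i)) *
          g (cubeS (z.1 b) (x 0)) := by
      funext z
      refine congrArg (fun t => t * g (cubeS (z.1 b) (x 0))) ?_
      exact Finset.prod_congr rfl fun i _ => Cube.w_eq hf C hC N (M + 1) s u z (x i)
    rw [h2]
    exact h1
  · exact (AddP.tav_eq hf C hC N (M + 1) P s u _).trans_le
      (AddP.TV_field_le N M P s u hf hc₀ hW ha hWa hW1 hg0 hg b)

end ADD

end Vale.Agent.P157.Par
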