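import Vale.Agent.P157.ParGram

open MeasureTheory ProbabilityTheory Filter Topology Finset

namespace Vale.Agent.P157.Par

set_option linter.unusedSectionVars false

open Vale.Agent.P367.GT (gM stein_pi)

/-- Matrices of levels. -/
abbrev LM (k : ℕ) (J : Type) := J → J → Fin (k + 1)

/-- Ultrametric matrices of levels. -/
structure Ultra {k : ℕ} {J : Type} (L : LM k J) : Prop where
  symm : ∀ a b, L a b = L b a
  diag : ∀ a, L a a = Fin.last k
  tri : ∀ a b c, min (L a b) (L b c) ≤ L a c

lemma Ultra.comp {k : ℕ} {J J' : Type} {L : LM k J} (hL : Ultra L) (e : J' → J) :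
    Ultra fun a b => L (e a) (e b) :=
  ⟨fun _ _ => hL.symm _ _, fun _ => hL.diag _, fun _ _ _ => hL.tri _ _ _⟩

section Clusters

variable {k : ℕ} {J : Type}

/-- The cluster of `a` at the level `l`. -/
def cl (L : LM k J) (l : Fin (k + 1)) (a : J) : J → Bool := fun b => decide (l ≤ L a b)

lemma cl_eq_iff {L : LM k J} (hL : Ultra L) (l : Fin (k + 1)) (a b : J) :
    cl L l a = cl L l b ↔ l ≤ L a b := by
  constructor
  · intro h
    have h1 := congrFun h b
    simp only [cl, decide_eq_decide] at h1
    exact h1.2 (by rw [hL.diag]; exact Fin.le_last _)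
  · intro h
    funext x
    simp only [cl, decide_eq_decide]
    constructor
    · intro h1
      exact (le_min (by rw [hL.symm]; exact h) h1).trans (hL.tri b a x)
    · intro h1
      exact (le_min h h1).trans (hL.tri a b x)

variable [Fintype J] [DecidableEq J]

/-- Coefficients of the tree-indexed Gaussian family with increments of variance `c l`. -/
noncomputable def UL (c : Fin (k + 1) → ℝ) (L : LM k J) : J → Fin (k + 1) × (J → Bool) → ℝ :=
  fun a p => if p.2 = cl L p.1 a then √(c p.1) else 0

lemma gram_UL {c : Fin (k + 1) → ℝ} (hc : ∀ l, 0 ≤ c l) {L : LM k J} (hL : Ultra L) (a b : J) :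
    gram (UL c L) (UL c L) a b = ∑ l, if l ≤ L a b then c l else 0 := by
  unfold gram
  rw [Fintype.sum_prod_type]
  apply Finset.sum_congr rfl
  intro l _
  have h1 : ∀ s : J → Bool, UL c L a (l, s) * UL c L b (l, s) =
      if s = cl L l a then (if cl L l a = cl L l b then c l else 0) else 0 := by
    intro s
    simp only [UL]
    by_cases h : s = cl L l a
    · subst h
      by_cases h' : cl L l a = cl L l b
      · simp [h', Real.mul_self_sqrt (hc l)]
      · simp [h']
    · simp [h]
  simp_rw [h1]
  rw [Finset.sum_ite_eq' Finset.univ (cl L l a)]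
  simp only [Finset.mem_univ, if_true]
  simp only [cl_eq_iff hL]

end Clusters

/-- A (signed) functional on level matrices indexed by `δ ⊕ ι`, exchangeable in the index `ι`,
carried by the ultrametric matrices and satisfying the Ghirlanda-Guerra identities with the
weights `w`. -/
structure Arr (k : ℕ) (w : Fin (k + 1) → ℝ) (δ : Type) [Fintype δ] where
  E : (ι : Type) → [Fintype ι] → (LM k (δ ⊕ ι) → ℝ) →ₗ[ℝ] ℝ
  C : ℝ
  bound : ∀ (ι : Type) [Fintype ι] (A : LM k (δ ⊕ ι) → ℝ) (a : ℝ), (∀ L, |A L| ≤ a) →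
    |E ι A| ≤ C * a
  supp : ∀ (ι : Type) [Fintype ι] (A : LM k (δ ⊕ ι) → ℝ), (∀ L, Ultra L → A L = 0) → E ι A = 0
  reindex : ∀ (ι ι' : Type) [Fintype ι] [Fintype ι'] (e : ι ≃ ι') (A : LM k (δ ⊕ ι') → ℝ),
    E ι (fun L => A fun a b => L (Sum.map id e.symm a) (Sum.map id e.symm b)) = E ι' A
  gg : ∀ (ι : Type) [Fintype ι] (A : LM k (δ ⊕ ι) → ℝ) (i : δ ⊕ ι) (l : Fin (k + 1)),
    ((Fintype.card δ : ℝ) + Fintype.card ι) * E (Option ι) (fun L =>
      A (fun a b => L (Sum.map id some a) (Sum.map id some b)) *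
        if L (Sum.map id some i) (Sum.inr none) = l then 1 else 0) =
      w l * E ι A + (∑ j, E ι (fun L => A L * if L i j = l then 1 else 0) -
        E ι (fun L => A L * if L i i = l then 1 else 0))

namespace Arr

variable {k : ℕ} {w : Fin (k + 1) → ℝ} {δ : Type} [Fintype δ]

lemma congr_ultra (𝓐 : Arr k w δ) {ι : Type} [Fintype ι] {A B : LM k (δ ⊕ ι) → ℝ}
    (h : ∀ L, Ultra L → A L = B L) : 𝓐.E ι A = 𝓐.E ι B := by
  have h1 := 𝓐.supp ι (A - B) fun L hL => by simp [h L hL]
  rw [map_sub] at h1
  linarith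

lemma bound_ultra (𝓐 : Arr k w δ) {ι : Type} [Fintype ι] {A : LM k (δ ⊕ ι) → ℝ} {a : ℝ}
    (ha : 0 ≤ a) (h : ∀ L, Ultra L → |A L| ≤ a) : |𝓐.E ι A| ≤ 𝓐.C * a := by
  classical
  rw [𝓐.congr_ultra (B := fun L => if Ultra L then A L else 0) (fun L hL => by simp [hL])]
  apply 𝓐.bound
  intro L
  split_ifs with hL
  · exact h L hL
  · simpa using ha

/-- The weight of the levels at least `l`. -/
noncomputable def up (w : Fin (k + 1) → ℝ) (l : Fin (k + 1)) : ℝ := ∑ l', if l ≤ l' then w l' else 0

lemma indicator_sum (l : Fin (k + 1)) (x : Fin (k + 1)) :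
    (if l ≤ x then (1 : ℝ) else 0) = ∑ l', if l ≤ l' then (if x = l' then 1 else 0) else 0 := by
  have h1 : ∀ l', (if l ≤ l' then (if x = l' then (1 : ℝ) else 0) else 0) =
      if x = l' then (if l ≤ x then 1 else 0) else 0 := by
    intro l'
    by_cases h : x = l'
    · subst h; simp
    · simp [h]
  simp_rw [h1]
  rw [Finset.sum_ite_eq Finset.univ x]
  simp

/-- The Ghirlanda-Guerra identity for the event of being linked at the level `l`. -/
lemma gg_link (𝓐 : Arr k w δ) (ι : Type) [Fintype ι] (A : LM k (δ ⊕ ι) → ℝ) (i : δ ⊕ ι)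
    (l : Fin (k + 1)) :
    ((Fintype.card δ : ℝ) + Fintype.card ι) * 𝓐.E (Option ι) (fun L =>
      A (fun a b => L (Sum.map id some a) (Sum.map id some b)) *
        if l ≤ L (Sum.map id some i) (Sum.inr none) then 1 else 0) =
      up w l * 𝓐.E ι A +
        (∑ j, 𝓐.E ι (fun L => A L * if l ≤ L i j then 1 else 0) - 𝓐.E ι A) := by
  have e1 : ∀ (ι' : Type) [Fintype ι'] (B : LM k (δ ⊕ ι') → ℝ) (a b : δ ⊕ ι'),
      𝓐.E ι' (fun L => B L * if l ≤ L a b then 1 else 0) =
      ∑ l', if l ≤ l' then 𝓐.E ι' (fun L => B L * if L a b = l' then 1 else 0) else 0 := by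
    intro ι' _ B a b
    have h1 : (fun L : LM k (δ ⊕ ι') => B L * if l ≤ L a b then (1 : ℝ) else 0) =
        ∑ l', if l ≤ l' then (fun L => B L * if L a b = l' then (1 : ℝ) else 0) else 0 := by
      funext L
      rw [indicator_sum, Finset.mul_sum, Finset.sum_apply]
      apply Finset.sum_congr rfl
      intro l' _
      by_cases h : l ≤ l' <;> simp [h]
    rw [h1, map_sum]
    apply Finset.sum_congr rfl
    intro l' _
    by_cases h : l ≤ l' <;> simp [h]
  have e2 : 𝓐.E ι A = 𝓐.E ι (fun L => A L * if l ≤ L i i then 1 else 0) :=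
    𝓐.congr_ultra fun L hL => by rw [hL.diag, if_pos (Fin.le_last _), mul_one]
  rw [e1 (Option ι) (fun L => A fun a b => L (Sum.map id some a) (Sum.map id some b)),
    Finset.mul_sum]
  have e3 : ∀ l', ((Fintype.card δ : ℝ) + Fintype.card ι) *
      (if l ≤ l' then 𝓐.E (Option ι) (fun L =>
        A (fun a b => L (Sum.map id some a) (Sum.map id some b)) *
        if L (Sum.map id some i) (Sum.inr none) = l' then 1 else 0) else 0) =
      (if l ≤ l' then w l' else 0) * 𝓐.E ι A +
        (∑ j, (if l ≤ l' then 𝓐.E ι (fun L => A L * if L i j = l' then 1 else 0) else 0) -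
        (if l ≤ l' then 𝓐.E ι (fun L => A L * if L i i = l' then 1 else 0) else 0)) := by
    intro l'
    split_ifs with h
    · exact 𝓐.gg ι A i l'
    · simp
  simp_rw [e3]
  rw [Finset.sum_add_distrib, ← Finset.sum_mul, Finset.sum_sub_distrib, Finset.sum_comm]
  congr 1
  congr 1
  · apply Finset.sum_congr rfl
    intro j _
    rw [e1]
  · rw [e2, e1]

/-- One of the exchangeable indices becomes special. -/
def tr {δ ι : Type} : Option δ ⊕ ι → δ ⊕ Option ι
  | Sum.inl none => Sum.inr none
  | Sum.inl (some i) => Sum.inl i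
  | Sum.inr j => Sum.inr (some j)

/-- The inverse of `tr`. -/
def tr' {δ ι : Type} : δ ⊕ Option ι → Option δ ⊕ ι
  | Sum.inr none => Sum.inl none
  | Sum.inl i => Sum.inl (some i)
  | Sum.inr (some j) => Sum.inr j

/-- `tr` as an equivalence. -/
def trE {δ ι : Type} : Option δ ⊕ ι ≃ δ ⊕ Option ι where
  toFun := tr
  invFun := tr'
  left_inv := by rintro ((_ | i) | j) <;> rfl
  right_inv := by rintro (i | (_ | j)) <;> rfl

/-- Exchange of the two added points. -/
def swapOO {ι : Type} : Option (Option ι) ≃ Option (Option ι) where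
  toFun := fun x => match x with
    | none => some none
    | some none => none
    | some (some j) => some (some j)
  invFun := fun x => match x with
    | none => some none
    | some none => none
    | some (some j) => some (some j)
  left_inv := by rintro (_ | _ | j) <;> rfl
  right_inv := by rintro (_ | _ | j) <;> rfl

lemma funLeft_eq {m n : Type} (f : n → m) (g : m → ℝ) :
    LinearMap.funLeft ℝ ℝ f g = fun i => g (f i) := rfl

/-- The functional with one more special index. -/
noncomputable def mark (𝓐 : Arr k w δ) : Arr k w (Option δ) where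
  E := fun ι _ => (𝓐.E (Option ι)).comp
    (LinearMap.funLeft ℝ ℝ fun (L : LM k (δ ⊕ Option ι)) a b => L (tr a) (tr b))
  C := 𝓐.C
  bound := by
    intro ι _ A a h
    exact 𝓐.bound (Option ι) _ a fun L => h _
  supp := by
    intro ι _ A h
    exact 𝓐.supp (Option ι) _ fun L hL => h _ (hL.comp _)
  reindex := by
    intro ι ι' _ _ e A
    simp only [LinearMap.comp_apply]
    have h := 𝓐.reindex (Option ι) (Option ι') (Equiv.optionCongr e)
      (fun L => A fun a b => L (tr a) (tr b))
    rw [funLeft_eq, funLeft_eq]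
    rw [← h]
    congr 1
    funext L
    congr 1
    funext a b
    rcases a with (_ | a) | a <;> rcases b with (_ | b) | b <;> rfl
  gg := by
    intro ι _ A i l
    simp only [LinearMap.comp_apply, funLeft_eq]
    have h := 𝓐.gg (Option ι) (fun L => A fun a b => L (tr a) (tr b)) (tr i) l
    have hre := 𝓐.reindex (Option (Option ι)) (Option (Option ι)) swapOO
      (fun L => (A fun a b => L (Sum.map id some (tr a)) (Sum.map id some (tr b))) *
        if L (Sum.map id some (tr i)) (Sum.inr none) = l then 1 else 0)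
    rw [← hre] at h
    have h1 : ((Fintype.card (Option δ) : ℝ) + Fintype.card ι) =
        (Fintype.card δ : ℝ) + Fintype.card (Option ι) := by
      rw [Fintype.card_option, Fintype.card_option]
      push_cast
      ring
    rw [h1]
    have h2 : ∀ B : δ ⊕ Option ι → ℝ, ∑ j, B j = ∑ j : Option δ ⊕ ι, B (tr j) := fun B =>
      ((trE (δ := δ) (ι := ι)).sum_comp B).symm
    rw [h2] at h
    have h3 : ∀ x : Option δ ⊕ ι, (Sum.map id swapOO.symm (Sum.map id some (tr x)) :
        δ ⊕ Option (Option ι)) = tr (Sum.map id some x) := by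
      rintro ((_ | x) | x) <;> rfl
    have h4 : (Sum.map id swapOO.symm (Sum.inr none) : δ ⊕ Option (Option ι)) =
        tr (Sum.inr none) := rfl
    simp only [h3, h4] at h
    exact h

end Arr

end Vale.Agent.P157.Par
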