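import Vale.Agent.P157.ParArr

open MeasureTheory ProbabilityTheory Filter Topology Finset

namespace Vale.Agent.P157.Par

set_option linter.unusedSectionVars false

open Vale.Agent.P367.GT (gM stein_pi)

section

variable {k : ℕ} {J J' : Type} [Fintype J] [DecidableEq J] [Fintype J'] [DecidableEq J']

lemma gE_UL_comp {c : Fin (k + 1) → ℝ} (hc : ∀ l, 0 ≤ c l) {L : LM k J} (hL : Ultra L)
    (e : J' → J) {f : J' → ℝ → ℝ} (hf : ∀ a, Measurable (f a)) :
    gE (UL c fun a b => L (e a) (e b)) f = gE (fun a => UL c L (e a)) f := by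
  apply gE_congr_gram _ hf
  intro a b
  rw [gram_UL hc (hL.comp e)]
  exact (gram_UL hc hL (e a) (e b)).symm

lemma gE_UL_equiv {c : Fin (k + 1) → ℝ} (hc : ∀ l, 0 ≤ c l) {L : LM k J} (hL : Ultra L)
    (e : J' ≃ J) {f : J → ℝ → ℝ} (hf : ∀ a, Measurable (f a)) :
    gE (UL c fun a b => L (e a) (e b)) (fun a => f (e a)) = gE (UL c L) f := by
  rw [gE_UL_comp hc hL e fun a => hf (e a), gE_reindex_left (UL c L) e f]

end

/-- The functions of the special indices and of the other indices. -/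
def fam {δ ι : Type} (A : δ → ℝ → ℝ) (v : ℝ → ℝ) : δ ⊕ ι → ℝ → ℝ := Sum.elim A fun _ => v

/-- The functions of the special indices and of the new special index. -/
def ext {δ : Type} (g : ℝ → ℝ) (A : δ → ℝ → ℝ) : Option δ → ℝ → ℝ := fun o => o.elim g A

namespace Arr

variable {k : ℕ} {w : Fin (k + 1) → ℝ} {δ : Type} [Fintype δ] [DecidableEq δ]

/-- Restriction to the special indices. -/
def res {ι : Type} (L : LM k (δ ⊕ ι)) : LM k δ := fun i j => L (Sum.inl i) (Sum.inl j)

/-- The functional applied to a product of Gaussian functions. -/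
noncomputable def T (𝓐 : Arr k w δ) (c : Fin (k + 1) → ℝ) (χ : LM k δ → ℝ) (A : δ → ℝ → ℝ)
    (v : ℝ → ℝ) (ι : Type) [Fintype ι] [DecidableEq ι] : ℝ :=
  𝓐.E ι fun L => χ (res L) * gE (UL c L) (fam A v)

lemma measurable_fam {ι : Type} {A : δ → ℝ → ℝ} {v : ℝ → ℝ} (hA : ∀ i, Measurable (A i))
    (hv : Measurable v) : ∀ a : δ ⊕ ι, Measurable (fam A v a) := by
  rintro (i | j)
  · exact hA i
  · exact hv

lemma T_card (𝓐 : Arr k w δ) {c : Fin (k + 1) → ℝ} (hc : ∀ l, 0 ≤ c l) (χ : LM k δ → ℝ)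
    {A : δ → ℝ → ℝ} {v : ℝ → ℝ} (hA : ∀ i, Measurable (A i)) (hv : Measurable v)
    {ι ι' : Type} [Fintype ι] [DecidableEq ι] [Fintype ι'] [DecidableEq ι'] (e : ι ≃ ι') :
    𝓐.T c χ A v ι = 𝓐.T c χ A v ι' := by
  unfold T
  rw [← 𝓐.reindex ι ι' e]
  apply 𝓐.congr_ultra
  intro L hL
  congr 1
  have h := gE_UL_equiv hc hL (Equiv.sumCongr (Equiv.refl δ) e.symm)
    (f := fam A v) (measurable_fam hA hv)
  rw [← h]
  have h1 : ∀ x : δ ⊕ ι', (Equiv.sumCongr (Equiv.refl δ) e.symm) x = Sum.map id e.symm x := by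
    rintro (i | j) <;> rfl
  have h2 : (fun a => (fam A v : δ ⊕ ι → ℝ → ℝ) ((Equiv.sumCongr (Equiv.refl δ) e.symm) a)) =
      fam A v := by
    funext x
    rcases x with i | j <;> rfl
  rw [h2]
  simp only [h1]

lemma T_bound (𝓐 : Arr k w δ) {c : Fin (k + 1) → ℝ} {χ : LM k δ → ℝ} {X : ℝ}
    (hχ : ∀ L, |χ L| ≤ X) {A : δ → ℝ → ℝ} {v : ℝ → ℝ} {B : δ → ℝ} (hA : ∀ i x, |A i x| ≤ B i)
    {a : ℝ} (hv : ∀ x, |v x| ≤ a) (ι : Type) [Fintype ι] [DecidableEq ι] :
    |𝓐.T c χ A v ι| ≤ 𝓐.C * (X * ((∏ i, B i) * a ^ Fintype.card ι)) := by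
  unfold T
  apply 𝓐.bound
  intro L
  rw [abs_mul]
  have h1 : |gE (UL c L) (fam A v)| ≤ (∏ i, B i) * a ^ Fintype.card ι := by
    have h2 := abs_gE_le (U := UL c L) (f := fam A v) (C := Sum.elim B fun _ : ι => a) (by
      rintro (i | j) x
      · exact hA i x
      · exact hv x)
    rw [Fintype.prod_sum_type] at h2
    simpa using h2
  exact mul_le_mul (hχ _) h1 (abs_nonneg _) ((abs_nonneg _).trans (hχ fun _ _ => 0))

/-- The functional with a marked index in terms of the original one. -/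
lemma T_mark (𝓐 : Arr k w δ) {c : Fin (k + 1) → ℝ} (hc : ∀ l, 0 ≤ c l)
    (χ : LM k (Option δ) → ℝ) {A : Option δ → ℝ → ℝ} {v : ℝ → ℝ}
    (hA : ∀ i, Measurable (A i)) (hv : Measurable v)
    (ι : Type) [Fintype ι] [DecidableEq ι] :
    𝓐.mark.T c χ A v ι = 𝓐.E (Option ι) fun L =>
      χ (fun i j => L (tr (Sum.inl i)) (tr (Sum.inl j))) *
        gE (UL c L) (fun x => fam A v (tr' x)) := by
  unfold T mark
  simp only [LinearMap.comp_apply, funLeft_eq]
  apply 𝓐.congr_ultra
  intro L hL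
  congr 1
  have h := gE_UL_equiv hc hL (trE (δ := δ) (ι := ι))
    (f := fun x => fam A v (tr' x)) (fun x => measurable_fam hA hv _)
  rw [← h]
  congr 1
  funext x
  rcases x with (_ | x) | x <;> rfl

lemma gE_one_new {c : Fin (k + 1) → ℝ} (hc : ∀ l, 0 ≤ c l) {ι : Type} [Fintype ι]
    [DecidableEq ι] {L : LM k (δ ⊕ Option ι)} (hL : Ultra L) {A : δ → ℝ → ℝ} {v : ℝ → ℝ}
    (hA : ∀ i, Measurable (A i)) (hv : Measurable v) :
    gE (UL c L) (fun x => fam (ext (fun _ => 1) A) v (tr' x)) =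
      gE (UL c fun a b => L (Sum.map id some a) (Sum.map id some b)) (fam A v) := by
  rw [gE_UL_comp hc hL (Sum.map id some) (measurable_fam hA hv)]
  unfold gE
  congr 1
  funext ξ
  rw [Fintype.prod_sum_type, Fintype.prod_sum_type, Fintype.prod_option]
  simp only [fam, ext, tr', Sum.elim_inl, Sum.elim_inr, Option.elim, one_mul]
  rfl

/-- On the event that two indices are linked at a level above which the increments vanish, the
two Gaussian variables are equal. -/
lemma UL_eq_of_link {J : Type} [Fintype J] [DecidableEq J] {c : Fin (k + 1) → ℝ}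
    {l : Fin (k + 1)} (hcl : ∀ l', l < l' → c l' = 0) {L : LM k J} (hL : Ultra L) {a b : J}
    (hab : l ≤ L a b) : UL c L a = UL c L b := by
  funext p
  unfold UL
  rcases lt_or_ge l p.1 with h | h
  · simp [hcl p.1 h]
  · rw [(cl_eq_iff hL p.1 a b).2 (h.trans hab)]

lemma gE_move {J : Type} [Fintype J] [DecidableEq J] {K : Type} [Fintype K] [DecidableEq K]
    {U : J → K → ℝ} {a b : J} (hab : a ≠ b)
    (hU : U a = U b) (f : J → ℝ → ℝ) (g : ℝ → ℝ) :
    gE U (Function.update f b g) =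
      gE U (Function.update (Function.update f a fun x => f a x * g x) b fun _ => 1) := by
  unfold gE
  congr 1
  funext ξ
  have h1 : lin U ξ a = lin U ξ b := by unfold lin; rw [hU]
  rw [prod_update, prod_update, ← Finset.mul_prod_erase (univ.erase b) _
    (Finset.mem_erase.2 ⟨hab, Finset.mem_univ a⟩), ← Finset.mul_prod_erase (univ.erase b)
    (fun x => Function.update f a (fun x => f a x * g x) x (lin U ξ x))
    (Finset.mem_erase.2 ⟨hab, Finset.mem_univ a⟩)]
  rw [Function.update_self, h1]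
  have h2 : ∏ x ∈ (univ.erase b).erase a, Function.update f a (fun x => f a x * g x) x
      (lin U ξ x) = ∏ x ∈ (univ.erase b).erase a, f x (lin U ξ x) := by
    apply Finset.prod_congr rfl
    intro x hx
    rw [Function.update_of_ne (Finset.ne_of_mem_erase hx)]
  rw [h2]
  ring

/-- A function of the special indices, seen as a function of one more special index. -/
def lift (χ : LM k δ → ℝ) : LM k (Option δ) → ℝ := fun L => χ fun i j => L (some i) (some j)

/-- The indicator of the event that `i` and `j` are linked at the level `l`. -/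
noncomputable def lk (l : Fin (k + 1)) (i j : δ) : LM k δ → ℝ := fun L => if l ≤ L i j then 1 else 0

lemma T_gg (𝓐 : Arr k w δ) {c : Fin (k + 1) → ℝ} (hc : ∀ l, 0 ≤ c l) (χ : LM k δ → ℝ)
    {A : δ → ℝ → ℝ} {v : ℝ → ℝ} (hA : ∀ i, Measurable (A i)) (hv : Measurable v)
    (l : Fin (k + 1)) (i : δ) (ι : Type) [Fintype ι] [DecidableEq ι] :
    ((Fintype.card δ : ℝ) + Fintype.card ι) *
      𝓐.mark.T c (fun L => lift χ L * lk l (some i) none L) (ext (fun _ => 1) A) v ι =
      up w l * 𝓐.T c χ A v ι + ((∑ j, 𝓐.T c (fun L => χ L * lk l i j L) A v ι +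
        ∑ j : ι, 𝓐.E ι (fun L => χ (res L) * gE (UL c L) (fam A v) *
          if l ≤ L (Sum.inl i) (Sum.inr j) then 1 else 0)) - 𝓐.T c χ A v ι) := by
  have h := 𝓐.gg_link ι (fun L => χ (res L) * gE (UL c L) (fam A v)) (Sum.inl i) l
  rw [Fintype.sum_sum_type] at h
  have e1 : 𝓐.mark.T c (fun L => lift χ L * lk l (some i) none L) (ext (fun _ => 1) A) v ι =
      𝓐.E (Option ι) (fun L =>
        (fun L : LM k (δ ⊕ ι) => χ (res L) * gE (UL c L) (fam A v))
          (fun a b => L (Sum.map id some a) (Sum.map id some b)) *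
        if l ≤ L (Sum.map id some (Sum.inl i)) (Sum.inr none) then 1 else 0) := by
    rw [T_mark 𝓐 hc _ (by
      rintro (_ | i)
      · exact measurable_const
      · exact hA i) hv]
    apply 𝓐.congr_ultra
    intro L hL
    rw [gE_one_new hc hL hA hv]
    simp only [lift, lk, tr, Sum.map_inl, id_eq]
    rw [mul_right_comm]
    rfl
  rw [e1, h]
  congr 2
  congr 1
  apply Finset.sum_congr rfl
  intro j _
  unfold T
  congr 1
  funext L
  rw [mul_right_comm]
  rfl

/-- Marking one of the other indices. -/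
lemma E_mark (𝓐 : Arr k w δ) {c : Fin (k + 1) → ℝ} (hc : ∀ l, 0 ≤ c l)
    (χ : LM k (Option δ) → ℝ) {A : δ → ℝ → ℝ} {g v : ℝ → ℝ} (hA : ∀ i, Measurable (A i))
    (hg : Measurable g) (hv : Measurable v) (n : ℕ) (j : Fin (n + 1)) :
    𝓐.E (Fin (n + 1)) (fun L =>
      χ (fun a b => L (a.elim (Sum.inr j) Sum.inl) (b.elim (Sum.inr j) Sum.inl)) *
        gE (UL c L) (Function.update (fam A v) (Sum.inr j) g)) =
      𝓐.mark.T c χ (ext g A) v (Fin n) := by
  rw [T_mark 𝓐 hc _ (by
      rintro (_ | i)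
      · exact hg
      · exact hA i) hv]
  rw [← 𝓐.reindex (Fin (n + 1)) (Option (Fin n)) (finSuccEquiv' j)]
  apply 𝓐.congr_ultra
  intro L hL
  have hF : ∀ x : δ ⊕ Option (Fin n), Measurable (fam (ext g A) v (tr' x)) := by
    rintro (i | (_ | j))
    · exact hA i
    · exact hg
    · exact hv
  have h := gE_UL_equiv hc hL (Equiv.sumCongr (Equiv.refl δ) (finSuccEquiv' j).symm)
    (f := fun y => fam (ext g A) v
      (tr' ((Equiv.sumCongr (Equiv.refl δ) (finSuccEquiv' j)) y))) (fun y => hF _)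
  have h1 : ∀ x : δ ⊕ Option (Fin n), (Equiv.sumCongr (Equiv.refl δ) (finSuccEquiv' j).symm) x =
      Sum.map id (finSuccEquiv' j).symm x := by
    rintro (i | j) <;> rfl
  congr 1
  · congr 1
    funext a b
    have h2 : ∀ a : Option δ, (a.elim (Sum.inr j) Sum.inl : δ ⊕ Fin (n + 1)) =
        Sum.map id (finSuccEquiv' j).symm (tr (Sum.inl a)) := by
      rintro (_ | a)
      · simp [tr]
      · simp [tr]
    rw [h2 a, h2 b]
  · have h3 : (Function.update (fam A v) (Sum.inr j) g : δ ⊕ Fin (n + 1) → ℝ → ℝ) =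
        fun y => fam (ext g A) v
          (tr' ((Equiv.sumCongr (Equiv.refl δ) (finSuccEquiv' j)) y)) := by
      funext y
      rcases y with i | j'
      · rw [Function.update_of_ne (by simp)]
        rfl
      · by_cases hj : j' = j
        · subst hj
          rw [Function.update_self]
          simp [tr', fam, ext]
        · rw [Function.update_of_ne (by simpa using hj)]
          obtain ⟨m, rfl⟩ := Fin.exists_succAbove_eq hj
          simp [tr', fam]
    rw [h3, ← h]
    simp only [h1]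
    congr 1
    funext x
    rw [← h1]
    simp

end Arr

end Vale.Agent.P157.Par
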