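import Vale.Agent.P157.ParRhoDefs

/-! Exponential moments of `∑ |S_a|` under the perceptron Gibbs measure. -/

open MeasureTheory ProbabilityTheory Filter Topology

namespace Vale.Agent.P157.Par

open Vale.Agent.P367.GT (gM)

lemma expm_gauss : ∫ z, Real.exp (1 / 4 * z ^ 2) ∂(gaussianReal 0 1) = √2 := by
  rw [integral_gaussianReal_eq_integral_smul one_ne_zero]
  have h1 : ∀ x : ℝ, gaussianPDFReal 0 1 x • Real.exp (1 / 4 * x ^ 2) =
      (√(2 * Real.pi))⁻¹ * Real.exp (-(1 / 4) * x ^ 2) := by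
    intro x
    rw [gaussianPDFReal_def]
    simp only [NNReal.coe_one, mul_one, sub_zero, smul_eq_mul]
    rw [mul_assoc, ← Real.exp_add]
    congr 2
    ring
  simp_rw [h1]
  rw [integral_const_mul, integral_gaussian]
  have h2 : Real.pi / (1 / 4) = 2 * (2 * Real.pi) := by ring
  rw [h2, Real.sqrt_mul (by norm_num) (2 * Real.pi)]
  have h3 : √(2 * Real.pi) ≠ 0 := (Real.sqrt_pos.2 (by positivity)).ne'
  field_simp

lemma expm_field (N : ℕ) (x : Fin (N + 1) → Bool) :
    ∫ g : Fin (N + 1) → ℝ, Real.exp (1 / 4 * cubeS g x ^ 2) ∂(gM (Fin (N + 1))) = √2 := by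
  have h := integral_lin_congr (J := Unit) (U := fun (_ : Unit) (i : Fin (N + 1)) => cubeφ N x i)
    (V := fun (_ : Unit) (_ : Unit) => (1 : ℝ)) (F := fun z => Real.exp (1 / 4 * z () ^ 2))
    (by
      intro a b
      unfold gram
      have h1 : ∀ i, cubeφ N x i * cubeφ N x i = 1 / ((N : ℝ) + 1) := fun i => by
        rw [← sq, cubeφ_sq]
      simp only [h1]
      simp only [Finset.sum_const, Finset.card_univ, Fintype.card_fin, nsmul_eq_mul, mul_one,
        Fintype.card_unit, Nat.cast_one]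
      push_cast
      field_simp) (by fun_prop)
  have h2 : ∀ g : Fin (N + 1) → ℝ, lin (fun (_ : Unit) (i : Fin (N + 1)) => cubeφ N x i) g () =
      cubeS g x := by
    intro g
    unfold lin cubeS
    exact Finset.sum_congr rfl fun i _ => mul_comm _ _
  have h3 : ∀ g : Unit → ℝ, lin (fun (_ : Unit) (_ : Unit) => (1 : ℝ)) g () = g () := by
    intro g
    unfold lin
    simp
  simp only [h2, h3] at h
  rw [h]
  have ev : MeasurePreserving (fun η : Unit → ℝ => η ()) (gM Unit) (gaussianReal 0 1) :=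
    measurePreserving_eval (fun _ : Unit => gaussianReal 0 1) ()
  have h4 := ev.integral_comp' (f := MeasurableEquiv.funUnique Unit ℝ)
    (g := fun z => Real.exp (1 / 4 * z ^ 2))
  rw [← expm_gauss]
  exact h4

lemma expm_prod (N M : ℕ) (x : Fin (N + 1) → Bool) :
    ∫ t : Fin M → Fin (N + 1) → ℝ, Real.exp (1 / 4 * ∑ a, cubeS (t a) x ^ 2)
      ∂(Measure.pi fun _ => gM (Fin (N + 1))) = √2 ^ M := by
  have e1 : ∀ t : Fin M → Fin (N + 1) → ℝ, Real.exp (1 / 4 * ∑ a, cubeS (t a) x ^ 2) =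
      ∏ a, Real.exp (1 / 4 * cubeS (t a) x ^ 2) := by
    intro t
    rw [← Real.exp_sum, Finset.mul_sum]
  simp_rw [e1]
  rw [integral_fintype_prod_eq_prod (μ := fun _ : Fin M => gM (Fin (N + 1)))
    (f := fun _ (g : Fin (N + 1) → ℝ) => Real.exp (1 / 4 * cubeS g x ^ 2))]
  simp_rw [expm_field]
  rw [Finset.prod_const, Finset.card_univ, Fintype.card_fin]

lemma expm_prod_int (N M : ℕ) (x : Fin (N + 1) → Bool) :
    Integrable (fun t : Fin M → Fin (N + 1) → ℝ => Real.exp (1 / 4 * ∑ a, cubeS (t a) x ^ 2))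
      (Measure.pi fun _ => gM (Fin (N + 1))) := by
  by_contra h
  have h1 := expm_prod N M x
  rw [integral_undef h] at h1
  have h2 : (0 : ℝ) < √2 ^ M := by positivity
  exact h2.ne h1

/-- The exponential partition function. -/
noncomputable def expmZ (N M : ℕ) (t : Fin M → Fin (N + 1) → ℝ) : ℝ :=
  ∑ x : Fin (N + 1) → Bool, Real.exp (1 / 4 * ∑ a, cubeS (t a) x ^ 2)

/-- Its mean. -/
noncomputable def expmA (N M : ℕ) : ℝ := 2 ^ (N + 1) * √2 ^ M

lemma expmA_pos (N M : ℕ) : 0 < expmA N M := by unfold expmA; positivity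

lemma expmZ_nonneg (N M : ℕ) (t : Fin M → Fin (N + 1) → ℝ) : 0 ≤ expmZ N M t :=
  Finset.sum_nonneg fun _ _ => (Real.exp_pos _).le

lemma expmZ_int (N M : ℕ) : Integrable (expmZ N M) (Measure.pi fun _ => gM (Fin (N + 1))) :=
  integrable_finsetSum _ fun x _ => expm_prod_int N M x

lemma expmZ_integral (N M : ℕ) :
    ∫ t, expmZ N M t ∂(Measure.pi fun _ => gM (Fin (N + 1))) = expmA N M := by
  unfold expmZ expmA
  rw [integral_finsetSum _ fun x _ => expm_prod_int N M x]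
  simp_rw [expm_prod]
  rw [Finset.sum_const, Finset.card_univ, Fintype.card_fun, Fintype.card_bool, Fintype.card_fin,
    nsmul_eq_mul]
  push_cast
  rfl

/-- The dominating function. -/
noncomputable def expmB (N M : ℕ) (K : ℝ) (t : Fin M → Fin (N + 1) → ℝ) : ℝ :=
  K * (1 + 1 / ((N : ℝ) + 2) * (expmZ N M t / expmA N M - 1))

lemma expmB_int (N M : ℕ) (K : ℝ) :
    Integrable (expmB N M K) (Measure.pi fun _ => gM (Fin (N + 1))) := by
  unfold expmB
  exact ((integrable_const _).add ((((expmZ_int N M).div_const _).sub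
    (integrable_const _)).const_mul _)).const_mul _

lemma expmB_integral (N M : ℕ) (K : ℝ) :
    ∫ t, expmB N M K t ∂(Measure.pi fun _ => gM (Fin (N + 1))) = K := by
  unfold expmB
  have hi : Integrable (fun t => expmZ N M t / expmA N M - 1)
      (Measure.pi fun _ => gM (Fin (N + 1))) :=
    ((expmZ_int N M).div_const _).sub (integrable_const _)
  rw [integral_const_mul, integral_add (integrable_const _) (hi.const_mul _), integral_const_mul,
    integral_sub ((expmZ_int N M).div_const _) (integrable_const _), integral_div, expmZ_integral,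
    div_self (expmA_pos N M).ne']
  simp

/-- The power of the mean. -/
lemma expmA_rpow {α : ℝ} (N M : ℕ) (hM : (M : ℝ) ≤ (α + 1) * (N + 2)) :
    expmA N M ^ (1 / ((N : ℝ) + 2)) ≤ 2 ^ (1 + (α + 1) / 2) := by
  have h1 : expmA N M = (2 : ℝ) ^ (((N : ℝ) + 1) + (M : ℝ) / 2) := by
    unfold expmA
    rw [Real.rpow_add (by norm_num), Real.sqrt_eq_rpow, ← Real.rpow_mul_natCast (by norm_num)]
    congr 1
    · rw [← Real.rpow_natCast]
      push_cast
      rfl
    · congr 1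
      ring
  rw [h1, ← Real.rpow_mul (by norm_num)]
  refine Real.rpow_le_rpow_of_exponent_le (by norm_num) ?_
  rw [mul_one_div, div_le_iff₀ (by positivity)]
  linarith only [hM]

/-- The pointwise bound. -/
lemma expm_le {α c : ℝ} (N M : ℕ) (hM : (M : ℝ) ≤ (α + 1) * (N + 2))
    (t : Fin M → Fin (N + 1) → ℝ) (x : Fin (N + 1) → Bool) :
    Real.exp (c * (1 / ((N : ℝ) + 2) * ∑ a, |cubeS (t a) x|)) ≤
      expmB N M (Real.exp ((α + 1) * c ^ 2) * 2 ^ (1 + (α + 1) / 2)) t := by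
  set d : ℝ := 1 / ((N : ℝ) + 2) with hd
  have hd0 : 0 < d := by rw [hd]; positivity
  have hd1 : d ≤ 1 := by
    rw [hd, div_le_one (by positivity)]
    have : (0 : ℝ) ≤ N := Nat.cast_nonneg N
    linarith
  set Q : ℝ := 1 / 4 * ∑ a, cubeS (t a) x ^ 2 with hQ
  have hA := expmA_pos N M
  have hZ : Real.exp Q ≤ expmZ N M t :=
    Finset.single_le_sum (f := fun x => Real.exp (1 / 4 * ∑ a, cubeS (t a) x ^ 2))
      (fun y _ => (Real.exp_pos _).le) (Finset.mem_univ x)
  have hZ0 : 0 ≤ expmZ N M t := expmZ_nonneg N M t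
  have h1 : c * (d * ∑ a, |cubeS (t a) x|) ≤ (α + 1) * c ^ 2 + d * Q := by
    have h2 : c * ∑ a, |cubeS (t a) x| ≤ Q + M * c ^ 2 := by
      rw [hQ, Finset.mul_sum, Finset.mul_sum]
      have h3 : ∀ a ∈ (Finset.univ : Finset (Fin M)), c * |cubeS (t a) x| ≤
          1 / 4 * cubeS (t a) x ^ 2 + c ^ 2 := by
        intro a _
        linarith only [sq_nonneg (1 / 2 * |cubeS (t a) x| - c), sq_abs (cubeS (t a) x)]
      refine (Finset.sum_le_sum h3).trans (le_of_eq ?_)
      rw [Finset.sum_add_distrib, Finset.sum_const, Finset.card_univ, Fintype.card_fin,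
        nsmul_eq_mul]
    have h4 : d * M ≤ α + 1 := by
      rw [hd, one_div_mul_eq_div, div_le_iff₀ (by positivity)]
      exact hM
    have h5 := mul_le_mul_of_nonneg_left h2 hd0.le
    have h6 := mul_le_mul_of_nonneg_right h4 (sq_nonneg c)
    linarith only [h5, h6]
  have h2 : Real.exp (c * (d * ∑ a, |cubeS (t a) x|)) ≤
      Real.exp ((α + 1) * c ^ 2) * expmZ N M t ^ d := by
    refine (Real.exp_le_exp.2 h1).trans ?_
    rw [Real.exp_add]
    refine mul_le_mul_of_nonneg_left ?_ (Real.exp_pos _).le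
    have h3 := Real.rpow_le_rpow (Real.exp_pos Q).le hZ hd0.le
    rw [← Real.exp_mul] at h3
    rwa [mul_comm d Q]
  have h3 : expmZ N M t ^ d ≤ expmA N M ^ d * (1 + d * (expmZ N M t / expmA N M - 1)) := by
    have h4 := rpow_one_add_le_one_add_mul_self (s := expmZ N M t / expmA N M - 1)
      (by have := div_nonneg hZ0 hA.le; linarith) hd0.le hd1
    rw [add_sub_cancel, Real.div_rpow hZ0 hA.le] at h4
    rw [div_le_iff₀ (Real.rpow_pos_of_pos hA d)] at h4
    rw [mul_comm]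
    exact h4
  have hn : 0 ≤ 1 + d * (expmZ N M t / expmA N M - 1) := by
    have h4 : 0 ≤ d * (expmZ N M t / expmA N M) := mul_nonneg hd0.le (div_nonneg hZ0 hA.le)
    linarith only [hd1, h4]
  have h4 := expmA_rpow (α := α) N M hM
  rw [← hd] at h4
  unfold expmB
  rw [← hd]
  calc Real.exp (c * (d * ∑ a, |cubeS (t a) x|))
      ≤ Real.exp ((α + 1) * c ^ 2) * expmZ N M t ^ d := h2
    _ ≤ Real.exp ((α + 1) * c ^ 2) *
        (expmA N M ^ d * (1 + d * (expmZ N M t / expmA N M - 1))) :=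
        mul_le_mul_of_nonneg_left h3 (Real.exp_pos _).le
    _ ≤ Real.exp ((α + 1) * c ^ 2) *
        (2 ^ (1 + (α + 1) / 2) * (1 + d * (expmZ N M t / expmA N M - 1))) :=
        mul_le_mul_of_nonneg_left (mul_le_mul_of_nonneg_right h4 hn) (Real.exp_pos _).le
    _ = _ := by rw [mul_assoc]

/-- Exponential moments of the additive functionals with linear growth. -/
theorem exp_moment {f : ℝ → ℝ} (hf : Measurable f) (C : ℝ) (hC : ∀ x, |f x| ≤ C) (α c : ℝ)
    (hc : 0 ≤ c) :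
    ∃ K : ℝ, ∀ (N M P : ℕ) (s : ℝ) (u : Fin P → ℝ), (M : ℝ) ≤ (α + 1) * (N + 2) →
      (∀ x : Fin 1 → Fin (N + 1) → Bool, Integrable (fun ω : (Fin M → Fin (N + 1) → ℝ) ×
        (GI P (N + 1) → ℝ) => (∏ i, (pS f hf C hC N M P s u).w ω (x i)) *
          Real.exp (c * (1 / ((N : ℝ) + 2) * ∑ a, |cubeS (ω.1 a) (x 0)|)))
        (pS f hf C hC N M P s u).P) ∧
      (pS f hf C hC N M P s u).tav (n := 1) (fun t x =>
        Real.exp (c * (1 / ((N : ℝ) + 2) * ∑ a, |cubeS (t a) (x 0)|))) ≤ K := by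
  refine ⟨Real.exp ((α + 1) * c ^ 2) * 2 ^ (1 + (α + 1) / 2), fun N M P s u hM => ?_⟩
  set K : ℝ := Real.exp ((α + 1) * c ^ 2) * 2 ^ (1 + (α + 1) / 2) with hK
  set S := pS f hf C hC N M P s u with hS
  have hBi' : Integrable (fun ω : (Fin M → Fin (N + 1) → ℝ) × (GI P (N + 1) → ℝ) =>
      expmB N M K ω.1) ((Measure.pi fun _ : Fin M => gM (Fin (N + 1))).prod
        (gM (GI P (N + 1)))) := (expmB_int N M K).comp_fst _
  have hBi : Integrable (fun ω : (Fin M → Fin (N + 1) → ℝ) × (GI P (N + 1) → ℝ) =>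
      expmB N M K ω.1) S.P := hBi'
  have hBe : ∫ ω : (Fin M → Fin (N + 1) → ℝ) × (GI P (N + 1) → ℝ), expmB N M K ω.1 ∂S.P = K := by
    have h1 := integral_fun_fst (μ := Measure.pi fun _ : Fin M => gM (Fin (N + 1)))
      (ν := gM (GI P (N + 1))) (expmB N M K)
    rw [expmB_integral, probReal_univ, one_smul] at h1
    exact h1
  have hw1 : ∀ ω y, S.w ω y ≤ 1 := fun ω y => by
    rw [← S.w1 ω]
    exact Finset.single_le_sum (f := fun y => S.w ω y) (fun y _ => S.w0 ω y) (Finset.mem_univ y)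
  have hp1 : ∀ ω (x : Fin 1 → Fin (N + 1) → Bool), (∏ i, S.w ω (x i)) ≤ 1 := fun ω x =>
    Finset.prod_le_one (fun i _ => S.w0 ω (x i)) fun i _ => hw1 ω (x i)
  have hp0 : ∀ ω (x : Fin 1 → Fin (N + 1) → Bool), 0 ≤ ∏ i, S.w ω (x i) := fun ω x =>
    Finset.prod_nonneg fun i _ => S.w0 ω (x i)
  have hint : ∀ x : Fin 1 → Fin (N + 1) → Bool, Integrable (fun ω : (Fin M → Fin (N + 1) → ℝ) ×
        (GI P (N + 1) → ℝ) => (∏ i, S.w ω (x i)) *
          Real.exp (c * (1 / ((N : ℝ) + 2) * ∑ a, |cubeS (ω.1 a) (x 0)|))) S.P := by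
    intro x
    refine hBi.mono' ?_ ?_
    · have hm1 : Measurable fun ω : (Fin M → Fin (N + 1) → ℝ) × (GI P (N + 1) → ℝ) =>
          ∏ i, S.w ω (x i) := Finset.measurable_prod _ fun i _ => S.hw (x i)
      have hm2 : Measurable fun ω : (Fin M → Fin (N + 1) → ℝ) × (GI P (N + 1) → ℝ) =>
          Real.exp (c * (1 / ((N : ℝ) + 2) * ∑ a, |cubeS (ω.1 a) (x 0)|)) := by
        unfold cubeS
        fun_prop
      exact (hm1.mul hm2).aestronglyMeasurable
    · refine Filter.Eventually.of_forall fun ω => ?_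
      rw [Real.norm_eq_abs, abs_of_nonneg (mul_nonneg (hp0 ω x) (Real.exp_pos _).le)]
      calc (∏ i, S.w ω (x i)) * Real.exp (c * (1 / ((N : ℝ) + 2) * ∑ a, |cubeS (ω.1 a) (x 0)|))
          ≤ 1 * Real.exp (c * (1 / ((N : ℝ) + 2) * ∑ a, |cubeS (ω.1 a) (x 0)|)) :=
            mul_le_mul_of_nonneg_right (hp1 ω x) (Real.exp_pos _).le
        _ = Real.exp (c * (1 / ((N : ℝ) + 2) * ∑ a, |cubeS (ω.1 a) (x 0)|)) := one_mul _
        _ ≤ expmB N M K ω.1 := expm_le N M hM ω.1 (x 0)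
  refine ⟨hint, ?_⟩
  rw [← hBe]
  refine integral_mono (integrable_finsetSum _ fun x _ => hint x) hBi fun ω => ?_
  have h1 : ∀ x ∈ (Finset.univ : Finset (Fin 1 → Fin (N + 1) → Bool)), (∏ i, S.w ω (x i)) *
      Real.exp (c * (1 / ((N : ℝ) + 2) * ∑ a, |cubeS (ω.1 a) (x 0)|)) ≤
      (∏ i, S.w ω (x i)) * expmB N M K ω.1 := fun x _ =>
    mul_le_mul_of_nonneg_left (expm_le N M hM ω.1 (x 0)) (hp0 ω x)
  refine (Finset.sum_le_sum h1).trans (le_of_eq ?_)
  rw [← Finset.sum_mul]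
  have h2 : ∑ x : Fin 1 → Fin (N + 1) → Bool, ∏ i, S.w ω (x i) = 1 := by
    have h3 := Fintype.sum_pow (fun y : Fin (N + 1) → Bool => S.w ω y) 1
    rw [← h3, pow_one]
    exact S.w1 ω
  rw [h2, one_mul]

end Vale.Agent.P157.Par
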