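import Vale.Agent.P157.ParAdd
import Vale.Agent.P157.ParExpm

open MeasureTheory ProbabilityTheory Filter Topology

namespace Vale.Agent.P157.Par

open Vale.Agent.P367.GT (gM)

namespace Sys

variable {S : Sys}

/-- integrable test functions -/
def TI (S : Sys) {n : ℕ} (F : S.T → (Fin n → S.X) → ℝ) : Prop :=
  ∀ x : Fin n → S.X, Integrable (fun ω => (∏ i, S.w ω (x i)) * F (S.π ω) x) S.P

theorem TI.inn {n : ℕ} {F : S.T → (Fin n → S.X) → ℝ} (h : TI S F) :
    Integrable (fun ω => S.inn ω (F (S.π ω))) S.P :=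
  integrable_finsetSum _ fun x _ => h x

theorem TI.add {n : ℕ} {F G : S.T → (Fin n → S.X) → ℝ} (hF : TI S F) (hG : TI S G) :
    TI S (fun t x => F t x + G t x) := fun x => by
  refine ((hF x).add (hG x)).congr (Eventually.of_forall fun ω => ?_)
  simp only [Pi.add_apply]
  ring

theorem TI.smul {n : ℕ} {F : S.T → (Fin n → S.X) → ℝ} (hF : TI S F) (c : ℝ) :
    TI S (fun t x => c * F t x) := fun x => by
  refine ((hF x).const_mul c).congr (Eventually.of_forall fun ω => ?_)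
  simp only
  ring

theorem TI.sum {n : ℕ} {I : Type*} (s : Finset I) {F : I → S.T → (Fin n → S.X) → ℝ}
    (hF : ∀ i ∈ s, TI S (F i)) : TI S (fun t x => ∑ i ∈ s, F i t x) := fun x => by
  have h := integrable_finsetSum s (fun i hi => hF i hi x)
  refine h.congr (Eventually.of_forall fun ω => ?_)
  simp only [Finset.mul_sum]

theorem TI.of_bdd {n : ℕ} {F : S.T → (Fin n → S.X) → ℝ} (hm : ∀ x, Measurable fun t => F t x)
    {C : ℝ} (hC : ∀ t x, |F t x| ≤ C) : TI S F := fun x => by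
  refine Integrable.of_bound (C := C) ?_ (Eventually.of_forall fun ω => ?_)
  · exact ((Finset.measurable_prod _ fun i _ => S.hw (x i)).mul
      ((hm x).comp S.hπ)).aestronglyMeasurable
  · rw [Real.norm_eq_abs, abs_mul, abs_of_nonneg (prod_w_nonneg ω x)]
    have h1 : ∏ i, S.w ω (x i) ≤ 1 :=
      Finset.prod_le_one (fun i _ => S.w0 ω (x i)) (fun i _ => w_le_one ω (x i))
    calc (∏ i, S.w ω (x i)) * |F (S.π ω) x| ≤ 1 * |F (S.π ω) x| :=
          mul_le_mul_of_nonneg_right h1 (abs_nonneg _)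
      _ ≤ C := by rw [one_mul]; exact hC _ _

theorem TI.const {n : ℕ} (c : ℝ) : TI S (n := n) (fun _ _ => c) :=
  TI.of_bdd (fun _ => measurable_const) (C := |c|) (fun _ _ => le_rfl)

theorem tavI_add {n : ℕ} {F G : S.T → (Fin n → S.X) → ℝ} (hF : TI S F) (hG : TI S G) :
    S.tav (fun t x => F t x + G t x) = S.tav F + S.tav G := by
  rw [tav_def, tav_def, tav_def, ← integral_add hF.inn hG.inn]
  exact integral_congr_ae (Eventually.of_forall fun ω => inn_add ω _ _)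

theorem tavI_sum {n : ℕ} {I : Type*} (s : Finset I) {F : I → S.T → (Fin n → S.X) → ℝ}
    (hF : ∀ i ∈ s, TI S (F i)) :
    S.tav (fun t x => ∑ i ∈ s, F i t x) = ∑ i ∈ s, S.tav (F i) := by
  classical
  induction s using Finset.induction_on with
  | empty => simp [tav_const]
  | insert a s ha ih =>
    have h1 : ∀ t (x : Fin n → S.X), ∑ i ∈ insert a s, F i t x = F a t x + ∑ i ∈ s, F i t x :=
      fun t x => Finset.sum_insert ha
    rw [tav_congr h1, tavI_add (hF a (Finset.mem_insert_self a s))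
      (TI.sum s fun i hi => hF i (Finset.mem_insert_of_mem hi)), Finset.sum_insert ha,
      ih fun i hi => hF i (Finset.mem_insert_of_mem hi)]

theorem TI.mono {n : ℕ} {F G : S.T → (Fin n → S.X) → ℝ} (hm : ∀ x, Measurable fun t => F t x)
    (h : ∀ t x, |F t x| ≤ G t x) (hG : TI S G) : TI S F := fun x => by
  refine (hG x).mono' ((Finset.measurable_prod _ fun i _ => S.hw (x i)).mul
      ((hm x).comp S.hπ)).aestronglyMeasurable (Eventually.of_forall fun ω => ?_)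
  rw [Real.norm_eq_abs, abs_mul, abs_of_nonneg (prod_w_nonneg ω x)]
  exact mul_le_mul_of_nonneg_left (h _ _) (prod_w_nonneg ω x)

/-- monotonicity; the smaller function need not be measurable -/
theorem tavI_mono {n : ℕ} {F G : S.T → (Fin n → S.X) → ℝ} (hF : ∀ t x, 0 ≤ F t x)
    (h : ∀ t x, F t x ≤ G t x) (hG : TI S G) : S.tav F ≤ S.tav G := by
  rw [tav_def, tav_def]
  exact integral_mono_of_nonneg (Eventually.of_forall fun ω => inn_nonneg ω (hF _)) hG.inn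
    (Eventually.of_forall fun ω => inn_mono ω (h _))

theorem TI.absSub {n : ℕ} {F G : S.T → (Fin n → S.X) → ℝ} {v : ℝ}
    (hm : ∀ x, Measurable fun t => |F t x - v|) (h : ∀ t x, |F t x| ≤ G t x) (hG : TI S G) :
    TI S (fun t x => |F t x - v|) := by
  refine TI.mono hm (fun t x => ?_) (hG.add (TI.const |v|))
  rw [abs_abs]
  exact (_root_.abs_sub _ _).trans (add_le_add (h t x) le_rfl)

/-- first moment from a second moment -/
theorem tavI_abs_of_sq {n : ℕ} {F G H : S.T → (Fin n → S.X) → ℝ} {v ε : ℝ} (hε : 0 < ε)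
    (h : ∀ t x, |F t x - H t x| ≤ G t x) (hG : TI S G) (hG' : S.tav G ≤ ε / 2)
    (hH : TI S (fun t x => (H t x - v) ^ 2))
    (hH' : S.tav (fun t x => (H t x - v) ^ 2) ≤ (ε / 2) ^ 2) :
    S.tav (fun t x => |F t x - v|) ≤ ε := by
  have hTI2 := hH.smul (1 / ε)
  have hTI1 := TI.const (S := S) (n := n) (ε / 4)
  refine (tavI_mono (fun t x => abs_nonneg _) (fun t x => ?_) (hG.add (hTI1.add hTI2))).trans ?_
  · have h2 : |H t x - v| ≤ ε / 4 + 1 / ε * (H t x - v) ^ 2 := by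
      generalize H t x - v = y
      rw [← sq_abs y]
      have : ε / 4 + 1 / ε * |y| ^ 2 - |y| = 1 / ε * (|y| - ε / 2) ^ 2 := by
        field_simp
        ring
      have h3 : 0 ≤ 1 / ε * (|y| - ε / 2) ^ 2 := by positivity
      linarith only [this, h3]
    exact (abs_sub_le (F t x) (H t x) v).trans (add_le_add (h t x) h2)
  · rw [tavI_add hG (hTI1.add hTI2), tavI_add hTI1 hTI2, tav_const, tav_smul]
    have h2 : 1 / ε * S.tav (fun t x => (H t x - v) ^ 2) ≤ ε / 4 := by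
      refine (mul_le_mul_of_nonneg_left hH' (by positivity)).trans (le_of_eq ?_)
      field_simp
      ring
    linarith only [hG', h2]

/-- the constant is bounded -/
theorem tavI_const_le {n : ℕ} {F G : S.T → (Fin n → S.X) → ℝ} {v ε K : ℝ}
    (h : ∀ t x, |F t x| ≤ G t x) (hG : TI S G) (hG' : S.tav G ≤ K)
    (hF : TI S (fun t x => |F t x - v|)) (hF' : S.tav (fun t x => |F t x - v|) ≤ ε) :
    |v| ≤ K + ε := by
  have h2 : S.tav (n := n) (fun _ _ => |v|) ≤ S.tav (fun t x => G t x + |F t x - v|) := by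
    refine tavI_mono (fun t x => abs_nonneg _) (fun t x => ?_) (hG.add hF)
    have h3 := abs_sub_abs_le_abs_sub v (F t x)
    rw [abs_sub_comm v] at h3
    have h4 := h t x
    linarith
  rw [tav_const, tavI_add hG hF] at h2
  linarith

end Sys

lemma bc_abs_exp_sub_one (x : ℝ) : |Real.exp x - 1| ≤ |x| * Real.exp |x| := by
  rcases le_total 0 x with h | h
  · rw [abs_of_nonneg h, abs_of_nonneg (by linarith [Real.add_one_le_exp x])]
    have h1 := Real.add_one_le_exp (-x)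
    have h2 : Real.exp x * Real.exp (-x) = 1 := by rw [← Real.exp_add]; simp
    have h3 := Real.exp_pos x
    nlinarith only [h2, h1, h3]
  · rw [abs_of_nonpos h, abs_of_nonpos (by
      have : Real.exp x ≤ 1 := Real.exp_le_one_iff.2 h
      linarith)]
    have h1 := Real.add_one_le_exp x
    have h2 : 1 ≤ Real.exp (-x) := Real.one_le_exp (by linarith)
    nlinarith

/-- the estimate which replaces Cauchy-Schwarz -/
lemma bc_exp_young {lam : ℝ} (hl : 0 < lam) (x : ℝ) :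
    |Real.exp x - 1| ≤ lam / 2 * |x| + 1 / (2 * lam) * Real.exp (3 * |x|) := by
  refine (bc_abs_exp_sub_one x).trans ?_
  set y := |x| with hy
  have hy0 : 0 ≤ y := abs_nonneg x
  have e1 : Real.exp (3 * y) = Real.exp y * (Real.exp y) ^ 2 := by
    rw [← Real.exp_nat_mul, ← Real.exp_add]
    congr 1
    push_cast
    ring
  have e2 : y ≤ Real.exp y := by linarith [Real.add_one_le_exp y]
  have e3 : y * Real.exp y ^ 2 ≤ Real.exp (3 * y) := by
    rw [e1]
    exact mul_le_mul_of_nonneg_right e2 (by positivity)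
  have e4 : y * Real.exp y ≤ lam / 2 * y + 1 / (2 * lam) * (y * Real.exp y ^ 2) := by
    have h1 : lam / 2 * y + 1 / (2 * lam) * (y * Real.exp y ^ 2) - y * Real.exp y =
        y / (2 * lam) * (lam - Real.exp y) ^ 2 := by
      field_simp
      ring
    have h2 : 0 ≤ y / (2 * lam) * (lam - Real.exp y) ^ 2 := by positivity
    linarith only [h1, h2]
  refine e4.trans ?_
  gcongr

/-- the exponential estimate -/
theorem Sys.tavI_exp {S : Sys} {n : ℕ} {F E : S.T → (Fin n → S.X) → ℝ} {b K K1 lam ε : ℝ}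
    (hl : 0 < lam) (hK1 : 0 ≤ K1) (h : ∀ t x, Real.exp (3 * |F t x - b|) ≤ K1 * E t x)
    (hE : TI S E) (hE' : S.tav E ≤ K) (hF : TI S (fun t x => |F t x - b|))
    (hF' : lam / 2 * S.tav (fun t x => |F t x - b|) ≤ ε / 2)
    (hK : K1 / (2 * lam) * K ≤ ε / 2) :
    S.tav (fun t x => |Real.exp (F t x - b) - 1|) ≤ ε := by
  refine (tavI_mono (fun t x => abs_nonneg _) (fun t x => ?_)
    ((hF.smul (lam / 2)).add (hE.smul (K1 / (2 * lam))))).trans ?_
  · refine (bc_exp_young hl _).trans (add_le_add le_rfl ?_)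
    refine (mul_le_mul_of_nonneg_left (h t x) (by positivity)).trans (le_of_eq ?_)
    ring
  · rw [tavI_add (hF.smul (lam / 2)) (hE.smul (K1 / (2 * lam))), tav_smul, tav_smul]
    have h2 := (mul_le_mul_of_nonneg_left hE' (show 0 ≤ K1 / (2 * lam) by positivity)).trans hK
    linarith only [hF', h2]

/-! ### the truncation -/

lemma bc_tanh_deriv (x : ℝ) : HasDerivAt Real.tanh (1 - Real.tanh x ^ 2) x := by
  have h1 : Real.tanh = Real.sinh / Real.cosh := by
    funext y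
    exact Real.tanh_eq_sinh_div_cosh y
  have h2 := (Real.hasDerivAt_sinh x).div (Real.hasDerivAt_cosh x) (Real.cosh_pos x).ne'
  rw [← h1] at h2
  refine h2.congr_deriv ?_
  rw [Real.tanh_eq_sinh_div_cosh]
  have h3 := (Real.cosh_pos x).ne'
  field_simp

lemma bc_tanh_sq_le (x : ℝ) : Real.tanh x ^ 2 ≤ 1 := by
  have h := (Real.abs_tanh_lt_one x).le
  rw [← sq_abs]
  nlinarith only [h, abs_nonneg (Real.tanh x)]

lemma bc_abs_tanh_le (x : ℝ) : |Real.tanh x| ≤ |x| := by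
  have h := Convex.norm_image_sub_le_of_norm_hasDerivWithin_le (f := Real.tanh)
    (f' := fun x => 1 - Real.tanh x ^ 2) (C := 1) (s := Set.univ) (x := 0) (y := x)
    (fun y _ => (bc_tanh_deriv y).hasDerivWithinAt)
    (fun y _ => by
      rw [Real.norm_eq_abs, abs_le]
      have := bc_tanh_sq_le y
      have := sq_nonneg (Real.tanh y)
      constructor <;> linarith) convex_univ (Set.mem_univ _) (Set.mem_univ _)
  simpa using h

lemma bc_sub_tanh (y : ℝ) : |y - Real.tanh y| ≤ |y| ^ 3 := by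
  have h := Convex.norm_image_sub_le_of_norm_hasDerivWithin_le (f := fun y => y - Real.tanh y)
    (f' := fun x => 1 - (1 - Real.tanh x ^ 2)) (C := |y| ^ 2) (s := Set.Icc (-|y|) |y|) (x := 0)
    (y := y)
    (fun z _ => ((hasDerivAt_id z).sub (bc_tanh_deriv z)).hasDerivWithinAt)
    (fun z hz => by
      rw [Real.norm_eq_abs]
      have h1 : 1 - (1 - Real.tanh z ^ 2) = Real.tanh z ^ 2 := by ring
      rw [h1, abs_of_nonneg (sq_nonneg _), ← sq_abs]
      have h2 : |z| ≤ |y| := abs_le.2 hz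
      exact pow_le_pow_left₀ (abs_nonneg _) ((bc_abs_tanh_le z).trans h2) 2)
    (convex_Icc _ _) ⟨by simp, by simp⟩ ⟨neg_abs_le y, le_abs_self y⟩
  simp only [Real.tanh_zero, sub_zero, Real.norm_eq_abs] at h
  calc |y - Real.tanh y| ≤ |y| ^ 2 * |y| := h
    _ = |y| ^ 3 := by ring

lemma bc_sub_trn {T : ℝ} (hT : 0 < T) (x : ℝ) : |x - trn T x| ≤ |x| ^ 3 / T ^ 2 := by
  have h1 : x - trn T x = T * (x / T - Real.tanh (x / T)) := by
    unfold trn
    field_simp
  rw [h1, abs_mul, abs_of_pos hT]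
  calc T * |x / T - Real.tanh (x / T)| ≤ T * |x / T| ^ 3 :=
        mul_le_mul_of_nonneg_left (bc_sub_tanh _) hT.le
    _ = |x| ^ 3 / T ^ 2 := by
        rw [abs_div, abs_of_pos hT]
        field_simp

lemma bc_trn_CB2 {T : ℝ} (hT : 0 < T) :
    CB2 (trn T) (fun x => 1 - Real.tanh (x / T) ^ 2)
      (fun x => -(2 * Real.tanh (x / T) * (1 - Real.tanh (x / T) ^ 2) / T)) := by
  have hc : Continuous Real.tanh := continuous_iff_continuousAt.2 fun x =>
    (bc_tanh_deriv x).continuousAt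
  have hd : ∀ x, HasDerivAt (fun x => Real.tanh (x / T)) ((1 - Real.tanh (x / T) ^ 2) * (1 / T)) x :=
    fun x => (bc_tanh_deriv (x / T)).comp x (h := fun x => x / T) ((hasDerivAt_id x).div_const T)
  refine ⟨fun x => ?_, fun x => ?_, by fun_prop, ⟨T, fun x => ?_⟩, ⟨1, fun x => ?_⟩,
    ⟨2 / T, fun x => ?_⟩⟩
  · refine ((hd x).const_mul T).congr_deriv ?_
    field_simp
  · refine (((hd x).pow 2).const_sub 1).congr_deriv ?_
    push_cast
    ring
  · unfold trn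
    rw [abs_mul, abs_of_pos hT]
    exact mul_le_of_le_one_right hT.le (Real.abs_tanh_lt_one _).le
  · rw [abs_le]
    have := bc_tanh_sq_le (x / T)
    have := sq_nonneg (Real.tanh (x / T))
    constructor <;> linarith
  · rw [abs_neg, abs_div, abs_of_pos hT]
    refine div_le_div_of_nonneg_right ?_ hT.le
    rw [abs_mul, abs_mul, abs_two]
    have h1 := (Real.abs_tanh_lt_one (x / T)).le
    have h2 : |1 - Real.tanh (x / T) ^ 2| ≤ 1 := by
      rw [abs_le]
      have := bc_tanh_sq_le (x / T)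
      have := sq_nonneg (Real.tanh (x / T))
      constructor <;> linarith
    calc 2 * |Real.tanh (x / T)| * |1 - Real.tanh (x / T) ^ 2| ≤ 2 * 1 * 1 := by gcongr
      _ = 2 := by norm_num

lemma bc_CB2_lin {g g' g'' k k' k'' : ℝ → ℝ} (h : CB2 g g' g'') (l : CB2 k k' k'') (a b : ℝ) :
    CB2 (fun x => a * g x + b * k x) (fun x => a * g' x + b * k' x)
      (fun x => a * g'' x + b * k'' x) := by
  obtain ⟨G0, g0⟩ := h.b0
  obtain ⟨G1, g1⟩ := h.b1
  obtain ⟨G2, g2⟩ := h.b2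
  obtain ⟨K0, k0⟩ := l.b0
  obtain ⟨K1, k1⟩ := l.b1
  obtain ⟨K2, k2⟩ := l.b2
  have hm : ∀ {u v A B : ℝ}, |u| ≤ A → |v| ≤ B → |a * u + b * v| ≤ |a| * A + |b| * B := by
    intro u v A B hu hv
    refine (abs_add_le _ _).trans ?_
    rw [abs_mul, abs_mul]
    gcongr
  exact ⟨fun x => ((h.d1 x).const_mul a).add ((l.d1 x).const_mul b),
    fun x => ((h.d2 x).const_mul a).add ((l.d2 x).const_mul b),
    (continuous_const.mul h.c2).add (continuous_const.mul l.c2),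
    ⟨_, fun x => hm (g0 x) (k0 x)⟩, ⟨_, fun x => hm (g1 x) (k1 x)⟩, ⟨_, fun x => hm (g2 x) (k2 x)⟩⟩

/-! ### moments of sums of fields -/

section

variable {f : ℝ → ℝ} (hf : Measurable f) (C : ℝ) (hC : ∀ x, |f x| ≤ C)

/-- first moments of the additive functionals of nonnegative functions -/
lemma bc_field {g : ℝ → ℝ} (hg0 : ∀ x, 0 ≤ g x) (hg : Integrable g (gaussianReal 0 1))
    (hgm : Measurable g) (N M P : ℕ) (s : ℝ) (u : Fin P → ℝ) :
    Sys.TI (pS f hf C hC N (M + 1) P s u) (n := 1)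
      (fun t x => 1 / ((N : ℝ) + 2) * ∑ b, g (cubeS (t b) (x 0))) ∧
    (pS f hf C hC N (M + 1) P s u).tav (n := 1)
      (fun t x => 1 / ((N : ℝ) + 2) * ∑ b, g (cubeS (t b) (x 0))) ≤
        ((M : ℝ) + 1) / (N + 2) * (Real.exp (2 * C) * ∫ z, g z ∂(gaussianReal 0 1)) := by
  have hW : ∀ x, (fun x => Real.exp (f x) / Real.exp C) x = Real.exp (f x) / Real.exp C :=
    fun _ => rfl
  have hWa : ∀ x, Real.exp (-(2 * C)) ≤ Real.exp (f x) / Real.exp C := fun x => by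
    rw [← Real.exp_sub]
    refine Real.exp_le_exp.2 ?_
    linarith [(abs_le.1 (hC x)).1]
  have hW1 : ∀ x, Real.exp (f x) / Real.exp C ≤ 1 := fun x => by
    rw [← Real.exp_sub]
    refine Real.exp_le_one_iff.2 ?_
    linarith [(abs_le.1 (hC x)).2]
  have h := fun b => tav_field_le hf C hC N M P s u (Real.exp_pos C) hW
    (Real.exp_pos (-(2 * C))) hWa hW1 hg0 hg hgm b
  have hTI : ∀ b ∈ Finset.univ, Sys.TI (pS f hf C hC N (M + 1) P s u) (n := 1)
      (fun t x => g (cubeS (t b) (x 0))) := fun b _ => (h b).1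
  have hs := Sys.TI.sum Finset.univ hTI
  refine ⟨hs.smul _, ?_⟩
  rw [Sys.tav_smul, Sys.tavI_sum Finset.univ hTI]
  have h1 := Finset.sum_le_sum fun (b : Fin (M + 1)) (_ : b ∈ Finset.univ) => (h b).2
  rw [Finset.sum_const, Finset.card_univ, Fintype.card_fin, nsmul_eq_mul] at h1
  have e1 : (1 : ℝ) / Real.exp (-(2 * C)) = Real.exp (2 * C) := by
    rw [Real.exp_neg, one_div, inv_inv]
  rw [e1] at h1
  push_cast at h1
  refine (mul_le_mul_of_nonneg_left h1 (by positivity)).trans (le_of_eq ?_)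
  ring

end

lemma bc_addF {M N : ℕ} (δ : ℝ) (h : ℝ → ℝ) (t : Fin M → Fin (N + 1) → ℝ)
    (x : Fin 1 → Fin (N + 1) → Bool) : addF δ h t x = δ * ∑ a, h (cubeS (t a) (x 0)) := by
  unfold addF
  congr 1
  refine Finset.sum_congr rfl fun a _ => ?_
  simp

lemma bc_measurable_addF {M N : ℕ} {g : ℝ → ℝ} (hg : Measurable g) (δ v : ℝ)
    (x : Fin 1 → Fin (N + 1) → Bool) :
    Measurable fun t : Fin M → Fin (N + 1) → ℝ => (addF δ g t x - v) ^ 2 := by
  have h3 : ∀ a, Measurable fun t : Fin M → Fin (N + 1) → ℝ => cubeS (t a) (x 0) := fun a => by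
    unfold cubeS
    fun_prop
  simp_rw [bc_addF]
  exact (((Finset.measurable_sum _ fun a _ => hg.comp (h3 a)).const_mul _).sub_const v).pow_const 2

lemma bc_addF_bdd {M N : ℕ} {g : ℝ → ℝ} {G0 : ℝ} (hG0 : ∀ x, |g x| ≤ G0) {δ : ℝ} (hδ : 0 ≤ δ)
    (v : ℝ) (t : Fin M → Fin (N + 1) → ℝ) (x : Fin 1 → Fin (N + 1) → Bool) :
    |(addF δ g t x - v) ^ 2| ≤ (δ * (M * G0) + |v|) ^ 2 := by
  rw [abs_of_nonneg (sq_nonneg _), ← sq_abs]
  refine pow_le_pow_left₀ (abs_nonneg _) ?_ 2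
  refine (abs_sub _ _).trans (add_le_add ?_ le_rfl)
  rw [bc_addF, abs_mul, abs_of_nonneg hδ]
  refine mul_le_mul_of_nonneg_left ?_ hδ
  refine (Finset.abs_sum_le_sum_abs _ _).trans ?_
  refine (Finset.sum_le_sum fun a _ => hG0 _).trans (le_of_eq ?_)
  rw [Finset.sum_const, Finset.card_univ, Fintype.card_fin, nsmul_eq_mul]

lemma bc_cavB {M N : ℕ} (δ : ℝ) (f1 f2 : ℝ → ℝ) (t : Fin M → Fin (N + 1) → ℝ)
    (x : Fin 1 → Fin (N + 1) → Bool) :
    cavB δ f1 f2 (fun a => cubeS (t a) (x 0)) =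
      δ * ∑ a, (f2 (cubeS (t a) (x 0)) - cubeS (t a) (x 0) * f1 (cubeS (t a) (x 0))) / 2 := by
  unfold cavB
  rw [Finset.mul_sum]
  refine Finset.sum_congr rfl fun a _ => ?_
  ring

lemma bc_int_abs_pow (k : ℕ) : Integrable (fun z : ℝ => |z| ^ k) (gaussianReal 0 1) := by
  have h : MemLp (id : ℝ → ℝ) k (gaussianReal 0 1) := memLp_id_gaussianReal k
  have h2 := h.integrable_norm_pow'
  simpa using h2

section

variable {f f1 f2 f3 : ℝ → ℝ} {C : ℝ}

lemma bc_measurable_cavB (hf : CB3 C f f1 f2 f3) {M N : ℕ} (δ b : ℝ)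
    (x : Fin 1 → Fin (N + 1) → Bool) :
    Measurable fun t : Fin M → Fin (N + 1) → ℝ =>
      |cavB δ f1 f2 (fun a => cubeS (t a) (x 0)) - b| := by
  have h1 : Measurable f1 := (continuous_iff_continuousAt.2 fun x => (hf.d2 x).continuousAt).measurable
  have h2 : Measurable f2 := (continuous_iff_continuousAt.2 fun x => (hf.d3 x).continuousAt).measurable
  have h3 : ∀ a, Measurable fun t : Fin M → Fin (N + 1) → ℝ => cubeS (t a) (x 0) := fun a => by
    unfold cubeS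
    fun_prop
  unfold cavB
  refine measurable_norm.comp (f := fun t : Fin M → Fin (N + 1) → ℝ =>
    (∑ a, δ / 2 * (f2 (cubeS (t a) (x 0)) - cubeS (t a) (x 0) * f1 (cubeS (t a) (x 0)))) - b) ?_
  refine (Finset.measurable_sum _ fun a _ => ?_).sub_const b
  exact ((h2.comp (h3 a)).sub ((h3 a).mul (h1.comp (h3 a)))).const_mul _

/-- pointwise bound for the drift term -/
lemma bc_abs_cavB_le (hf : CB3 C f f1 f2 f3) {M N : ℕ} {δ : ℝ} (hδ : 0 ≤ δ)
    (t : Fin M → Fin (N + 1) → ℝ) (x : Fin 1 → Fin (N + 1) → Bool) :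
    |cavB δ f1 f2 (fun a => cubeS (t a) (x 0))| ≤
      δ * ∑ a, C / 2 * (1 + |cubeS (t a) (x 0)|) := by
  have hC0 : 0 ≤ C := (abs_nonneg _).trans (hf.b0 0)
  rw [bc_cavB, abs_mul, abs_of_nonneg hδ]
  refine mul_le_mul_of_nonneg_left ?_ hδ
  refine (Finset.abs_sum_le_sum_abs _ _).trans (Finset.sum_le_sum fun a _ => ?_)
  set z := cubeS (t a) (x 0)
  rw [abs_div, abs_two]
  have h1 : |f2 z - z * f1 z| ≤ C + |z| * C := by
    refine (abs_sub _ _).trans ?_
    rw [abs_mul]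
    exact add_le_add (hf.b2 z) (mul_le_mul_of_nonneg_left (hf.b1 z) (abs_nonneg _))
  linarith only [h1]

/-- the drift term against its truncation -/
lemma bc_trunc (hf : CB3 C f f1 f2 f3) {T : ℝ} (hT : 0 < T) {M N : ℕ} {δ : ℝ} (hδ : 0 ≤ δ)
    (t : Fin M → Fin (N + 1) → ℝ) (x : Fin 1 → Fin (N + 1) → Bool) :
    |cavB δ f1 f2 (fun a => cubeS (t a) (x 0)) -
      addF δ (fun s => 1 / 2 * f2 s + (-(1 / 2)) * (trn T s * f1 s)) t x| ≤
      δ * ∑ a, C / 2 / T ^ 2 * |cubeS (t a) (x 0)| ^ 3 := by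
  have hC0 : 0 ≤ C := (abs_nonneg _).trans (hf.b0 0)
  rw [bc_cavB, bc_addF, ← mul_sub, ← Finset.sum_sub_distrib, abs_mul, abs_of_nonneg hδ]
  refine mul_le_mul_of_nonneg_left ?_ hδ
  refine (Finset.abs_sum_le_sum_abs _ _).trans (Finset.sum_le_sum fun a _ => ?_)
  set z := cubeS (t a) (x 0)
  have h1 : (f2 z - z * f1 z) / 2 - (1 / 2 * f2 z + (-(1 / 2)) * (trn T z * f1 z)) =
      -(1 / 2 * ((z - trn T z) * f1 z)) := by ring
  rw [h1, abs_neg, abs_mul, abs_mul]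
  have h2 := bc_sub_trn hT z
  have h3 := hf.b1 z
  have h4 : |(1 / 2 : ℝ)| = 1 / 2 := abs_of_pos (by norm_num)
  rw [h4]
  calc 1 / 2 * (|z - trn T z| * |f1 z|) ≤ 1 / 2 * (|z| ^ 3 / T ^ 2 * C) := by gcongr
    _ = C / 2 / T ^ 2 * |z| ^ 3 := by ring

end

section

variable {f f1 f2 f3 : ℝ → ℝ} {C : ℝ}

/-- first moment of the distance to a constant, from the second moment of the truncation -/
lemma bc_A1 (hf : CB3 C f f1 f2 f3) (hfm : Measurable f) (N M P : ℕ) (s : ℝ) (u : Fin P → ℝ)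
    {T : ℝ} (hT : 0 < T) {g' g'' : ℝ → ℝ}
    (hg : CB2 (fun s => 1 / 2 * f2 s + (-(1 / 2)) * (trn T s * f1 s)) g' g'') {η₀ v : ℝ}
    (hη₀ : 0 < η₀)
    (hv : (pS f hfm C hf.b0 N (M + 1) P s u).tav (n := 1) (fun t x =>
      (addF (1 / ((N : ℝ) + 2)) (fun s => 1 / 2 * f2 s + (-(1 / 2)) * (trn T s * f1 s)) t x
        - v) ^ 2) ≤ (η₀ / 2) ^ 2)
    (hB : ((M : ℝ) + 1) / (N + 2) *
      (Real.exp (2 * C) * ∫ z, C / 2 / T ^ 2 * |z| ^ 3 ∂(gaussianReal 0 1)) ≤ η₀ / 2) :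
    (pS f hfm C hf.b0 N (M + 1) P s u).tav (n := 1) (fun t x =>
        |cavB (1 / ((N : ℝ) + 2)) f1 f2 (fun a => cubeS (t a) (x 0)) - v|) ≤ η₀ := by
  have hC0 : 0 ≤ C := (abs_nonneg _).trans (hf.b0 0)
  have hδ : 0 ≤ 1 / ((N : ℝ) + 2) := by positivity
  obtain ⟨G0, hG0⟩ := hg.b0
  have hF := bc_field hfm C hf.b0 (g := fun z => C / 2 / T ^ 2 * |z| ^ 3)
    (fun z => by positivity) ((bc_int_abs_pow 3).const_mul _) (by fun_prop) N M P s u
  exact Sys.tavI_abs_of_sq (S := pS f hfm C hf.b0 N (M + 1) P s u) (n := 1)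
    (F := fun t x => cavB (1 / ((N : ℝ) + 2)) f1 f2 (fun a => cubeS (t a) (x 0)))
    (H := fun t x =>
      addF (1 / ((N : ℝ) + 2)) (fun s => 1 / 2 * f2 s + (-(1 / 2)) * (trn T s * f1 s)) t x)
    hη₀ (fun t x => bc_trunc hf hT hδ t x) hF.1 (hF.2.trans hB)
    (Sys.TI.of_bdd (fun x => bc_measurable_addF hg.cont.measurable _ v x)
      (fun t x => bc_addF_bdd hG0 hδ v t x)) hv

/-- the distance of the drift term to a constant is integrable -/
lemma bc_TI_abs (hf : CB3 C f f1 f2 f3) (hfm : Measurable f) (N M P : ℕ) (s : ℝ) (u : Fin P → ℝ)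
    (hTI : Sys.TI (pS f hfm C hf.b0 N M P s u) (n := 1)
        (fun t x => 1 / ((N : ℝ) + 2) * ∑ a, C / 2 * (1 + |cubeS (t a) (x 0)|))) (v : ℝ) :
    Sys.TI (pS f hfm C hf.b0 N M P s u) (n := 1)
        (fun t x => |cavB (1 / ((N : ℝ) + 2)) f1 f2 (fun a => cubeS (t a) (x 0)) - v|) :=
  Sys.TI.absSub (S := pS f hfm C hf.b0 N M P s u) (n := 1)
    (F := fun t x => cavB (1 / ((N : ℝ) + 2)) f1 f2 (fun a => cubeS (t a) (x 0)))
    (fun x => bc_measurable_cavB hf _ v x)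
    (fun t x => bc_abs_cavB_le hf (by positivity) t x) hTI

/-- the constant is bounded -/
lemma bc_A2 (hf : CB3 C f f1 f2 f3) (hfm : Measurable f) (N M P : ℕ) (s : ℝ) (u : Fin P → ℝ)
    (hTI : Sys.TI (pS f hfm C hf.b0 N M P s u) (n := 1)
        (fun t x => 1 / ((N : ℝ) + 2) * ∑ a, C / 2 * (1 + |cubeS (t a) (x 0)|))) {K0 η₀ v : ℝ}
    (h0 : (pS f hfm C hf.b0 N M P s u).tav (n := 1)
        (fun t x => 1 / ((N : ℝ) + 2) * ∑ a, C / 2 * (1 + |cubeS (t a) (x 0)|)) ≤ K0)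
    (h1 : (pS f hfm C hf.b0 N M P s u).tav (n := 1) (fun t x =>
        |cavB (1 / ((N : ℝ) + 2)) f1 f2 (fun a => cubeS (t a) (x 0)) - v|) ≤ η₀) :
    |v| ≤ K0 + η₀ :=
  Sys.tavI_const_le (S := pS f hfm C hf.b0 N M P s u) (n := 1)
    (F := fun t x => cavB (1 / ((N : ℝ) + 2)) f1 f2 (fun a => cubeS (t a) (x 0)))
    (G := fun t x => 1 / ((N : ℝ) + 2) * ∑ a, C / 2 * (1 + |cubeS (t a) (x 0)|))
    (fun t x => bc_abs_cavB_le hf (by positivity) t x) hTI h0
    (bc_TI_abs hf hfm N M P s u hTI v) h1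

/-- the pointwise exponential bound -/
lemma bc_exp_pt (hf : CB3 C f f1 f2 f3) {N M : ℕ} {α B b : ℝ}
    (hM : (M : ℝ) ≤ (α + 1) * ((N : ℝ) + 2)) (hb : |b| ≤ B)
    (t : Fin M → Fin (N + 1) → ℝ) (x : Fin 1 → Fin (N + 1) → Bool) :
    Real.exp (3 * |cavB (1 / ((N : ℝ) + 2)) f1 f2 (fun a => cubeS (t a) (x 0)) - b|) ≤
      Real.exp (3 * B + 3 * ((α + 1) * (C / 2))) *
        Real.exp (3 * (C / 2) * (1 / ((N : ℝ) + 2) * ∑ a, |cubeS (t a) (x 0)|)) := by
  have hC0 : 0 ≤ C := (abs_nonneg _).trans (hf.b0 0)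
  have h3 := bc_abs_cavB_le hf (show 0 ≤ 1 / ((N : ℝ) + 2) by positivity) t x
  rw [← Finset.mul_sum, Finset.sum_add_distrib, Finset.sum_const, Finset.card_univ,
    Fintype.card_fin, nsmul_eq_mul] at h3
  have h4 : |cavB (1 / ((N : ℝ) + 2)) f1 f2 (fun a => cubeS (t a) (x 0)) - b| ≤
      C / 2 * (1 / ((N : ℝ) + 2) * ∑ a, |cubeS (t a) (x 0)|) + (α + 1) * (C / 2) + B := by
    refine (abs_sub _ _).trans (add_le_add (h3.trans ?_) hb)
    have h5 : 1 / ((N : ℝ) + 2) * M ≤ α + 1 := by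
      rw [one_div, inv_mul_le_iff₀ (by positivity)]
      linarith only [hM]
    have h6 := mul_le_mul_of_nonneg_right h5 (show 0 ≤ C / 2 by positivity)
    have h7 : ∀ y : ℝ, 1 / ((N : ℝ) + 2) * (C / 2 * (M * 1 + y)) =
        C / 2 * (1 / ((N : ℝ) + 2) * y) + 1 / ((N : ℝ) + 2) * M * (C / 2) := by
      intro y
      ring
    rw [h7]
    exact add_le_add le_rfl h6
  rw [← Real.exp_add]
  refine Real.exp_le_exp.2 ?_
  refine (mul_le_mul_of_nonneg_left h4 (by norm_num : (0 : ℝ) ≤ 3)).trans (le_of_eq ?_)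
  ring

/-- the exponential estimate -/
lemma bc_B (hf : CB3 C f f1 f2 f3) (hfm : Measurable f) (N M P : ℕ) (s : ℝ) (u : Fin P → ℝ)
    (hTI : Sys.TI (pS f hfm C hf.b0 N M P s u) (n := 1)
        (fun t x => 1 / ((N : ℝ) + 2) * ∑ a, C / 2 * (1 + |cubeS (t a) (x 0)|)))
    {α K B b lam η : ℝ} (hM : (M : ℝ) ≤ (α + 1) * ((N : ℝ) + 2)) (hb : |b| ≤ B)
    (hE : Sys.TI (pS f hfm C hf.b0 N M P s u) (n := 1)
      (fun t x => Real.exp (3 * (C / 2) * (1 / ((N : ℝ) + 2) * ∑ a, |cubeS (t a) (x 0)|))))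
    (hE2 : (pS f hfm C hf.b0 N M P s u).tav (n := 1) (fun t x =>
        Real.exp (3 * (C / 2) * (1 / ((N : ℝ) + 2) * ∑ a, |cubeS (t a) (x 0)|))) ≤ K)
    (hl : 0 < lam)
    (h1 : lam / 2 * (pS f hfm C hf.b0 N M P s u).tav (n := 1) (fun t x =>
        |cavB (1 / ((N : ℝ) + 2)) f1 f2 (fun a => cubeS (t a) (x 0)) - b|) ≤ η / 2)
    (h2 : Real.exp (3 * B + 3 * ((α + 1) * (C / 2))) / (2 * lam) * K ≤ η / 2) :
    (pS f hfm C hf.b0 N M P s u).tav (n := 1) (fun t x =>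
        |Real.exp (cavB (1 / ((N : ℝ) + 2)) f1 f2 (fun a => cubeS (t a) (x 0)) - b) - 1|) ≤
          η :=
  Sys.tavI_exp (S := pS f hfm C hf.b0 N M P s u) (n := 1)
    (F := fun t x => cavB (1 / ((N : ℝ) + 2)) f1 f2 (fun a => cubeS (t a) (x 0)))
    (E := fun t x => Real.exp (3 * (C / 2) * (1 / ((N : ℝ) + 2) * ∑ a, |cubeS (t a) (x 0)|)))
    hl (Real.exp_pos _).le (fun t x => bc_exp_pt hf hM hb t x) hE hE2
    (bc_TI_abs hf hfm N M P s u hTI b) h1 h2

end

section BCONC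

/-- The order `δ` term of the linearized energy is asymptotically constant. -/
theorem cavB_conc {f f1 f2 f3 : ℝ → ℝ} {C : ℝ} (hf : CB3 C f f1 f2 f3) (hfm : Measurable f)
    (hf1 : ∃ g' g'', CB2 f1 g' g'') (hf2 : ∃ g' g'', CB2 f2 g' g'')
    {U : Ultrafilter ℕ} {N M P : ℕ → ℕ} {s : ℕ → ℝ} {u : ∀ j, Fin (P j) → ℝ} {α : ℝ}
    (hα : 0 < α) (hMN : Tendsto (fun j => ((M j : ℝ) + 1) / (N j + 2)) U (𝓝 α))
    (hconc : ∀ g g' g'' : ℝ → ℝ, CB2 g g' g'' → ∀ η > 0, ∃ v : ℝ, ∀ᶠ j in (U : Filter ℕ),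
      (pS f hfm C hf.b0 (N j) (M j + 1) (P j) (s j) (u j)).tav (n := 1)
        (fun t x => (addF (1 / ((N j : ℝ) + 2)) g t x - v) ^ 2) ≤ η) :
    ∀ η > 0, ∃ b : ℝ, ∀ᶠ j in (U : Filter ℕ),
      (pS f hfm C hf.b0 (N j) (M j + 1) (P j) (s j) (u j)).tav (n := 1) (fun t x =>
        |cavB (1 / ((N j : ℝ) + 2)) f1 f2 (fun a => cubeS (t a) (x 0)) - b|) ≤ η ∧
      (pS f hfm C hf.b0 (N j) (M j + 1) (P j) (s j) (u j)).tav (n := 1) (fun t x =>
        |Real.exp (cavB (1 / ((N j : ℝ) + 2)) f1 f2 (fun a => cubeS (t a) (x 0)) - b) - 1|) ≤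
          η := by
  have hC0 : 0 ≤ C := (abs_nonneg _).trans (hf.b0 0)
  obtain ⟨f1', f1'', hf1⟩ := hf1
  obtain ⟨f2', f2'', hf2⟩ := hf2
  -- the number of patterns
  have hMα : ∀ᶠ j in (U : Filter ℕ), ((M j : ℝ) + 1) / (N j + 2) ≤ α + 1 :=
    hMN.eventually (ge_mem_nhds (show α < α + 1 by linarith))
  -- the moments of the fields
  have hI0 : Integrable (fun z : ℝ => C / 2 * (1 + |z|)) (gaussianReal 0 1) := by
    have h1 : Integrable (fun z : ℝ => |z|) (gaussianReal 0 1) := by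
      have := bc_int_abs_pow 1
      simpa using this
    exact ((integrable_const _).add h1).const_mul _
  have hm0 : Measurable (fun z : ℝ => C / 2 * (1 + |z|)) := by fun_prop
  have hI00 : 0 ≤ ∫ z, C / 2 * (1 + |z|) ∂(gaussianReal 0 1) :=
    integral_nonneg fun z => by positivity
  set K0 : ℝ := (α + 1) * (Real.exp (2 * C) * ∫ z, C / 2 * (1 + |z|) ∂(gaussianReal 0 1)) with hK0
  -- first moment of the drift term
  have hfirst : ∀ᶠ j in (U : Filter ℕ),
      Sys.TI (pS f hfm C hf.b0 (N j) (M j + 1) (P j) (s j) (u j)) (n := 1)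
        (fun t x => 1 / ((N j : ℝ) + 2) * ∑ a, C / 2 * (1 + |cubeS (t a) (x 0)|)) ∧
      (pS f hfm C hf.b0 (N j) (M j + 1) (P j) (s j) (u j)).tav (n := 1)
        (fun t x => 1 / ((N j : ℝ) + 2) * ∑ a, C / 2 * (1 + |cubeS (t a) (x 0)|)) ≤ K0 := by
    filter_upwards [hMα] with j hj
    have h := bc_field hfm C hf.b0 (g := fun z => C / 2 * (1 + |z|)) (fun z => by positivity)
      hI0 hm0 (N j) (M j) (P j) (s j) (u j)
    exact ⟨h.1, h.2.trans (mul_le_mul_of_nonneg_right hj (by positivity))⟩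
  -- STEP A
  have stepA : ∀ η₀ > 0, ∃ v : ℝ, |v| ≤ K0 + η₀ ∧ ∀ᶠ j in (U : Filter ℕ),
      (pS f hfm C hf.b0 (N j) (M j + 1) (P j) (s j) (u j)).tav (n := 1) (fun t x =>
        |cavB (1 / ((N j : ℝ) + 2)) f1 f2 (fun a => cubeS (t a) (x 0)) - v|) ≤ η₀ := by
    intro η₀ hη₀
    set m3 : ℝ := ∫ z, |z| ^ 3 ∂(gaussianReal 0 1) with hm3
    have hm30 : 0 ≤ m3 := integral_nonneg fun z => by positivity
    -- the truncation level
    obtain ⟨T, hT1, hT2⟩ : ∃ T : ℝ, 1 ≤ T ∧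
        (α + 1) * (Real.exp (2 * C) * (C / 2 / T ^ 2 * m3)) ≤ η₀ / 2 := by
      set A : ℝ := (α + 1) * (Real.exp (2 * C) * (C / 2 * m3)) with hA
      have hA0 : 0 ≤ A := by positivity
      have hA1 : 0 ≤ A / (η₀ / 2) := by positivity
      refine ⟨1 + A / (η₀ / 2), by linarith, ?_⟩
      set T := 1 + A / (η₀ / 2) with hT
      have hT1 : 1 ≤ T := by linarith
      have e1 : (α + 1) * (Real.exp (2 * C) * (C / 2 / T ^ 2 * m3)) = A / T ^ 2 := by
        rw [hA]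
        ring
      rw [e1, div_le_iff₀ (by positivity)]
      have e2 : A ≤ η₀ / 2 * T := by
        rw [hT]
        have : η₀ / 2 * (1 + A / (η₀ / 2)) = η₀ / 2 + A := by
          field_simp
        rw [this]
        linarith
      have e3 : T ≤ T ^ 2 := by nlinarith only [hA1, hT]
      exact e2.trans (mul_le_mul_of_nonneg_left e3 (by positivity))
    have hT0 : 0 < T := by linarith
    have hgC := bc_CB2_lin hf2 ((bc_trn_CB2 hT0).mul hf1) (1 / 2) (-(1 / 2))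
    obtain ⟨v, hv⟩ := hconc _ _ _ hgC ((η₀ / 2) ^ 2) (by positivity)
    have hev : ∀ᶠ j in (U : Filter ℕ),
      (pS f hfm C hf.b0 (N j) (M j + 1) (P j) (s j) (u j)).tav (n := 1) (fun t x =>
        |cavB (1 / ((N j : ℝ) + 2)) f1 f2 (fun a => cubeS (t a) (x 0)) - v|) ≤ η₀ := by
      filter_upwards [hMα, hv] with j hj hvj
      refine bc_A1 hf hfm (N j) (M j) (P j) (s j) (u j) hT0 hgC hη₀ hvj ?_
      rw [integral_const_mul]
      exact (mul_le_mul_of_nonneg_right hj (by positivity)).trans hT2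
    obtain ⟨j, hj1, hj2⟩ := (hev.and hfirst).exists
    exact ⟨v, bc_A2 hf hfm (N j) (M j + 1) (P j) (s j) (u j) hj2.1 hj2.2 hj1, hev⟩
  -- STEP B
  intro η hη
  obtain ⟨K, hK⟩ := exp_moment hfm C hf.b0 α (3 * (C / 2)) (by positivity)
  set K1 : ℝ := Real.exp (3 * (K0 + 1) + 3 * ((α + 1) * (C / 2))) with hK1
  set K2 : ℝ := K1 * (|K| + 1) with hK2
  have hK1p : 0 < K1 := Real.exp_pos _
  have hK2p : 0 < K2 := by positivity
  set lam : ℝ := K2 / η with hlam
  have hlp : 0 < lam := by positivity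
  set η₀ : ℝ := min (min η 1) (η / lam) with hη₀
  have hη₀p : 0 < η₀ := by positivity
  have hη₀1 : η₀ ≤ 1 := (min_le_left _ _).trans (min_le_right _ _)
  have hη₀η : η₀ ≤ η := (min_le_left _ _).trans (min_le_left _ _)
  have hη₀l : η₀ ≤ η / lam := min_le_right _ _
  obtain ⟨b, hb, hev⟩ := stepA η₀ hη₀p
  refine ⟨b, ?_⟩
  filter_upwards [hev, hfirst, hMα] with j hj hj2 hjM
  refine ⟨hj.trans hη₀η, ?_⟩
  have hN2 : (0 : ℝ) < (N j : ℝ) + 2 := by positivity
  have hM1 : ((M j + 1 : ℕ) : ℝ) ≤ (α + 1) * ((N j : ℝ) + 2) := by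
    rw [div_le_iff₀ hN2] at hjM
    push_cast
    exact hjM
  have hKj := hK (N j) (M j + 1) (P j) (s j) (u j) hM1
  refine bc_B (α := α) (K := |K| + 1) (B := K0 + 1) (lam := lam) hf hfm (N j) (M j + 1) (P j)
    (s j) (u j) hj2.1 hM1 (hb.trans (by linarith)) hKj.1
    (hKj.2.trans (by linarith [le_abs_self K])) hlp ?_ ?_
  · calc _ ≤ lam / 2 * (η / lam) := mul_le_mul_of_nonneg_left (hj.trans hη₀l) (by positivity)
      _ = η / 2 := by field_simp
  · rw [← hK1]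
    apply le_of_eq
    have : K1 / (2 * lam) * (|K| + 1) = K2 / (2 * lam) := by rw [hK2]; ring
    rw [this, hlam]
    field_simp

end BCONC

end Vale.Agent.P157.Par
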