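import Vale.Agent.P157.ParLog

open MeasureTheory ProbabilityTheory Filter Topology Finset

namespace Vale.Agent.P157.Par

set_option linter.unusedSectionVars false

open Vale.Agent.P367.GT (gM)

namespace Arr

variable {k : ℕ} {w : Fin (k + 1) → ℝ} {δ : Type} [Fintype δ] [DecidableEq δ]

lemma up_zero : up w 0 = ∑ l, w l := by
  unfold up
  simp

/-- Marginals. -/
lemma E_drop (𝓐 : Arr k w δ) (hw : ∑ l, w l = 1) (ι : Type) [Fintype ι] [DecidableEq ι]
    (i : δ ⊕ ι) (A : LM k (δ ⊕ ι) → ℝ) :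
    𝓐.E (Option ι) (fun L => A (fun a b => L (Sum.map id some a) (Sum.map id some b))) =
      𝓐.E ι A := by
  have h := 𝓐.gg_link ι A i 0
  simp only [Fin.zero_le, if_true, mul_one, up_zero, hw, one_mul] at h
  rw [Finset.sum_const, Finset.card_univ, Fintype.card_sum, nsmul_eq_mul] at h
  have h2 : (0 : ℝ) < (Fintype.card δ : ℝ) + Fintype.card ι := by
    have : 0 < Fintype.card (δ ⊕ ι) := Fintype.card_pos_iff.2 ⟨i⟩
    rw [Fintype.card_sum] at this
    exact_mod_cast this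
  push_cast at h
  have h3 : ((Fintype.card δ : ℝ) + Fintype.card ι) *
      (𝓐.E (Option ι) (fun L => A (fun a b => L (Sum.map id some a) (Sum.map id some b))) -
        𝓐.E ι A) = 0 := by linarith
  rcases mul_eq_zero.1 h3 with h4 | h4
  · linarith
  · linarith

lemma E_marg (𝓐 : Arr k w δ) (hw : ∑ l, w l = 1) (i : δ) (χ : LM k δ → ℝ) (n : ℕ) :
    𝓐.E (Fin n) (fun L => χ (res L)) = 𝓐.E (Fin 0) (fun L => χ (res L)) := by
  induction n with
  | zero => rfl
  | succ n ih =>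
    rw [← ih, ← 𝓐.E_drop hw (Fin n) (Sum.inl i) (fun L => χ (res L)),
      ← 𝓐.reindex (Fin (n + 1)) (Option (Fin n)) (finSuccEquivLast)]
    rfl

lemma E_one (𝓐 : Arr k w Empty) (hw : ∑ l, w l = 1) (n : ℕ) :
    𝓐.E (Fin (n + 1)) (fun _ => 1) = 𝓐.E (Fin 1) (fun _ => 1) := by
  induction n with
  | zero => rfl
  | succ n ih =>
    rw [← ih, ← 𝓐.E_drop hw (Fin (n + 1)) (Sum.inr 0) (fun _ => 1),
      ← 𝓐.reindex (Fin (n + 1 + 1)) (Option (Fin (n + 1))) (finSuccEquivLast)]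

end Arr

lemma gE_level0 {k : ℕ} {J : Type} [Fintype J] [DecidableEq J] {c : Fin (k + 1) → ℝ}
    (hc : ∀ l, 0 ≤ c l) (hc0 : ∀ l, l ≠ 0 → c l = 0) {L : LM k J} (hL : Ultra L)
    {f : J → ℝ → ℝ} (hf : ∀ a, Measurable (f a)) :
    gE (UL c L) f = ∫ z, ∏ a, f a (√(c 0) * z) ∂(gaussianReal 0 1) := by
  have h1 : gE (UL c L) f = gE (fun (_ : J) (_ : Unit) => √(c 0)) f := by
    apply gE_congr_gram _ hf
    intro a b
    rw [gram_UL hc hL]
    unfold gram
    rw [Fintype.sum_eq_single (0 : Fin (k + 1))]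
    · simp [Real.mul_self_sqrt (hc 0)]
    · intro l hl
      rw [hc0 l hl]
      simp
  rw [h1]
  unfold gE gM
  have h2 := (measurePreserving_funUnique (gaussianReal 0 1) Unit).integral_comp'
    (g := fun z : ℝ => ∏ a, f a (√(c 0) * z))
  rw [← h2]
  congr 1
  funext ξ
  simp [lin]

namespace Arr

variable {k : ℕ} {w : Fin (k + 1) → ℝ} {δ : Type} [Fintype δ] [DecidableEq δ]

lemma T_level0 (𝓐 : Arr k w δ) (hw : ∑ l, w l = 1) (i : δ) {c : Fin (k + 1) → ℝ}
    (hc : ∀ l, 0 ≤ c l) (hc0 : ∀ l, l ≠ 0 → c l = 0) (χ : LM k δ → ℝ) {A : δ → ℝ → ℝ}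
    {v : ℝ → ℝ} (hA : ∀ i, Measurable (A i)) (hv : Measurable v) (n : ℕ) :
    𝓐.T c χ A v (Fin n) = 𝓐.E (Fin 0) (fun L => χ (res L)) *
      ∫ z, (∏ i, A i (√(c 0) * z)) * v (√(c 0) * z) ^ n ∂(gaussianReal 0 1) := by
  rw [← 𝓐.E_marg hw i χ n, mul_comm, ← smul_eq_mul, ← map_smul]
  unfold T
  apply 𝓐.congr_ultra
  intro L hL
  rw [gE_level0 hc hc0 hL (measurable_fam hA hv), Pi.smul_apply, smul_eq_mul, mul_comm]
  congr 1
  congr 1
  funext z
  rw [Fintype.prod_sum_type]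
  simp [fam]

lemma T_level0_empty (𝓐 : Arr k w Empty) (hw : ∑ l, w l = 1) {c : Fin (k + 1) → ℝ}
    (hc : ∀ l, 0 ≤ c l) (hc0 : ∀ l, l ≠ 0 → c l = 0) {v : ℝ → ℝ} (hv : Measurable v) (n : ℕ) :
    𝓐.T c (fun _ => 1) noA v (Fin (n + 1)) = 𝓐.E (Fin 1) (fun _ => 1) *
      ∫ z, v (√(c 0) * z) ^ (n + 1) ∂(gaussianReal 0 1) := by
  rw [← 𝓐.E_one hw n, mul_comm, ← smul_eq_mul, ← map_smul]
  unfold T
  apply 𝓐.congr_ultra
  intro L hL
  rw [gE_level0 hc hc0 hL (measurable_fam (fun i : Empty => i.elim) hv), Pi.smul_apply,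
    smul_eq_mul, mul_one, one_mul]
  congr 1
  funext z
  rw [Fintype.prod_sum_type]
  simp [fam]

/-- The value of the resummed functional when only the level `0` is left. -/
theorem Q_level0 (𝓐 : Arr k w δ) (hw : ∑ l, w l = 1) {e : ℕ} (he : Fintype.card δ = e + 1)
    {c : Fin (k + 1) → ℝ} (hc : ∀ l, 0 ≤ c l) (hc0 : ∀ l, l ≠ 0 → c l = 0) (χ : LM k δ → ℝ)
    {h : δ → ℝ → ℝ} {W : ℝ → ℝ} (hh : ∀ i, BM (h i)) (hWm : Measurable W) {a : ℝ} (ha : 0 < a)
    (hWa : ∀ x, a ≤ W x) (hW1 : ∀ x, W x ≤ 1) :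
    𝓐.Q e c χ (fun i x => h i x * W x) (fun x => 1 - W x) =
      𝓐.E (Fin 0) (fun L => χ (res L)) *
        ∫ z, ∏ i, h i (√(c 0) * z) ∂(gaussianReal 0 1) := by
  have hne : Nonempty δ := Fintype.card_pos_iff.1 (by omega)
  obtain ⟨i⟩ := hne
  have ha1 : a ≤ 1 := (hWa 0).trans (hW1 0)
  obtain ⟨B, hB0, hB⟩ := exists_bound hh
  unfold Q
  have hT := fun n => 𝓐.T_level0 hw i hc hc0 χ (A := fun i x => h i x * W x)
    (v := fun x => 1 - W x) (fun i => (hh i).meas.mul hWm) (measurable_const.sub hWm) n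
  simp_rw [hT]
  have e1 : ∀ n : ℕ, ((n + e).choose e : ℝ) * (𝓐.E (Fin 0) (fun L => χ (res L)) *
      ∫ z, (∏ i, (h i (√(c 0) * z) * W (√(c 0) * z))) * (1 - W (√(c 0) * z)) ^ n
        ∂(gaussianReal 0 1)) = 𝓐.E (Fin 0) (fun L => χ (res L)) *
      ∫ z, (∏ i, h i (√(c 0) * z)) * (W (√(c 0) * z) ^ (e + 1) *
        (((n + e).choose e : ℝ) * (1 - W (√(c 0) * z)) ^ n)) ∂(gaussianReal 0 1) := by
    intro n
    rw [mul_left_comm, ← integral_const_mul]
    congr 2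
    funext z
    rw [Finset.prod_mul_distrib, Finset.prod_const, Finset.card_univ, he]
    ring
  simp_rw [e1]
  rw [tsum_mul_left]
  congr 1
  have hbd : ∀ z : ℝ, |1 - W (√(c 0) * z)| ≤ 1 - a := by
    intro z
    have h1 := hWa (√(c 0) * z)
    have h2 := hW1 (√(c 0) * z)
    rw [abs_of_nonneg (by linarith)]
    linarith
  have hmz : Measurable fun z : ℝ => √(c 0) * z := by fun_prop
  have hprodm : Measurable fun z : ℝ => ∏ i, h i (√(c 0) * z) :=
    Finset.measurable_prod _ fun i _ => (hh i).meas.comp hmz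
  have hprodb : ∀ z : ℝ, |∏ i, h i (√(c 0) * z)| ≤ B ^ Fintype.card δ := by
    intro z
    have := abs_prod_le (s := Finset.univ) (f := fun i => h i (√(c 0) * z)) (C := B)
      (fun i _ => hB i _)
    simpa using this
  have hterm : ∀ (n : ℕ) (z : ℝ), ‖(∏ i, h i (√(c 0) * z)) * (W (√(c 0) * z) ^ (e + 1) *
        (((n + e).choose e : ℝ) * (1 - W (√(c 0) * z)) ^ n))‖ ≤
      B ^ Fintype.card δ * (((n + e).choose e : ℝ) * (1 - a) ^ n) := by
    intro n z
    rw [Real.norm_eq_abs, abs_mul, abs_mul, abs_mul, abs_pow, abs_pow, Nat.abs_cast]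
    have h1 : |W (√(c 0) * z)| ≤ 1 := by
      rw [abs_of_nonneg (ha.le.trans (hWa _))]; exact hW1 _
    have h2 : |W (√(c 0) * z)| ^ (e + 1) ≤ 1 := pow_le_one₀ (abs_nonneg _) h1
    have h3 := pow_le_pow_left₀ (abs_nonneg _) (hbd z) n
    calc _ ≤ B ^ Fintype.card δ * (1 * (((n + e).choose e : ℝ) * (1 - a) ^ n)) := by
          gcongr
          exact hprodb z
      _ = _ := by ring
  have hmeas : ∀ n : ℕ, Measurable fun z : ℝ => (∏ i, h i (√(c 0) * z)) *
      (W (√(c 0) * z) ^ (e + 1) * (((n + e).choose e : ℝ) * (1 - W (√(c 0) * z)) ^ n)) := by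
    intro n
    exact hprodm.mul (((hWm.comp hmz).pow_const _).mul
      (((measurable_const.sub (hWm.comp hmz)).pow_const _).const_mul _))
  have hint : ∀ n : ℕ, Integrable (fun z : ℝ => (∏ i, h i (√(c 0) * z)) *
      (W (√(c 0) * z) ^ (e + 1) * (((n + e).choose e : ℝ) * (1 - W (√(c 0) * z)) ^ n)))
      (gaussianReal 0 1) := fun n =>
    Integrable.of_bound (hmeas n).aestronglyMeasurable _ (Eventually.of_forall (hterm n))
  have hsumg : Summable fun n : ℕ => ((n + e).choose e : ℝ) * (1 - a) ^ n :=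
    summable_choose_mul_geometric_of_norm_lt_one e (by
      rw [Real.norm_eq_abs, abs_of_nonneg (by linarith)]; linarith)
  have hsum : Summable fun n : ℕ => ∫ z, ‖(∏ i, h i (√(c 0) * z)) *
      (W (√(c 0) * z) ^ (e + 1) * (((n + e).choose e : ℝ) * (1 - W (√(c 0) * z)) ^ n))‖
      ∂(gaussianReal 0 1) := by
    refine Summable.of_nonneg_of_le (fun n => integral_nonneg fun z => norm_nonneg _) (fun n => ?_)
      (hsumg.mul_left (B ^ Fintype.card δ))
    have h1 := integral_mono (hint n).norm (integrable_const _) (hterm n)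
    rwa [integral_const, probReal_univ, one_smul] at h1
  rw [integral_tsum_of_summable_integral_norm hint hsum]
  congr 1
  funext z
  have hW0 : 0 < W (√(c 0) * z) := ha.trans_le (hWa _)
  rw [tsum_mul_left, tsum_mul_left]
  have h1 := tsum_choose_mul_geometric_of_norm_lt_one (𝕜 := ℝ) e (r := 1 - W (√(c 0) * z)) (by
    rw [Real.norm_eq_abs]; exact (hbd z).trans_lt (by linarith))
  rw [h1]
  have h2 : 1 - (1 - W (√(c 0) * z)) = W (√(c 0) * z) := by ring
  rw [h2]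
  field_simp

/-- The value of the logarithm when only the level `0` is left. -/
theorem Lg_level0 (𝓐 : Arr k w Empty) (hw : ∑ l, w l = 1)
    {c : Fin (k + 1) → ℝ} (hc : ∀ l, 0 ≤ c l) (hc0 : ∀ l, l ≠ 0 → c l = 0)
    {W : ℝ → ℝ} (hWm : Measurable W) {a : ℝ} (ha : 0 < a)
    (hWa : ∀ x, a ≤ W x) (hW1 : ∀ x, W x ≤ 1) :
    𝓐.Lg c (fun x => 1 - W x) = - (𝓐.E (Fin 1) (fun _ => 1) *
        ∫ z, Real.log (W (√(c 0) * z)) ∂(gaussianReal 0 1)) := by
  have ha1 : a ≤ 1 := (hWa 0).trans (hW1 0)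
  unfold Lg
  have hT := fun n => 𝓐.T_level0_empty hw hc hc0 (v := fun x => 1 - W x)
    (measurable_const.sub hWm) n
  simp_rw [hT]
  have hbd : ∀ z : ℝ, |1 - W (√(c 0) * z)| ≤ 1 - a := by
    intro z
    have h1 := hWa (√(c 0) * z)
    have h2 := hW1 (√(c 0) * z)
    rw [abs_of_nonneg (by linarith)]
    linarith
  have hmz : Measurable fun z : ℝ => √(c 0) * z := by fun_prop
  have e1 : ∀ n : ℕ, 1 / ((n : ℝ) + 1) * (𝓐.E (Fin 1) (fun _ => 1) *
      ∫ z, (1 - W (√(c 0) * z)) ^ (n + 1) ∂(gaussianReal 0 1)) =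
      𝓐.E (Fin 1) (fun _ => 1) * ∫ z, (1 - W (√(c 0) * z)) ^ (n + 1) / ((n : ℝ) + 1)
        ∂(gaussianReal 0 1) := by
    intro n
    rw [integral_div]
    ring
  simp_rw [e1]
  rw [tsum_mul_left, ← mul_neg]
  congr 1
  have hterm : ∀ (n : ℕ) (z : ℝ), ‖(1 - W (√(c 0) * z)) ^ (n + 1) / ((n : ℝ) + 1)‖ ≤
      (1 - a) ^ n := by
    intro n z
    rw [Real.norm_eq_abs, abs_div, abs_pow, abs_of_nonneg (by positivity : (0:ℝ) ≤ (n : ℝ) + 1)]
    have h3 := pow_le_pow_left₀ (abs_nonneg _) (hbd z) (n + 1)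
    have h4 : (1 - a) ^ (n + 1) ≤ (1 - a) ^ n := by
      rw [pow_succ]
      exact mul_le_of_le_one_right (pow_nonneg (by linarith) n) (by linarith)
    rw [div_le_iff₀ (by positivity)]
    have h5 : 0 ≤ (1 - a) ^ n := pow_nonneg (by linarith) n
    have h6 : (1 : ℝ) ≤ (n : ℝ) + 1 := by linarith [Nat.cast_nonneg (α := ℝ) n]
    nlinarith
  have hmeas : ∀ n : ℕ, Measurable fun z : ℝ => (1 - W (√(c 0) * z)) ^ (n + 1) / ((n : ℝ) + 1) :=
    fun n => ((measurable_const.sub (hWm.comp hmz)).pow_const _).div_const _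
  have hint : ∀ n : ℕ, Integrable (fun z : ℝ => (1 - W (√(c 0) * z)) ^ (n + 1) / ((n : ℝ) + 1))
      (gaussianReal 0 1) := fun n =>
    Integrable.of_bound (hmeas n).aestronglyMeasurable _ (Eventually.of_forall (hterm n))
  have hsumg : Summable fun n : ℕ => (1 - a) ^ n :=
    summable_geometric_of_lt_one (by linarith) (by linarith)
  have hsum : Summable fun n : ℕ => ∫ z, ‖(1 - W (√(c 0) * z)) ^ (n + 1) / ((n : ℝ) + 1)‖
      ∂(gaussianReal 0 1) := by
    refine Summable.of_nonneg_of_le (fun n => integral_nonneg fun z => norm_nonneg _) (fun n => ?_)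
      hsumg
    have h1 := integral_mono (hint n).norm (integrable_const _) (hterm n)
    rwa [integral_const, probReal_univ, one_smul] at h1
  rw [integral_tsum_of_summable_integral_norm hint hsum, ← integral_neg]
  congr 1
  funext z
  have h1 := Real.hasSum_pow_div_log_of_abs_lt_one (x := 1 - W (√(c 0) * z))
    ((hbd z).trans_lt (by linarith))
  rw [h1.tsum_eq]
  congr 2
  ring

end Arr

end Vale.Agent.P157.Par
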