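import Vale.Agent.P157.RemSecond
import Vale.Agent.P157.McDiarmid

open MeasureTheory ProbabilityTheory

namespace Vale.Agent.P157

/-- unnormalized pressure on the cube -/
noncomputable def logZ {M N : ℕ} (f : ℝ → ℝ) (g : Fin M → Fin N → ℝ) : ℝ :=
  Real.log ((1 / 2 : ℝ) ^ N * ∑ σ : Fin N → Bool, Real.exp (∑ a, f (proj (spin σ) (g a))))

lemma pressure_cube {M N : ℕ} (f : ℝ → ℝ) (g : Fin M → Fin N → ℝ) :
    pressure (cube N) f g = 1 / N * logZ f g := by
  unfold pressure logZ
  rw [integral_cube]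
  rfl

lemma half_pow_mul_sum_const (N : ℕ) (c : ℝ) :
    (1 / 2 : ℝ) ^ N * ∑ _σ : Fin N → Bool, c = c := by
  simp only [Finset.sum_const, Finset.card_univ, Fintype.card_fun, Fintype.card_bool,
    Fintype.card_fin, nsmul_eq_mul]
  push_cast
  rw [← mul_assoc, ← mul_pow]
  norm_num

lemma Z_pos {M N : ℕ} (f : ℝ → ℝ) (g : Fin M → Fin N → ℝ) :
    0 < (1 / 2 : ℝ) ^ N * ∑ σ : Fin N → Bool, Real.exp (∑ a, f (proj (spin σ) (g a))) := by
  refine mul_pos (by positivity) (Finset.sum_pos (fun σ _ => Real.exp_pos _) ?_)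
  exact Finset.univ_nonempty

lemma measurable_logZ {M N : ℕ} {f : ℝ → ℝ} (hf : Measurable f) :
    Measurable (logZ (M := M) (N := N) f) := by
  unfold logZ
  refine Real.measurable_log.comp (Measurable.const_mul ?_ _)
  refine Finset.measurable_sum _ fun σ _ => Real.measurable_exp.comp ?_
  refine Finset.measurable_sum _ fun a _ => hf.comp ?_
  exact (measurable_proj _).comp (measurable_pi_apply a)

lemma logZ_bdd {M N : ℕ} {f : ℝ → ℝ} {D : ℝ} (hD : ∀ x, |f x| ≤ D) (g : Fin M → Fin N → ℝ) :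
    |logZ f g| ≤ M * D := by
  have hs : ∀ σ : Fin N → Bool, |∑ a, f (proj (spin σ) (g a))| ≤ M * D := fun σ =>
    abs_sum_le hD _
  rw [abs_le]
  unfold logZ
  constructor
  · rw [← Real.log_exp (-(M * D))]
    refine Real.log_le_log (Real.exp_pos _) ?_
    calc Real.exp (-(M * D)) = (1 / 2 : ℝ) ^ N * ∑ _σ : Fin N → Bool, Real.exp (-(M * D)) :=
          (half_pow_mul_sum_const N _).symm
      _ ≤ _ := mul_le_mul_of_nonneg_left (Finset.sum_le_sum fun σ _ =>
          Real.exp_le_exp.2 (abs_le.1 (hs σ)).1) (by positivity)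
  · rw [← Real.log_exp (M * D)]
    refine Real.log_le_log (Z_pos f g) ?_
    calc _ ≤ (1 / 2 : ℝ) ^ N * ∑ _σ : Fin N → Bool, Real.exp (M * D) :=
          mul_le_mul_of_nonneg_left (Finset.sum_le_sum fun σ _ =>
          Real.exp_le_exp.2 (abs_le.1 (hs σ)).2) (by positivity)
      _ = Real.exp (M * D) := half_pow_mul_sum_const N _

lemma logZ_diff_le {M N : ℕ} {f : ℝ → ℝ} {D : ℝ} (hD : ∀ x, |f x| ≤ D)
    (g g' : Fin M → Fin N → ℝ) (a : Fin M) (hg : ∀ b, b ≠ a → g' b = g b) :
    logZ f g' ≤ logZ f g + 2 * D := by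
  unfold logZ
  rw [← Real.log_exp (2 * D), ← Real.log_mul (Z_pos f g).ne' (Real.exp_pos _).ne']
  refine Real.log_le_log (Z_pos f g') ?_
  rw [mul_assoc, Finset.sum_mul]
  refine mul_le_mul_of_nonneg_left (Finset.sum_le_sum fun σ _ => ?_) (by positivity)
  rw [← Real.exp_add]
  apply Real.exp_le_exp.2
  have h : ∑ b, f (proj (spin σ) (g' b)) - ∑ b, f (proj (spin σ) (g b)) =
      f (proj (spin σ) (g' a)) - f (proj (spin σ) (g a)) := by
    rw [← Finset.sum_sub_distrib, Finset.sum_eq_single a]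
    · intro b _ hb
      rw [hg b hb, sub_self]
    · intro h; exact absurd (Finset.mem_univ _) h
  have h1 := (abs_le.1 (hD (proj (spin σ) (g' a)))).2
  have h2 := (abs_le.1 (hD (proj (spin σ) (g a)))).1
  linarith

lemma logZ_bounded_diff {M N : ℕ} {f : ℝ → ℝ} {D : ℝ} (hD : ∀ x, |f x| ≤ D)
    (g : Fin M → Fin N → ℝ) (a : Fin M) (e : Fin N → ℝ) :
    |logZ f (Function.update g a e) - logZ f g| ≤ 2 * D := by
  rw [abs_le]
  have h1 := logZ_diff_le hD g (Function.update g a e) a
    (fun b hb => Function.update_of_ne hb _ _)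
  have h2 := logZ_diff_le hD (Function.update g a e) g a
    (fun b hb => (Function.update_of_ne hb _ _).symm)
  constructor <;> linarith

/-- Non-asymptotic lower bound for the mean of `logZ` on the cube. -/
theorem logZ_lower {M N : ℕ} (hM : 0 < M) (hN : 0 < N) {f : ℝ → ℝ} (hf : Measurable f) {D : ℝ}
    (hD : ∀ x, |f x| ≤ D) {m : ℝ} (hm0 : 0 < m) (hm1 : m ≤ 1) {Λ K : ℝ}
    (hΛ : Real.exp Λ = ∫ x, Real.exp (m * f x) ∂(gaussianReal 0 1))
    (hK : K = ∫ x, (m * f x - Λ) * Real.exp (m * f x - Λ) ∂(gaussianReal 0 1))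
    {δ : ℝ} (hδ : 0 < δ)
    (hvar : (∫ x, ((m * f x - Λ) - K) ^ 2 * Real.exp (m * f x - Λ) ∂(gaussianReal 0 1)) /
      (δ ^ 2 * M) ≤ 1 / 2)
    (hpair : ∀ ρ ∈ Set.Icc (-1 : ℝ) 1, ∃ s ∈ Set.Icc (0 : ℝ) 1,
      M * (2 * (1 - s) * K +
        Real.log (pairInt (fun x => Real.exp (s * (m * f x - Λ))) ρ)) ≤
        N * (Real.log 2 - Real.binEntropy ((1 + ρ) / 2)))
    {t : ℝ} (ht : 0 < t) :
    M * ((1 / m - 1) * (K - δ) + Λ / m) - Real.log 4 -
      (Real.log (16 * (N + 1)) + 2 * δ * M) / t - M * (2 * D) ^ 2 * t / 2 ≤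
      ∫ g, logZ f g ∂(patterns M N) := by
  set l : ℝ → ℝ := fun x => m * f x - Λ with hl
  have hlm : Measurable l := by fun_prop
  have hlB : ∀ x, |l x| ≤ D + |Λ| := fun x => by
    refine (abs_sub _ _).trans (add_le_add ?_ le_rfl)
    rw [abs_mul, abs_of_pos hm0]
    calc m * |f x| ≤ 1 * D := mul_le_mul hm1 (hD x) (abs_nonneg _) zero_le_one
      _ = D := one_mul D
  have h1 : ∫ x, Real.exp (l x) ∂(gaussianReal 0 1) = 1 := by
    simp only [hl, Real.exp_sub]
    rw [integral_div, ← hΛ]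
    exact div_self (Real.exp_pos _).ne'
  have hmean := trZ_mean (N := N) hM hN hlm hlB h1 hK.symm hδ
  have hsec := trZ_second (M := M) hN hlm hlB (K := K) hδ.le hpair
  set X : (Fin M → Fin N → ℝ) → ℝ := trZ M N l K δ with hX
  set F : (Fin M → Fin N → ℝ) → ℝ := logZ f with hF
  set EF := ∫ g, F g ∂(patterns M N) with hEF
  set b : ℝ := M * ((1 / m - 1) * (K - δ) + Λ / m) - Real.log 4 with hb
  have hMpos : (0 : ℝ) < M := by positivity
  -- key pointwise comparison
  have hZX : ∀ g, X g * Real.exp (M * ((1 / m - 1) * (K - δ) + Λ / m)) ≤ Real.exp (F g) := by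
    intro g
    rw [hF]; unfold logZ
    rw [Real.exp_log (Z_pos f g), hX]
    unfold trZ
    rw [mul_assoc, Finset.sum_mul]
    refine mul_le_mul_of_nonneg_left (Finset.sum_le_sum fun σ _ => ?_) (by positivity)
    unfold tw
    split_ifs with hc
    · rw [← Real.exp_add]
      apply Real.exp_le_exp.2
      have hc' := (abs_le.1 hc).1
      have hs : ∑ a, l (proj (spin σ) (g a)) = m * ∑ a, f (proj (spin σ) (g a)) - M * Λ := by
        simp only [hl]
        rw [Finset.sum_sub_distrib, ← Finset.mul_sum]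
        simp
      have hs2 : ∑ a, f (proj (spin σ) (g a)) =
          (∑ a, l (proj (spin σ) (g a))) / m + M * Λ / m := by
        rw [hs]; field_simp; ring
      rw [hs2]
      have hmi : 0 ≤ 1 / m - 1 := by
        rw [sub_nonneg, le_div_iff₀ hm0]; linarith only [hm1]
      have : (1 / m - 1) * (M * (K - δ)) ≤ (1 / m - 1) * ∑ a, l (proj (spin σ) (g a)) :=
        mul_le_mul_of_nonneg_left (by linarith only [hc']) hmi
      have e1 : (∑ a, l (proj (spin σ) (g a))) / m =
          (1 / m - 1) * (∑ a, l (proj (spin σ) (g a))) + ∑ a, l (proj (spin σ) (g a)) := by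
        ring
      rw [e1]
      have e2 : (M : ℝ) * ((1 / m - 1) * (K - δ) + Λ / m) =
        (1 / m - 1) * (M * (K - δ)) + M * Λ / m := by ring
      rw [e2]
      linarith only [this]
    · rw [zero_mul]; exact (Real.exp_pos _).le
  have hpt : ∀ g, X g ≤ 1 / 4 + X g * Real.exp (t / 2 * (F g - b)) := by
    intro g
    have hX0 : 0 ≤ X g := trZ_nonneg _ _ _ _ _ _
    rcases le_or_gt (1 / 4) (X g) with h | h
    · have h2 : b ≤ F g := by
        have h3 := hZX g
        have h4 : Real.exp b ≤ Real.exp (F g) := by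
          refine le_trans ?_ h3
          rw [hb, Real.exp_sub, Real.exp_log (by norm_num : (0 : ℝ) < 4), div_eq_inv_mul]
          refine mul_le_mul_of_nonneg_right ?_ (Real.exp_pos _).le
          rw [← one_div]; exact h
        exact Real.exp_le_exp.1 h4
      have h5 : 1 ≤ Real.exp (t / 2 * (F g - b)) := by
        apply Real.one_le_exp
        have : 0 ≤ F g - b := by linarith only [h2]
        positivity
      have := le_mul_of_one_le_right hX0 h5
      linarith only [this]
    · have : 0 ≤ X g * Real.exp (t / 2 * (F g - b)) := mul_nonneg hX0 (Real.exp_pos _).le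
      linarith only [h, this]
  set A : ℝ := (N + 1) * Real.exp (2 * δ * M) with hA
  have hApos : 0 < A := by positivity
  have hXm : Measurable X := measurable_trZ M N hlm K δ
  have hFm : Measurable F := measurable_logZ hf
  have hXb : ∀ g, |X g| ≤ Real.exp (M * (D + |Λ|)) := fun g => by
    rw [abs_of_nonneg (trZ_nonneg _ _ _ _ _ _)]; exact trZ_le hlB K δ g
  have hFb : ∀ g, |F g| ≤ M * D := fun g => logZ_bdd hD g
  have hexpb : ∀ g, |Real.exp (t * (F g - b))| ≤ Real.exp (t * (M * D - b)) := fun g => by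
    rw [abs_of_pos (Real.exp_pos _)]
    apply Real.exp_le_exp.2
    exact mul_le_mul_of_nonneg_left (by linarith only [hFb, (abs_le.1 (hFb g)).2]) ht.le
  have hi1 : Integrable (fun g => X g ^ 2) (patterns M N) :=
    integrable_of_bdd (C := Real.exp (M * (D + |Λ|)) ^ 2) (hXm.pow_const 2) fun g => by
      rw [abs_pow]; exact pow_le_pow_left₀ (abs_nonneg _) (hXb g) 2
  have hi2 : Integrable (fun g => Real.exp (t * (F g - b))) (patterns M N) :=
    integrable_of_bdd (by fun_prop) hexpb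
  have hi0 : Integrable X (patterns M N) := integrable_of_bdd hXm hXb
  have hmgf := mgf_bounded_differences (gvec N) M F hFm hFb
    (c := 2 * D) (by have := (abs_nonneg _).trans (hD 0); linarith only [this])
    (fun g a e => logZ_bounded_diff hD g a e) t
  rw [← patterns_eq, ← hEF] at hmgf
  -- integrate
  have hXY : ∀ g, X g ≤ 1 / 4 + (X g ^ 2 / (8 * A) + 2 * A * Real.exp (t * (F g - b))) := by
    intro g
    refine (hpt g).trans (add_le_add le_rfl ?_)
    set Y := Real.exp (t / 2 * (F g - b)) with hY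
    have hY2 : Real.exp (t * (F g - b)) = Y ^ 2 := by
      rw [hY, ← Real.exp_nat_mul]; congr 1; push_cast; ring
    rw [hY2]
    have : 0 ≤ (X g - 4 * A * Y) ^ 2 / (8 * A) := by positivity
    have e : (X g - 4 * A * Y) ^ 2 / (8 * A) = X g ^ 2 / (8 * A) + 2 * A * Y ^ 2 - X g * Y := by
      field_simp; ring
    linarith only [this, e]
  have hint := integral_mono hi0
    ((integrable_const (1 / 4 : ℝ)).add ((hi1.div_const (8 * A)).add (hi2.const_mul (2 * A)))) hXY
  have e1 : ∫ g, (1 / 4 + (X g ^ 2 / (8 * A) + 2 * A * Real.exp (t * (F g - b))))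
      ∂(patterns M N) =
      1 / 4 + ((∫ g, X g ^ 2 ∂(patterns M N)) / (8 * A) +
        2 * A * ∫ g, Real.exp (t * (F g - b)) ∂(patterns M N)) := by
    have hi12 : Integrable (fun g => X g ^ 2 / (8 * A) + 2 * A * Real.exp (t * (F g - b)))
        (patterns M N) := (hi1.div_const (8 * A)).add (hi2.const_mul (2 * A))
    rw [integral_add (integrable_const _) hi12,
      integral_add (hi1.div_const (8 * A)) (hi2.const_mul (2 * A)),
      integral_const_mul]
    have e0 : ∫ g, X g ^ 2 / (8 * A) ∂(patterns M N) =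
        (∫ g, X g ^ 2 ∂(patterns M N)) / (8 * A) :=
      integral_div (8 * A) fun g => X g ^ 2
    rw [e0]
    simp
  have hint' : ∫ g, X g ∂(patterns M N) ≤ 1 / 4 + ((∫ g, X g ^ 2 ∂(patterns M N)) / (8 * A) +
        2 * A * ∫ g, Real.exp (t * (F g - b)) ∂(patterns M N)) := by
    rw [← e1]; exact hint
  have hexpE : ∫ g, Real.exp (t * (F g - b)) ∂(patterns M N) ≤
      Real.exp (t * (EF - b)) * Real.exp (M * (2 * D) ^ 2 * t ^ 2 / 2) := by
    have : ∀ g, Real.exp (t * (F g - b)) = Real.exp (t * (EF - b)) * Real.exp (t * (F g - EF)) := by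
      intro g; rw [← Real.exp_add]; congr 1; ring
    simp_rw [this]
    rw [integral_const_mul]
    exact mul_le_mul_of_nonneg_left hmgf (Real.exp_pos _).le
  have hmean2 : (1 / 2 : ℝ) ≤ ∫ g, X g ∂(patterns M N) := by linarith only [hvar, hmean]
  have hsec2 : (∫ g, X g ^ 2 ∂(patterns M N)) / (8 * A) ≤ 1 / 8 := by
    rw [div_le_iff₀ (by positivity)]; linarith only [hsec]
  have hkey : 1 / 16 ≤ A * (Real.exp (t * (EF - b)) * Real.exp (M * (2 * D) ^ 2 * t ^ 2 / 2)) := by
    have h8 : 2 * A * ∫ g, Real.exp (t * (F g - b)) ∂(patterns M N) ≤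
      2 * A * (Real.exp (t * (EF - b)) * Real.exp (M * (2 * D) ^ 2 * t ^ 2 / 2)) :=
      mul_le_mul_of_nonneg_left hexpE (by positivity)
    linarith only [hvar, hmean, hint', hsec2, h8]
  have hlog := Real.log_le_log (by norm_num : (0 : ℝ) < 1 / 16) hkey
  rw [Real.log_mul hApos.ne' (by positivity), ← Real.exp_add, Real.log_exp, hA,
    Real.log_mul (by positivity) (Real.exp_pos _).ne', Real.log_exp, one_div, Real.log_inv] at hlog
  have h16 : Real.log (16 * (N + 1)) = Real.log 16 + Real.log (N + 1) :=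
    Real.log_mul (by norm_num) (by positivity)
  have hfin : t * (b - (Real.log (16 * (N + 1)) + 2 * δ * M) / t - M * (2 * D) ^ 2 * t / 2) ≤
      t * EF := by
    have e2 : t * (b - (Real.log (16 * (N + 1)) + 2 * δ * M) / t - M * (2 * D) ^ 2 * t / 2) =
      t * b - (Real.log (16 * (N + 1)) + 2 * δ * M) - M * (2 * D) ^ 2 * t ^ 2 / 2 := by
      field_simp
    rw [e2, h16]
    linarith only [hlog]
  exact le_of_mul_le_mul_left hfin ht

end Vale.Agent.P157
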