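import Vale.Agent.P157.ParDefs
import Vale.Agent.P157.RemLower

/-! CLSA2: approximation of class A potentials by smooth ones, Lipschitz estimates. -/

open MeasureTheory ProbabilityTheory Filter Topology

namespace Vale.Agent.P157.Par

/-! ### Approximation -/

lemma ClsB_log_lip {a A B : ℝ} (ha : 0 < a) (hA : a ≤ A) (hB : a ≤ B) :
    |Real.log A - Real.log B| ≤ |A - B| / a := by
  have h1 : ∀ {A B : ℝ}, a ≤ A → a ≤ B → Real.log A - Real.log B ≤ |A - B| / a := by
    intro A B hA hB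
    have hA0 := ha.trans_le hA
    have hB0 := ha.trans_le hB
    rw [← Real.log_div hA0.ne' hB0.ne']
    refine (Real.log_le_sub_one_of_pos (div_pos hA0 hB0)).trans ?_
    have e : A / B - 1 = (A - B) / B := by field_simp
    rw [e]
    calc (A - B) / B ≤ |A - B| / B := by gcongr; exact le_abs_self _
      _ ≤ |A - B| / a := by gcongr
  rw [abs_le]
  constructor
  · have := h1 hB hA
    rw [abs_sub_comm] at this
    linarith
  · exact h1 hA hB

lemma ClsB_integrable_cos (ν : Measure ℝ) [IsFiniteMeasure ν] (s : ℝ) :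
    Integrable (fun l : ℝ => Real.cos (l * s)) ν := by
  apply Integrable.mono' (integrable_const (1 : ℝ))
  · exact (by fun_prop : Measurable fun l : ℝ => Real.cos (l * s)).aestronglyMeasurable
  · exact Filter.Eventually.of_forall fun l => by
      rw [Real.norm_eq_abs]; exact Real.abs_cos_le_one _

lemma ClsB_abs_int_cos_le (ν : Measure ℝ) [IsFiniteMeasure ν] (s : ℝ) :
    |∫ l : ℝ, Real.cos (l * s) ∂ν| ≤ ν.real Set.univ := by
  have h := norm_integral_le_of_norm_le_const (μ := ν) (f := fun l : ℝ => Real.cos (l * s))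
    (C := 1) (Filter.Eventually.of_forall fun l => by
      rw [Real.norm_eq_abs]; exact Real.abs_cos_le_one _)
  rwa [Real.norm_eq_abs, one_mul] at h

lemma ClsB_tail (ν : Measure ℝ) [IsFiniteMeasure ν] {δ : ℝ} (hδ : 0 < δ) :
    ∃ n : ℕ, ν.real (Set.Icc (-(n : ℝ)) n)ᶜ ≤ δ := by
  have hanti : Antitone fun n : ℕ => (Set.Icc (-(n : ℝ)) n)ᶜ := by
    intro m n hmn
    apply Set.compl_subset_compl.mpr
    apply Set.Icc_subset_Icc
    · have : (m : ℝ) ≤ n := by exact_mod_cast hmn
      linarith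
    · exact_mod_cast hmn
  have hinter : ⋂ n : ℕ, (Set.Icc (-(n : ℝ)) n)ᶜ = ∅ := by
    rw [Set.eq_empty_iff_forall_notMem]
    intro x hx
    obtain ⟨n, hn⟩ := exists_nat_ge |x|
    have := Set.mem_iInter.mp hx n
    exact this ⟨(abs_le.mp hn).1, (abs_le.mp hn).2⟩
  have ht := tendsto_measure_iInter_atTop (μ := ν)
    (fun n : ℕ => (measurableSet_Icc (a := -(n : ℝ)) (b := n)).compl.nullMeasurableSet) hanti
    ⟨0, measure_ne_top _ _⟩
  rw [hinter, measure_empty] at ht
  have ht2 : Tendsto (fun n : ℕ => ν.real (Set.Icc (-(n : ℝ)) n)ᶜ) atTop (𝓝 0) := by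
    have := (ENNReal.tendsto_toReal (ENNReal.zero_ne_top)).comp ht
    rwa [ENNReal.toReal_zero] at this
  obtain ⟨n, hn⟩ := (ht2.eventually (gt_mem_nhds hδ)).exists
  exact ⟨n, hn.le⟩

/-- Approximation of class A potentials by smooth ones. -/
theorem classA_approx {ν : Measure ℝ} [IsFiniteMeasure ν] {C₀ : ℝ} (hν : ν.real Set.univ < C₀)
    {f : ℝ → ℝ} (hf : ∀ s : ℝ, Real.exp (f s) = C₀ - ∫ l, Real.cos (l * s) ∂ν) {ε : ℝ}
    (hε : 0 < ε) :
    ∃ (ν' : Measure ℝ) (g : ℝ → ℝ), IsFiniteMeasure ν' ∧ ν'.real Set.univ < C₀ ∧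
      Integrable (fun θ : ℝ => θ ^ 4) ν' ∧
      (∀ s : ℝ, Real.exp (g s) = C₀ - ∫ l, Real.cos (l * s) ∂ν') ∧ ∀ s, |g s - f s| ≤ ε := by
  set a : ℝ := C₀ - ν.real Set.univ with ha_def
  have ha : 0 < a := by rw [ha_def]; linarith
  obtain ⟨n, hn⟩ := ClsB_tail ν (δ := a * ε) (by positivity)
  set S : Set ℝ := Set.Icc (-(n : ℝ)) n with hS
  have hSm : MeasurableSet S := measurableSet_Icc
  have hle : (ν.restrict S).real Set.univ ≤ ν.real Set.univ := by
    rw [measureReal_restrict_apply_univ]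
    exact measureReal_mono (Set.subset_univ _)
  have hpos : ∀ s : ℝ, a ≤ C₀ - ∫ l, Real.cos (l * s) ∂(ν.restrict S) := by
    intro s
    have := (abs_le.mp (ClsB_abs_int_cos_le (ν.restrict S) s)).2
    rw [ha_def]; linarith
  have hpos' : ∀ s : ℝ, a ≤ C₀ - ∫ l, Real.cos (l * s) ∂ν := by
    intro s
    have := (abs_le.mp (ClsB_abs_int_cos_le ν s)).2
    rw [ha_def]; linarith
  refine ⟨ν.restrict S, fun s => Real.log (C₀ - ∫ l, Real.cos (l * s) ∂(ν.restrict S)),
    inferInstance, lt_of_le_of_lt hle hν, ?_, ?_, ?_⟩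
  · apply Integrable.mono' (integrable_const ((n : ℝ) ^ 4))
    · exact (by fun_prop : Measurable fun θ : ℝ => θ ^ 4).aestronglyMeasurable
    · filter_upwards [ae_restrict_mem hSm] with θ hθ
      rw [Real.norm_eq_abs, abs_pow]
      exact pow_le_pow_left₀ (abs_nonneg _) (abs_le.mpr hθ) 4
  · intro s
    exact Real.exp_log (ha.trans_le (hpos s))
  · intro s
    have e1 : f s = Real.log (C₀ - ∫ l, Real.cos (l * s) ∂ν) := by
      rw [← hf s, Real.log_exp]
    simp only
    rw [e1]
    refine (ClsB_log_lip ha (hpos s) (hpos' s)).trans ?_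
    rw [div_le_iff₀ ha]
    have e2 : ∫ l, Real.cos (l * s) ∂ν = ∫ l, Real.cos (l * s) ∂(ν.restrict S) +
        ∫ l, Real.cos (l * s) ∂(ν.restrict Sᶜ) :=
      (integral_add_compl hSm (ClsB_integrable_cos ν s)).symm
    have e3 : C₀ - ∫ l, Real.cos (l * s) ∂(ν.restrict S) - (C₀ - ∫ l, Real.cos (l * s) ∂ν) =
        ∫ l, Real.cos (l * s) ∂(ν.restrict Sᶜ) := by
      rw [e2]; ring
    rw [e3]
    refine (ClsB_abs_int_cos_le (ν.restrict Sᶜ) s).trans ?_
    rw [measureReal_restrict_apply_univ]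
    linarith

/-! ### Lipschitz estimates -/

lemma ClsB_log_int {X : Type*} [MeasurableSpace X] {μ : Measure X} [IsProbabilityMeasure μ]
    {F G : X → ℝ} (hF : Integrable (fun x => Real.exp (F x)) μ)
    (hG : Integrable (fun x => Real.exp (G x)) μ) {ε : ℝ} (h : ∀ x, |G x - F x| ≤ ε) :
    |Real.log (∫ x, Real.exp (G x) ∂μ) - Real.log (∫ x, Real.exp (F x) ∂μ)| ≤ ε := by
  have h1 : ∀ {F G : X → ℝ}, Integrable (fun x => Real.exp (F x)) μ →
      Integrable (fun x => Real.exp (G x)) μ → (∀ x, |G x - F x| ≤ ε) →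
      Real.log (∫ x, Real.exp (G x) ∂μ) ≤ ε + Real.log (∫ x, Real.exp (F x) ∂μ) := by
    intro F G hF hG h
    have hFp : 0 < ∫ x, Real.exp (F x) ∂μ := integral_exp_pos hF
    have hGp : 0 < ∫ x, Real.exp (G x) ∂μ := integral_exp_pos hG
    rw [← Real.log_exp ε, ← Real.log_mul (Real.exp_pos _).ne' hFp.ne']
    apply Real.log_le_log hGp
    rw [← integral_const_mul]
    apply integral_mono hG (hF.const_mul _)
    intro x
    simp only
    rw [← Real.exp_add, Real.exp_le_exp]
    have := (abs_le.mp (h x)).2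
    linarith
  rw [abs_le]
  constructor
  · have := h1 hG hF (fun x => by rw [abs_sub_comm]; exact h x)
    linarith
  · have := h1 hF hG h
    linarith

lemma ClsB_integrable {X : Type*} [MeasurableSpace X] {μ : Measure X} [IsProbabilityMeasure μ]
    {F : X → ℝ} (hF : Measurable F) {D : ℝ} (hD : ∀ x, |F x| ≤ D) :
    Integrable (fun x => Real.exp (F x)) μ := by
  apply Integrable.mono' (integrable_const (Real.exp D))
  · exact (Real.measurable_exp.comp hF).aestronglyMeasurable
  · exact Filter.Eventually.of_forall fun x => by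
      rw [Real.norm_eq_abs, Real.abs_exp, Real.exp_le_exp]
      exact (abs_le.mp (hD x)).2

lemma ClsB_integrable' {X : Type*} [MeasurableSpace X] {μ : Measure X} [IsProbabilityMeasure μ]
    {F : X → ℝ} (hF : Measurable F) {D : ℝ} (hD : ∀ x, |F x| ≤ D) : Integrable F μ := by
  apply Integrable.mono' (integrable_const D) hF.aestronglyMeasurable
  exact Filter.Eventually.of_forall fun x => by
    rw [Real.norm_eq_abs]; exact hD x

/-- The mean pressure is Lipschitz in the potential. -/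
theorem meanPressure_lip {f g : ℝ → ℝ} (hf : Measurable f) (hg : Measurable g) {C : ℝ}
    (hfC : ∀ x, |f x| ≤ C) (hgC : ∀ x, |g x| ≤ C) {ε : ℝ} (h : ∀ x, |g x - f x| ≤ ε) {α : ℝ}
    (hα : 0 < α) {N : ℕ} (hN : 0 < N) :
    |meanPressure cube α g N - meanPressure cube α f N| ≤ α * ε := by
  have hε : 0 ≤ ε := (abs_nonneg _).trans (h 0)
  have hN' : (0 : ℝ) < N := by exact_mod_cast hN
  unfold meanPressure
  set M := ⌊α * N⌋₊ with hM
  have hP : IsProbabilityMeasure (patterns M N) := by unfold patterns; infer_instance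
  have hMN : (M : ℝ) ≤ α * N := Nat.floor_le (by positivity)
  have hC : 0 ≤ C := (abs_nonneg _).trans (hfC 0)
  have key : ∀ G : Fin M → Fin N → ℝ,
      |pressure (cube N) g G - pressure (cube N) f G| ≤ α * ε := by
    intro G
    unfold pressure
    have hm : ∀ {f : ℝ → ℝ}, Measurable f → Measurable fun x : Fin N → ℝ =>
        ∑ a, f ((∑ i, G a i * x i) / √(N : ℝ)) := by
      intro f hf
      exact Finset.measurable_sum _ fun a _ => hf.comp (by fun_prop)
    have hb : ∀ {f : ℝ → ℝ}, (∀ x, |f x| ≤ C) → ∀ x : Fin N → ℝ,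
        |∑ a, f ((∑ i, G a i * x i) / √(N : ℝ))| ≤ M * C := by
      intro f hf x
      refine (Finset.abs_sum_le_sum_abs _ _).trans ?_
      refine (Finset.sum_le_sum fun a _ => hf _).trans ?_
      simp
    have : IsProbabilityMeasure (cube N) := by
      unfold cube
      have : IsProbabilityMeasure
          ((1 / 2 : ENNReal) • (Measure.dirac (1 : ℝ) + Measure.dirac (-1 : ℝ))) := by
        infer_instance
      infer_instance
    have h1 := ClsB_log_int (μ := cube N) (ClsB_integrable (hm hf) (hb hfC))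
      (ClsB_integrable (hm hg) (hb hgC)) (ε := M * ε) (by
        intro x
        rw [← Finset.sum_sub_distrib]
        refine (Finset.abs_sum_le_sum_abs _ _).trans ?_
        refine (Finset.sum_le_sum fun a _ => h _).trans ?_
        simp)
    rw [← mul_sub, abs_mul, abs_of_nonneg (by positivity : (0 : ℝ) ≤ 1 / N)]
    calc 1 / (N : ℝ) * _ ≤ 1 / N * (M * ε) := by gcongr
      _ ≤ 1 / N * (α * N * ε) := by gcongr
      _ = α * ε := by field_simp
  have hmeas : ∀ {f : ℝ → ℝ}, Measurable f →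
      Measurable fun G : Fin M → Fin N → ℝ => pressure (cube N) f G := by
    intro f hf
    have : (fun G : Fin M → Fin N → ℝ => pressure (cube N) f G) =
        fun G => 1 / (N : ℝ) * logZ f G := by
      funext G; exact pressure_cube f G
    rw [this]
    exact (measurable_logZ hf).const_mul _
  have hbd : ∀ {f : ℝ → ℝ}, (∀ x, |f x| ≤ C) → ∀ G : Fin M → Fin N → ℝ,
      |pressure (cube N) f G| ≤ 1 / N * (M * C) := by
    intro f hf G
    rw [pressure_cube, abs_mul, abs_of_nonneg (by positivity : (0 : ℝ) ≤ 1 / N)]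
    gcongr
    exact logZ_bdd hf G
  rw [← integral_sub (ClsB_integrable' (hmeas hg) (hbd hgC))
    (ClsB_integrable' (hmeas hf) (hbd hfC))]
  have h2 := norm_integral_le_of_norm_le_const (μ := patterns M N)
    (f := fun G => pressure (cube N) g G - pressure (cube N) f G) (C := α * ε)
    (Filter.Eventually.of_forall fun G => by rw [Real.norm_eq_abs]; exact key G)
  rw [Real.norm_eq_abs, probReal_univ, mul_one] at h2
  exact h2

lemma ClsB_gstep_meas {m v : ℝ} {F : ℝ → ℝ} (hF : Measurable F) : Measurable (gstep m v F) := by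
  unfold gstep
  refine Measurable.const_mul (Real.measurable_log.comp ?_) _
  have : StronglyMeasurable fun x : ℝ => ∫ z, Real.exp (m * F (x + √v * z))
      ∂(gaussianReal 0 1) := by
    apply StronglyMeasurable.integral_prod_right (f := fun x z => Real.exp (m * F (x + √v * z)))
    apply Measurable.stronglyMeasurable
    apply Real.measurable_exp.comp
    apply Measurable.const_mul
    exact hF.comp (by fun_prop)
  exact this.measurable

lemma ClsB_gstep_lip {m v : ℝ} (hm : 0 < m) {F G : ℝ → ℝ} (hF : Measurable F)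
    (hG : Measurable G) {D : ℝ} (hFD : ∀ x, |F x| ≤ D) (hGD : ∀ x, |G x| ≤ D) {ε : ℝ}
    (h : ∀ x, |G x - F x| ≤ ε) (x : ℝ) : |gstep m v G x - gstep m v F x| ≤ ε := by
  have hb : ∀ {F : ℝ → ℝ}, (∀ x, |F x| ≤ D) → ∀ z : ℝ, |m * F (x + √v * z)| ≤ m * D := by
    intro F hF z
    rw [abs_mul, abs_of_pos hm]
    gcongr
    exact hF _
  have hme : ∀ {F : ℝ → ℝ}, Measurable F → Measurable fun z : ℝ => m * F (x + √v * z) := by
    intro F hF
    exact (hF.comp (by fun_prop)).const_mul _
  have h1 := ClsB_log_int (μ := gaussianReal 0 1) (ClsB_integrable (hme hF) (hb hFD))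
    (ClsB_integrable (hme hG) (hb hGD)) (ε := m * ε) (by
      intro z
      rw [← mul_sub, abs_mul, abs_of_pos hm]
      gcongr
      exact h _)
  unfold gstep
  rw [← mul_sub, abs_mul, abs_of_pos (by positivity : (0 : ℝ) < 1 / m)]
  calc 1 / m * _ ≤ 1 / m * (m * ε) := by gcongr
    _ = ε := by field_simp

lemma ClsB_gstep_bdd {m v : ℝ} (hm : 0 < m) {F : ℝ → ℝ} (hF : Measurable F)
    {D : ℝ} (hFD : ∀ x, |F x| ≤ D) (x : ℝ) : |gstep m v F x| ≤ D := by
  have hD : 0 ≤ D := (abs_nonneg _).trans (hFD 0)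
  have h := ClsB_gstep_lip (v := v) hm (F := fun _ => 0) (G := F) measurable_const hF (D := D)
    (fun x => by rw [abs_zero]; exact hD) hFD (ε := D) (fun x => by rw [sub_zero]; exact hFD x) x
  have h0 : gstep m v (fun _ => 0) x = 0 := by
    unfold gstep
    simp
  rwa [h0, sub_zero] at h

lemma ClsB_cascade {m q : ℕ → ℝ} {D ε : ℝ} : ∀ {k : ℕ}, (∀ l, 1 ≤ l → l ≤ k → 0 < m l) →
    ∀ {F G : ℝ → ℝ}, Measurable F → Measurable G → (∀ x, |F x| ≤ D) → (∀ x, |G x| ≤ D) →
    (∀ x, |G x - F x| ≤ ε) → Measurable (cascade m q k F) ∧ Measurable (cascade m q k G) ∧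
    (∀ x, |cascade m q k F x| ≤ D) ∧ (∀ x, |cascade m q k G x| ≤ D) ∧
    ∀ x, |cascade m q k G x - cascade m q k F x| ≤ ε := by
  intro k
  induction k with
  | zero =>
    intro _ F G hF hG hFD hGD h
    exact ⟨hF, hG, hFD, hGD, h⟩
  | succ k ih =>
    intro hm F G hF hG hFD hGD h
    have hmk := hm (k + 1) (by omega) le_rfl
    exact ih (fun l hl hl' => hm l hl (by omega)) (ClsB_gstep_meas hF) (ClsB_gstep_meas hG)
      (ClsB_gstep_bdd hmk hF hFD) (ClsB_gstep_bdd hmk hG hGD)
      (ClsB_gstep_lip hmk hF hG hFD hGD h)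

/-- The pattern part is Lipschitz in the potential. -/
theorem patternPart_lip {f g : ℝ → ℝ} (hf : Measurable f) (hg : Measurable g) {C : ℝ}
    (hfC : ∀ x, |f x| ≤ C) (hgC : ∀ x, |g x| ≤ C) {ε : ℝ} (h : ∀ x, |g x - f x| ≤ ε)
    {k : ℕ} {m q : ℕ → ℝ} (hm : ∀ l, 1 ≤ l → l ≤ k → 0 < m l) :
    |patternPart g k m q - patternPart f k m q| ≤ ε := by
  have e : ∀ f : ℝ → ℝ, (fun x : ℝ => Real.log (∫ y, Real.exp (f (x + √(1 - q k) * y))
      ∂(gaussianReal 0 1))) = gstep 1 (1 - q k) f := by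
    intro f
    funext x
    unfold gstep
    simp
  obtain ⟨h1, h2, h3, h4, h5⟩ := ClsB_cascade (q := q) hm
    (ClsB_gstep_meas (m := 1) (v := 1 - q k) hf) (ClsB_gstep_meas (m := 1) (v := 1 - q k) hg)
    (ClsB_gstep_bdd one_pos hf hfC) (ClsB_gstep_bdd one_pos hg hgC)
    (ClsB_gstep_lip one_pos hf hg hfC hgC h)
  unfold patternPart
  rw [e f, e g]
  have i1 : Integrable (fun z => cascade m q k (gstep 1 (1 - q k) g) (√(q 0) * z))
      (gaussianReal 0 1) :=
    ClsB_integrable' (h2.comp (by fun_prop : Measurable fun z : ℝ => √(q 0) * z)) (fun z => h4 _)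
  have i2 : Integrable (fun z => cascade m q k (gstep 1 (1 - q k) f) (√(q 0) * z))
      (gaussianReal 0 1) :=
    ClsB_integrable' (h1.comp (by fun_prop : Measurable fun z : ℝ => √(q 0) * z)) (fun z => h3 _)
  rw [← integral_sub i1 i2]
  have h6 := norm_integral_le_of_norm_le_const (μ := gaussianReal 0 1)
    (f := fun z => cascade m q k (gstep 1 (1 - q k) g) (√(q 0) * z) -
      cascade m q k (gstep 1 (1 - q k) f) (√(q 0) * z)) (C := ε)
    (Filter.Eventually.of_forall fun z => by rw [Real.norm_eq_abs]; exact h5 _)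
  rw [Real.norm_eq_abs, probReal_univ, mul_one] at h6
  exact h6

end Vale.Agent.P157.Par
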