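import Vale.Agent.P157.ParFlowDefs

open MeasureTheory ProbabilityTheory Filter Topology Finset

namespace Vale.Agent.P157.Par

open Vale.Agent.P367.GT (stein_one)

/-! ### Functions with two derivatives -/

lemma CB2.cont {g g' g'' : ℝ → ℝ} (h : CB2 g g' g'') : Continuous g :=
  continuous_iff_continuousAt.mpr fun x => (h.d1 x).continuousAt

lemma CB2.cont1 {g g' g'' : ℝ → ℝ} (h : CB2 g g' g'') : Continuous g' :=
  continuous_iff_continuousAt.mpr fun x => (h.d2 x).continuousAt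

/-- A smooth outer function on an interval. -/
structure Outer (A B : ℝ) (F F' F'' : ℝ → ℝ) : Prop where
  d1 : ∀ u ∈ Set.Icc A B, HasDerivAt F (F' u) u
  d2 : ∀ u ∈ Set.Icc A B, HasDerivAt F' (F'' u) u
  c2 : ContinuousOn F'' (Set.Icc A B)
  m0 : Measurable F
  m1 : Measurable F'
  m2 : Measurable F''

lemma Outer.c0 {A B : ℝ} {F F' F'' : ℝ → ℝ} (h : Outer A B F F' F'') :
    ContinuousOn F (Set.Icc A B) := fun u hu => (h.d1 u hu).continuousAt.continuousWithinAt

lemma Outer.c1 {A B : ℝ} {F F' F'' : ℝ → ℝ} (h : Outer A B F F' F'') :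
    ContinuousOn F' (Set.Icc A B) := fun u hu => (h.d2 u hu).continuousAt.continuousWithinAt

lemma Outer.bound {A B : ℝ} {F F' F'' : ℝ → ℝ} (h : Outer A B F F' F'') :
    ∃ D, 0 ≤ D ∧ ∀ u ∈ Set.Icc A B, |F u| ≤ D ∧ |F' u| ≤ D ∧ |F'' u| ≤ D := by
  obtain ⟨D0, h0⟩ := isCompact_Icc.exists_bound_of_continuousOn h.c0
  obtain ⟨D1, h1⟩ := isCompact_Icc.exists_bound_of_continuousOn h.c1
  obtain ⟨D2, h2⟩ := isCompact_Icc.exists_bound_of_continuousOn h.c2
  refine ⟨|D0| + |D1| + |D2|, by positivity, fun u hu => ?_⟩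
  have a0 := (h0 u hu).trans (le_abs_self D0)
  have a1 := (h1 u hu).trans (le_abs_self D1)
  have a2 := (h2 u hu).trans (le_abs_self D2)
  rw [Real.norm_eq_abs] at a0 a1 a2
  have n0 := abs_nonneg D0
  have n1 := abs_nonneg D1
  have n2 := abs_nonneg D2
  exact ⟨by linarith, by linarith, by linarith⟩

lemma outer_rpow {A B : ℝ} (hA : 0 < A) (p : ℝ) :
    Outer A B (fun u => u ^ p) (fun u => p * u ^ (p - 1)) (fun u => p * ((p - 1) * u ^ (p - 1 - 1)))
    where
  d1 u hu := Real.hasDerivAt_rpow_const (Or.inl (hA.trans_le hu.1).ne')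
  d2 u hu := (Real.hasDerivAt_rpow_const (Or.inl (hA.trans_le hu.1).ne')).const_mul p
  c2 := by
    refine ContinuousOn.mul continuousOn_const (ContinuousOn.mul continuousOn_const ?_)
    exact fun u hu => (Real.continuousAt_rpow_const _ _
      (Or.inl (hA.trans_le hu.1).ne')).continuousWithinAt
  m0 := by fun_prop
  m1 := by fun_prop
  m2 := by fun_prop

lemma outer_inv {A B : ℝ} (hA : 0 < A) :
    Outer A B (fun u => u⁻¹) (fun u => -(u ^ 2)⁻¹) (fun u => 2 * (u ^ 3)⁻¹) where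
  d1 u hu := hasDerivAt_inv (hA.trans_le hu.1).ne'
  d2 u hu := by
    have hu0 : u ≠ 0 := (hA.trans_le hu.1).ne'
    have h1 : HasDerivAt (fun u : ℝ => -(u ^ 2)⁻¹) (-(-(((2 : ℕ) : ℝ) * u ^ (2 - 1)) / (u ^ 2) ^ 2)) u :=
      ((hasDerivAt_pow 2 u).fun_inv (pow_ne_zero 2 hu0)).fun_neg
    refine h1.congr_deriv ?_
    push_cast
    field_simp
  c2 := by
    refine ContinuousOn.mul continuousOn_const (ContinuousOn.inv₀ (by fun_prop) ?_)
    exact fun u hu => pow_ne_zero 3 (hA.trans_le hu.1).ne'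
  m0 := by fun_prop
  m1 := by fun_prop
  m2 := by fun_prop

lemma CB2.outer {A B : ℝ} {F F' F'' g g' g'' : ℝ → ℝ} (h : CB2 g g' g'')
    (hmem : ∀ x, g x ∈ Set.Icc A B) (hF : Outer A B F F' F'') :
    CB2 (fun x => F (g x)) (fun x => F' (g x) * g' x)
      (fun x => F'' (g x) * g' x * g' x + F' (g x) * g'' x) := by
  obtain ⟨D, hD0, hD⟩ := hF.bound
  obtain ⟨C1, h1⟩ := h.b1
  obtain ⟨C2, h2⟩ := h.b2
  have hC1 : 0 ≤ C1 := (abs_nonneg _).trans (h1 0)
  refine ⟨fun x => (hF.d1 _ (hmem x)).comp x (h.d1 x), fun x => ?_, ?_, ⟨D, fun x => ?_⟩,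
    ⟨D * C1, fun x => ?_⟩, ⟨D * C1 * C1 + D * C2, fun x => ?_⟩⟩
  · exact ((hF.d2 _ (hmem x)).comp x (h.d1 x)).mul (h.d2 x)
  · refine Continuous.add (Continuous.mul (Continuous.mul ?_ h.cont1) h.cont1)
      (Continuous.mul ?_ h.c2)
    · exact hF.c2.comp_continuous h.cont hmem
    · exact hF.c1.comp_continuous h.cont hmem
  · exact (hD _ (hmem x)).1
  · rw [abs_mul]
    exact mul_le_mul (hD _ (hmem x)).2.1 (h1 x) (abs_nonneg _) hD0
  · refine (abs_add_le _ _).trans (add_le_add ?_ ?_)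
    · rw [abs_mul, abs_mul]
      exact mul_le_mul (mul_le_mul (hD _ (hmem x)).2.2 (h1 x) (abs_nonneg _) hD0) (h1 x)
        (abs_nonneg _) (by positivity)
    · rw [abs_mul]
      exact mul_le_mul (hD _ (hmem x)).2.1 (h2 x) (abs_nonneg _) hD0

lemma CB2.mul {g g' g'' k k' k'' : ℝ → ℝ} (h : CB2 g g' g'') (l : CB2 k k' k'') :
    CB2 (fun x => g x * k x) (fun x => g' x * k x + g x * k' x)
      (fun x => g'' x * k x + g' x * k' x + (g' x * k' x + g x * k'' x)) := by
  obtain ⟨G0, g0⟩ := h.b0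
  obtain ⟨G1, g1⟩ := h.b1
  obtain ⟨G2, g2⟩ := h.b2
  obtain ⟨K0, k0⟩ := l.b0
  obtain ⟨K1, k1⟩ := l.b1
  obtain ⟨K2, k2⟩ := l.b2
  have n0 : 0 ≤ G0 := (abs_nonneg _).trans (g0 0)
  have n1 : 0 ≤ G1 := (abs_nonneg _).trans (g1 0)
  have n2 : 0 ≤ G2 := (abs_nonneg _).trans (g2 0)
  have hm : ∀ {a b A B : ℝ}, |a| ≤ A → |b| ≤ B → 0 ≤ A → |a * b| ≤ A * B := by
    intro a b A B ha hb hA
    rw [abs_mul]
    exact mul_le_mul ha hb (abs_nonneg _) hA
  refine ⟨fun x => (h.d1 x).mul (l.d1 x), fun x => ?_, ?_, ⟨G0 * K0, fun x => hm (g0 x) (k0 x) n0⟩,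
    ⟨G1 * K0 + G0 * K1, fun x => ?_⟩, ⟨G2 * K0 + G1 * K1 + (G1 * K1 + G0 * K2), fun x => ?_⟩⟩
  · exact ((h.d2 x).mul (l.d1 x)).add ((h.d1 x).mul (l.d2 x))
  · exact ((h.c2.mul l.cont).add (h.cont1.mul l.cont1)).add ((h.cont1.mul l.cont1).add
      (h.cont.mul l.c2))
  · exact (abs_add_le _ _).trans (add_le_add (hm (g1 x) (k0 x) n1) (hm (g0 x) (k1 x) n0))
  · refine (abs_add_le _ _).trans (add_le_add ?_ ?_)
    · exact (abs_add_le _ _).trans (add_le_add (hm (g2 x) (k0 x) n2) (hm (g1 x) (k1 x) n1))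
    · exact (abs_add_le _ _).trans (add_le_add (hm (g1 x) (k1 x) n1) (hm (g0 x) (k2 x) n0))

/-! ### The heat semigroup -/

lemma heat_continuous {g : ℝ → ℝ} (hg : Continuous g) {C : ℝ} (hC : ∀ x, |g x| ≤ C) :
    Continuous fun p : ℝ × ℝ => heat p.1 g p.2 := by
  unfold heat
  refine continuous_of_dominated (bound := fun _ => C) ?_ ?_ (integrable_const C) ?_
  · intro p
    exact (hg.comp (by fun_prop)).aestronglyMeasurable
  · intro p
    exact Filter.Eventually.of_forall fun z => hC _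
  · refine Filter.Eventually.of_forall fun z => hg.comp ?_
    exact continuous_snd.add ((Real.continuous_sqrt.comp continuous_fst).mul continuous_const)

lemma heat_continuous_x {g : ℝ → ℝ} (hg : Continuous g) {C : ℝ} (hC : ∀ x, |g x| ≤ C) (s : ℝ) :
    Continuous (heat s g) :=
  (heat_continuous hg hC).comp (Continuous.prodMk continuous_const continuous_id)

lemma heat_abs_le {g : ℝ → ℝ} {C : ℝ} (hC : ∀ x, |g x| ≤ C) (s x : ℝ) : |heat s g x| ≤ C := by
  unfold heat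
  rw [← Real.norm_eq_abs]
  refine (norm_integral_le_of_norm_le_const (C := C) (Filter.Eventually.of_forall fun z => ?_)).trans
    ?_
  · rw [Real.norm_eq_abs]; exact hC _
  · simp

lemma integrable_heat {g : ℝ → ℝ} (hg : Measurable g) {C : ℝ} (hC : ∀ x, |g x| ≤ C) (s x : ℝ) :
    Integrable (fun z => g (x + √s * z)) (gaussianReal 0 1) := by
  refine Integrable.mono' (integrable_const C) (hg.comp (by fun_prop)).aestronglyMeasurable
    (Filter.Eventually.of_forall fun z => ?_)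
  rw [Real.norm_eq_abs]; exact hC _

lemma heat_hasDerivAt {g g' : ℝ → ℝ} (hd : ∀ x, HasDerivAt g (g' x) x) (hg' : Continuous g')
    {C C' : ℝ} (hC : ∀ x, |g x| ≤ C) (hC' : ∀ x, |g' x| ≤ C') (s x : ℝ) :
    HasDerivAt (heat s g) (heat s g' x) x := by
  have hgc : Continuous g := continuous_iff_continuousAt.mpr fun x => (hd x).continuousAt
  have := hasDerivAt_integral_of_dominated_loc_of_deriv_le (μ := gaussianReal 0 1)
    (F := fun x z => g (x + √s * z)) (F' := fun x z => g' (x + √s * z)) (x₀ := x)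
    (bound := fun _ => C') (s := Set.univ) Filter.univ_mem
    (Filter.Eventually.of_forall fun y => (hgc.comp (by fun_prop)).aestronglyMeasurable)
    (integrable_heat hgc.measurable hC s x) (hg'.comp (by fun_prop)).aestronglyMeasurable
    (Filter.Eventually.of_forall fun z y _ => hC' _) (integrable_const _)
    (Filter.Eventually.of_forall fun z y _ => by
      have h1 := (hd (y + √s * z)).comp y ((hasDerivAt_id y).add_const (√s * z))
      simpa [Function.comp_def] using h1)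
  exact this.2

/-- Derivative of a parametric integral at a point from a Lipschitz bound at this point. -/
lemma hasDerivAt_integral_lip {μ : Measure ℝ} {F : ℝ → ℝ → ℝ} {F' bound : ℝ → ℝ} {x₀ : ℝ}
    {s : Set ℝ} (hs : s ∈ 𝓝 x₀)
    (hF_meas : ∀ x ∈ s, AEStronglyMeasurable (F x) μ) (hF_int : Integrable (F x₀) μ)
    (hF'_meas : AEStronglyMeasurable F' μ) (hF'_int : Integrable F' μ)
    (h_lipsch : ∀ᵐ a ∂μ, ∀ x ∈ s, ‖F x a - F x₀ a‖ ≤ bound a * ‖x - x₀‖)
    (bound_integrable : Integrable bound μ)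
    (h_diff : ∀ᵐ a ∂μ, HasDerivAt (F · a) (F' a) x₀) :
    HasDerivAt (fun x => ∫ a, F x a ∂μ) (∫ a, F' a ∂μ) x₀ := by
  set L : ℝ →L[ℝ] ℝ →L[ℝ] ℝ := ContinuousLinearMap.smulRightL ℝ ℝ ℝ 1
  have h_diff' : ∀ᵐ a ∂μ, HasFDerivAt (F · a) (L (F' a)) x₀ :=
    h_diff.mono fun x hx => hx.hasFDerivAt
  have hm : AEStronglyMeasurable (L ∘ F') μ := L.continuous.comp_aestronglyMeasurable hF'_meas
  obtain ⟨_, key⟩ := hasFDerivAt_integral_of_dominated_loc_of_lip' hs hF_meas hF_int hm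
    h_lipsch bound_integrable h_diff'
  simp only [(· ∘ ·), ContinuousLinearMap.integral_comp_comm _ hF'_int] at key
  have h2 := key.hasDerivAt
  simpa [L] using h2

lemma heat_path {g g' g'' : ℝ → ℝ} (h : CB2 g g' g'') {t σ : ℝ} (ht : t < σ) {y : ℝ → ℝ} {y' : ℝ}
    (hy : HasDerivAt y y' t) :
    HasDerivAt (fun r => heat (σ - r) g (y r))
      (-(1 / 2) * heat (σ - t) g'' (y t) + heat (σ - t) g' (y t) * y') t := by
  obtain ⟨C0, h0⟩ := h.b0
  obtain ⟨C1, h1⟩ := h.b1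
  obtain ⟨C2, h2⟩ := h.b2
  have hC1 : 0 ≤ C1 := (abs_nonneg _).trans (h1 0)
  have hs : 0 < √(σ - t) := Real.sqrt_pos.mpr (by linarith)
  have hsq : HasDerivAt (fun r => √(σ - r)) (-1 / (2 * √(σ - t))) t := by
    have := ((hasDerivAt_id t).const_sub σ).sqrt (by simp; linarith)
    simpa using this
  have hzint : Integrable (fun z : ℝ => z) (gaussianReal 0 1) :=
    (memLp_id_gaussianReal 1).integrable le_rfl
  -- Lipschitz constants
  obtain ⟨c1, hc1⟩ := hy.isBigO_sub.bound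
  obtain ⟨c2, hc2⟩ := hsq.isBigO_sub.bound
  have hF'int : Integrable (fun z => g' (y t + √(σ - t) * z) *
      (y' + (-1 / (2 * √(σ - t))) * z)) (gaussianReal 0 1) := by
    have h3 : Integrable (fun z : ℝ => y' + (-1 / (2 * √(σ - t))) * z) (gaussianReal 0 1) :=
      (integrable_const _).add (hzint.const_mul _)
    refine h3.bdd_mul (c := C1) (h.cont1.comp (by fun_prop)).aestronglyMeasurable ?_
    exact Filter.Eventually.of_forall fun z => by
      rw [Real.norm_eq_abs]; exact h1 _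
  have key := hasDerivAt_integral_lip (μ := gaussianReal 0 1)
    (F := fun r z => g (y r + √(σ - r) * z))
    (F' := fun z => g' (y t + √(σ - t) * z) * (y' + (-1 / (2 * √(σ - t))) * z))
    (bound := fun z => C1 * (c1 + c2 * |z|)) (x₀ := t)
    (s := {r | ‖y r - y t‖ ≤ c1 * ‖r - t‖} ∩ {r | ‖√(σ - r) - √(σ - t)‖ ≤ c2 * ‖r - t‖})
    (Filter.inter_mem hc1 hc2)
    (fun r _ => (h.cont.comp (by fun_prop)).aestronglyMeasurable)
    (integrable_heat h.cont.measurable h0 _ _)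
    hF'int.aestronglyMeasurable hF'int
    (Filter.Eventually.of_forall fun z r hr => by
      have hlip : ∀ a b : ℝ, |g a - g b| ≤ C1 * |a - b| := by
        intro a b
        have := Convex.norm_image_sub_le_of_norm_hasDerivWithin_le (f := g) (f' := g') (C := C1)
          (s := Set.univ) (x := b) (y := a) (fun x _ => (h.d1 x).hasDerivWithinAt)
          (fun x _ => h1 x) convex_univ (Set.mem_univ _) (Set.mem_univ _)
        simpa [Real.norm_eq_abs] using this
      rw [Real.norm_eq_abs]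
      refine (hlip _ _).trans ?_
      have e1 : y r + √(σ - r) * z - (y t + √(σ - t) * z) =
          (y r - y t) + (√(σ - r) - √(σ - t)) * z := by ring
      rw [e1, mul_assoc]
      refine mul_le_mul_of_nonneg_left ?_ hC1
      refine (abs_add_le _ _).trans ?_
      rw [abs_mul, add_mul]
      have hr1 : |y r - y t| ≤ c1 * ‖r - t‖ := hr.1
      have hr2 : |√(σ - r) - √(σ - t)| ≤ c2 * ‖r - t‖ := hr.2
      have := mul_le_mul_of_nonneg_right hr2 (abs_nonneg z)
      nlinarith)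
    (((integrable_const c1).add (hzint.abs.const_mul c2)).const_mul C1)
    (Filter.Eventually.of_forall fun z => by
      exact (h.d1 (y t + √(σ - t) * z)).comp t (hy.add (hsq.mul_const z)))
  have hval : ∫ z, g' (y t + √(σ - t) * z) * (y' + (-1 / (2 * √(σ - t))) * z)
      ∂(gaussianReal 0 1) =
      -(1 / 2) * heat (σ - t) g'' (y t) + heat (σ - t) g' (y t) * y' := by
    have hst := stein_one (fun z => g' (y t + √(σ - t) * z))
      (fun z => g'' (y t + √(σ - t) * z) * √(σ - t)) (C1 + C2 * √(σ - t))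
      (fun z => by
        have := (h.d2 (y t + √(σ - t) * z)).comp z
          (((hasDerivAt_id z).const_mul (√(σ - t))).const_add (y t))
        simpa [Function.comp_def] using this)
      (fun z => by
        have := h1 (y t + √(σ - t) * z)
        have hC2 : 0 ≤ C2 := (abs_nonneg _).trans (h2 0)
        have : 0 ≤ C2 * √(σ - t) := by positivity
        linarith)
      (fun z => by
        rw [abs_mul, abs_of_pos hs]
        have := mul_le_mul_of_nonneg_right (h2 (y t + √(σ - t) * z)) hs.le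
        linarith)
    have i1 : Integrable (fun z => g' (y t + √(σ - t) * z)) (gaussianReal 0 1) :=
      integrable_heat h.cont1.measurable h1 _ _
    have i2 : Integrable (fun z => z * g' (y t + √(σ - t) * z)) (gaussianReal 0 1) := by
      refine hzint.mul_bdd (c := C1) (h.cont1.comp (by fun_prop)).aestronglyMeasurable ?_
      exact Filter.Eventually.of_forall fun z => by
        rw [Real.norm_eq_abs]; exact h1 _
    have e1 : ∀ z, g' (y t + √(σ - t) * z) * (y' + (-1 / (2 * √(σ - t))) * z) =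
        y' * g' (y t + √(σ - t) * z) +
          (-1 / (2 * √(σ - t))) * (z * g' (y t + √(σ - t) * z)) := by
      intro z; ring
    simp only [e1]
    rw [integral_add (i1.const_mul _) (i2.const_mul _), integral_const_mul, integral_const_mul,
      hst, integral_mul_const]
    unfold heat
    field_simp
    ring
  rw [hval] at key
  exact key

lemma heat_flow {g g' g'' : ℝ → ℝ} (h : CB2 g g' g'') (σ : ℝ) :
    ∃ C, Flow σ C (fun t x => heat (σ - t) g x) (fun t x => -(1 / 2) * heat (σ - t) g'' x)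
      (fun t x => heat (σ - t) g' x) (fun t x => heat (σ - t) g'' x) := by
  obtain ⟨C0, h0⟩ := h.b0
  obtain ⟨C1, h1⟩ := h.b1
  obtain ⟨C2, h2⟩ := h.b2
  have n0 : 0 ≤ C0 := (abs_nonneg _).trans (h0 0)
  have n1 : 0 ≤ C1 := (abs_nonneg _).trans (h1 0)
  have n2 : 0 ≤ C2 := (abs_nonneg _).trans (h2 0)
  refine ⟨C0 + C1 + C2, ⟨?_, ?_, ?_⟩⟩
  · refine ⟨fun t _ => (heat_continuous_x h.cont h0 _).measurable,
      fun t _ => ((heat_continuous_x h.c2 h2 _).measurable).const_mul _,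
      fun t _ => (heat_continuous_x h.cont1 h1 _).measurable,
      fun t _ => (heat_continuous_x h.c2 h2 _).measurable, fun t _ x => ?_, fun t _ x => ?_,
      fun t _ x => ?_, fun t _ x => ?_, fun t ht x x' hx => ?_, fun t _ x => ?_, fun t _ x => ?_⟩
    · have := heat_abs_le h0 (σ - t) x
      linarith
    · have := heat_abs_le h2 (σ - t) x
      rw [abs_mul, abs_neg, abs_of_pos (by norm_num : (0 : ℝ) < 1 / 2)]
      linarith
    · have := heat_abs_le h1 (σ - t) x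
      linarith
    · have := heat_abs_le h2 (σ - t) x
      linarith
    · exact heat_path h ht.2 hx
    · exact heat_hasDerivAt h.d1 h.cont1 h0 h1 _ x
    · exact heat_hasDerivAt h.d2 h.c2 h1 h2 _ x
  · refine Continuous.continuousOn ?_
    exact (heat_continuous h.cont h0).comp
      ((continuous_const.sub continuous_fst).prodMk continuous_snd)
  · intro t _ x
    have := heat_abs_le h0 (σ - t) x
    linarith

lemma Flow.outer {σ C A B : ℝ} {F F' F'' : ℝ → ℝ} {h ht hx hxx : ℝ → ℝ → ℝ}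
    (hf : Flow σ C h ht hx hxx) (hmem : ∀ t ∈ Set.Icc 0 σ, ∀ x, h t x ∈ Set.Icc A B)
    (hF : Outer A B F F' F'') :
    ∃ C', Flow σ C' (fun t x => F (h t x)) (fun t x => F' (h t x) * ht t x)
      (fun t x => F' (h t x) * hx t x)
      (fun t x => F'' (h t x) * hx t x * hx t x + F' (h t x) * hxx t x) := by
  obtain ⟨D, hD0, hD⟩ := hF.bound
  have hn := hf.nice
  have hK : C ≤ |C| := le_abs_self C
  have hK0 : 0 ≤ |C| := abs_nonneg C
  have hmem' : ∀ t ∈ Set.Ioo 0 σ, ∀ x, h t x ∈ Set.Icc A B := fun t ht x =>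
    hmem t ⟨ht.1.le, ht.2.le⟩ x
  have hP : 0 ≤ D * |C| := by positivity
  have hP2 : 0 ≤ D * |C| * |C| := by positivity
  refine ⟨D + D * |C| + D * |C| * |C|, ⟨?_, ?_, ?_⟩⟩
  · refine ⟨fun t ht => hF.m0.comp (hn.m0 t ht),
      fun t ht => (hF.m1.comp (hn.m0 t ht)).mul (hn.mt t ht),
      fun t ht => (hF.m1.comp (hn.m0 t ht)).mul (hn.m1 t ht),
      fun t ht => (((hF.m2.comp (hn.m0 t ht)).mul (hn.m1 t ht)).mul (hn.m1 t ht)).add
        ((hF.m1.comp (hn.m0 t ht)).mul (hn.m2 t ht)),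
      fun t ht x => ?_, fun t ht x => ?_,
      fun t ht x => ?_, fun t ht x => ?_, fun t ht x x' hx' => ?_, fun t ht x => ?_,
      fun t ht x => ?_⟩
    · have := (hD _ (hmem' t ht x)).1
      linarith
    · have := mul_le_mul (hD _ (hmem' t ht x)).2.1 ((hn.bt t ht x).trans hK) (abs_nonneg _) hD0
      rw [abs_mul]
      linarith
    · have := mul_le_mul (hD _ (hmem' t ht x)).2.1 ((hn.b1 t ht x).trans hK) (abs_nonneg _) hD0
      rw [abs_mul]
      linarith
    · have e1 := mul_le_mul (hD _ (hmem' t ht x)).2.1 ((hn.b2 t ht x).trans hK) (abs_nonneg _) hD0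
      have e2 := mul_le_mul (mul_le_mul (hD _ (hmem' t ht x)).2.2 ((hn.b1 t ht x).trans hK)
        (abs_nonneg _) hD0) ((hn.b1 t ht x).trans hK) (abs_nonneg _) hP
      refine (abs_add_le _ _).trans ?_
      rw [abs_mul, abs_mul, abs_mul]
      linarith
    · have e1 := (hF.d1 _ (hmem' t ht (x t))).comp t (hn.path t ht x x' hx')
      refine e1.congr_deriv ?_
      ring
    · exact (hF.d1 _ (hmem' t ht x)).comp x (hn.d1 t ht x)
    · exact ((hF.d2 _ (hmem' t ht x)).comp x (hn.d1 t ht x)).mul (hn.d2 t ht x)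
  · exact hF.c0.comp hf.cont fun p hp => hmem p.1 hp.1 p.2
  · intro t ht x
    have := (hD _ (hmem t ht x)).1
    linarith

lemma Flow.mul {σ C K : ℝ} {h ht hx hxx k kt kx kxx : ℝ → ℝ → ℝ}
    (hf : Flow σ C h ht hx hxx) (kf : Flow σ K k kt kx kxx) :
    ∃ C', Flow σ C' (fun t x => h t x * k t x) (fun t x => ht t x * k t x + h t x * kt t x)
      (fun t x => hx t x * k t x + h t x * kx t x)
      (fun t x => hxx t x * k t x + hx t x * kx t x + (hx t x * kx t x + h t x * kxx t x)) := by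
  have hn := hf.nice
  have kn := kf.nice
  have hC : C ≤ |C| := le_abs_self C
  have hK : K ≤ |K| := le_abs_self K
  have hC0 : 0 ≤ |C| := abs_nonneg C
  have hK0 : 0 ≤ |K| := abs_nonneg K
  have hP : 0 ≤ |C| * |K| := by positivity
  have hm : ∀ {a b : ℝ}, |a| ≤ C → |b| ≤ K → |a * b| ≤ |C| * |K| := by
    intro a b ha hb
    rw [abs_mul]
    exact mul_le_mul (ha.trans hC) (hb.trans hK) (abs_nonneg _) hC0
  refine ⟨4 * (|C| * |K|), ⟨?_, ?_, ?_⟩⟩
  · refine ⟨fun t ht => (hn.m0 t ht).mul (kn.m0 t ht),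
      fun t ht => ((hn.mt t ht).mul (kn.m0 t ht)).add ((hn.m0 t ht).mul (kn.mt t ht)),
      fun t ht => ((hn.m1 t ht).mul (kn.m0 t ht)).add ((hn.m0 t ht).mul (kn.m1 t ht)),
      fun t ht => (((hn.m2 t ht).mul (kn.m0 t ht)).add ((hn.m1 t ht).mul (kn.m1 t ht))).add
        (((hn.m1 t ht).mul (kn.m1 t ht)).add ((hn.m0 t ht).mul (kn.m2 t ht))),
      fun t ht x => ?_, fun t ht x => ?_,
      fun t ht x => ?_, fun t ht x => ?_, fun t ht x x' hx' => ?_, fun t ht x => ?_,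
      fun t ht x => ?_⟩
    · have := hm (hn.b0 t ht x) (kn.b0 t ht x)
      linarith
    · have e1 := hm (hn.bt t ht x) (kn.b0 t ht x)
      have e2 := hm (hn.b0 t ht x) (kn.bt t ht x)
      refine (abs_add_le _ _).trans ?_
      linarith
    · have e1 := hm (hn.b1 t ht x) (kn.b0 t ht x)
      have e2 := hm (hn.b0 t ht x) (kn.b1 t ht x)
      refine (abs_add_le _ _).trans ?_
      linarith
    · have e1 := hm (hn.b2 t ht x) (kn.b0 t ht x)
      have e2 := hm (hn.b1 t ht x) (kn.b1 t ht x)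
      have e3 := hm (hn.b0 t ht x) (kn.b2 t ht x)
      refine (abs_add_le _ _).trans ((add_le_add (abs_add_le _ _) (abs_add_le _ _)).trans ?_)
      linarith
    · have e1 := (hn.path t ht x x' hx').mul (kn.path t ht x x' hx')
      refine e1.congr_deriv ?_
      ring
    · exact (hn.d1 t ht x).mul (kn.d1 t ht x)
    · exact ((hn.d2 t ht x).mul (kn.d1 t ht x)).add ((hn.d1 t ht x).mul (kn.d2 t ht x))
  · exact hf.cont.mul kf.cont
  · intro t ht x
    have := hm (hf.bdd t ht x) (kf.bdd t ht x)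
    linarith

/-! ### Bounds -/

lemma pow_mem_Icc {m a b : ℝ} (hm : 0 < m) (ha : 0 < a) {W : ℝ → ℝ} (hWa : ∀ x, a ≤ W x)
    (hWb : ∀ x, W x ≤ b) (x : ℝ) : W x ^ m ∈ Set.Icc (a ^ m) (b ^ m) :=
  ⟨Real.rpow_le_rpow ha.le (hWa x) hm.le,
    Real.rpow_le_rpow (ha.le.trans (hWa x)) (hWb x) hm.le⟩

lemma heat_mem_Icc {g : ℝ → ℝ} (hg : Measurable g) {A B : ℝ} (h : ∀ x, g x ∈ Set.Icc A B)
    (s x : ℝ) : heat s g x ∈ Set.Icc A B := by
  have hint : Integrable (fun z => g (x + √s * z)) (gaussianReal 0 1) :=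
    integrable_heat hg (C := |A| + |B|) (fun y => by
      have h1 := (h y).1
      have h2 := (h y).2
      rw [abs_le]
      constructor
      · have := neg_abs_le A
        have := abs_nonneg B
        linarith
      · have := le_abs_self B
        have := abs_nonneg A
        linarith) s x
  unfold heat
  constructor
  · calc A = ∫ _z, A ∂(gaussianReal 0 1) := by simp
      _ ≤ _ := integral_mono (integrable_const _) hint fun z => (h _).1
  · calc _ ≤ ∫ _z, B ∂(gaussianReal 0 1) := integral_mono hint (integrable_const _) fun z => (h _).2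
      _ = B := by simp

/-- bounds are preserved -/
theorem flowW_mem {m σ a b t : ℝ} (hm : 0 < m) (ha : 0 < a) {W : ℝ → ℝ} (hWm : Measurable W)
    (hWa : ∀ x, a ≤ W x) (hWb : ∀ x, W x ≤ b) (x : ℝ) :
    a ≤ flowW m σ W t x ∧ flowW m σ W t x ≤ b := by
  have h1 := heat_mem_Icc (g := fun y => W y ^ m) (hWm.pow_const m) (pow_mem_Icc hm ha hWa hWb)
    (σ - t) x
  have hb : 0 < b := ha.trans_le ((hWa 0).trans (hWb 0))
  have ham : 0 < a ^ m := Real.rpow_pos_of_pos ha m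
  unfold flowW
  constructor
  · calc a = (a ^ m) ^ (1 / m) := by
          rw [← Real.rpow_mul ha.le, mul_one_div_cancel hm.ne', Real.rpow_one]
      _ ≤ _ := Real.rpow_le_rpow ham.le h1.1 (by positivity)
  · calc _ ≤ (b ^ m) ^ (1 / m) := Real.rpow_le_rpow (ham.le.trans h1.1) h1.2 (by positivity)
      _ = b := by rw [← Real.rpow_mul hb.le, mul_one_div_cancel hm.ne', Real.rpow_one]

lemma heat_zero (g : ℝ → ℝ) (x : ℝ) : heat 0 g x = g x := by
  unfold heat
  simp

theorem flowW_end {m σ a : ℝ} (hm : 0 < m) (ha : 0 < a) {W : ℝ → ℝ} (hWa : ∀ x, a ≤ W x)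
    (x : ℝ) : flowW m σ W σ x = W x := by
  unfold flowW
  rw [sub_self, heat_zero, ← Real.rpow_mul (ha.le.trans (hWa x)), mul_one_div_cancel hm.ne',
    Real.rpow_one]

theorem flowh_end {m σ a : ℝ} (_hm : 0 < m) (ha : 0 < a) {W h : ℝ → ℝ} (hWa : ∀ x, a ≤ W x)
    (x : ℝ) : flowh m σ W h σ x = h x := by
  unfold flowh
  rw [sub_self, heat_zero, heat_zero]
  have : W x ^ m ≠ 0 := (Real.rpow_pos_of_pos (ha.trans_le (hWa x)) m).ne'
  field_simp

theorem flowh_one {m σ t a b : ℝ} (hm : 0 < m) (ha : 0 < a) {W : ℝ → ℝ} (hWm : Measurable W)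
    (hWa : ∀ x, a ≤ W x) (hWb : ∀ x, W x ≤ b) (x : ℝ) : flowh m σ W (fun _ => 1) t x = 1 := by
  have h1 := heat_mem_Icc (g := fun y => W y ^ m) (hWm.pow_const m) (pow_mem_Icc hm ha hWa hWb)
    (σ - t) x
  have ham : 0 < a ^ m := Real.rpow_pos_of_pos ha m
  unfold flowh
  simp only [one_mul]
  exact div_self (ham.trans_le h1.1).ne'

/-! ### Regularity -/

lemma CB2.rpow {m a b : ℝ} (ha : 0 < a) {W W' W'' : ℝ → ℝ}
    (hW : CB2 W W' W'') (hWa : ∀ x, a ≤ W x) (hWb : ∀ x, W x ≤ b) :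
    ∃ g' g'', CB2 (fun y => W y ^ m) g' g'' :=
  ⟨_, _, hW.outer (fun x => ⟨hWa x, hWb x⟩) (outer_rpow ha m)⟩

lemma CB2.heat {g g' g'' : ℝ → ℝ} (h : CB2 g g' g'') (s : ℝ) :
    CB2 (heat s g) (Par.heat s g') (Par.heat s g'') := by
  obtain ⟨C0, h0⟩ := h.b0
  obtain ⟨C1, h1⟩ := h.b1
  obtain ⟨C2, h2⟩ := h.b2
  exact ⟨fun x => heat_hasDerivAt h.d1 h.cont1 h0 h1 _ x,
    fun x => heat_hasDerivAt h.d2 h.c2 h1 h2 _ x, heat_continuous_x h.c2 h2 _,
    ⟨C0, heat_abs_le h0 s⟩, ⟨C1, heat_abs_le h1 s⟩, ⟨C2, heat_abs_le h2 s⟩⟩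

/-- Regularity is preserved. -/
theorem flowW_cb2 {m σ a b t : ℝ} (hm : 0 < m) (ha : 0 < a) {W W' W'' : ℝ → ℝ}
    (hW : CB2 W W' W'') (hWa : ∀ x, a ≤ W x) (hWb : ∀ x, W x ≤ b) :
    ∃ V' V'', CB2 (flowW m σ W t) V' V'' := by
  obtain ⟨g', g'', hg⟩ := hW.rpow (m := m) ha hWa hWb
  have hmem : ∀ x, heat (σ - t) (fun y => W y ^ m) x ∈ Set.Icc (a ^ m) (b ^ m) :=
    heat_mem_Icc hg.cont.measurable (pow_mem_Icc hm ha hWa hWb) (σ - t)
  exact ⟨_, _, (hg.heat (σ - t)).outer hmem (outer_rpow (Real.rpow_pos_of_pos ha m) (1 / m))⟩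

theorem flowh_cb2 {m σ a b t : ℝ} (hm : 0 < m) (ha : 0 < a) {W W' W'' h h' h'' : ℝ → ℝ}
    (hW : CB2 W W' W'') (hWa : ∀ x, a ≤ W x) (hWb : ∀ x, W x ≤ b) (hh : CB2 h h' h'') :
    ∃ g' g'', CB2 (flowh m σ W h t) g' g'' := by
  obtain ⟨g', g'', hg⟩ := hW.rpow (m := m) ha hWa hWb
  have hmem : ∀ x, heat (σ - t) (fun y => W y ^ m) x ∈ Set.Icc (a ^ m) (b ^ m) :=
    heat_mem_Icc hg.cont.measurable (pow_mem_Icc hm ha hWa hWb) (σ - t)
  have h1 := ((hh.mul hg).heat (σ - t)).mul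
    ((hg.heat (σ - t)).outer hmem (outer_inv (Real.rpow_pos_of_pos ha m)))
  exact ⟨_, _, h1⟩

/-- Jensen -/
theorem flowh_sq {m σ a b t : ℝ} (hm : 0 < m) (ha : 0 < a) {W h : ℝ → ℝ} (hWm : Measurable W)
    (hWa : ∀ x, a ≤ W x) (hWb : ∀ x, W x ≤ b) (hhm : Measurable h) {C : ℝ} (hC : ∀ x, |h x| ≤ C)
    (x : ℝ) : flowh m σ W h t x ^ 2 ≤ flowh m σ W (fun y => h y ^ 2) t x := by
  have hC0 : 0 ≤ C := (abs_nonneg _).trans (hC 0)
  have hpow := pow_mem_Icc hm ha hWa hWb
  have hgm : Measurable fun y => W y ^ m := hWm.pow_const m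
  have h1 := heat_mem_Icc (g := fun y => W y ^ m) hgm hpow (σ - t) x
  have ham : 0 < a ^ m := Real.rpow_pos_of_pos ha m
  have hbW : ∀ y, |W y ^ m| ≤ b ^ m := fun y => by
    rw [abs_of_pos (ham.trans_le (hpow y).1)]
    exact (hpow y).2
  have i0 : Integrable (fun z => W (x + √(σ - t) * z) ^ m) (gaussianReal 0 1) :=
    integrable_heat hgm hbW _ _
  have i1 : Integrable (fun z => h (x + √(σ - t) * z) * W (x + √(σ - t) * z) ^ m)
      (gaussianReal 0 1) :=
    integrable_heat (g := fun y => h y * W y ^ m) (hhm.mul hgm) (C := C * b ^ m) (fun y => by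
      rw [abs_mul]
      exact mul_le_mul (hC y) (hbW y) (abs_nonneg _) hC0) _ _
  have i2 : Integrable (fun z => h (x + √(σ - t) * z) ^ 2 * W (x + √(σ - t) * z) ^ m)
      (gaussianReal 0 1) :=
    integrable_heat (g := fun y => h y ^ 2 * W y ^ m) ((hhm.pow_const 2).mul hgm)
      (C := C ^ 2 * b ^ m) (fun y => by
      rw [abs_mul, abs_pow]
      exact mul_le_mul (pow_le_pow_left₀ (abs_nonneg _) (hC y) 2) (hbW y) (abs_nonneg _)
        (by positivity)) _ _
  unfold flowh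
  have hD : 0 < heat (σ - t) (fun y => W y ^ m) x := ham.trans_le h1.1
  set D := heat (σ - t) (fun y => W y ^ m) x with hDdef
  set N1 := heat (σ - t) (fun y => h y * W y ^ m) x with hN1
  set N2 := heat (σ - t) (fun y => h y ^ 2 * W y ^ m) x with hN2
  have hkey : 0 ≤ N2 - 2 * (N1 / D) * N1 + (N1 / D) ^ 2 * D := by
    have e1 : N2 - 2 * (N1 / D) * N1 + (N1 / D) ^ 2 * D =
        ∫ z, (h (x + √(σ - t) * z) - N1 / D) ^ 2 * W (x + √(σ - t) * z) ^ m
          ∂(gaussianReal 0 1) := by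
      have e2 : ∀ z, (h (x + √(σ - t) * z) - N1 / D) ^ 2 * W (x + √(σ - t) * z) ^ m =
          (h (x + √(σ - t) * z) ^ 2 * W (x + √(σ - t) * z) ^ m -
            2 * (N1 / D) * (h (x + √(σ - t) * z) * W (x + √(σ - t) * z) ^ m)) +
            (N1 / D) ^ 2 * W (x + √(σ - t) * z) ^ m := by
        intro z; ring
      simp only [e2]
      have i3 : Integrable (fun z => h (x + √(σ - t) * z) ^ 2 * W (x + √(σ - t) * z) ^ m -
            2 * (N1 / D) * (h (x + √(σ - t) * z) * W (x + √(σ - t) * z) ^ m))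
          (gaussianReal 0 1) := i2.sub (i1.const_mul _)
      rw [integral_add i3 (i0.const_mul _),
        integral_sub i2 (i1.const_mul _), integral_const_mul, integral_const_mul]
      rfl
    rw [e1]
    refine integral_nonneg fun z => ?_
    have := (ham.trans_le (hpow (x + √(σ - t) * z)).1).le
    positivity
  have e3 : N2 - 2 * (N1 / D) * N1 + (N1 / D) ^ 2 * D = N2 - N1 ^ 2 / D := by
    field_simp
    ring
  rw [e3] at hkey
  rw [div_pow, div_le_div_iff₀ (by positivity) hD]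
  have e4 : N1 ^ 2 / D ≤ N2 := by linarith
  rw [div_le_iff₀ hD] at e4
  nlinarith

/-! ### The equations -/

/-- The main statement. -/
theorem flow_exists {m σ a b : ℝ} (hm : 0 < m) (_hσ : 0 < σ) (ha : 0 < a) {W W' W'' : ℝ → ℝ}
    (hW : CB2 W W' W'') (hWa : ∀ x, a ≤ W x) (hWb : ∀ x, W x ≤ b) :
    ∃ C : ℝ, ∃ Wt Wx Wxx : ℝ → ℝ → ℝ, Flow σ C (flowW m σ W) Wt Wx Wxx ∧
      (∀ t ∈ Set.Ioo 0 σ, ∀ x, LL Wt Wxx t x = 1 / 2 * (1 - m) * Wx t x ^ 2 / flowW m σ W t x) ∧
      ∀ {h h' h'' : ℝ → ℝ}, CB2 h h' h'' → ∃ C' : ℝ, ∃ ht hx hxx : ℝ → ℝ → ℝ,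
        Flow σ C' (flowh m σ W h) ht hx hxx ∧
        ∀ t ∈ Set.Ioo 0 σ, ∀ x,
          LL ht hxx t x = - m * (Wx t x / flowW m σ W t x) * hx t x := by
  obtain ⟨g', g'', hg⟩ := hW.rpow (m := m) ha hWa hWb
  have ham : 0 < a ^ m := Real.rpow_pos_of_pos ha m
  have hmem : ∀ t x, heat (σ - t) (fun y => W y ^ m) x ∈ Set.Icc (a ^ m) (b ^ m) := fun t x =>
    heat_mem_Icc hg.cont.measurable (pow_mem_Icc hm ha hWa hWb) (σ - t) x
  obtain ⟨C0, hu⟩ := heat_flow hg σ
  obtain ⟨C1, hU⟩ := hu.outer (fun t _ x => hmem t x) (outer_rpow ham (1 / m))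
  obtain ⟨C2, hV⟩ := hu.outer (fun t _ x => hmem t x) (outer_inv ham)
  refine ⟨C1, _, _, _, hU, ?_, ?_⟩
  · intro t _ x
    have hu0 : 0 < heat (σ - t) (fun y => W y ^ m) x := ham.trans_le (hmem t x).1
    unfold LL flowW
    beta_reduce
    set u := heat (σ - t) (fun y => W y ^ m) x with hudef
    simp only [Real.rpow_sub_one hu0.ne']
    have hP : 0 < u ^ (1 / m) := Real.rpow_pos_of_pos hu0 _
    set P := u ^ (1 / m) with hPdef
    field_simp
    ring
  · intro h h' h'' hh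
    obtain ⟨C3, hN⟩ := heat_flow (hh.mul hg) σ
    obtain ⟨C4, hH⟩ := hN.mul hV
    refine ⟨C4, _, _, _, hH, ?_⟩
    intro t _ x
    have hu0 : 0 < heat (σ - t) (fun y => W y ^ m) x := ham.trans_le (hmem t x).1
    unfold LL flowW
    beta_reduce
    set u := heat (σ - t) (fun y => W y ^ m) x with hudef
    rw [Real.rpow_sub_one hu0.ne']
    have hP : 0 < u ^ (1 / m) := Real.rpow_pos_of_pos hu0 _
    set P := u ^ (1 / m) with hPdef
    field_simp
    ring

end Vale.Agent.P157.Par
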