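import Vale.Agent.P157.ParCons
import Vale.Agent.P157.ParFlow

open MeasureTheory ProbabilityTheory Filter Topology Finset

namespace Vale.Agent.P157.Par

set_option linter.unusedSectionVars false

namespace Arr

variable {k : ℕ} {w : Fin (k + 1) → ℝ} {δ : Type} [Fintype δ] [DecidableEq δ]

lemma slice_continuous {S : Set ℝ} {f : ℝ → ℝ → ℝ}
    (hf : ContinuousOn (fun p : ℝ × ℝ => f p.1 p.2) (S ×ˢ Set.univ)) {t : ℝ} (ht : t ∈ S) :
    Continuous (f t) := by
  rw [← continuousOn_univ]
  exact hf.comp (f := fun x : ℝ => (t, x)) (by fun_prop) fun x _ => ⟨ht, trivial⟩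

lemma T_continuousOn (𝓐 : Arr k w δ) (c : Fin (k + 1) → ℝ) (l : Fin (k + 1))
    (χ : LM k δ → ℝ) {S : Set ℝ} {C : ℝ} {A : δ → ℝ → ℝ → ℝ} {v : ℝ → ℝ → ℝ}
    (hA : ∀ i, ContinuousOn (fun p : ℝ × ℝ => A i p.1 p.2) (S ×ˢ Set.univ))
    (hv : ContinuousOn (fun p : ℝ × ℝ => v p.1 p.2) (S ×ˢ Set.univ))
    (bA : ∀ i, ∀ t ∈ S, ∀ x, |A i t x| ≤ C) (bv : ∀ t ∈ S, ∀ x, |v t x| ≤ C) (n : ℕ) :
    ContinuousOn (fun s => 𝓐.T (Function.update c l s) χ (fun i => A i s) (v s) (Fin n)) S := by
  unfold T
  apply 𝓐.E_continuousOn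
  intro L
  apply ContinuousOn.mul continuousOn_const
  have h := gE_continuousOn (S := S) (U := fun s => UL (Function.update c l s) L)
    (h := (famT A v : δ ⊕ Fin n → ℝ → ℝ → ℝ)) (C := C) ?_ ?_ ?_ ?_
  · simp only [famT_apply] at h
    exact h
  · intro a p
    unfold UL
    by_cases h : p.2 = cl L p.1 a
    · simp only [h, if_true]
      by_cases h' : p.1 = l
      · subst h'
        simp only [Function.update_self]
        exact Real.continuous_sqrt.continuousOn
      · simp only [Function.update_of_ne h']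
        exact continuousOn_const
    · simp only [h, if_false]
      exact continuousOn_const
  · rintro (i | j)
    · exact hA i
    · exact hv
  · rintro (i | j) t ht
    · exact (slice_continuous (hA i) ht).measurable
    · exact (slice_continuous hv ht).measurable
  · rintro (i | j) t ht x
    · exact bA i t ht x
    · exact bv t ht x

lemma Q_continuousOn (𝓐 : Arr k w δ) (e : ℕ) (c : Fin (k + 1) → ℝ) (l : Fin (k + 1))
    (χ : LM k δ → ℝ) {S : Set ℝ} {C a : ℝ} {A : δ → ℝ → ℝ → ℝ} {v : ℝ → ℝ → ℝ}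
    (hA : ∀ i, ContinuousOn (fun p : ℝ × ℝ => A i p.1 p.2) (S ×ˢ Set.univ))
    (hv : ContinuousOn (fun p : ℝ × ℝ => v p.1 p.2) (S ×ˢ Set.univ))
    (bA : ∀ i, ∀ t ∈ S, ∀ x, |A i t x| ≤ C) (ha0 : 0 ≤ a) (ha : a < 1)
    (bv : ∀ t ∈ S, ∀ x, |v t x| ≤ a) :
    ContinuousOn (fun s => 𝓐.Q e (Function.update c l s) χ (fun i => A i s) (v s)) S := by
  obtain ⟨X, hX0, hX⟩ := exists_abs_bound χ
  have h1 : Summable fun n : ℕ => ((n + e).choose e : ℝ) * a ^ n :=
    summable_choose_mul_geometric_of_norm_lt_one e (by rwa [Real.norm_eq_abs, abs_of_nonneg ha0])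
  unfold Q
  apply continuousOn_tsum (u := fun n : ℕ => (𝓐.C * X * |C| ^ Fintype.card δ) *
    (((n + e).choose e : ℝ) * a ^ n))
  · intro n
    apply ContinuousOn.mul continuousOn_const
    exact 𝓐.T_continuousOn c l χ (C := max |C| a) hA hv
      (fun i t ht x => ((bA i t ht x).trans (le_abs_self C)).trans (le_max_left _ _))
      (fun t ht x => (bv t ht x).trans (le_max_right _ _)) n
  · exact h1.mul_left _
  · intro n s hs
    rw [norm_mul, Real.norm_eq_abs, Real.norm_eq_abs, abs_of_nonneg (by positivity)]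
    have h2 := 𝓐.T_le (Function.update c l s) hX (A := fun i => A i s) (v := v s)
      (fun i x => (bA i s hs x).trans (le_abs_self C)) (bv s hs) n
    calc ((n + e).choose e : ℝ) * _ ≤ ((n + e).choose e : ℝ) *
          (𝓐.C * X * |C| ^ Fintype.card δ * a ^ n) := mul_le_mul_of_nonneg_left h2 (by positivity)
      _ = _ := by ring

/-- Collapse of the level `l` for functionals with special indices. -/
theorem Q_collapse (𝓐 : Arr k w δ) {e : ℕ} (he : Fintype.card δ = e + 1)
    {c : Fin (k + 1) → ℝ} (hc : ∀ l, 0 ≤ c l) {l : Fin (k + 1)}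
    (hcl : ∀ l', l < l' → c l' = 0) (hm : up w l < 1) (χ : LM k δ → ℝ)
    {a : ℝ} (ha : 0 < a) {W W' W'' : ℝ → ℝ} (hW : CB2 W W' W'') (hWa : ∀ x, a ≤ W x)
    (hW1 : ∀ x, W x ≤ 1) {h h' h'' : δ → ℝ → ℝ} (hh : ∀ i, CB2 (h i) (h' i) (h'' i))
    (cons : ∀ i j, i ≠ j → (∀ L, Ultra L → χ L * lk l i j L = 0) ∨ (h i = fun _ => 1) ∨
      (h j = fun _ => 1)) :
    𝓐.Q e c χ (fun i x => h i x * W x) (fun x => 1 - W x) =
      𝓐.Q e (Function.update c l 0) χ
        (fun i x => flowh (1 - up w l) (c l) W (h i) 0 x * flowW (1 - up w l) (c l) W 0 x)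
        (fun x => 1 - flowW (1 - up w l) (c l) W 0 x) := by
  have hm0 : 0 < 1 - up w l := by linarith
  rcases (hc l).eq_or_lt with h0 | hσ
  · have e1 : Function.update c l 0 = c := by rw [h0, Function.update_eq_self]
    have e2 : ∀ x, flowW (1 - up w l) (c l) W 0 x = W x := by
      intro x
      rw [← h0]
      exact flowW_end hm0 ha hWa x
    have e3 : ∀ i x, flowh (1 - up w l) (c l) W (h i) 0 x = h i x := by
      intro i x
      rw [← h0]
      exact flowh_end hm0 ha hWa x
    simp only [e1, e2, e3]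
  set m := 1 - up w l with hmdef
  set σ := c l with hσdef
  obtain ⟨C0, Wt, Wx, Wxx, fW, pW, hrest⟩ := flow_exists hm0 hσ ha hW hWa hW1
  have hex : ∀ i, ∃ C' : ℝ, ∃ ht hx hxx : ℝ → ℝ → ℝ, Flow σ C' (flowh m σ W (h i)) ht hx hxx ∧
        ∀ t ∈ Set.Ioo 0 σ, ∀ x,
          LL ht hxx t x = - m * (Wx t x / flowW m σ W t x) * hx t x := fun i => hrest (hh i)
  choose C1 ht hx hxx fh ph using hex
  obtain ⟨C2, hC2⟩ : ∃ C2 : ℝ, ∀ i, C1 i ≤ C2 :=
    ⟨∑ i, |C1 i|, fun i => (le_abs_self _).trans
      (Finset.single_le_sum (f := fun i => |C1 i|) (fun _ _ => abs_nonneg _) (Finset.mem_univ i))⟩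
  have hWm : Measurable W := hW.cont.measurable
  have hmem : ∀ t x, a ≤ flowW m σ W t x ∧ flowW m σ W t x ≤ 1 := fun t x =>
    flowW_mem hm0 ha hWm hWa hW1 x
  have hb : ∀ t x, |1 - flowW m σ W t x| ≤ 1 - a := by
    intro t x
    obtain ⟨h1, h2⟩ := hmem t x
    rw [abs_of_nonneg (by linarith)]
    linarith
  have ha1 : a ≤ 1 := (hWa 0).trans (hW1 0)
  have hone : ∀ i, (h i = fun _ => 1) → ∀ t x, flowh m σ W (h i) t x = 1 := by
    intro i hi t x
    rw [hi]
    exact flowh_one hm0 ha hWm hWa hW1 x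
  have hone' : ∀ i, (h i = fun _ => 1) → ∀ t ∈ Set.Ioo 0 σ, ∀ x, hx i t x = 0 := by
    intro i hi t ht' x
    have h1 := (fh i).nice.d1 t ht' x
    have h2 : flowh m σ W (h i) t = fun _ => 1 := funext fun x => hone i hi t x
    rw [h2] at h1
    exact h1.unique (hasDerivAt_const x 1)
  set G : ℝ → ℝ := fun t => 𝓐.Q e (Function.update c l t) χ
    (fun i x => flowh m σ W (h i) t x * flowW m σ W t x) (fun x => 1 - flowW m σ W t x) with hG
  set CC : ℝ := max C0 C2 with hCC
  have fh' : ∀ i, Nice (Set.Ioo 0 σ) CC (flowh m σ W (h i)) (ht i) (hx i) (hxx i) := fun i =>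
    (fh i).nice.mono ((hC2 i).trans (le_max_right _ _))
  have fW' : Nice (Set.Ioo 0 σ) CC (flowW m σ W) Wt Wx Wxx := fW.nice.mono (le_max_left _ _)
  -- derivative
  have hderiv : ∀ t ∈ Set.Ioo 0 σ, HasDerivAt G 0 t := by
    intro t ht'
    have hA := fun i => (nice_mul (fh' i) fW').mono (le_max_left (4 * CC ^ 2) (1 + CC))
    have hv := (nice_one_sub fW').mono (le_max_right (4 * CC ^ 2) (1 + CC))
    have h1 := 𝓐.Q_hasDerivAt e hc l χ hA hv (by linarith : 0 ≤ 1 - a) (by linarith)
      (fun t _ x => hb t x) ht'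
    refine h1.congr_deriv ?_
    have hct : ∀ l', 0 ≤ Function.update c l t l' := by
      intro l'
      by_cases h : l' = l
      · subst h; rw [Function.update_self]; exact ht'.1.le
      · rw [Function.update_of_ne h]; exact hc l'
    have hclt : ∀ l', l < l' → Function.update c l t l' = 0 := by
      intro l' hl'
      rw [Function.update_of_ne hl'.ne']
      exact hcl l' hl'
    have bW : BM (flowW m σ W t) := ⟨fW'.m0 t ht', CC, fW'.b0 t ht'⟩
    have bWt : BM (Wt t) := ⟨fW'.mt t ht', CC, fW'.bt t ht'⟩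
    have bWx : BM (Wx t) := ⟨fW'.m1 t ht', CC, fW'.b1 t ht'⟩
    have bWxx : BM (Wxx t) := ⟨fW'.m2 t ht', CC, fW'.b2 t ht'⟩
    have bh : ∀ i, BM (flowh m σ W (h i) t) := fun i =>
      ⟨(fh' i).m0 t ht', CC, (fh' i).b0 t ht'⟩
    have bht : ∀ i, BM (ht i t) := fun i => ⟨(fh' i).mt t ht', CC, (fh' i).bt t ht'⟩
    have bhx : ∀ i, BM (hx i t) := fun i => ⟨(fh' i).m1 t ht', CC, (fh' i).b1 t ht'⟩
    have bhxx : ∀ i, BM (hxx i t) := fun i => ⟨(fh' i).m2 t ht', CC, (fh' i).b2 t ht'⟩
    have hWne : ∀ x, flowW m σ W t x ≠ 0 := fun x => (ha.trans_le (hmem t x).1).ne'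
    have hu : up w l = 1 - m := by rw [hmdef]; ring
    -- identification of the space-time operator
    have eLv : LL (fun t x => -Wt t x) (fun t x => -Wxx t x) t =
        fun x => -(1 / 2 * up w l * (Wx t x ^ 2 / flowW m σ W t x)) := by
      funext x
      have := pW t ht' x
      unfold LL at this ⊢
      rw [hu]
      linear_combination -this
    have eLA : ∀ i, LL (fun t x => ht i t x * flowW m σ W t x +
        flowh m σ W (h i) t x * Wt t x) (fun t x => hxx i t x * flowW m σ W t x +
          2 * (hx i t x * Wx t x) + flowh m σ W (h i) t x * Wxx t x) t =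
        fun x => up w l * ((hx i t x * flowW m σ W t x + flowh m σ W (h i) t x * Wx t x) *
          (Wx t x / flowW m σ W t x)) - 1 / 2 * (up w l *
          (flowh m σ W (h i) t x * flowW m σ W t x * (Wx t x ^ 2 / flowW m σ W t x ^ 2))) := by
      intro i
      funext x
      have h1 := pW t ht' x
      have h2 := ph i t ht' x
      have h3 := hWne x
      unfold LL at h1 h2 ⊢
      beta_reduce
      rw [hu]
      have h4 : ht i t x = -m * (Wx t x / flowW m σ W t x) * hx i t x - 1 / 2 * hxx i t x := by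
        linarith
      have h5 : Wt t x = 1 / 2 * (1 - m) * Wx t x ^ 2 / flowW m σ W t x - 1 / 2 * Wxx t x := by
        linarith
      rw [h4, h5]
      field_simp
      ring
    rw [𝓐.tsum_dT e l _ χ (fun i => (bh i).mul bW) _ _ _ _ (by linarith : 0 ≤ 1 - a)
      (by linarith) (fun x => hb t x)]
    · simp only [eLv, eLA]
      exact 𝓐.conservation e χ he hct hclt (by linarith : 0 ≤ 1 - a) (by linarith) bW.meas
        (fun x => hb t x) bWx (fun i => (bh i).mul bW)
        (fun i => ((bhx i).mul bW).add ((bh i).mul bWx))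
        (fun i x => rfl) (fun i j hij => by
          rcases cons i j hij with h1 | h1 | h1
          · exact Or.inl h1
          · right
            intro x
            have h2 := hone' i h1 t ht' x
            have h3 := hWne x
            rw [h2]
            field_simp
            ring
          · right
            intro x
            have h2 := hone' j h1 t ht' x
            have h3 := hWne x
            rw [h2]
            field_simp
            ring)
    · intro i
      exact (((bht i).mul bW).add ((bh i).mul bWt)).add ((BM.const (1 / 2)).mul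
        ((((bhxx i).mul bW).add ((BM.const 2).mul ((bhx i).mul bWx))).add ((bh i).mul bWxx)))
    · intro i
      exact ((bhx i).mul bW).add ((bh i).mul bWx)
    · exact bWt.neg.add ((BM.const (1 / 2)).mul bWxx.neg)
    · exact bWx.neg
  have hcont : ContinuousOn G (Set.Icc 0 σ) := by
    apply 𝓐.Q_continuousOn e c l χ (C := CC ^ 2) (a := 1 - a)
      (A := fun i t x => flowh m σ W (h i) t x * flowW m σ W t x)
      (v := fun t x => 1 - flowW m σ W t x)
    · intro i
      exact (fh i).cont.mul fW.cont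
    · exact continuousOn_const.sub fW.cont
    · intro i t ht' x
      rw [abs_mul, sq]
      have h1 := ((fh i).bdd t ht' x).trans ((hC2 i).trans (le_max_right C0 C2))
      have h2 := (fW.bdd t ht' x).trans (le_max_left C0 C2)
      exact mul_le_mul h1 h2 (abs_nonneg _) ((abs_nonneg _).trans h1)
    · linarith
    · linarith
    · intro t _ x
      exact hb t x
  obtain ⟨t, ht', hslope⟩ := exists_hasDerivAt_eq_slope G (fun _ => 0) hσ hcont hderiv
  have hfin : G σ = G 0 := by
    have hne : σ - 0 ≠ 0 := by linarith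
    have := hslope.symm
    rw [div_eq_zero_iff] at this
    rcases this with h1 | h1
    · linarith
    · exact absurd h1 hne
  have hGσ : G σ = 𝓐.Q e c χ (fun i x => h i x * W x) (fun x => 1 - W x) := by
    simp only [hG]
    have e1 : Function.update c l σ = c := by rw [hσdef, Function.update_eq_self]
    have e2 : ∀ x, flowW m σ W σ x = W x := fun x => flowW_end hm0 ha hWa x
    have e3 : ∀ i x, flowh m σ W (h i) σ x = h i x := fun i x => flowh_end hm0 ha hWa x
    simp only [e1, e2, e3]
  rw [← hGσ, hfin]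

end Arr

end Vale.Agent.P157.Par
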