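import Vale.Agent.P157.ParEvol

open MeasureTheory ProbabilityTheory Filter Topology Finset

namespace Vale.Agent.P157.Par

set_option linter.unusedSectionVars false

lemma nice_mul {S : Set ℝ} {C : ℝ} {f ft fx fxx g gt gx gxx : ℝ → ℝ → ℝ}
    (hf : Nice S C f ft fx fxx) (hg : Nice S C g gt gx gxx) :
    Nice S (4 * C ^ 2) (fun t x => f t x * g t x) (fun t x => ft t x * g t x + f t x * gt t x)
      (fun t x => fx t x * g t x + f t x * gx t x)
      (fun t x => fxx t x * g t x + 2 * (fx t x * gx t x) + f t x * gxx t x) := by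
  have hmul : ∀ a b : ℝ, |a| ≤ C → |b| ≤ C → |a * b| ≤ C ^ 2 := by
    intro a b ha hb
    rw [abs_mul, sq]
    exact mul_le_mul ha hb (abs_nonneg _) ((abs_nonneg _).trans ha)
  refine ⟨?_, ?_, ?_, ?_, ?_, ?_, ?_, ?_, ?_, ?_, ?_⟩
  · intro t ht; exact (hf.m0 t ht).mul (hg.m0 t ht)
  · intro t ht
    exact ((hf.mt t ht).mul (hg.m0 t ht)).add ((hf.m0 t ht).mul (hg.mt t ht))
  · intro t ht
    exact ((hf.m1 t ht).mul (hg.m0 t ht)).add ((hf.m0 t ht).mul (hg.m1 t ht))
  · intro t ht
    exact (((hf.m2 t ht).mul (hg.m0 t ht)).add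
      (((hf.m1 t ht).mul (hg.m1 t ht)).const_mul 2)).add ((hf.m0 t ht).mul (hg.m2 t ht))
  · intro t ht x
    have := hmul _ _ (hf.b0 t ht x) (hg.b0 t ht x)
    nlinarith [sq_nonneg C]
  · intro t ht x
    have h1 := hmul _ _ (hf.bt t ht x) (hg.b0 t ht x)
    have h2 := hmul _ _ (hf.b0 t ht x) (hg.bt t ht x)
    have h3 := abs_add_le (ft t x * g t x) (f t x * gt t x)
    nlinarith [sq_nonneg C]
  · intro t ht x
    have h1 := hmul _ _ (hf.b1 t ht x) (hg.b0 t ht x)
    have h2 := hmul _ _ (hf.b0 t ht x) (hg.b1 t ht x)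
    have h3 := abs_add_le (fx t x * g t x) (f t x * gx t x)
    nlinarith [sq_nonneg C]
  · intro t ht x
    have h1 := hmul _ _ (hf.b2 t ht x) (hg.b0 t ht x)
    have h2 := hmul _ _ (hf.b1 t ht x) (hg.b1 t ht x)
    have h4 := hmul _ _ (hf.b0 t ht x) (hg.b2 t ht x)
    have h3 := abs_add_three (fxx t x * g t x) (2 * (fx t x * gx t x)) (f t x * gxx t x)
    rw [abs_mul 2, abs_two] at h3
    linarith
  · intro t ht x x' hx
    have h1 := (hf.path t ht x x' hx).mul (hg.path t ht x x' hx)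
    exact h1.congr_deriv (by ring)
  · intro t ht x
    exact (hf.d1 t ht x).mul (hg.d1 t ht x)
  · intro t ht x
    have h1 := ((hf.d2 t ht x).mul (hg.d1 t ht x)).add ((hf.d1 t ht x).mul (hg.d2 t ht x))
    exact h1.congr_deriv (by ring)

lemma nice_one_sub {S : Set ℝ} {C : ℝ} {g gt gx gxx : ℝ → ℝ → ℝ}
    (hg : Nice S C g gt gx gxx) :
    Nice S (1 + C) (fun t x => 1 - g t x) (fun t x => -gt t x) (fun t x => -gx t x)
      (fun t x => -gxx t x) := by
  refine ⟨?_, ?_, ?_, ?_, ?_, ?_, ?_, ?_, ?_, ?_, ?_⟩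
  · intro t ht; exact measurable_const.sub (hg.m0 t ht)
  · intro t ht; exact (hg.mt t ht).neg
  · intro t ht; exact (hg.m1 t ht).neg
  · intro t ht; exact (hg.m2 t ht).neg
  · intro t ht x
    have h1 := hg.b0 t ht x
    have h2 := abs_sub (1 : ℝ) (g t x)
    rw [abs_one] at h2
    linarith
  · intro t ht x; rw [abs_neg]; linarith [hg.bt t ht x]
  · intro t ht x; rw [abs_neg]; linarith [hg.b1 t ht x]
  · intro t ht x; rw [abs_neg]; linarith [hg.b2 t ht x]
  · intro t ht x x' hx
    have h1 := (hg.path t ht x x' hx).const_sub 1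
    exact h1.congr_deriv (by ring)
  · intro t ht x
    exact (hg.d1 t ht x).const_sub 1
  · intro t ht x
    exact (hg.d2 t ht x).neg

lemma Nice.mono {S : Set ℝ} {C C' : ℝ} {g gt gx gxx : ℝ → ℝ → ℝ}
    (hg : Nice S C g gt gx gxx) (h : C ≤ C') : Nice S C' g gt gx gxx :=
  ⟨hg.m0, hg.mt, hg.m1, hg.m2, fun t ht x => (hg.b0 t ht x).trans h,
    fun t ht x => (hg.bt t ht x).trans h, fun t ht x => (hg.b1 t ht x).trans h,
    fun t ht x => (hg.b2 t ht x).trans h, hg.path, hg.d1, hg.d2⟩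

namespace Arr

variable {k : ℕ} {w : Fin (k + 1) → ℝ} {δ : Type} [Fintype δ] [DecidableEq δ]

lemma Q_congr (𝓐 : Arr k w δ) (e : ℕ) (c : Fin (k + 1) → ℝ) {χ χ' : LM k δ → ℝ}
    (h : ∀ L, Ultra L → χ L = χ' L) (A : δ → ℝ → ℝ) (v : ℝ → ℝ) :
    𝓐.Q e c χ A v = 𝓐.Q e c χ' A v := by
  unfold Q T
  apply tsum_congr
  intro n
  congr 1
  apply 𝓐.congr_ultra
  intro L hL
  rw [show χ (res L) = χ' (res L) from h _ (hL.comp _)]

lemma Q_lk_self (𝓐 : Arr k w δ) (e : ℕ) (c : Fin (k + 1) → ℝ) (χ : LM k δ → ℝ)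
    (l : Fin (k + 1)) (i : δ) (A : δ → ℝ → ℝ) (v : ℝ → ℝ) :
    𝓐.Q e c (fun L => χ L * lk l i i L) A v = 𝓐.Q e c χ A v := by
  apply 𝓐.Q_congr
  intro L hL
  unfold lk
  rw [hL.diag, if_pos (Fin.le_last _), mul_one]

lemma Q_lk_symm (𝓐 : Arr k w δ) (e : ℕ) (c : Fin (k + 1) → ℝ) (χ : LM k δ → ℝ)
    (l : Fin (k + 1)) (i j : δ) (A : δ → ℝ → ℝ) (v : ℝ → ℝ) :
    𝓐.Q e c (fun L => χ L * lk l i j L) A v = 𝓐.Q e c (fun L => χ L * lk l j i L) A v := by
  apply 𝓐.Q_congr
  intro L hL
  unfold lk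
  rw [hL.symm i j]

/-- The pair functional: on the link, everything is at the index `i`. -/
noncomputable def qq (𝓐 : Arr k w δ) (e : ℕ) (c : Fin (k + 1) → ℝ) (l : Fin (k + 1))
    (χ : LM k δ → ℝ) (A : δ → ℝ → ℝ) (v : ℝ → ℝ) (i j : δ) (F : ℝ → ℝ) : ℝ :=
  𝓐.Q e c (fun L => χ L * lk l i j L) (Function.update (Function.update A i F) j fun _ => 1) v

variable (𝓐 : Arr k w δ) (e : ℕ) {c : Fin (k + 1) → ℝ} {l : Fin (k + 1)} (χ : LM k δ → ℝ)
  {A : δ → ℝ → ℝ} {v : ℝ → ℝ}

lemma qq_symm (hcl : ∀ l', l < l' → c l' = 0) {i j : δ} (hij : i ≠ j) (F : ℝ → ℝ) :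
    𝓐.qq e c l χ A v i j F = 𝓐.qq e c l χ A v j i F := by
  have h := 𝓐.Q_move e hcl χ (Function.update A i fun _ => 1) v hij F
  have h2 : (fun x => Function.update A i (fun _ => (1 : ℝ)) i x * F x) = F := by
    funext x; simp
  rw [h2, Function.update_idem] at h
  unfold qq
  rw [← h, 𝓐.Q_lk_symm, Function.update_comm hij]

lemma Q_pair (hcl : ∀ l', l < l' → c l' = 0) {i j : δ} (hij : i ≠ j) (F G : ℝ → ℝ) :
    𝓐.Q e c (fun L => χ L * lk l i j L) (Function.update (Function.update A i F) j G) v =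
      𝓐.qq e c l χ A v i j fun x => F x * G x := by
  have h := 𝓐.Q_move e hcl χ (Function.update A i F) v hij G
  rw [h, Function.update_self, Function.update_idem]
  rfl

lemma Q_pair_one (hcl : ∀ l', l < l' → c l' = 0) {i j : δ} (hij : i ≠ j) (F : ℝ → ℝ) :
    𝓐.Q e c (fun L => χ L * lk l i j L) (Function.update A i F) v =
      𝓐.qq e c l χ A v i j fun x => F x * A j x := by
  have h := 𝓐.Q_pair e (A := A) (v := v) χ hcl hij F (A j)
  rw [← h]
  congr 1
  symm
  rw [Function.update_eq_self_iff]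
  rw [Function.update_of_ne hij.symm]

lemma qq_add (hA : ∀ i, BM (A i)) (hvm : Measurable v) {a : ℝ}
    (ha0 : 0 ≤ a) (ha : a < 1) (hv : ∀ x, |v x| ≤ a) {i j : δ} (hij : i ≠ j) {F G : ℝ → ℝ}
    (hF : BM F) (hG : BM G) :
    𝓐.qq e c l χ A v i j (fun x => F x + G x) =
      𝓐.qq e c l χ A v i j F + 𝓐.qq e c l χ A v i j G := by
  unfold qq
  rw [Function.update_comm hij, Function.update_comm hij, Function.update_comm hij]
  exact 𝓐.Q_update_add e c _ (BM.update hA (BM.const 1)) hvm ha0 ha hv i hF hG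

lemma qq_smul {i j : δ} (hij : i ≠ j) (F : ℝ → ℝ) (r : ℝ) :
    𝓐.qq e c l χ A v i j (fun x => r * F x) = r * 𝓐.qq e c l χ A v i j F := by
  unfold qq
  rw [Function.update_comm hij, Function.update_comm hij]
  exact 𝓐.Q_update_smul e c _ _ v i F r

lemma ext_update_none (g G : ℝ → ℝ) (A : δ → ℝ → ℝ) :
    Function.update (ext g A) none G = ext G A := (ext_eq_update G g A).symm

/-- The algebra of the conservation law at a fixed time. -/
theorem conservation (he : Fintype.card δ = e + 1) (hc : ∀ l, 0 ≤ c l)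
    (hcl : ∀ l', l < l' → c l' = 0) {a : ℝ} (ha0 : 0 ≤ a) (ha : a < 1)
    {W Wx : ℝ → ℝ} (hWm : Measurable W) (hW : ∀ x, |1 - W x| ≤ a) (hWx : BM Wx)
    (hA : ∀ i, BM (A i)) {LA Ax : δ → ℝ → ℝ} (hAx : ∀ i, BM (Ax i))
    (p1 : ∀ i x, LA i x = up w l * (Ax i x * (Wx x / W x)) -
      1 / 2 * (up w l * (A i x * (Wx x ^ 2 / W x ^ 2))))
    (p2 : ∀ i j, i ≠ j → (∀ L, Ultra L → χ L * lk l i j L = 0) ∨
      (∀ x, (Ax i x - A i x * (Wx x / W x)) * (Ax j x - A j x * (Wx x / W x)) = 0)) :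
    ∑ i, 𝓐.Q e c χ (Function.update A i (LA i)) (fun x => 1 - W x) +
      1 / 2 * ∑ i, ∑ i', (if i = i' then 0 else 𝓐.Q e c (fun L => χ L * lk l i i' L)
        (Function.update (Function.update A i (Ax i)) i' (Ax i')) (fun x => 1 - W x)) +
      ((e + 1 : ℕ) : ℝ) * (𝓐.mark.Q (e + 1) c (lift χ)
          (ext (fun x => - (1 / 2 * up w l * (Wx x ^ 2 / W x))) A) (fun x => 1 - W x) +
        ∑ i, 𝓐.mark.Q (e + 1) c (fun L => lift χ L * lk l (some i) none L)
          (ext (fun x => -Wx x) (Function.update A i (Ax i))) (fun x => 1 - W x)) +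
      1 / 2 * ((e + 1 : ℕ) : ℝ) * (((e + 2 : ℕ) : ℝ) * 𝓐.mark.mark.Q (e + 2) c
        (fun L => lift (lift χ) L * lk l (some none) none L)
        (ext (fun x => -Wx x) (ext (fun x => -Wx x) A)) (fun x => 1 - W x)) = 0 := by
  classical
  set u := up w l with hu
  set v : ℝ → ℝ := fun x => 1 - W x with hv
  have hW0 : ∀ x, 1 - a ≤ W x := fun x => by linarith [le_abs_self (1 - W x), hW x]
  have hWpos : ∀ x, 0 < W x := fun x => by linarith [hW0 x]
  have hWne : ∀ x, W x ≠ 0 := fun x => (hWpos x).ne'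
  have hvm : Measurable v := measurable_const.sub hWm
  have hva : ∀ x, |v x| ≤ a := hW
  have hinv : BM fun x => (W x)⁻¹ := by
    refine ⟨hWm.inv, (1 - a)⁻¹, fun x => ?_⟩
    rw [abs_of_pos (inv_pos.2 (hWpos x))]
    exact inv_anti₀ (by linarith) (hW0 x)
  set R : ℝ → ℝ := fun x => Wx x / W x with hR
  have bR : BM R := by
    have := hWx.mul hinv
    exact this
  have bnWx : BM fun x => -Wx x := hWx.neg
  have bnR : BM fun x => -R x := bR.neg
  -- the term with two new indices
  have hA' : ∀ i, BM (ext (fun x => -Wx x) A i) := BM_ext hA bnWx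
  have cardO : Fintype.card (Option δ) = e + 1 + 1 := by rw [Fintype.card_option, he]
  have s1 := 𝓐.mark.Q_stab cardO hc hcl (lift χ) hA' hvm ha0 ha hva none bnWx bnR
  have x1 : (fun x => -R x * (1 - v x)) = fun x => -Wx x := by
    funext x
    simp only [hR, hv]
    have := hWne x
    field_simp
    ring
  have x2 : (fun x => -Wx x * -R x) = fun x => Wx x ^ 2 / W x := by
    funext x
    simp only [hR]
    ring
  rw [x1, x2, ext_update_none, ext_update_none, Fintype.sum_option, 𝓐.mark.Q_lk_self] at s1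
  have b2 : BM fun x => Wx x ^ 2 / W x := by
    have h := hWx.mul bR
    have h2 : (fun x => Wx x ^ 2 / W x) = fun x => Wx x * R x := by
      funext x; simp only [hR]; ring
    rw [h2]; exact h
  set G2 : ℝ → ℝ := fun x => Wx x ^ 2 / W x with hG2
  set q2 : δ → ℝ := fun i => 𝓐.mark.Q (e + 1) c (fun L => lift χ L * lk l (some i) none L)
    (ext G2 A) v with hq2
  have s1' : ((e + 2 : ℕ) : ℝ) * 𝓐.mark.mark.Q (e + 2) c
        (fun L => lift (lift χ) L * lk l (some none) none L)
        (ext (fun x => -Wx x) (ext (fun x => -Wx x) A)) v =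
      u * 𝓐.mark.Q (e + 1) c (lift χ) (ext G2 A) v + ∑ i, q2 i := by
    have h3 : ∀ i, 𝓐.mark.Q (e + 1) c (fun L => lift χ L * lk l none (some i) L)
        (ext G2 A) v = q2 i := fun i => 𝓐.mark.Q_lk_symm _ _ _ _ _ _ _ _
    simp_rw [h3] at s1
    rw [show (e + 1 + 1 : ℕ) = e + 2 from rfl] at s1
    rw [s1]
    ring
  -- the term with one new free index
  have s2 : 𝓐.mark.Q (e + 1) c (lift χ)
      (ext (fun x => - (1 / 2 * u * (Wx x ^ 2 / W x))) A) v =
      -(1 / 2 * u) * 𝓐.mark.Q (e + 1) c (lift χ) (ext G2 A) v := by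
    have h := 𝓐.mark.Q_update_smul (e + 1) c (lift χ) (ext G2 A) v none G2 (-(1 / 2 * u))
    rw [ext_update_none, ext_update_none] at h
    rw [← h]
    congr 2
    funext x
    simp only [hG2]
    ring
  rw [s1', s2]
  -- the terms with one new linked index
  have s3 : ∀ i, ((e + 1 : ℕ) : ℝ) * 𝓐.mark.Q (e + 1) c
      (fun L => lift χ L * lk l (some i) none L)
      (ext (fun x => -Wx x) (Function.update A i (Ax i))) v =
      (u - 1) * 𝓐.Q e c χ (Function.update A i fun x => Ax i x * -R x) v +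
      ∑ j, 𝓐.Q e c (fun L => χ L * lk l i j L)
        (Function.update A i fun x => Ax i x * -R x) v := by
    intro i
    have h := 𝓐.Q_stab he hc hcl χ hA hvm ha0 ha hva i (hAx i) bnR
    rw [x1] at h
    exact h
  have x3 : (fun x => R x ^ 2 * (1 - v x)) = G2 := by
    funext x
    simp only [hR, hv, hG2]
    have := hWne x
    field_simp
    ring
  have bR2 : BM fun x => R x ^ 2 := by
    have h2 : (fun x => R x ^ 2) = fun x => R x * R x := by funext x; ring
    rw [h2]; exact bR.mul bR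
  have s4 : ∀ i, ((e + 1 : ℕ) : ℝ) * q2 i =
      (u - 1) * 𝓐.Q e c χ (Function.update A i fun x => A i x * R x ^ 2) v +
      ∑ j, 𝓐.Q e c (fun L => χ L * lk l i j L)
        (Function.update A i fun x => A i x * R x ^ 2) v := by
    intro i
    have h := 𝓐.Q_stab he hc hcl χ hA hvm ha0 ha hva i (hA i) bR2
    rw [x3, Function.update_eq_self] at h
    exact h
  -- split the diagonal
  have split : ∀ (i : δ) (B : δ → ℝ → ℝ), ∑ j, 𝓐.Q e c (fun L => χ L * lk l i j L) B v =
      𝓐.Q e c χ B v + ∑ j, (if i = j then 0 else 𝓐.Q e c (fun L => χ L * lk l i j L) B v) := by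
    intro i B
    rw [← Finset.add_sum_erase _ _ (Finset.mem_univ i), 𝓐.Q_lk_self,
      ← Finset.add_sum_erase (a := i) (s := univ)
        (f := fun j => if i = j then 0 else 𝓐.Q e c (fun L => χ L * lk l i j L) B v)
        (Finset.mem_univ i)]
    simp only [if_true, zero_add]
    congr 1
    apply Finset.sum_congr rfl
    intro j hj
    rw [if_neg (Finset.ne_of_mem_erase hj).symm]
  have bAR : ∀ i, BM fun x => Ax i x * -R x := fun i => (hAx i).mul bnR
  have bAR2 : ∀ i, BM fun x => A i x * R x ^ 2 := fun i => (hA i).mul bR2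
  -- the single index terms cancel
  have s5 : ∀ i, 𝓐.Q e c χ (Function.update A i (LA i)) v +
      u * 𝓐.Q e c χ (Function.update A i fun x => Ax i x * -R x) v +
      1 / 2 * (u * 𝓐.Q e c χ (Function.update A i fun x => A i x * R x ^ 2) v) = 0 := by
    intro i
    have h1 : LA i = fun x => -u * (Ax i x * -R x) + -(1 / 2 * u) * (A i x * R x ^ 2) := by
      funext x
      rw [p1 i x]
      simp only [hR]
      rw [div_pow]
      ring
    have b3 : BM fun x => -u * (Ax i x * -R x) := (BM.const (-u)).mul (bAR i)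
    have b4 : BM fun x => -(1 / 2 * u) * (A i x * R x ^ 2) := (BM.const _).mul (bAR2 i)
    rw [h1, 𝓐.Q_update_add e c χ hA hvm ha0 ha hva i b3 b4, 𝓐.Q_update_smul,
      𝓐.Q_update_smul]
    ring
  -- pair terms
  have s6 : ∀ i j, i ≠ j →
      1 / 2 * 𝓐.Q e c (fun L => χ L * lk l i j L)
        (Function.update (Function.update A i (Ax i)) j (Ax j)) v +
      (1 / 2 * 𝓐.qq e c l χ A v i j (fun x => Ax i x * -R x * A j x) +
      1 / 2 * 𝓐.qq e c l χ A v i j (fun x => A i x * (Ax j x * -R x))) +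
      1 / 2 * 𝓐.Q e c (fun L => χ L * lk l i j L)
        (Function.update A i fun x => A i x * R x ^ 2) v = 0 := by
    intro i j hij
    rw [𝓐.Q_pair e χ hcl hij, 𝓐.Q_pair_one e χ hcl hij]
    have b5 := (hAx i).mul (hAx j)
    have b6 := (bAR i).mul (hA j)
    have b7 := (hA i).mul (bAR j)
    have b8 := (bAR2 i).mul (hA j)
    have h1 : 𝓐.qq e c l χ A v i j (fun x => ((Ax i x * Ax j x + Ax i x * -R x * A j x) +
        A i x * (Ax j x * -R x)) + A i x * R x ^ 2 * A j x) = 0 := by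
      rcases p2 i j hij with h | h
      · unfold qq
        rw [𝓐.Q_congr e c (χ' := fun _ => 0) h]
        unfold Q T
        have h0 : ∀ n : ℕ, 𝓐.E (Fin n) (fun _ => (0 : ℝ)) = 0 := fun n => map_zero _
        simp [h0]
      · have h2 : (fun x => ((Ax i x * Ax j x + Ax i x * -R x * A j x) +
            A i x * (Ax j x * -R x)) + A i x * R x ^ 2 * A j x) = fun _ => 0 * 1 := by
          funext x
          have := h x
          simp only [hR]
          linear_combination this
        rw [h2, 𝓐.qq_smul e χ hij (fun _ => 1) 0, zero_mul]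
    rw [𝓐.qq_add e χ hA hvm ha0 ha hva hij ((b5.add b6).add b7) b8,
      𝓐.qq_add e χ hA hvm ha0 ha hva hij (b5.add b6) b7,
      𝓐.qq_add e χ hA hvm ha0 ha hva hij b5 b6] at h1
    linarith
  -- symmetrization
  have s7 : ∑ i, ∑ j, (if i = j then 0 else 𝓐.Q e c (fun L => χ L * lk l i j L)
      (Function.update A i fun x => Ax i x * -R x) v) =
      ∑ i, ∑ j, (if i = j then 0 else
        (1 / 2 * 𝓐.qq e c l χ A v i j (fun x => Ax i x * -R x * A j x) +
      1 / 2 * 𝓐.qq e c l χ A v i j (fun x => A i x * (Ax j x * -R x)))) := by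
    have h1 : ∑ i, ∑ j, (if i = j then 0 else 𝓐.Q e c (fun L => χ L * lk l i j L)
      (Function.update A i fun x => Ax i x * -R x) v) =
      ∑ i, ∑ j, (if i = j then 0 else 𝓐.qq e c l χ A v i j (fun x => Ax i x * -R x * A j x)) := by
      apply Finset.sum_congr rfl
      intro i _
      apply Finset.sum_congr rfl
      intro j _
      by_cases h : i = j
      · simp [h]
      · simp only [h, if_false]
        exact 𝓐.Q_pair_one e χ hcl h _
    have h2 : ∑ i, ∑ j, (if i = j then 0 else 𝓐.qq e c l χ A v i j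
        (fun x => Ax i x * -R x * A j x)) =
        ∑ i, ∑ j, (if i = j then 0 else 𝓐.qq e c l χ A v i j
        (fun x => A i x * (Ax j x * -R x))) := by
      rw [Finset.sum_comm]
      apply Finset.sum_congr rfl
      intro j _
      apply Finset.sum_congr rfl
      intro i _
      by_cases h : i = j
      · simp [h]
      · have h' : ¬ j = i := fun h' => h h'.symm
        simp only [h, h', if_false]
        rw [𝓐.qq_symm e χ hcl h]
        congr 1
        funext x
        ring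
    have h3 : ∑ i, ∑ j, (if i = j then 0 else
        (1 / 2 * 𝓐.qq e c l χ A v i j (fun x => Ax i x * -R x * A j x) +
      1 / 2 * 𝓐.qq e c l χ A v i j (fun x => A i x * (Ax j x * -R x)))) =
      1 / 2 * ∑ i, ∑ j, (if i = j then 0 else 𝓐.qq e c l χ A v i j
        (fun x => Ax i x * -R x * A j x)) +
      1 / 2 * ∑ i, ∑ j, (if i = j then 0 else 𝓐.qq e c l χ A v i j
        (fun x => A i x * (Ax j x * -R x))) := by
      simp only [Finset.mul_sum, ← Finset.sum_add_distrib, mul_ite, mul_zero]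
      apply Finset.sum_congr rfl
      intro i _
      apply Finset.sum_congr rfl
      intro j _
      by_cases h : i = j
      · simp [h]
      · simp [h]
    rw [h3, ← h2, h1]
    ring
  have s8 : 1 / 2 * ∑ i, ∑ i', (if i = i' then 0 else 𝓐.Q e c (fun L => χ L * lk l i i' L)
        (Function.update (Function.update A i (Ax i)) i' (Ax i')) v) +
      ∑ i, ∑ j, (if i = j then 0 else 𝓐.Q e c (fun L => χ L * lk l i j L)
      (Function.update A i fun x => Ax i x * -R x) v) +
      1 / 2 * ∑ i, ∑ j, (if i = j then 0 else 𝓐.Q e c (fun L => χ L * lk l i j L)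
      (Function.update A i fun x => A i x * R x ^ 2) v) = 0 := by
    rw [s7]
    simp only [Finset.mul_sum, ← Finset.sum_add_distrib]
    apply Finset.sum_eq_zero
    intro i _
    apply Finset.sum_eq_zero
    intro j _
    by_cases h : i = j
    · simp [h]
    · simp only [h, if_false]
      exact s6 i j h
  have s9 : ((e + 1 : ℕ) : ℝ) * ∑ i, 𝓐.mark.Q (e + 1) c
      (fun L => lift χ L * lk l (some i) none L)
      (ext (fun x => -Wx x) (Function.update A i (Ax i))) v =
      ∑ i, u * 𝓐.Q e c χ (Function.update A i fun x => Ax i x * -R x) v +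
      ∑ i, ∑ j, (if i = j then 0 else 𝓐.Q e c (fun L => χ L * lk l i j L)
      (Function.update A i fun x => Ax i x * -R x) v) := by
    rw [Finset.mul_sum, ← Finset.sum_add_distrib]
    apply Finset.sum_congr rfl
    intro i _
    rw [s3 i, split i]
    ring
  have s10 : ((e + 1 : ℕ) : ℝ) * ∑ i, q2 i =
      ∑ i, u * 𝓐.Q e c χ (Function.update A i fun x => A i x * R x ^ 2) v +
      ∑ i, ∑ j, (if i = j then 0 else 𝓐.Q e c (fun L => χ L * lk l i j L)
      (Function.update A i fun x => A i x * R x ^ 2) v) := by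
    rw [Finset.mul_sum, ← Finset.sum_add_distrib]
    apply Finset.sum_congr rfl
    intro i _
    rw [s4 i, split i]
    ring
  have s11 : ∑ i, 𝓐.Q e c χ (Function.update A i (LA i)) v +
      ∑ i, u * 𝓐.Q e c χ (Function.update A i fun x => Ax i x * -R x) v +
      1 / 2 * ∑ i, u * 𝓐.Q e c χ (Function.update A i fun x => A i x * R x ^ 2) v = 0 := by
    rw [Finset.mul_sum, ← Finset.sum_add_distrib, ← Finset.sum_add_distrib]
    exact Finset.sum_eq_zero fun i _ => s5 i
  linear_combination s8 + s9 + 1 / 2 * s10 + s11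

end Arr

end Vale.Agent.P157.Par
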