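import Vale.Agent.P157.ParLinDet

open MeasureTheory ProbabilityTheory Filter Topology Finset

namespace Vale.Agent.P157.Par

open Vale.Agent.P367.GT (gM)

namespace Lin

lemma law_lin {J K : Type} [Fintype K] [DecidableEq K] (φ : J → K → ℝ) (y : J)
    (h : ∑ i, φ y i ^ 2 = 1) : (gM K).map (fun ξ => lin φ ξ y) = gaussianReal 0 1 := by
  have hm : Measurable fun ξ : K → ℝ => lin φ ξ y := by unfold lin; fun_prop
  have : IsProbabilityMeasure ((gM K).map fun ξ => lin φ ξ y) :=
    Measure.isProbabilityMeasure_map hm.aemeasurable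
  apply Measure.ext_of_charFun
  ext t
  rw [charFun_apply_real, charFun_gaussianReal, integral_map hm.aemeasurable
    (Measurable.aestronglyMeasurable (by fun_prop))]
  have h1 := char_lin (J := Unit) (K := K) (fun _ => φ y) (fun _ => t)
  simp only [univ_unique, sum_singleton, PUnit.default_eq_unit] at h1
  have e : gram (fun _ : Unit => φ y) (fun _ : Unit => φ y) () () = 1 := by
    rw [← h]
    exact Finset.sum_congr rfl fun c _ => (sq _).symm
  rw [e] at h1
  have h2 : ∀ ξ : K → ℝ, Complex.exp ((t : ℂ) * (lin φ ξ y : ℝ) * Complex.I)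
      = Complex.exp ((lin (fun _ : Unit => φ y) ξ () * t : ℝ) * Complex.I) := by
    intro ξ
    congr 1
    push_cast
    have : lin (fun _ : Unit => φ y) ξ () = lin φ ξ y := rfl
    rw [this]
    ring
  simp_rw [h2]
  rw [h1]
  congr 1
  push_cast
  ring

section logsum
variable {Y : Type} [Fintype Y] [Nonempty Y]

lemma sum_pos' {w : Y → ℝ} (hw : ∀ y, 0 < w y) : 0 < ∑ y, w y :=
  Finset.sum_pos (fun y _ => hw y) univ_nonempty

lemma logsum_bound {w : Y → ℝ} (hw : ∀ y, 0 < w y) (E : Y → ℝ) :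
    |Real.log (∑ y, w y * Real.exp (E y))| ≤ |Real.log (∑ y, w y)| + ∑ y, |E y| := by
  have hW := sum_pos' hw
  set M := ∑ y, |E y| with hM
  have hEy : ∀ y, |E y| ≤ M := fun y => Finset.single_le_sum (f := fun y => |E y|)
    (fun y _ => abs_nonneg _) (mem_univ y)
  have h1 : (∑ y, w y) * Real.exp (-M) ≤ ∑ y, w y * Real.exp (E y) := by
    rw [Finset.sum_mul]
    refine Finset.sum_le_sum fun y _ => mul_le_mul_of_nonneg_left (Real.exp_le_exp.2 ?_) (hw y).le
    linarith [neg_abs_le (E y), hEy y]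
  have h2 : ∑ y, w y * Real.exp (E y) ≤ (∑ y, w y) * Real.exp M := by
    rw [Finset.sum_mul]
    refine Finset.sum_le_sum fun y _ => mul_le_mul_of_nonneg_left (Real.exp_le_exp.2 ?_) (hw y).le
    linarith [le_abs_self (E y), hEy y]
  have hS : 0 < ∑ y, w y * Real.exp (E y) := sum_pos' fun y => mul_pos (hw y) (Real.exp_pos _)
  have l1 := Real.log_le_log (by positivity) h1
  have l2 := Real.log_le_log hS h2
  rw [Real.log_mul hW.ne' (Real.exp_pos _).ne', Real.log_exp] at l1 l2
  rw [abs_le]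
  constructor
  · linarith [neg_abs_le (Real.log (∑ y, w y))]
  · linarith [le_abs_self (Real.log (∑ y, w y))]

lemma integrable_logsum {Ω : Type} [MeasurableSpace Ω] {μ : Measure Ω} [IsFiniteMeasure μ]
    {w : Y → ℝ} (hw : ∀ y, 0 < w y) {E : Ω → Y → ℝ}
    (hE : ∀ y, Integrable (fun ω => E ω y) μ) :
    Integrable (fun ω => Real.log (∑ y, w y * Real.exp (E ω y))) μ := by
  refine Integrable.mono' (g := fun ω => |Real.log (∑ y, w y)| + ∑ y, |E ω y|)
    ((integrable_const _).add (integrable_finsetSum _ fun y _ => (hE y).abs)) ?_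
    (Filter.Eventually.of_forall fun ω => logsum_bound hw (E ω))
  refine (Real.measurable_log.comp_aemeasurable ?_).aestronglyMeasurable
  exact Finset.aemeasurable_fun_sum _ fun y _ =>
    (Real.measurable_exp.comp_aemeasurable (hE y).aestronglyMeasurable.aemeasurable).const_mul _

/-- replacing the energies one at a time -/
theorem replace_many {Ω : Type} [MeasurableSpace Ω] (μ : Measure Ω) [IsProbabilityMeasure μ]
    {x z : Ω → Y → ℝ} (hx : ∀ y, Integrable (fun g => x g y) μ)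
    (hz : ∀ y, Integrable (fun g => z g y) μ) {ε : ℝ}
    (h : ∀ w : Y → ℝ, (∀ y, 0 < w y) → |(∫ g, Real.log (∑ y, w y * Real.exp (x g y)) ∂μ)
      - ∫ g, Real.log (∑ y, w y * Real.exp (z g y)) ∂μ| ≤ ε) (M : ℕ) :
    ∀ w : Y → ℝ, (∀ y, 0 < w y) →
      |(∫ g : Fin M → Ω, Real.log (∑ y, w y * Real.exp (∑ a, x (g a) y))
          ∂(Measure.pi fun _ => μ))
        - ∫ g : Fin M → Ω, Real.log (∑ y, w y * Real.exp (∑ a, z (g a) y))
          ∂(Measure.pi fun _ => μ)| ≤ M * ε := by
  induction M with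
  | zero =>
    intro w _
    simp
  | succ M ih =>
    intro w hw
    have hev : ∀ (u : Ω → Y → ℝ), (∀ y, Integrable (fun g => u g y) μ) → ∀ (y : Y) (a : Fin M),
        Integrable (fun g : Fin M → Ω => u (g a) y) (Measure.pi fun _ => μ) := fun u hu y a =>
      integrable_comp_eval (μ := fun _ : Fin M => μ) (i := a) (f := fun g => u g y) (hu y)
    have hint : ∀ (u v : Ω → Y → ℝ), (∀ y, Integrable (fun g => u g y) μ) →
        (∀ y, Integrable (fun g => v g y) μ) →
        Integrable (fun q : Ω × (Fin M → Ω) => Real.log (∑ y, w y *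
          Real.exp (u q.1 y + ∑ a, v (q.2 a) y))) (μ.prod (Measure.pi fun _ => μ)) := by
      intro u v hu hv
      refine integrable_logsum hw fun y => ?_
      exact ((hu y).comp_fst _).add
        (integrable_finsetSum _ fun a _ => (hev v hv y a).comp_snd _)
    have hsplit : ∀ (u : Ω → Y → ℝ), (∀ y, Integrable (fun g => u g y) μ) →
        ∫ g : Fin (M + 1) → Ω, Real.log (∑ y, w y * Real.exp (∑ a, u (g a) y))
          ∂(Measure.pi fun _ => μ)
        = ∫ q : Ω × (Fin M → Ω), Real.log (∑ y, w y *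
          Real.exp (u q.1 y + ∑ a, u (q.2 a) y)) ∂(μ.prod (Measure.pi fun _ => μ)) := by
      intro u _
      have hp := measurePreserving_piFinSuccAbove (fun _ : Fin (M + 1) => μ) 0
      rw [← hp.integral_comp (MeasurableEquiv.measurableEmbedding _)]
      congr 1
      funext g
      congr 1
      refine Finset.sum_congr rfl fun y _ => ?_
      congr 2
      rw [Fin.sum_univ_succ]
      rfl
    rw [hsplit x hx, hsplit z hz]
    have i1 := hint x x hx hx
    have i2 := hint x z hx hz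
    have i3 := hint z z hz hz
    have s1 : |(∫ q, Real.log (∑ y, w y * Real.exp (x q.1 y + ∑ a, x (q.2 a) y))
          ∂(μ.prod (Measure.pi fun _ : Fin M => μ)))
        - ∫ q, Real.log (∑ y, w y * Real.exp (x q.1 y + ∑ a, z (q.2 a) y))
          ∂(μ.prod (Measure.pi fun _ : Fin M => μ))| ≤ M * ε := by
      rw [integral_prod _ i1, integral_prod _ i2, ← integral_sub i1.integral_prod_left
        i2.integral_prod_left]
      have hb : ∀ g0 : Ω, ‖(∫ g : Fin M → Ω, Real.log (∑ y, w y *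
            Real.exp (x g0 y + ∑ a, x (g a) y)) ∂(Measure.pi fun _ => μ))
          - ∫ g : Fin M → Ω, Real.log (∑ y, w y *
            Real.exp (x g0 y + ∑ a, z (g a) y)) ∂(Measure.pi fun _ => μ)‖ ≤ M * ε := by
        intro g0
        have := ih (fun y => w y * Real.exp (x g0 y)) fun y => mul_pos (hw y) (Real.exp_pos _)
        simp_rw [mul_assoc, ← Real.exp_add] at this
        exact this
      have := norm_integral_le_of_norm_le_const (μ := μ) (Filter.Eventually.of_forall hb)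
      simpa using this
    have s2 : |(∫ q, Real.log (∑ y, w y * Real.exp (x q.1 y + ∑ a, z (q.2 a) y))
          ∂(μ.prod (Measure.pi fun _ : Fin M => μ)))
        - ∫ q, Real.log (∑ y, w y * Real.exp (z q.1 y + ∑ a, z (q.2 a) y))
          ∂(μ.prod (Measure.pi fun _ : Fin M => μ))| ≤ ε := by
      rw [integral_prod_symm _ i2, integral_prod_symm _ i3, ← integral_sub i2.integral_prod_right
        i3.integral_prod_right]
      have hb : ∀ g : Fin M → Ω, ‖(∫ g0 : Ω, Real.log (∑ y, w y *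
            Real.exp (x g0 y + ∑ a, z (g a) y)) ∂μ)
          - ∫ g0 : Ω, Real.log (∑ y, w y *
            Real.exp (z g0 y + ∑ a, z (g a) y)) ∂μ‖ ≤ ε := by
        intro g
        have := h (fun y => w y * Real.exp (∑ a, z (g a) y))
          fun y => mul_pos (hw y) (Real.exp_pos _)
        simp_rw [mul_assoc, ← Real.exp_add] at this
        simp_rw [add_comm (x _ _), add_comm (z _ _)]
        exact this
      have := norm_integral_le_of_norm_le_const (μ := Measure.pi fun _ : Fin M => μ)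
        (Filter.Eventually.of_forall hb)
      simpa using this
    have e := abs_sub_le (∫ q, Real.log (∑ y, w y * Real.exp (x q.1 y + ∑ a, x (q.2 a) y))
          ∂(μ.prod (Measure.pi fun _ : Fin M => μ)))
        (∫ q, Real.log (∑ y, w y * Real.exp (x q.1 y + ∑ a, z (q.2 a) y))
          ∂(μ.prod (Measure.pi fun _ : Fin M => μ)))
        (∫ q, Real.log (∑ y, w y * Real.exp (z q.1 y + ∑ a, z (q.2 a) y))
          ∂(μ.prod (Measure.pi fun _ : Fin M => μ)))
    push_cast
    linarith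

end logsum

lemma integral_sq_sub_one : ∫ x, (x ^ 2 - 1) ∂(gaussianReal 0 1) = 0 := by
  have h1 : Integrable (fun x : ℝ => x ^ 2) (gaussianReal 0 1) := by
    have := (memLp_id_gaussianReal (μ := 0) (v := 1) 2).integrable_sq
    exact this
  rw [integral_sub h1 (integrable_const _)]
  have h2 : ∫ x : ℝ, x ^ 2 ∂(gaussianReal 0 1) = 1 := by
    have h3 := variance_eq_sub (μ := gaussianReal 0 1) (X := id)
      (memLp_id_gaussianReal (μ := 0) (v := 1) 2)
    rw [variance_id_gaussianReal] at h3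
    simp only [id_eq, Pi.pow_apply, integral_id_gaussianReal] at h3
    simpa using h3.symm
  rw [h2]
  simp

section one
variable {C : ℝ} {f f1 f2 f3 : ℝ → ℝ}

/-- the error integral -/
noncomputable def DD (C : ℝ) : ℝ :=
  ∫ q : ℝ × ℝ, Real.exp (cc C * (1 + |q.1| + |q.2|)) ^ 4 ∂((gaussianReal 0 1).prod (gaussianReal 0 1))

lemma integrable_exp_abs (t : ℝ) :
    Integrable (fun x : ℝ => Real.exp (t * |x|)) (gaussianReal 0 1) :=
  integrable_exp_mul_abs (X := id) (integrable_exp_mul_gaussianReal t)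
    (integrable_exp_mul_gaussianReal (-t))

lemma integrable_DD (C : ℝ) : Integrable (fun q : ℝ × ℝ =>
    Real.exp (cc C * (1 + |q.1| + |q.2|)) ^ 4) ((gaussianReal 0 1).prod (gaussianReal 0 1)) := by
  have h := (((integrable_exp_abs (4 * cc C)).mul_prod (integrable_exp_abs (4 * cc C))).const_mul
    (Real.exp (4 * cc C)))
  refine h.congr (Filter.Eventually.of_forall fun q => ?_)
  simp only
  rw [← Real.exp_nat_mul, ← Real.exp_add, ← Real.exp_add]
  congr 1
  push_cast
  ring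

variable {K K' Y : Type} [Fintype K] [Fintype K'] [DecidableEq K] [DecidableEq K']

lemma law_pair {φ : Y → K → ℝ} {ψ : Y → K' → ℝ} (hφ : ∀ y, ∑ i, φ y i ^ 2 = 1)
    (hψ : ∀ y, ∑ i, ψ y i ^ 2 = 1) (y : Y) :
    ((gM K).prod (gM K')).map (fun g => (lin φ g.1 y, lin ψ g.2 y))
      = (gaussianReal 0 1).prod (gaussianReal 0 1) := by
  have m1 : Measurable fun ξ : K → ℝ => lin φ ξ y := by unfold lin; fun_prop
  have m2 : Measurable fun ξ : K' → ℝ => lin ψ ξ y := by unfold lin; fun_prop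
  have h := Measure.map_prod_map (gM K) (gM K') m1 m2
  rw [law_lin φ y (hφ y), law_lin ψ y (hψ y)] at h
  rw [h]
  rfl

lemma continuous_f (hf : CB3 C f f1 f2 f3) : Continuous f :=
  continuous_iff_continuousAt.2 fun x => (hf.d1 x).continuousAt

lemma continuous_f1 (hf : CB3 C f f1 f2 f3) : Continuous f1 :=
  continuous_iff_continuousAt.2 fun x => (hf.d2 x).continuousAt

lemma continuous_f2 (hf : CB3 C f f1 f2 f3) : Continuous f2 :=
  continuous_iff_continuousAt.2 fun x => (hf.d3 x).continuousAt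

omit [DecidableEq K] in
lemma measurable_lin' (φ : Y → K → ℝ) (y : Y) : Measurable fun ξ : K → ℝ => lin φ ξ y := by
  unfold lin; fun_prop

lemma integrable_pair {φ : Y → K → ℝ} {ψ : Y → K' → ℝ} (hφ : ∀ y, ∑ i, φ y i ^ 2 = 1)
    (hψ : ∀ y, ∑ i, ψ y i ^ 2 = 1) (y : Y) {G : ℝ × ℝ → ℝ} (hG : Measurable G)
    (hi : Integrable G ((gaussianReal 0 1).prod (gaussianReal 0 1))) :
    Integrable (fun g : (K → ℝ) × (K' → ℝ) => G (lin φ g.1 y, lin ψ g.2 y))
      ((gM K).prod (gM K')) := by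
  rw [← law_pair hφ hψ y] at hi
  exact (integrable_map_measure hG.aestronglyMeasurable
    (((measurable_lin' φ y).comp measurable_fst).prodMk
      ((measurable_lin' ψ y).comp measurable_snd)).aemeasurable).1 hi

lemma integral_pair {φ : Y → K → ℝ} {ψ : Y → K' → ℝ} (hφ : ∀ y, ∑ i, φ y i ^ 2 = 1)
    (hψ : ∀ y, ∑ i, ψ y i ^ 2 = 1) (y : Y) {G : ℝ × ℝ → ℝ} (hG : Measurable G) :
    ∫ g : (K → ℝ) × (K' → ℝ), G (lin φ g.1 y, lin ψ g.2 y) ∂((gM K).prod (gM K'))
      = ∫ q, G q ∂((gaussianReal 0 1).prod (gaussianReal 0 1)) := by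
  rw [← law_pair hφ hψ y]
  exact (integral_map (((measurable_lin' φ y).comp measurable_fst).prodMk
      ((measurable_lin' ψ y).comp measurable_snd)).aemeasurable hG.aestronglyMeasurable).symm

omit [DecidableEq K] [DecidableEq K'] in
lemma measurable_xE (hf : CB3 C f f1 f2 f3) (δ : ℝ) (φ : Y → K → ℝ) (ψ : Y → K' → ℝ) (y : Y) :
    Measurable fun g : (K → ℝ) × (K' → ℝ) => f (√(1 - δ) * lin φ g.1 y + √δ * lin ψ g.2 y) :=
  (continuous_f hf).measurable.comp
    ((((measurable_lin' φ y).comp measurable_fst).const_mul _).add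
      (((measurable_lin' ψ y).comp measurable_snd).const_mul _))

lemma integrable_xE (hf : CB3 C f f1 f2 f3) (δ : ℝ) (φ : Y → K → ℝ) (ψ : Y → K' → ℝ) (y : Y) :
    Integrable (fun g : (K → ℝ) × (K' → ℝ) =>
      f (√(1 - δ) * lin φ g.1 y + √δ * lin ψ g.2 y)) ((gM K).prod (gM K')) :=
  Integrable.mono' (integrable_const C) (measurable_xE hf δ φ ψ y).aestronglyMeasurable
    (Filter.Eventually.of_forall fun _ => hf.b0 _)

lemma integrable_zE (hf : CB3 C f f1 f2 f3) {δ : ℝ} (h0 : 0 ≤ δ) (h1 : δ ≤ 1)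
    {φ : Y → K → ℝ} {ψ : Y → K' → ℝ} (hφ : ∀ y, ∑ i, φ y i ^ 2 = 1)
    (hψ : ∀ y, ∑ i, ψ y i ^ 2 = 1) (y : Y) :
    Integrable (fun g : (K → ℝ) × (K' → ℝ) => linE δ f f1 f2 (lin φ g.1 y) (lin ψ g.2 y))
      ((gM K).prod (gM K')) := by
  have m0 := (continuous_f hf).measurable
  have m1 := (continuous_f1 hf).measurable
  have m2 := (continuous_f2 hf).measurable
  have hG : Measurable fun q : ℝ × ℝ => linE δ f f1 f2 q.1 q.2 := by
    unfold linE
    fun_prop
  refine integrable_pair hφ hψ y (G := fun q => linE δ f f1 f2 q.1 q.2) hG ?_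
  have hi : Integrable (fun x : ℝ => |x|) (gaussianReal 0 1) :=
    ((memLp_id_gaussianReal (μ := 0) (v := 1) 1).integrable le_rfl).abs
  have hb : Integrable (fun q : ℝ × ℝ => C + C * √δ * (1 + |q.1| + |q.2|))
      ((gaussianReal 0 1).prod (gaussianReal 0 1)) :=
    (integrable_const _).add ((((integrable_const _).add (hi.comp_fst _)).add
      (hi.comp_snd _)).const_mul _)
  refine Integrable.mono' hb hG.aestronglyMeasurable (Filter.Eventually.of_forall fun q => ?_)
  have e1 := bd_b hf h0 h1 q.1 q.2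
  have e2 := hf.b0 q.1
  rw [Real.norm_eq_abs]
  have e3 : linE δ f f1 f2 q.1 q.2 = (linE δ f f1 f2 q.1 q.2 - f q.1) + f q.1 := by ring
  rw [e3]
  refine (abs_add_le _ _).trans ?_
  linarith

end one

end Lin

open Lin in
/-- One pattern. -/
theorem lin_one {C : ℝ} {f f1 f2 f3 : ℝ → ℝ} (hf : CB3 C f f1 f2 f3) :
    ∃ D : ℝ, ∀ (K K' Y : Type) [Fintype K] [Fintype K'] [Fintype Y] [DecidableEq K]
      [DecidableEq K'] (w : Y → ℝ) (φ : Y → K → ℝ) (ψ : Y → K' → ℝ), (∀ y, 0 < w y) →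
      Nonempty Y → (∀ y, ∑ i, φ y i ^ 2 = 1) → (∀ y, ∑ i, ψ y i ^ 2 = 1) →
      ∀ δ : ℝ, 0 ≤ δ → δ ≤ 1 →
      |(∫ g : (K → ℝ) × (K' → ℝ), Real.log (∑ y, w y * Real.exp (f (√(1 - δ) * lin φ g.1 y +
          √δ * lin ψ g.2 y))) ∂((gM K).prod (gM K'))) -
        ∫ g : (K → ℝ) × (K' → ℝ), Real.log (∑ y, w y * Real.exp (linE δ f f1 f2 (lin φ g.1 y)
          (lin ψ g.2 y))) ∂((gM K).prod (gM K'))| ≤ D * (δ * √δ) := by
  refine ⟨2 * DD C, ?_⟩
  intro K K' Y _ _ _ _ _ w φ ψ hw hY hφ hψ δ h0 h1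
  have hC := C_nonneg hf
  set W := ∑ y, w y with hW
  have hW0 : 0 < W := sum_pos' hw
  set p : Y → ℝ := fun y => w y / W with hp
  have hp0 : ∀ y, 0 < p y := fun y => div_pos (hw y) hW0
  have hp1 : ∑ y, p y = 1 := by
    rw [hp, ← Finset.sum_div, div_self hW0.ne']
  set X : (K → ℝ) × (K' → ℝ) → Y → ℝ := fun g y =>
    f (√(1 - δ) * lin φ g.1 y + √δ * lin ψ g.2 y) with hX
  set Z : (K → ℝ) × (K' → ℝ) → Y → ℝ := fun g y =>
    linE δ f f1 f2 (lin φ g.1 y) (lin ψ g.2 y) with hZ
  set Qf : (K → ℝ) × (K' → ℝ) → Y → ℝ := fun g y =>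
    Real.exp (cc C * (1 + |lin φ g.1 y| + |lin ψ g.2 y|)) with hQf
  set B : (K → ℝ) → ℝ := fun s => ∑ y, p y * Real.exp (f (lin φ s y)) with hB
  set Mn : (K → ℝ) × (K' → ℝ) → ℝ := fun g => (∑ y, p y * (Real.exp (f (lin φ g.1 y)) *
    (δ / 2 * (f2 (lin φ g.1 y) * ((lin ψ g.2 y) ^ 2 - 1))))) / B g.1 with hMn
  have hcc : 0 ≤ cc C := by unfold cc; positivity
  -- the pointwise bound
  have hpt : ∀ g, |Real.log (∑ y, w y * Real.exp (X g y)) - Real.log (∑ y, w y * Real.exp (Z g y))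
      - Mn g| ≤ 2 * √δ ^ 3 * ∑ y, p y * Qf g y ^ 4 := by
    intro g
    have hd := det_bound (p := p) (fun y => (hp0 y).le) hp1 (r := √δ) (Real.sqrt_nonneg _)
      (Q := Qf g) (F := fun y => f (lin φ g.1 y)) (X := X g) (Z := Z g)
      (m := fun y => δ / 2 * (f2 (lin φ g.1 y) * ((lin ψ g.2 y) ^ 2 - 1)))
      (fun y => Real.one_le_exp (by positivity))
      (fun y => bds hf h0 h1 (lin φ g.1 y) (lin ψ g.2 y))
    have hlog : ∀ E : Y → ℝ, Real.log (∑ y, w y * Real.exp (E y))
        = Real.log W + Real.log (∑ y, p y * Real.exp (E y)) := by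
      intro E
      have hpos : 0 < ∑ y, p y * Real.exp (E y) :=
        sum_pos' fun y => mul_pos (hp0 y) (Real.exp_pos _)
      rw [← Real.log_mul hW0.ne' hpos.ne', Finset.mul_sum]
      congr 1
      refine Finset.sum_congr rfl fun y _ => ?_
      rw [hp]
      field_simp
    rw [hlog, hlog]
    have e : Real.log W + Real.log (∑ y, p y * Real.exp (X g y))
        - (Real.log W + Real.log (∑ y, p y * Real.exp (Z g y))) - Mn g
        = Real.log (∑ y, p y * Real.exp (X g y)) - Real.log (∑ y, p y * Real.exp (Z g y))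
          - Mn g := by ring
    rw [e]
    exact hd
  -- integrability
  have hiX := integrable_logsum (μ := (gM K).prod (gM K')) hw (E := X)
    (fun y => integrable_xE hf δ φ ψ y)
  have hiZ := integrable_logsum (μ := (gM K).prod (gM K')) hw (E := Z)
    (fun y => integrable_zE hf h0 h1 hφ hψ y)
  have hmQ : Measurable fun q : ℝ × ℝ => Real.exp (cc C * (1 + |q.1| + |q.2|)) ^ 4 := by fun_prop
  have hiQ : ∀ y, Integrable (fun g => p y * Qf g y ^ 4) ((gM K).prod (gM K')) := fun y =>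
    (integrable_pair hφ hψ y (G := fun q => Real.exp (cc C * (1 + |q.1| + |q.2|)) ^ 4) hmQ
      (integrable_DD C)).const_mul _
  have hQint : ∀ y, ∫ g, p y * Qf g y ^ 4 ∂((gM K).prod (gM K')) = p y * DD C := by
    intro y
    rw [integral_const_mul]
    congr 1
    exact integral_pair hφ hψ y (G := fun q => Real.exp (cc C * (1 + |q.1| + |q.2|)) ^ 4) hmQ
  -- the main term
  have hBm : Measurable B := Finset.measurable_sum _ fun y _ =>
    (Real.measurable_exp.comp ((continuous_f hf).measurable.comp (measurable_lin' φ y))).const_mul _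
  have hBpos : ∀ s, 0 < B s := fun s => sum_pos' fun y => mul_pos (hp0 y) (Real.exp_pos _)
  have hBlow : ∀ s, Real.exp (-C) ≤ B s := by
    intro s
    calc Real.exp (-C) = ∑ y, p y * Real.exp (-C) := by rw [← Finset.sum_mul, hp1, one_mul]
      _ ≤ B s := Finset.sum_le_sum fun y _ => mul_le_mul_of_nonneg_left
          (Real.exp_le_exp.2 (abs_le.1 (hf.b0 _)).1) (hp0 y).le
  set u : Y → (K → ℝ) → ℝ := fun y s => p y * (Real.exp (f (lin φ s y)) *
    (δ / 2 * f2 (lin φ s y))) / B s with hu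
  have hum : ∀ y, Measurable (u y) := by
    intro y
    have m0 := (continuous_f hf).measurable.comp (measurable_lin' φ y)
    have m2 := (continuous_f2 hf).measurable.comp (measurable_lin' φ y)
    exact (((Real.measurable_exp.comp m0).mul (m2.const_mul _)).const_mul _).div hBm
  have hub : ∀ y s, |u y s| ≤ p y * (Real.exp C * (δ / 2 * C)) * Real.exp C := by
    intro y s
    have hp0' := (hp0 y).le
    have e1 : (B s)⁻¹ ≤ Real.exp C := by
      rw [← neg_neg C, Real.exp_neg (-C)]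
      exact inv_anti₀ (Real.exp_pos _) (hBlow s)
    rw [hu]
    simp only
    rw [div_eq_mul_inv, abs_mul, abs_mul, abs_mul, abs_mul, abs_of_pos (hp0 y),
      Real.abs_exp, abs_of_nonneg (by positivity : 0 ≤ δ / 2), abs_of_pos (inv_pos.2 (hBpos s))]
    have e2 := Real.exp_le_exp.2 (abs_le.1 (hf.b0 (lin φ s y))).2
    have e3 := hf.b2 (lin φ s y)
    have hi0 := (inv_pos.2 (hBpos s)).le
    gcongr
  have hui : ∀ y, Integrable (u y) (gM K) := fun y =>
    Integrable.mono' (integrable_const _) (hum y).aestronglyMeasurable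
      (Filter.Eventually.of_forall fun s => hub y s)
  have hvi : ∀ y, Integrable (fun t : K' → ℝ => (lin ψ t y) ^ 2 - 1) (gM K') := by
    intro y
    have h1 : Integrable (fun x : ℝ => x ^ 2 - 1) (gaussianReal 0 1) :=
      ((memLp_id_gaussianReal (μ := 0) (v := 1) 2).integrable_sq).sub (integrable_const _)
    rw [← law_lin ψ y (hψ y)] at h1
    exact (integrable_map_measure (by fun_prop) (measurable_lin' ψ y).aemeasurable).1 h1
  have hv0 : ∀ y, ∫ t : K' → ℝ, ((lin ψ t y) ^ 2 - 1) ∂(gM K') = 0 := by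
    intro y
    have h1 := integral_sq_sub_one
    rw [← law_lin ψ y (hψ y), integral_map (measurable_lin' ψ y).aemeasurable
      (by fun_prop)] at h1
    exact h1
  have hMe : ∀ g, Mn g = ∑ y, u y g.1 * ((lin ψ g.2 y) ^ 2 - 1) := by
    intro g
    rw [hMn]
    simp only
    rw [Finset.sum_div]
    refine Finset.sum_congr rfl fun y _ => ?_
    rw [hu]
    simp only
    ring
  have hMi : Integrable Mn ((gM K).prod (gM K')) := by
    have : Mn = fun g => ∑ y, u y g.1 * ((lin ψ g.2 y) ^ 2 - 1) := funext hMe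
    rw [this]
    exact integrable_finsetSum _ fun y _ => (hui y).mul_prod (hvi y)
  have hM0 : ∫ g, Mn g ∂((gM K).prod (gM K')) = 0 := by
    have : Mn = fun g => ∑ y, u y g.1 * ((lin ψ g.2 y) ^ 2 - 1) := funext hMe
    rw [this, integral_finsetSum _ fun y _ => (hui y).mul_prod (hvi y)]
    refine Finset.sum_eq_zero fun y _ => ?_
    rw [integral_prod_mul (u y) (fun t : K' → ℝ => (lin ψ t y) ^ 2 - 1), hv0 y, mul_zero]
  -- conclusion
  have hr3 : √δ ^ 3 = δ * √δ := by
    calc √δ ^ 3 = √δ ^ 2 * √δ := by ring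
      _ = δ * √δ := by rw [Real.sq_sqrt h0]
  rw [← integral_sub hiX hiZ]
  have e1 : ∫ g, (Real.log (∑ y, w y * Real.exp (X g y)) - Real.log (∑ y, w y * Real.exp (Z g y)))
        ∂((gM K).prod (gM K'))
      = ∫ g, (Real.log (∑ y, w y * Real.exp (X g y)) - Real.log (∑ y, w y * Real.exp (Z g y))
        - Mn g) ∂((gM K).prod (gM K')) := by
    have e2 := integral_sub (hiX.sub hiZ) hMi
    rw [hM0, sub_zero] at e2
    exact e2.symm
  rw [e1, ← Real.norm_eq_abs]
  refine (norm_integral_le_of_norm_le (g := fun g => 2 * √δ ^ 3 * ∑ y, p y * Qf g y ^ 4) ?_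
    (Filter.Eventually.of_forall fun g => hpt g)).trans ?_
  · exact (integrable_finsetSum _ fun y _ => hiQ y).const_mul _
  · rw [integral_const_mul, integral_finsetSum _ fun y _ => hiQ y]
    simp_rw [hQint]
    rw [← Finset.sum_mul, hp1, one_mul, hr3]
    apply le_of_eq
    ring

open Lin in
/-- Many patterns (Lindeberg). -/
theorem lin_many {C : ℝ} {f f1 f2 f3 : ℝ → ℝ} (hf : CB3 C f f1 f2 f3) :
    ∃ D : ℝ, ∀ (M : ℕ) (K K' Y : Type) [Fintype K] [Fintype K'] [Fintype Y] [DecidableEq K]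
      [DecidableEq K'] (w : Y → ℝ) (φ : Y → K → ℝ) (ψ : Y → K' → ℝ), (∀ y, 0 < w y) →
      Nonempty Y → (∀ y, ∑ i, φ y i ^ 2 = 1) → (∀ y, ∑ i, ψ y i ^ 2 = 1) →
      ∀ δ : ℝ, 0 ≤ δ → δ ≤ 1 →
      |(∫ g : Fin M → (K → ℝ) × (K' → ℝ), Real.log (∑ y, w y * Real.exp (∑ a,
          f (√(1 - δ) * lin φ (g a).1 y + √δ * lin ψ (g a).2 y)))
          ∂(Measure.pi fun _ => (gM K).prod (gM K'))) -
        ∫ g : Fin M → (K → ℝ) × (K' → ℝ), Real.log (∑ y, w y * Real.exp (∑ a,
          linE δ f f1 f2 (lin φ (g a).1 y) (lin ψ (g a).2 y)))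
          ∂(Measure.pi fun _ => (gM K).prod (gM K'))| ≤ D * (M * (δ * √δ)) := by
  obtain ⟨D, hD⟩ := lin_one hf
  refine ⟨D, ?_⟩
  intro M K K' Y _ _ _ _ _ w φ ψ hw hY hφ hψ δ h0 h1
  have h := replace_many ((gM K).prod (gM K'))
    (x := fun g y => f (√(1 - δ) * lin φ g.1 y + √δ * lin ψ g.2 y))
    (z := fun g y => linE δ f f1 f2 (lin φ g.1 y) (lin ψ g.2 y))
    (fun y => integrable_xE hf δ φ ψ y) (fun y => integrable_zE hf h0 h1 hφ hψ y)
    (ε := D * (δ * √δ)) (fun w' hw' => hD K K' Y w' φ ψ hw' hY hφ hψ δ h0 h1) M w hw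
  calc _ ≤ (M : ℝ) * (D * (δ * √δ)) := h
    _ = _ := by ring

end Vale.Agent.P157.Par
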