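import Vale.Agent.P157.ParCubeDefs
import Vale.Agent.P157.ParLin
import Vale.Agent.P157.RemBasic

/-! General lemmas on Gaussian perturbations of log-partition functions. -/

open MeasureTheory ProbabilityTheory Filter Topology

namespace Vale.Agent.P157.Par

open Vale.Agent.P367.GT (gM)

set_option linter.unusedSectionVars false

namespace Cube

section gen

variable {Y K K' K'' : Type} [Fintype Y] [Nonempty Y] [Fintype K] [Fintype K'] [Fintype K'']
  [DecidableEq Y] [DecidableEq K] [DecidableEq K'] [DecidableEq K'']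

lemma integrable_lin (U : Y → K → ℝ) (y : Y) : Integrable (fun ξ : K → ℝ => lin U ξ y) (gM K) := by
  unfold lin
  exact integrable_finsetSum _ fun c _ => (integrable_coord_gM c).const_mul _

lemma integral_lin (U : Y → K → ℝ) (y : Y) : ∫ ξ, lin U ξ y ∂(gM K) = 0 := by
  unfold lin
  rw [integral_finsetSum _ fun c _ => (integrable_coord_gM c).const_mul _]
  refine Finset.sum_eq_zero fun c _ => ?_
  rw [integral_const_mul]
  have h := integral_comp_eval (μ := fun _ : K => gaussianReal 0 1) (i := c) (f := fun x : ℝ => x)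
    (by fun_prop)
  have h2 : ∫ ξ : K → ℝ, ξ c ∂(gM K) = 0 := by
    rw [show (∫ ξ : K → ℝ, ξ c ∂(gM K)) = ∫ x, x ∂(gaussianReal 0 1) from h,
      integral_id_gaussianReal]
  rw [h2, mul_zero]

lemma integral_exp_lin (U : Y → K → ℝ) (y : Y) :
    ∫ ξ, Real.exp (lin U ξ y) ∂(gM K) = Real.exp ((∑ c, U y c ^ 2) / 2) := by
  have e1 : ∀ ξ : K → ℝ, Real.exp (lin U ξ y) = ∏ c, Real.exp (U y c * ξ c) := by
    intro ξ
    unfold lin
    rw [Real.exp_sum]
  simp_rw [e1]
  rw [integral_fintype_prod_eq_prod (μ := fun _ : K => gaussianReal 0 1)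
    (f := fun c (x : ℝ) => Real.exp (U y c * x))]
  have e2 : ∀ t : ℝ, ∫ x : ℝ, Real.exp (t * x) ∂(gaussianReal 0 1) = Real.exp (t ^ 2 / 2) := by
    intro t
    have h := mgf_gaussianReal (X := id) (p := gaussianReal 0 1) (μ := 0) (v := 1)
      (by simp) t
    unfold mgf at h
    simp only [id_eq] at h
    rw [h]
    congr 1
    push_cast
    ring
  simp_rw [e2]
  rw [← Real.exp_sum, Finset.sum_div]

lemma integrable_exp_lin (U : Y → K → ℝ) (y : Y) :
    Integrable (fun ξ => Real.exp (lin U ξ y)) (gM K) := by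
  by_contra h
  have h1 := integral_exp_lin U y
  rw [integral_undef h] at h1
  exact (Real.exp_pos _).ne h1

/-- Jensen, both sides. -/
lemma jensen {w : Y → ℝ} (hw : ∀ y, 0 < w y) (U : Y → K → ℝ) {B : ℝ}
    (hB : ∀ y, ∑ c, U y c ^ 2 ≤ B) :
    Real.log (∑ y, w y) ≤ ∫ ξ, Real.log (∑ y, w y * Real.exp (lin U ξ y)) ∂(gM K) ∧
    ∫ ξ, Real.log (∑ y, w y * Real.exp (lin U ξ y)) ∂(gM K) ≤ Real.log (∑ y, w y) + B / 2 := by
  have hW := Lin.sum_pos' hw
  have hi : Integrable (fun ξ => Real.log (∑ y, w y * Real.exp (lin U ξ y))) (gM K) :=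
    Lin.integrable_logsum hw fun y => integrable_lin U y
  constructor
  · have h1 : ∀ ξ, Real.log (∑ y, w y) + (∑ y, w y * lin U ξ y) / (∑ y, w y) ≤
        Real.log (∑ y, w y * Real.exp (lin U ξ y)) := by
      intro ξ
      set W := ∑ y, w y with hWd
      set m := (∑ y, w y * lin U ξ y) / W with hm
      have h2 : W ≤ ∑ y, w y * Real.exp (lin U ξ y - m) := by
        have h3 : ∑ y, w y * (lin U ξ y - m + 1) ≤ ∑ y, w y * Real.exp (lin U ξ y - m) :=
          Finset.sum_le_sum fun y _ => mul_le_mul_of_nonneg_left (Real.add_one_le_exp _) (hw y).le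
        have h4 : ∑ y, w y * (lin U ξ y - m + 1) = W := by
          have : ∀ y, w y * (lin U ξ y - m + 1) = w y * lin U ξ y - w y * m + w y := fun y => by
            ring
          simp_rw [this]
          rw [Finset.sum_add_distrib, Finset.sum_sub_distrib, ← Finset.sum_mul, ← hWd, hm]
          field_simp
          ring
        rwa [h4] at h3
      have h5 : ∑ y, w y * Real.exp (lin U ξ y - m) =
          (∑ y, w y * Real.exp (lin U ξ y)) * Real.exp (-m) := by
        rw [Finset.sum_mul]
        refine Finset.sum_congr rfl fun y _ => ?_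
        rw [mul_assoc, ← Real.exp_add]
        rfl
      rw [h5] at h2
      have hS : 0 < ∑ y, w y * Real.exp (lin U ξ y) :=
        Lin.sum_pos' fun y => mul_pos (hw y) (Real.exp_pos _)
      have h6 := Real.log_le_log hW h2
      rw [Real.log_mul hS.ne' (Real.exp_pos _).ne', Real.log_exp] at h6
      linarith
    have hi2 : Integrable (fun ξ => (∑ y, w y * lin U ξ y) / (∑ y, w y)) (gM K) :=
      (integrable_finsetSum _ fun y _ => (integrable_lin U y).const_mul _).div_const _
    have h7 := integral_mono ((integrable_const (Real.log (∑ y, w y))).add hi2) hi h1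
    simp only [Pi.add_apply] at h7
    rw [integral_add (integrable_const _) hi2, integral_div,
      integral_finsetSum _ fun y _ => (integrable_lin U y).const_mul _] at h7
    simp_rw [integral_const_mul, integral_lin, mul_zero] at h7
    simpa using h7
  · set T := (∑ y, w y) * Real.exp (B / 2) with hT
    have hT0 : 0 < T := by positivity
    have h1 : ∀ ξ, Real.log (∑ y, w y * Real.exp (lin U ξ y)) ≤
        Real.log T + ((∑ y, w y * Real.exp (lin U ξ y)) / T - 1) := by
      intro ξ
      have hS : 0 < ∑ y, w y * Real.exp (lin U ξ y) :=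
        Lin.sum_pos' fun y => mul_pos (hw y) (Real.exp_pos _)
      have h2 := Real.log_le_sub_one_of_pos (div_pos hS hT0)
      rw [Real.log_div hS.ne' hT0.ne'] at h2
      linarith
    have hi1 : Integrable (fun ξ => ∑ y, w y * Real.exp (lin U ξ y)) (gM K) :=
      integrable_finsetSum _ fun y _ => (integrable_exp_lin U y).const_mul _
    have hi2 : Integrable (fun ξ => (∑ y, w y * Real.exp (lin U ξ y)) / T - 1) (gM K) :=
      (hi1.div_const _).sub (integrable_const _)
    have h3 := integral_mono hi ((integrable_const (Real.log T)).add hi2) h1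
    simp only [Pi.add_apply] at h3
    rw [integral_add (integrable_const _) hi2, integral_sub (hi1.div_const _) (integrable_const _),
      integral_div, integral_finsetSum _ fun y _ => (integrable_exp_lin U y).const_mul _] at h3
    simp_rw [integral_const_mul, integral_exp_lin] at h3
    have h4 : (∑ y, w y * Real.exp ((∑ c, U y c ^ 2) / 2)) / T ≤ 1 := by
      rw [div_le_one hT0, hT, Finset.sum_mul]
      refine Finset.sum_le_sum fun y _ => mul_le_mul_of_nonneg_left ?_ (hw y).le
      exact Real.exp_le_exp.2 (by linarith [hB y])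
    have h5 : Real.log T = Real.log (∑ y, w y) + B / 2 := by
      rw [hT, Real.log_mul hW.ne' (Real.exp_pos _).ne', Real.log_exp]
    simp only [integral_const, probReal_univ, smul_eq_mul, one_mul] at h3
    linarith

/-- Integration over a sum of index sets. -/
lemma integral_sum_index (U : Y → K → ℝ) (V : Y → K' → ℝ) (F : (Y → ℝ) → ℝ) :
    ∫ ζ, F (lin (fun y => Sum.elim (U y) (V y)) ζ) ∂(gM (K ⊕ K')) =
      ∫ q, F (fun y => lin U q.1 y + lin V q.2 y) ∂((gM K).prod (gM K')) := by
  have mp := measurePreserving_sumPiEquivProdPi (X := fun _ : K ⊕ K' => ℝ)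
    (fun _ : K ⊕ K' => gaussianReal 0 1)
  have e1 : ∀ ζ : K ⊕ K' → ℝ, F (lin (fun y => Sum.elim (U y) (V y)) ζ) =
      (fun q : (K → ℝ) × (K' → ℝ) => F (fun y => lin U q.1 y + lin V q.2 y))
        (MeasurableEquiv.sumPiEquivProdPi (fun _ : K ⊕ K' => ℝ) ζ) := by
    intro ζ
    simp only
    congr 1
    funext y
    simp only [lin, Fintype.sum_sum_type, Sum.elim_inl, Sum.elim_inr]
    rfl
  simp_rw [e1]
  exact mp.integral_comp' (g := fun q : (K → ℝ) × (K' → ℝ) =>
    F (fun y => lin U q.1 y + lin V q.2 y))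

lemma gram_elim (U : Y → K → ℝ) (V : Y → K' → ℝ) (a b : Y) :
    gram (fun y => Sum.elim (U y) (V y)) (fun y => Sum.elim (U y) (V y)) a b =
      gram U U a b + gram V V a b := by
  simp only [gram, Fintype.sum_sum_type, Sum.elim_inl, Sum.elim_inr]

/-- A process whose covariance is larger than the one of `U` by the one of `V`. -/
lemma add_cov {w : Y → ℝ} (hw : ∀ y, 0 < w y) {U : Y → K → ℝ} {V : Y → K' → ℝ}
    {T : Y → K'' → ℝ} (hT : ∀ a b, gram T T a b = gram U U a b + gram V V a b) {B : ℝ}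
    (hB : ∀ y, ∑ c, V y c ^ 2 ≤ B) :
    ∫ ξ, Real.log (∑ y, w y * Real.exp (lin U ξ y)) ∂(gM K) ≤
      ∫ ξ, Real.log (∑ y, w y * Real.exp (lin T ξ y)) ∂(gM K'') ∧
    ∫ ξ, Real.log (∑ y, w y * Real.exp (lin T ξ y)) ∂(gM K'') ≤
      ∫ ξ, Real.log (∑ y, w y * Real.exp (lin U ξ y)) ∂(gM K) + B / 2 := by
  have hF : Measurable fun z : Y → ℝ => Real.log (∑ y, w y * Real.exp (z y)) := by fun_prop
  have h1 := integral_lin_congr (U := T) (V := fun y => Sum.elim (U y) (V y))
    (fun a b => by rw [hT, gram_elim]) hF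
  have h2 := integral_sum_index U V (fun z => Real.log (∑ y, w y * Real.exp (z y)))
  have hi : Integrable (fun q : (K → ℝ) × (K' → ℝ) => Real.log (∑ y, w y *
      Real.exp (lin U q.1 y + lin V q.2 y))) ((gM K).prod (gM K')) :=
    Lin.integrable_logsum hw fun y => ((integrable_lin U y).comp_fst _).add
      ((integrable_lin V y).comp_snd _)
  rw [h2, integral_prod _ hi] at h1
  have hJ : ∀ ξ : K → ℝ, Real.log (∑ y, w y * Real.exp (lin U ξ y)) ≤
      ∫ η, Real.log (∑ y, w y * Real.exp (lin U ξ y + lin V η y)) ∂(gM K') ∧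
      ∫ η, Real.log (∑ y, w y * Real.exp (lin U ξ y + lin V η y)) ∂(gM K') ≤
      Real.log (∑ y, w y * Real.exp (lin U ξ y)) + B / 2 := by
    intro ξ
    have h := jensen (w := fun y => w y * Real.exp (lin U ξ y))
      (fun y => mul_pos (hw y) (Real.exp_pos _)) V hB
    simp_rw [mul_assoc, ← Real.exp_add] at h
    exact h
  have hiU : Integrable (fun ξ => Real.log (∑ y, w y * Real.exp (lin U ξ y))) (gM K) :=
    Lin.integrable_logsum hw fun y => integrable_lin U y
  have hi1 := hi.integral_prod_left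
  constructor
  · rw [h1]
    exact integral_mono hiU hi1 fun ξ => (hJ ξ).1
  · rw [h1]
    have h3 := integral_mono hi1 (hiU.add (integrable_const (B / 2))) fun ξ => (hJ ξ).2
    simp only [Pi.add_apply] at h3
    rw [integral_add hiU (integrable_const _)] at h3
    simpa using h3

/-- Comparison of two processes whose covariances both exceed the one of `U` by little. -/
lemma compare_cov {K3 K4 : Type} [Fintype K3] [DecidableEq K3] [Fintype K4] [DecidableEq K4]
    {w : Y → ℝ} (hw : ∀ y, 0 < w y) {U : Y → K → ℝ} {V : Y → K' → ℝ} {V' : Y → K'' → ℝ}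
    {T : Y → K3 → ℝ} {T' : Y → K4 → ℝ}
    (hT : ∀ a b, gram T T a b = gram U U a b + gram V V a b)
    (hT' : ∀ a b, gram T' T' a b = gram U U a b + gram V' V' a b) {B : ℝ}
    (hB : ∀ y, ∑ c, V y c ^ 2 ≤ B) (hB' : ∀ y, ∑ c, V' y c ^ 2 ≤ B) :
    |∫ ξ, Real.log (∑ y, w y * Real.exp (lin T ξ y)) ∂(gM K3) -
      ∫ ξ, Real.log (∑ y, w y * Real.exp (lin T' ξ y)) ∂(gM K4)| ≤ B / 2 := by
  have h1 := add_cov hw hT hB
  have h2 := add_cov hw hT' hB'
  rw [abs_le]
  constructor <;> linarith [h1.1, h1.2, h2.1, h2.2]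

end gen

section law

variable {Y : Type} [Fintype Y]

/-- Patterns whose fields have the same law give the same integrals. -/
lemma pi_law {Ω₁ Ω₂ : Type} [MeasurableSpace Ω₁] [MeasurableSpace Ω₂] {μ₁ : Measure Ω₁}
    {μ₂ : Measure Ω₂} [IsProbabilityMeasure μ₁] [IsProbabilityMeasure μ₂] {T₁ : Ω₁ → Y → ℝ}
    {T₂ : Ω₂ → Y → ℝ} (h₁ : Measurable T₁) (h₂ : Measurable T₂) (h : μ₁.map T₁ = μ₂.map T₂)
    (M : ℕ) {F : (Fin M → Y → ℝ) → ℝ} (hF : Measurable F) :
    ∫ g : Fin M → Ω₁, F (fun a => T₁ (g a)) ∂(Measure.pi fun _ => μ₁) =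
      ∫ g : Fin M → Ω₂, F (fun a => T₂ (g a)) ∂(Measure.pi fun _ => μ₂) := by
  have e₁ : IsProbabilityMeasure (μ₁.map T₁) := Measure.isProbabilityMeasure_map h₁.aemeasurable
  have e₂ : IsProbabilityMeasure (μ₂.map T₂) := Measure.isProbabilityMeasure_map h₂.aemeasurable
  have p₁ := Measure.pi_map_pi (μ := fun _ : Fin M => μ₁) (f := fun _ => T₁)
    (fun _ => h₁.aemeasurable)
  have p₂ := Measure.pi_map_pi (μ := fun _ : Fin M => μ₂) (f := fun _ => T₂)
    (fun _ => h₂.aemeasurable)
  have m₁ : Measurable fun g : Fin M → Ω₁ => fun a => T₁ (g a) := by fun_prop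
  have m₂ : Measurable fun g : Fin M → Ω₂ => fun a => T₂ (g a) := by fun_prop
  have i₁ := integral_map (μ := Measure.pi fun _ : Fin M => μ₁) m₁.aemeasurable
    (f := F) hF.aestronglyMeasurable
  have i₂ := integral_map (μ := Measure.pi fun _ : Fin M => μ₂) m₂.aemeasurable
    (f := F) hF.aestronglyMeasurable
  rw [← i₁, ← i₂]
  congr 1
  rw [p₁, p₂, h]

end law

end Cube

end Vale.Agent.P157.Par
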