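import Vale.Agent.P157.ParCube0

/-! One more pattern, and the cost of the perturbation. -/

open MeasureTheory ProbabilityTheory Filter Topology
open scoped RealInnerProductSpace

namespace Vale.Agent.P157.Par

open Vale.Agent.P367.GT (gM)

set_option linter.unusedSectionVars false

namespace Cube

/-- The coefficients of the perturbation. -/
noncomputable def cf (N : ℕ) {P : ℕ} (s : ℝ) (u : Fin P → ℝ) (x : Fin (N + 1) → Bool)
    (e : GI P (N + 1)) : ℝ :=
  s * u e.1 * (1 / 2) ^ ((e.1 : ℕ) + 1) * ∏ r, cubeφ N x (e.2 r)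

lemma sum_cubeφ (N : ℕ) (x y : Fin (N + 1) → Bool) :
    ∑ i, cubeφ N x i * cubeφ N y i = ⟪cubeφ N x, cubeφ N y⟫ := by
  rw [PiLp.inner_apply]
  exact Finset.sum_congr rfl fun i _ => by simp [mul_comm]

lemma sum_cubeφ_sq (N : ℕ) (x : Fin (N + 1) → Bool) : ∑ i, cubeφ N x i ^ 2 = 1 := by
  have h := sum_cubeφ N x x
  rw [real_inner_self_eq_norm_sq, norm_cubeφ] at h
  simp_rw [sq]
  rw [h]
  norm_num

/-- The covariance of the perturbation. -/
lemma gram_cf (N : ℕ) {P : ℕ} (s : ℝ) (u : Fin P → ℝ) (x y : Fin (N + 1) → Bool) :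
    gram (cf N s u) (cf N s u) x y =
      ∑ p : Fin P, (s * u p * (1 / 2) ^ ((p : ℕ) + 1)) ^ 2 *
        (∑ i, cubeφ N x i * cubeφ N y i) ^ ((p : ℕ) + 1) := by
  unfold gram cf
  rw [Fintype.sum_sigma]
  refine Finset.sum_congr rfl fun p _ => ?_
  rw [Fintype.sum_pow, Finset.mul_sum]
  refine Finset.sum_congr rfl fun k _ => ?_
  rw [Finset.prod_mul_distrib]
  simp only
  ring

lemma sum_cf_sq (N : ℕ) {P : ℕ} (s : ℝ) (u : Fin P → ℝ) (x : Fin (N + 1) → Bool) :
    ∑ e, cf N s u x e ^ 2 = ∑ p : Fin P, (s * u p * (1 / 2) ^ ((p : ℕ) + 1)) ^ 2 := by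
  have h := gram_cf N s u x x
  unfold gram at h
  simp_rw [← sq] at h
  rw [h]
  refine Finset.sum_congr rfl fun p _ => ?_
  rw [sum_cubeφ_sq, one_pow, mul_one]

lemma geo (P : ℕ) : ∑ p : Fin P, ((1 : ℝ) / 4) ^ ((p : ℕ) + 1) ≤ 1 / 3 := by
  rw [Fin.sum_univ_eq_sum_range (fun p => ((1 : ℝ) / 4) ^ (p + 1))]
  have h : ∀ n : ℕ, ∑ p ∈ Finset.range n, ((1 : ℝ) / 4) ^ (p + 1) =
      (1 - (1 / 4) ^ n) / 3 := by
    intro n
    induction n with
    | zero => simp
    | succ n ih => rw [Finset.sum_range_succ, ih]; ring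
  rw [h]
  have : (0 : ℝ) ≤ (1 / 4) ^ P := by positivity
  linarith

lemma coef_sq_le {P : ℕ} {s : ℝ} {u : Fin P → ℝ} (hu : ∀ q, 0 ≤ u q ∧ u q ≤ 2) (p : Fin P) :
    (s * u p * (1 / 2) ^ ((p : ℕ) + 1)) ^ 2 ≤ 4 * s ^ 2 * (1 / 4) ^ ((p : ℕ) + 1) := by
  have h1 : u p ^ 2 ≤ 4 := by nlinarith [(hu p).1, (hu p).2]
  have h2 : ((1 : ℝ) / 2) ^ ((p : ℕ) + 1) * (1 / 2) ^ ((p : ℕ) + 1) = (1 / 4) ^ ((p : ℕ) + 1) := by
    rw [← mul_pow]; norm_num
  have h3 : (0 : ℝ) ≤ (1 / 4) ^ ((p : ℕ) + 1) := by positivity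
  calc (s * u p * (1 / 2) ^ ((p : ℕ) + 1)) ^ 2
      = u p ^ 2 * (s ^ 2 * ((1 / 2) ^ ((p : ℕ) + 1) * (1 / 2) ^ ((p : ℕ) + 1))) := by ring
    _ ≤ 4 * (s ^ 2 * ((1 / 2) ^ ((p : ℕ) + 1) * (1 / 2) ^ ((p : ℕ) + 1))) := by
        refine mul_le_mul_of_nonneg_right h1 ?_
        rw [h2]; positivity
    _ = _ := by rw [h2]; ring

lemma sum_cf_sq_le (N : ℕ) {P : ℕ} {s : ℝ} {u : Fin P → ℝ} (hu : ∀ q, 0 ≤ u q ∧ u q ≤ 2)
    (x : Fin (N + 1) → Bool) : ∑ e, cf N s u x e ^ 2 ≤ 2 * s ^ 2 := by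
  rw [sum_cf_sq]
  refine (Finset.sum_le_sum fun p _ => coef_sq_le hu p).trans ?_
  rw [← Finset.mul_sum]
  nlinarith [geo P, sq_nonneg s]

/-- The law of the patterns. -/
noncomputable abbrev pm (M N : ℕ) : Measure (Fin M → Fin (N + 1) → ℝ) :=
  Measure.pi fun _ => gM (Fin (N + 1))

/-- The energy. -/
noncomputable def EE (f : ℝ → ℝ) {N M P : ℕ} (s : ℝ) (u : Fin P → ℝ)
    (ω : Fin M → Fin (N + 1) → ℝ) (g : GI P (N + 1) → ℝ) (y : Fin (N + 1) → Bool) : ℝ :=
  ∑ a, f (cubeS (ω a) y) + lin (cf N s u) g y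

section base

variable {f : ℝ → ℝ} (hf : Measurable f) (C : ℝ) (hC : ∀ x, |f x| ≤ C) (N M : ℕ) {P : ℕ} (s : ℝ)
  (u : Fin P → ℝ)

lemma gen_eq_cf (ω : Fin M → Fin (N + 1) → ℝ) (g : GI P (N + 1) → ℝ) (y : Fin (N + 1) → Bool) :
    gen ((cubeBase f hf C hC N M).H ω) ((cubeBase f hf C hC N M).coef P s u) g y =
      EE f s u ω g y := by
  unfold gen EE lin
  congr 1
  exact Finset.sum_congr rfl fun e _ => mul_comm _ _

lemma elz_eq : (cubeBase f hf C hC N M).elz s u =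
    ∫ z : (Fin M → Fin (N + 1) → ℝ) × (GI P (N + 1) → ℝ),
      Real.log (∑ y, Real.exp (EE f s u z.1 z.2 y)) ∂((pm M N).prod (gM (GI P (N + 1)))) :=
  integral_congr_ae (Filter.Eventually.of_forall fun z =>
    congrArg Real.log (Finset.sum_congr rfl fun y _ =>
      congrArg Real.exp (gen_eq_cf hf C hC N M s u z.1 z.2 y)))

lemma w_eq (z : (Fin M → Fin (N + 1) → ℝ) × (GI P (N + 1) → ℝ)) (y : Fin (N + 1) → Bool) :
    ((cubeBase f hf C hC N M).sys P s u).w z y =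
      Real.exp (EE f s u z.1 z.2 y) / ∑ y', Real.exp (EE f s u z.1 z.2 y') := by
  have h1 : ((cubeBase f hf C hC N M).sys P s u).w z y =
      Real.exp (gen ((cubeBase f hf C hC N M).H z.1) ((cubeBase f hf C hC N M).coef P s u) z.2 y) /
        ∑ y' : Fin (N + 1) → Bool, Real.exp (gen ((cubeBase f hf C hC N M).H z.1)
          ((cubeBase f hf C hC N M).coef P s u) z.2 y') := rfl
  rw [h1]
  have h2 := gen_eq_cf hf C hC N M s u z.1 z.2
  simp_rw [h2]

include hf hC in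
lemma integrable_fS {Ω : Type} [MeasurableSpace Ω] {μ : Measure Ω} [IsFiniteMeasure μ]
    {g : Ω → Fin (N + 1) → ℝ} (hg : Measurable g) (y : Fin (N + 1) → Bool) :
    Integrable (fun ω => f (cubeS (g ω) y)) μ := by
  refine Integrable.mono' (integrable_const C) ?_ (Filter.Eventually.of_forall fun _ => hC _)
  exact (hf.comp (by unfold cubeS; fun_prop)).aestronglyMeasurable

include hf hC in
lemma integrable_EE (y : Fin (N + 1) → Bool) : Integrable
    (fun z : (Fin M → Fin (N + 1) → ℝ) × (GI P (N + 1) → ℝ) => EE f s u z.1 z.2 y)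
    ((pm M N).prod (gM (GI P (N + 1)))) := by
  unfold EE
  refine Integrable.add ?_ ((integrable_lin (cf N s u) y).comp_snd _)
  exact integrable_finsetSum _ fun a _ => integrable_fS hf C hC N (by fun_prop) y

/-- log-sum-exp of integrable energies is integrable -/
lemma integrable_lse {Ω Y : Type} [MeasurableSpace Ω] [Fintype Y] [Nonempty Y] {μ : Measure Ω}
    [IsFiniteMeasure μ] {E : Ω → Y → ℝ} (hE : ∀ y, Integrable (fun ω => E ω y) μ) :
    Integrable (fun ω => Real.log (∑ y, Real.exp (E ω y))) μ := by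
  have h := Lin.integrable_logsum (w := fun _ : Y => 1) (fun _ => one_pos) hE
  simpa only [one_mul] using h

lemma log_ratio {Y : Type} [Fintype Y] [Nonempty Y] (E A : Y → ℝ) (hA : ∀ y, 0 < A y) :
    Real.log (∑ y, Real.exp (E y) * A y) = Real.log (∑ y, Real.exp (E y)) +
      Real.log (∑ y, Real.exp (E y) / (∑ y', Real.exp (E y')) * A y) := by
  have h1 : 0 < ∑ y, Real.exp (E y) := Lin.sum_pos' fun y => Real.exp_pos _
  have h2 : 0 < ∑ y, Real.exp (E y) / (∑ y', Real.exp (E y')) * A y :=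
    Lin.sum_pos' fun y => mul_pos (div_pos (Real.exp_pos _) h1) (hA y)
  rw [← Real.log_mul h1.ne' h2.ne', Finset.mul_sum]
  congr 1
  refine Finset.sum_congr rfl fun y _ => ?_
  field_simp

include hC in
lemma elz_pert' (hu : ∀ q, 0 ≤ u q ∧ u q ≤ 2) :
    |(cubeBase f hf C hC N M).elz s u -
      ∫ ω, Real.log (∑ y, Real.exp (∑ a, f (cubeS (ω a) y))) ∂(pm M N)| ≤ s ^ 2 := by
  rw [elz_eq]
  have hint : Integrable (fun z : (Fin M → Fin (N + 1) → ℝ) × (GI P (N + 1) → ℝ) =>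
      Real.log (∑ y, Real.exp (EE f s u z.1 z.2 y))) ((pm M N).prod (gM (GI P (N + 1)))) :=
    integrable_lse (integrable_EE hf C hC N M s u)
  rw [integral_prod _ hint]
  have hJ : ∀ ω : Fin M → Fin (N + 1) → ℝ,
      Real.log (∑ y, Real.exp (∑ a, f (cubeS (ω a) y))) ≤
        ∫ g, Real.log (∑ y, Real.exp (EE f s u ω g y)) ∂(gM (GI P (N + 1))) ∧
      ∫ g, Real.log (∑ y, Real.exp (EE f s u ω g y)) ∂(gM (GI P (N + 1))) ≤
        Real.log (∑ y, Real.exp (∑ a, f (cubeS (ω a) y))) + (2 * s ^ 2) / 2 := by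
    intro ω
    unfold EE
    simp_rw [Real.exp_add]
    exact jensen (fun y => Real.exp_pos _) (cf N s u) fun y => sum_cf_sq_le N hu y
  have hi1 : Integrable (fun ω : Fin M → Fin (N + 1) → ℝ =>
      Real.log (∑ y, Real.exp (∑ a, f (cubeS (ω a) y)))) (pm M N) :=
    integrable_lse fun y => integrable_finsetSum _ fun a _ =>
      integrable_fS hf C hC N (by fun_prop) y
  have hi2 := hint.integral_prod_left
  simp only at hi2 ⊢
  rw [← integral_sub hi2 hi1, ← Real.norm_eq_abs]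
  have hb : ∀ ω : Fin M → Fin (N + 1) → ℝ,
      ‖∫ g, Real.log (∑ y, Real.exp (EE f s u ω g y)) ∂(gM (GI P (N + 1))) -
      Real.log (∑ y, Real.exp (∑ a, f (cubeS (ω a) y)))‖ ≤ s ^ 2 := by
    intro ω
    rw [Real.norm_eq_abs, abs_le]
    have := hJ ω
    constructor <;> nlinarith [sq_nonneg s, this.1, this.2]
  have := norm_integral_le_of_norm_le_const (μ := pm M N) (Filter.Eventually.of_forall hb)
  simpa using this

lemma log_sum_cube (g : Fin M → Fin (N + 1) → ℝ) :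
    ((N : ℝ) + 1) * pressure (cube (N + 1)) f g =
      Real.log (∑ y, Real.exp (∑ a, f (cubeS (g a) y))) - (N + 1) * Real.log 2 := by
  unfold pressure
  rw [integral_cube]
  have e1 : ∀ (a : Fin M) (σ : Fin (N + 1) → Bool),
      (∑ i, g a i * spin σ i) / √((N + 1 : ℕ) : ℝ) = cubeS (g a) σ := by
    intro a σ
    unfold cubeS
    rw [Finset.sum_div]
    refine Finset.sum_congr rfl fun i _ => ?_
    have : cubeφ N σ i = sgn (σ i) / √((N : ℝ) + 1) := rfl
    rw [this]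
    have h2 : spin σ i = sgn (σ i) := rfl
    rw [h2]
    push_cast
    ring
  simp_rw [e1]
  have hS : 0 < ∑ y : Fin (N + 1) → Bool, Real.exp (∑ a, f (cubeS (g a) y)) :=
    Lin.sum_pos' fun y => Real.exp_pos _
  have h2 : Real.log (1 / 2) = -Real.log 2 := by rw [one_div, Real.log_inv]
  rw [Real.log_mul (by positivity) hS.ne', Real.log_pow, h2]
  push_cast
  field_simp
  ring

end base

end Cube

open Vale.Agent.P157.Par.Cube

/-- The cost of the perturbation. -/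
theorem elz_pert {f : ℝ → ℝ} (hf : Measurable f) (C : ℝ) (hC : ∀ x, |f x| ≤ C)
    (N M P : ℕ) (s : ℝ) (u : Fin P → ℝ) (_hs : 0 ≤ s) (hu : ∀ q, 0 ≤ u q ∧ u q ≤ 2) :
    |(cubeBase f hf C hC N M).elz s u - (N + 1) * Real.log 2 -
      ∫ g, ((N : ℝ) + 1) * pressure (cube (N + 1)) f g ∂(patterns M (N + 1))| ≤ s ^ 2 := by
  have h := elz_pert' hf C hC N M s u hu
  have e : ∫ g, ((N : ℝ) + 1) * pressure (cube (N + 1)) f g ∂(patterns M (N + 1)) =
      (∫ ω, Real.log (∑ y, Real.exp (∑ a, f (cubeS (ω a) y))) ∂(pm M N)) -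
        (N + 1) * Real.log 2 := by
    simp_rw [log_sum_cube]
    change ∫ g : Fin M → Fin (N + 1) → ℝ, _ ∂(pm M N) = _
    have hi1 : Integrable (fun ω : Fin M → Fin (N + 1) → ℝ =>
        Real.log (∑ y, Real.exp (∑ a, f (cubeS (ω a) y)))) (pm M N) :=
      integrable_lse fun y => integrable_finsetSum _ fun a _ =>
        integrable_fS hf C hC N (by fun_prop) y
    rw [integral_sub hi1 (integrable_const _)]
    simp
  rw [e]
  convert h using 2
  ring

/-- One more pattern. -/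
theorem pattern_increment {f : ℝ → ℝ} (hf : Measurable f) (C : ℝ) (hC : ∀ x, |f x| ≤ C)
    (N M P : ℕ) (s : ℝ) (u : Fin P → ℝ) :
    (cubeBase f hf C hC N (M + 1)).elz s u - (cubeBase f hf C hC N M).elz s u =
      ((cubeBase f hf C hC N M).sys P s u).dM f := by
  set μ := gM (Fin (N + 1)) with hμ
  set ν := gM (GI P (N + 1)) with hν
  -- the rearrangement of the variables
  have mp1 : MeasurePreserving (fun z : (Fin (M + 1) → Fin (N + 1) → ℝ) × (GI P (N + 1) → ℝ) =>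
      ((MeasurableEquiv.piFinSuccAbove (fun _ => Fin (N + 1) → ℝ) 0 z.1, z.2) :
        ((Fin (N + 1) → ℝ) × (Fin M → Fin (N + 1) → ℝ)) × (GI P (N + 1) → ℝ)))
      ((pm (M + 1) N).prod ν) ((μ.prod (pm M N)).prod ν) :=
    (measurePreserving_piFinSuccAbove (fun _ : Fin (M + 1) => μ) 0).prod (MeasurePreserving.id ν)
  have mp2 := measurePreserving_prodAssoc μ (pm M N) ν
  have mp3 := Measure.measurePreserving_swap (μ := μ) (ν := (pm M N).prod ν)
  have mp := mp3.comp (mp2.comp mp1)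
  have hF : Integrable (fun z : ((Fin M → Fin (N + 1) → ℝ) × (GI P (N + 1) → ℝ)) ×
      (Fin (N + 1) → ℝ) => Real.log (∑ y, Real.exp (EE f s u z.1.1 z.1.2 y + f (cubeS z.2 y))))
      (((pm M N).prod ν).prod μ) := by
    refine integrable_lse fun y => ?_
    refine Integrable.add ((integrable_EE hf C hC N M s u y).comp_fst _) ?_
    exact integrable_fS hf C hC N (by fun_prop) y
  have e1 : (cubeBase f hf C hC N (M + 1)).elz s u = ∫ z, Real.log (∑ y, Real.exp
        (EE f s u z.1.1 z.1.2 y + f (cubeS z.2 y))) ∂(((pm M N).prod ν).prod μ) := by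
    rw [← mp.map_eq, integral_map mp.measurable.aemeasurable
      (by rw [mp.map_eq]; exact hF.aestronglyMeasurable), elz_eq]
    refine integral_congr_ae (Filter.Eventually.of_forall fun z => ?_)
    change Real.log (∑ y, Real.exp (EE f s u z.1 z.2 y)) =
      Real.log (∑ y : Fin (N + 1) → Bool, Real.exp (EE f s u (fun i => z.1 i.succ) z.2 y +
        f (cubeS (z.1 0) y)))
    congr 1
    refine Finset.sum_congr rfl fun y _ => ?_
    congr 1
    unfold EE
    rw [Fin.sum_univ_succ]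
    ring
  have hlz : Integrable (fun z : (Fin M → Fin (N + 1) → ℝ) × (GI P (N + 1) → ℝ) =>
      Real.log (∑ y, Real.exp (EE f s u z.1 z.2 y))) ((pm M N).prod ν) :=
    integrable_lse (integrable_EE hf C hC N M s u)
  have e2 : (cubeBase f hf C hC N M).elz s u = ∫ z : ((Fin M → Fin (N + 1) → ℝ) ×
      (GI P (N + 1) → ℝ)) × (Fin (N + 1) → ℝ),
      Real.log (∑ y, Real.exp (EE f s u z.1.1 z.1.2 y)) ∂(((pm M N).prod ν).prod μ) := by
    rw [integral_fun_fst (μ := (pm M N).prod ν) (ν := μ)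
      (fun z => Real.log (∑ y, Real.exp (EE f s u z.1 z.2 y))), elz_eq]
    simp [hν]
  rw [e1, e2, ← integral_sub hF (hlz.comp_fst _)]
  change _ = ∫ z : ((Fin M → Fin (N + 1) → ℝ) × (GI P (N + 1) → ℝ)) × (Fin (N + 1) → ℝ),
    Real.log (∑ x : Fin (N + 1) → Bool, ((cubeBase f hf C hC N M).sys P s u).w z.1 x *
      Real.exp (f (cubeS z.2 x))) ∂(((pm M N).prod ν).prod μ)
  refine integral_congr_ae (Filter.Eventually.of_forall fun z => ?_)
  have h := log_ratio (EE f s u z.1.1 z.1.2) (fun y => Real.exp (f (cubeS z.2 y)))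
    fun y => Real.exp_pos _
  simp only [w_eq]
  simp_rw [← Real.exp_add] at h
  rw [h]
  ring

end Vale.Agent.P157.Par
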