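import Vale.Agent.P157.ParCube1

/-! Tools for the increment of one spin. -/

open MeasureTheory ProbabilityTheory Filter Topology
open scoped RealInnerProductSpace

namespace Vale.Agent.P157.Par

open Vale.Agent.P367.GT (gM)

set_option linter.unusedSectionVars false

namespace Cube

/-- The first spins. -/
def ini {N : ℕ} (y : Fin (N + 2) → Bool) : Fin (N + 1) → Bool := fun i => y i.castSucc

/-- The last spin. -/
def las {N : ℕ} (y : Fin (N + 2) → Bool) : Bool := y (Fin.last (N + 1))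

lemma sum_ini_las {N : ℕ} (F : (Fin (N + 1) → Bool) → Bool → ℝ) :
    ∑ y : Fin (N + 2) → Bool, F (ini y) (las y) = ∑ x, (F x true + F x false) := by
  rw [← (Fin.snocEquiv (fun _ : Fin (N + 2) => Bool)).sum_comp, Fintype.sum_prod_type_right]
  refine Finset.sum_congr rfl fun x _ => ?_
  rw [Fintype.sum_bool]
  have h : ∀ b, F (ini ((Fin.snocEquiv (fun _ : Fin (N + 2) => Bool)) (b, x)))
      (las ((Fin.snocEquiv (fun _ : Fin (N + 2) => Bool)) (b, x))) = F x b := by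
    intro b
    have h1 : ini ((Fin.snocEquiv (fun _ : Fin (N + 2) => Bool)) (b, x)) = x := by
      funext i
      simp [ini, Fin.snocEquiv]
    have h2 : las ((Fin.snocEquiv (fun _ : Fin (N + 2) => Bool)) (b, x)) = b := by
      simp [las, Fin.snocEquiv]
    rw [h1, h2]
  rw [h, h]

lemma cubeφ_castSucc {N : ℕ} (y : Fin (N + 2) → Bool) (i : Fin (N + 1)) :
    cubeφ (N + 1) y i.castSucc = √(1 - 1 / ((N : ℝ) + 2)) * cubeφ N (ini y) i := by
  have h1 : cubeφ (N + 1) y i.castSucc = sgn (y i.castSucc) / √(((N + 1 : ℕ) : ℝ) + 1) := rfl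
  have h2 : cubeφ N (ini y) i = sgn (y i.castSucc) / √((N : ℝ) + 1) := rfl
  have e1 : (((N + 1 : ℕ) : ℝ) + 1) = (N : ℝ) + 2 := by push_cast; ring
  have e2 : (1 : ℝ) - 1 / ((N : ℝ) + 2) = ((N : ℝ) + 1) / ((N : ℝ) + 2) := by
    field_simp; ring
  rw [h1, h2, e1, e2, Real.sqrt_div (by positivity)]
  have h3 : 0 < √((N : ℝ) + 1) := Real.sqrt_pos.2 (by positivity)
  field_simp

lemma cubeφ_last {N : ℕ} (y : Fin (N + 2) → Bool) :
    cubeφ (N + 1) y (Fin.last (N + 1)) = √(1 / ((N : ℝ) + 2)) * sgn (las y) := by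
  have h1 : cubeφ (N + 1) y (Fin.last (N + 1)) =
      sgn (las y) / √(((N + 1 : ℕ) : ℝ) + 1) := rfl
  have e1 : (((N + 1 : ℕ) : ℝ) + 1) = (N : ℝ) + 2 := by push_cast; ring
  rw [h1, e1, Real.sqrt_div (by positivity), Real.sqrt_one]
  ring

lemma dl_pos (N : ℕ) : (0 : ℝ) < 1 / ((N : ℝ) + 2) := by positivity

lemma dl_le (N : ℕ) : (1 : ℝ) / ((N : ℝ) + 2) ≤ 1 := by
  rw [div_le_one (by positivity)]
  have : (0 : ℝ) ≤ N := Nat.cast_nonneg N
  linarith

/-- the sum over the good monomials -/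
lemma good_sum {N P : ℕ} (s : ℝ) (u : Fin P → ℝ) (a b : Fin (N + 2) → Bool) :
    ∑ e : GI P (N + 2), (if ∀ r, e.2 r ≠ Fin.last (N + 1) then cf (N + 1) s u a e *
        cf (N + 1) s u b e else 0) =
      ∑ p : Fin P, (s * u p * (1 / 2) ^ ((p : ℕ) + 1)) ^ 2 *
        ((1 - 1 / ((N : ℝ) + 2)) * ∑ i, cubeφ N (ini a) i * cubeφ N (ini b) i) ^ ((p : ℕ) + 1) := by
  rw [Fintype.sum_sigma]
  refine Finset.sum_congr rfl fun p _ => ?_
  set m : Fin (N + 2) → ℝ := fun i => if i = Fin.last (N + 1) then 0 else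
    cubeφ (N + 1) a i * cubeφ (N + 1) b i with hm
  have h1 : ∀ k : Fin ((p : ℕ) + 1) → Fin (N + 2),
      (if ∀ r, k r ≠ Fin.last (N + 1) then cf (N + 1) s u a ⟨p, k⟩ * cf (N + 1) s u b ⟨p, k⟩
        else 0) = (s * u p * (1 / 2) ^ ((p : ℕ) + 1)) ^ 2 * ∏ r, m (k r) := by
    intro k
    split_ifs with h
    · have : ∏ r, m (k r) = (∏ r, cubeφ (N + 1) a (k r)) * ∏ r, cubeφ (N + 1) b (k r) := by
        rw [← Finset.prod_mul_distrib]
        refine Finset.prod_congr rfl fun r _ => ?_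
        rw [hm]
        simp only [if_neg (h r)]
      rw [this]
      unfold cf
      ring
    · push Not at h
      obtain ⟨r, hr⟩ := h
      have : ∏ r, m (k r) = 0 := Finset.prod_eq_zero (Finset.mem_univ r) (by rw [hm]; simp [hr])
      rw [this, mul_zero]
  simp only
  rw [Finset.sum_congr rfl fun k _ => h1 k, ← Finset.mul_sum, ← Fintype.sum_pow]
  congr 2
  rw [Fin.sum_univ_castSucc, hm]
  simp only [if_true, add_zero]
  rw [Finset.mul_sum]
  refine Finset.sum_congr rfl fun i _ => ?_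
  rw [if_neg (Fin.castSucc_ne_last i), cubeφ_castSucc, cubeφ_castSucc]
  have h2 : √(1 - 1 / ((N : ℝ) + 2)) * √(1 - 1 / ((N : ℝ) + 2)) = 1 - 1 / ((N : ℝ) + 2) :=
    Real.mul_self_sqrt (by linarith [dl_le N])
  linear_combination (cubeφ N (ini a) i * cubeφ N (ini b) i) * h2

lemma pow_le_bd {δ : ℝ} (_h0 : 0 ≤ δ) (h1 : δ ≤ 1) (n : ℕ) : 1 - (1 - δ) ^ n ≤ n * δ := by
  have h := one_add_mul_le_pow (a := -δ) (by linarith) n
  rw [← sub_eq_add_neg] at h
  linarith

lemma bd_sum {P : ℕ} {s δ : ℝ} {u : Fin P → ℝ} (hu : ∀ q, 0 ≤ u q ∧ u q ≤ 2) (h0 : 0 ≤ δ)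
    (h1 : δ ≤ 1) :
    ∑ p : Fin P, (s * u p * (1 / 2) ^ ((p : ℕ) + 1)) ^ 2 * (1 - (1 - δ) ^ ((p : ℕ) + 1)) ≤
      4 * s ^ 2 * δ := by
  have h2 : ∀ p : Fin P, (s * u p * (1 / 2) ^ ((p : ℕ) + 1)) ^ 2 *
      (1 - (1 - δ) ^ ((p : ℕ) + 1)) ≤ 4 * s ^ 2 * δ * (1 / 2) ^ ((p : ℕ) + 1) := by
    intro p
    have e1 := coef_sq_le (s := s) hu p
    have e2 := pow_le_bd h0 h1 ((p : ℕ) + 1)
    have e3 : 0 ≤ 1 - (1 - δ) ^ ((p : ℕ) + 1) := by
      have := pow_le_one₀ (n := (p : ℕ) + 1) (by linarith : 0 ≤ 1 - δ) (by linarith)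
      linarith
    have e4 : (((p : ℕ) + 1 : ℕ) : ℝ) ≤ 2 ^ ((p : ℕ) + 1) := by
      exact_mod_cast (Nat.lt_two_pow_self (n := (p : ℕ) + 1)).le
    have e5 : ((1 : ℝ) / 4) ^ ((p : ℕ) + 1) * 2 ^ ((p : ℕ) + 1) = (1 / 2) ^ ((p : ℕ) + 1) := by
      rw [← mul_pow]; norm_num
    calc _ ≤ 4 * s ^ 2 * (1 / 4) ^ ((p : ℕ) + 1) * (1 - (1 - δ) ^ ((p : ℕ) + 1)) :=
          mul_le_mul_of_nonneg_right e1 e3
      _ ≤ 4 * s ^ 2 * (1 / 4) ^ ((p : ℕ) + 1) * ((((p : ℕ) + 1 : ℕ) : ℝ) * δ) :=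
          mul_le_mul_of_nonneg_left e2 (by positivity)
      _ ≤ 4 * s ^ 2 * (1 / 4) ^ ((p : ℕ) + 1) * (2 ^ ((p : ℕ) + 1) * δ) := by gcongr
      _ = _ := by rw [← e5]; ring
  refine (Finset.sum_le_sum fun p _ => h2 p).trans ?_
  rw [← Finset.mul_sum]
  have h3 : ∑ p : Fin P, ((1 : ℝ) / 2) ^ ((p : ℕ) + 1) ≤ 1 := by
    rw [Fin.sum_univ_eq_sum_range (fun p => ((1 : ℝ) / 2) ^ (p + 1))]
    have h : ∀ n : ℕ, ∑ p ∈ Finset.range n, ((1 : ℝ) / 2) ^ (p + 1) = 1 - (1 / 2) ^ n := by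
      intro n
      induction n with
      | zero => simp
      | succ n ih => rw [Finset.sum_range_succ, ih]; ring
    rw [h]
    have : (0 : ℝ) ≤ (1 / 2) ^ P := by positivity
    linarith
  calc _ ≤ 4 * s ^ 2 * δ * 1 := mul_le_mul_of_nonneg_left h3 (by positivity)
    _ = _ := by ring

/-- Replacing the perturbation. -/
lemma stepA {N P : ℕ} (s : ℝ) {u : Fin P → ℝ} (hu : ∀ q, 0 ≤ u q ∧ u q ≤ 2)
    {w : (Fin (N + 2) → Bool) → ℝ} (hw : ∀ y, 0 < w y) :
    |∫ ξ, Real.log (∑ y, w y * Real.exp (lin (cf (N + 1) s u) ξ y)) ∂(gM (GI P (N + 2))) -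
      ∫ ξ, Real.log (∑ y, w y * Real.exp (lin (cf N s u) ξ (ini y))) ∂(gM (GI P (N + 1)))| ≤
      2 * (s ^ 2 * (1 / ((N : ℝ) + 2))) := by
  set δ : ℝ := 1 / ((N : ℝ) + 2) with hδ
  have h0 : 0 ≤ δ := (dl_pos N).le
  have h1 : δ ≤ 1 := dl_le N
  set U : (Fin (N + 2) → Bool) → GI P (N + 1) → ℝ := fun y e =>
    √((1 - δ) ^ ((e.1 : ℕ) + 1)) * cf N s u (ini y) e with hU
  set V : (Fin (N + 2) → Bool) → GI P (N + 2) → ℝ := fun y e =>
    if ∀ r, e.2 r ≠ Fin.last (N + 1) then 0 else cf (N + 1) s u y e with hV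
  set V' : (Fin (N + 2) → Bool) → GI P (N + 1) → ℝ := fun y e =>
    √(1 - (1 - δ) ^ ((e.1 : ℕ) + 1)) * cf N s u (ini y) e with hV'
  have hp0 : ∀ n : ℕ, 0 ≤ (1 - δ) ^ n := fun n => pow_nonneg (by linarith) n
  have hp1 : ∀ n : ℕ, 0 ≤ 1 - (1 - δ) ^ n := fun n => by
    have := pow_le_one₀ (n := n) (by linarith : 0 ≤ 1 - δ) (by linarith)
    linarith
  have gU : ∀ a b, gram U U a b = ∑ p : Fin P, (s * u p * (1 / 2) ^ ((p : ℕ) + 1)) ^ 2 *
      ((1 - δ) * ∑ i, cubeφ N (ini a) i * cubeφ N (ini b) i) ^ ((p : ℕ) + 1) := by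
    intro a b
    unfold gram
    rw [Fintype.sum_sigma]
    refine Finset.sum_congr rfl fun p _ => ?_
    rw [mul_pow (1 - δ), Fintype.sum_pow]
    have e1 : ∀ k : Fin ((p : ℕ) + 1) → Fin (N + 1), U a ⟨p, k⟩ * U b ⟨p, k⟩ =
        (s * u p * (1 / 2) ^ ((p : ℕ) + 1)) ^ 2 * ((1 - δ) ^ ((p : ℕ) + 1) *
        ∏ r, (cubeφ N (ini a) (k r) * cubeφ N (ini b) (k r))) := by
      intro k
      have e2 : √((1 - δ) ^ ((p : ℕ) + 1)) * √((1 - δ) ^ ((p : ℕ) + 1)) =
        (1 - δ) ^ ((p : ℕ) + 1) := Real.mul_self_sqrt (hp0 _)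
      rw [Finset.prod_mul_distrib, hU]
      unfold cf
      simp only
      linear_combination ((s * u p * (1 / 2) ^ ((p : ℕ) + 1)) ^ 2 *
        ((∏ r, cubeφ N (ini a) (k r)) * ∏ r, cubeφ N (ini b) (k r))) * e2
    simp only at e1
    rw [Finset.sum_congr rfl fun k _ => e1 k, ← Finset.mul_sum, ← Finset.mul_sum]
  have gT : ∀ a b, gram (cf (N + 1) s u) (cf (N + 1) s u) a b = gram U U a b + gram V V a b := by
    intro a b
    rw [gU, ← good_sum]
    unfold gram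
    rw [← Finset.sum_add_distrib]
    refine Finset.sum_congr rfl fun e _ => ?_
    simp only [hV]
    split_ifs <;> ring
  have gT' : ∀ a b, gram (fun y => cf N s u (ini y)) (fun y => cf N s u (ini y)) a b =
      gram U U a b + gram V' V' a b := by
    intro a b
    unfold gram
    rw [← Finset.sum_add_distrib]
    refine Finset.sum_congr rfl fun e _ => ?_
    have e2 : √((1 - δ) ^ ((e.1 : ℕ) + 1)) * √((1 - δ) ^ ((e.1 : ℕ) + 1)) =
      (1 - δ) ^ ((e.1 : ℕ) + 1) := Real.mul_self_sqrt (hp0 _)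
    have e3 : √(1 - (1 - δ) ^ ((e.1 : ℕ) + 1)) * √(1 - (1 - δ) ^ ((e.1 : ℕ) + 1)) =
      1 - (1 - δ) ^ ((e.1 : ℕ) + 1) := Real.mul_self_sqrt (hp1 _)
    simp only [hU, hV']
    linear_combination (-(cf N s u (ini a) e * cf N s u (ini b) e)) * e2 -
      (cf N s u (ini a) e * cf N s u (ini b) e) * e3
  have bU : ∀ y, gram U U y y = ∑ p : Fin P, (s * u p * (1 / 2) ^ ((p : ℕ) + 1)) ^ 2 *
      (1 - δ) ^ ((p : ℕ) + 1) := by
    intro y
    rw [gU]
    refine Finset.sum_congr rfl fun p _ => ?_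
    have e1 := sum_cubeφ_sq N (ini y)
    simp_rw [sq] at e1
    rw [e1, mul_one]
  have bd := bd_sum (s := s) hu h0 h1
  have bV : ∀ y, ∑ c, V y c ^ 2 ≤ 4 * s ^ 2 * δ := by
    intro y
    have e1 := gT y y
    have e2 : gram V V y y = ∑ c, V y c ^ 2 := by
      unfold gram; simp_rw [sq]
    have e3 : gram (cf (N + 1) s u) (cf (N + 1) s u) y y = ∑ c, cf (N + 1) s u y c ^ 2 := by
      unfold gram; simp_rw [sq]
    rw [e3, sum_cf_sq, e2, bU] at e1
    have e4 : ∑ c, V y c ^ 2 = ∑ p : Fin P, (s * u p * (1 / 2) ^ ((p : ℕ) + 1)) ^ 2 *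
        (1 - (1 - δ) ^ ((p : ℕ) + 1)) := by
      simp_rw [mul_sub, mul_one]
      rw [Finset.sum_sub_distrib]
      linarith
    rw [e4]
    exact bd
  have bV' : ∀ y, ∑ c, V' y c ^ 2 ≤ 4 * s ^ 2 * δ := by
    intro y
    have e1 := gT' y y
    have e2 : gram V' V' y y = ∑ c, V' y c ^ 2 := by
      unfold gram; simp_rw [sq]
    have e3 : gram (fun y => cf N s u (ini y)) (fun y => cf N s u (ini y)) y y =
        ∑ c, cf N s u (ini y) c ^ 2 := by
      unfold gram; simp_rw [sq]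
    rw [e3, sum_cf_sq, e2, bU] at e1
    have e4 : ∑ c, V' y c ^ 2 = ∑ p : Fin P, (s * u p * (1 / 2) ^ ((p : ℕ) + 1)) ^ 2 *
        (1 - (1 - δ) ^ ((p : ℕ) + 1)) := by
      simp_rw [mul_sub, mul_one]
      rw [Finset.sum_sub_distrib]
      linarith
    rw [e4]
    exact bd
  have h := compare_cov hw gT gT' bV bV'
  have e5 : 4 * s ^ 2 * δ / 2 = 2 * (s ^ 2 * δ) := by ring
  rw [e5] at h
  exact h

section law

variable {Y K K' K'' : Type} [Fintype Y] [Nonempty Y] [Fintype K] [Fintype K'] [Fintype K'']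
  [DecidableEq Y] [DecidableEq K] [DecidableEq K'] [DecidableEq K'']

lemma measurable_lin_fun (U : Y → K → ℝ) : Measurable fun ξ : K → ℝ => lin U ξ := by
  unfold lin; fun_prop

lemma map_lin_eq {U : Y → K → ℝ} {V : Y → K' → ℝ} (hG : ∀ a b, gram U U a b = gram V V a b) :
    (gM K).map (fun ξ => lin U ξ) = (gM K').map (fun ξ => lin V ξ) := by
  have h := map_lin_congr hG
  have h2 := congrArg (fun m : Measure (EuclideanSpace ℝ Y) => m.map WithLp.ofLp) h
  simp only at h2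
  rw [Measure.map_map (WithLp.measurable_ofLp 2 _) (by unfold lin; fun_prop),
    Measure.map_map (WithLp.measurable_ofLp 2 _) (by unfold lin; fun_prop)] at h2
  exact h2

/-- The law of a mixture of two independent fields. -/
lemma law_mix {φ : Y → K → ℝ} {ψ : Y → K' → ℝ} {T : Y → K'' → ℝ} (a b : ℝ)
    (h : ∀ y y', gram T T y y' = a ^ 2 * gram φ φ y y' + b ^ 2 * gram ψ ψ y y') :
    (gM K'').map (fun ξ => lin T ξ) = ((gM K).prod (gM K')).map
      (fun q y => a * lin φ q.1 y + b * lin ψ q.2 y) := by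
  set U : Y → K ⊕ K' → ℝ := fun y => Sum.elim (fun c => a * φ y c) (fun c => b * ψ y c) with hU
  have h1 : ∀ y y', gram T T y y' = gram U U y y' := by
    intro y y'
    rw [h, hU, gram_elim]
    unfold gram
    rw [Finset.mul_sum, Finset.mul_sum]
    congr 1 <;> exact Finset.sum_congr rfl fun c _ => by ring
  rw [map_lin_eq h1]
  have mp := measurePreserving_sumPiEquivProdPi (X := fun _ : K ⊕ K' => ℝ)
    (fun _ : K ⊕ K' => gaussianReal 0 1)
  have h2 : (fun ξ : K ⊕ K' → ℝ => lin U ξ) =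
      (fun (q : (K → ℝ) × (K' → ℝ)) y => a * lin φ q.1 y + b * lin ψ q.2 y) ∘
        (MeasurableEquiv.sumPiEquivProdPi (fun _ : K ⊕ K' => ℝ)) := by
    funext ξ y
    simp only [lin, hU, Fintype.sum_sum_type, Sum.elim_inl, Sum.elim_inr, Function.comp,
      Finset.mul_sum]
    congr 1
    · exact Finset.sum_congr rfl fun c _ => by rw [mul_assoc]; rfl
    · exact Finset.sum_congr rfl fun c _ => by rw [mul_assoc]; rfl
  rw [h2, ← Measure.map_map (by unfold lin; fun_prop) mp.measurable, mp.map_eq]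

end law

/-- Rearrangement of the variables. -/
lemma rearr {A B B' G : Type} [MeasurableSpace A] [MeasurableSpace B] [MeasurableSpace B']
    [MeasurableSpace G] {α : Measure A} {β : Measure B} {β' : Measure B'} {γ : Measure G}
    [IsProbabilityMeasure α] [IsProbabilityMeasure β] [IsProbabilityMeasure β']
    [IsProbabilityMeasure γ] {h : B → B'} (hh : MeasurePreserving h β β') (M : ℕ)
    {F : ((Fin M → A) × G) × (Fin M → B') → ℝ}
    (hF : Integrable F (((Measure.pi fun _ : Fin M => α).prod γ).prod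
      (Measure.pi fun _ : Fin M => β'))) :
    Integrable (fun g => ∫ q : Fin M → A × B, F ((fun a => (q a).1, g), fun a => h (q a).2)
      ∂(Measure.pi fun _ => α.prod β)) γ ∧
    ∫ z, F z ∂(((Measure.pi fun _ : Fin M => α).prod γ).prod (Measure.pi fun _ : Fin M => β')) =
      ∫ g, ∫ q : Fin M → A × B, F ((fun a => (q a).1, g), fun a => h (q a).2)
        ∂(Measure.pi fun _ => α.prod β) ∂γ := by
  have m1 : MeasurePreserving (fun p : G × (Fin M → A × B) =>
      (p.1, (((fun a => (p.2 a).1), (fun a => (p.2 a).2)) : (Fin M → A) × (Fin M → B))))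
      (γ.prod (Measure.pi fun _ => α.prod β))
      (γ.prod ((Measure.pi fun _ : Fin M => α).prod (Measure.pi fun _ : Fin M => β))) :=
    (MeasurePreserving.id γ).prod
      (measurePreserving_arrowProdEquivProdArrow A B (Fin M) (fun _ => α) (fun _ => β))
  have m2 : MeasurePreserving (fun p : G × ((Fin M → A) × (Fin M → B)) => ((p.1, p.2.1), p.2.2))
      (γ.prod ((Measure.pi fun _ : Fin M => α).prod (Measure.pi fun _ : Fin M => β)))
      ((γ.prod (Measure.pi fun _ : Fin M => α)).prod (Measure.pi fun _ : Fin M => β)) :=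
    (measurePreserving_prodAssoc γ (Measure.pi fun _ : Fin M => α)
      (Measure.pi fun _ : Fin M => β)).symm
  have m3 : MeasurePreserving (fun p : (G × (Fin M → A)) × (Fin M → B) =>
      ((p.1.2, p.1.1), fun a => h (p.2 a)))
      ((γ.prod (Measure.pi fun _ : Fin M => α)).prod (Measure.pi fun _ : Fin M => β))
      (((Measure.pi fun _ : Fin M => α).prod γ).prod (Measure.pi fun _ : Fin M => β')) :=
    (Measure.measurePreserving_swap (μ := γ) (ν := Measure.pi fun _ : Fin M => α)).prod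
      (measurePreserving_pi (fun _ : Fin M => β) (fun _ : Fin M => β') (fun _ => hh))
  have m := m3.comp (m2.comp m1)
  have hF' : Integrable (fun p : G × (Fin M → A × B) =>
      F ((fun a => (p.2 a).1, p.1), fun a => h (p.2 a).2))
      (γ.prod (Measure.pi fun _ => α.prod β)) := m.integrable_comp_of_integrable hF
  refine ⟨hF'.integral_prod_left, ?_⟩
  rw [← m.map_eq, integral_map m.measurable.aemeasurable
    (by rw [m.map_eq]; exact hF.aestronglyMeasurable)]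
  exact integral_prod _ hF'

end Cube

end Vale.Agent.P157.Par
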