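import Vale.Agent.P157.ParGram

open MeasureTheory ProbabilityTheory Filter Topology Finset

namespace Vale.Agent.P157.Par

open Vale.Agent.P367.GT (gM)

/-- Functions with three bounded derivatives. -/
structure CB3 (C : ℝ) (f f1 f2 f3 : ℝ → ℝ) : Prop where
  d1 : ∀ x, HasDerivAt f (f1 x) x
  d2 : ∀ x, HasDerivAt f1 (f2 x) x
  d3 : ∀ x, HasDerivAt f2 (f3 x) x
  b0 : ∀ x, |f x| ≤ C
  b1 : ∀ x, |f1 x| ≤ C
  b2 : ∀ x, |f2 x| ≤ C
  b3 : ∀ x, |f3 x| ≤ C

/-- the linearized energy of one pattern; `S` is the field of the system, `H` the new field -/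
noncomputable def linE (δ : ℝ) (f f1 f2 : ℝ → ℝ) (S H : ℝ) : ℝ :=
  f S + √δ * f1 S * H + δ / 2 * (f2 S - S * f1 S)

namespace Lin

/-- exponential constant -/
noncomputable def cc (C : ℝ) : ℝ := 2 * C ^ 2 + 6 * C + 5

lemma absorb {C T : ℝ} (hC : 0 ≤ C) (hT : 1 ≤ T) :
    Real.exp C * ((2 * C ^ 2 + 4 * C + 1) * T ^ 4 * Real.exp (C * T)) ≤ Real.exp (cc C * T) := by
  have hk : 0 ≤ 2 * C ^ 2 + 4 * C + 1 := by positivity
  have e1 : Real.exp C ≤ Real.exp (C * T) := Real.exp_le_exp.2 (le_mul_of_one_le_right hC hT)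
  have e2 : 2 * C ^ 2 + 4 * C + 1 ≤ Real.exp ((2 * C ^ 2 + 4 * C + 1) * T) := by
    have h1 := Real.add_one_le_exp ((2 * C ^ 2 + 4 * C + 1) * T)
    have h2 := le_mul_of_one_le_right hk hT
    linarith only [h1, h2]
  have e3 : T ^ 4 ≤ Real.exp (4 * T) := by
    have h1 : T ≤ Real.exp T := by linarith [Real.add_one_le_exp T]
    calc T ^ 4 ≤ Real.exp T ^ 4 := pow_le_pow_left₀ (by linarith) h1 4
      _ = Real.exp (4 * T) := by rw [← Real.exp_nat_mul]; norm_num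
  have hT0 : 0 ≤ T := by linarith
  calc Real.exp C * ((2 * C ^ 2 + 4 * C + 1) * T ^ 4 * Real.exp (C * T))
      ≤ Real.exp (C * T) * (Real.exp ((2 * C ^ 2 + 4 * C + 1) * T) * Real.exp (4 * T)
          * Real.exp (C * T)) := by gcongr
    _ = Real.exp (cc C * T) := by
        rw [← Real.exp_add, ← Real.exp_add, ← Real.exp_add]
        congr 1
        unfold cc
        ring

lemma mvt {g g' : ℝ → ℝ} {M x : ℝ} (hd : ∀ y, HasDerivAt g (g' y) y)
    (hM : ∀ y, |y| ≤ |x| → |g' y| ≤ M) : |g x - g 0| ≤ M * |x| := by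
  have h := Convex.norm_image_sub_le_of_norm_hasDerivWithin_le (f := g) (f' := g') (C := M)
    (s := Metric.closedBall (0 : ℝ) |x|) (x := 0) (y := x)
    (fun y _ => (hd y).hasDerivWithinAt)
    (fun y hy => by
      rw [mem_closedBall_zero_iff, Real.norm_eq_abs] at hy
      exact hM y hy)
    (convex_closedBall _ _) (Metric.mem_closedBall_self (abs_nonneg _))
    (by rw [mem_closedBall_zero_iff, Real.norm_eq_abs])
  rw [sub_zero] at h
  exact h

variable {C : ℝ} {f f1 f2 f3 : ℝ → ℝ}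

lemma C_nonneg (hf : CB3 C f f1 f2 f3) : 0 ≤ C := (abs_nonneg _).trans (hf.b0 0)

lemma lip (hf : CB3 C f f1 f2 f3) (s x : ℝ) : |f (s + x) - f s| ≤ C * |x| := by
  have h := mvt (g := fun y => f (s + y)) (g' := fun y => f1 (s + y)) (M := C) (x := x)
    (fun y => by
      have := (hf.d1 (s + y)).comp y ((hasDerivAt_id y).const_add s)
      rwa [mul_one] at this)
    (fun y _ => hf.b1 _)
  simp only [add_zero] at h
  exact h

lemma lip2 (hf : CB3 C f f1 f2 f3) (s x : ℝ) : |f2 (s + x) - f2 s| ≤ C * |x| := by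
  have h := mvt (g := fun y => f2 (s + y)) (g' := fun y => f3 (s + y)) (M := C) (x := x)
    (fun y => by
      have := (hf.d3 (s + y)).comp y ((hasDerivAt_id y).const_add s)
      rwa [mul_one] at this)
    (fun y _ => hf.b3 _)
  simp only [add_zero] at h
  exact h

lemma taylor1 (hf : CB3 C f f1 f2 f3) (s x : ℝ) : |f1 (s + x) - f1 s - f2 s * x| ≤ C * |x| ^ 2 := by
  have hC := C_nonneg hf
  have h := mvt (g := fun y => f1 (s + y) - f1 s - f2 s * y) (g' := fun y => f2 (s + y) - f2 s)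
    (M := C * |x|) (x := x)
    (fun y => by
      have h1 := (hf.d2 (s + y)).comp y ((hasDerivAt_id y).const_add s)
      have h2 := (h1.sub_const (f1 s)).sub ((hasDerivAt_id y).const_mul (f2 s))
      rw [mul_one, mul_one] at h2
      exact h2)
    (fun y hy => (lip2 hf s y).trans (mul_le_mul_of_nonneg_left hy hC))
  simp only [add_zero, mul_zero, sub_self, sub_zero] at h
  calc _ ≤ C * |x| * |x| := h
    _ = _ := by ring

lemma taylor2 (hf : CB3 C f f1 f2 f3) (s x : ℝ) :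
    |f (s + x) - f s - f1 s * x - f2 s * (x ^ 2 / 2)| ≤ C * |x| ^ 3 := by
  have hC := C_nonneg hf
  have h := mvt (g := fun y => f (s + y) - f s - f1 s * y - f2 s * (y ^ 2 / 2))
    (g' := fun y => f1 (s + y) - f1 s - f2 s * y) (M := C * |x| ^ 2) (x := x)
    (fun y => by
      have h1 := (hf.d1 (s + y)).comp y ((hasDerivAt_id y).const_add s)
      have h2 := (h1.sub_const (f s)).sub ((hasDerivAt_id y).const_mul (f1 s))
      have h3 := h2.sub (((hasDerivAt_pow 2 y).div_const 2).const_mul (f2 s))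
      have e : f1 (s + y) * 1 - f1 s * 1 - f2 s * (((2 : ℕ) : ℝ) * y ^ (2 - 1) / 2)
          = f1 (s + y) - f1 s - f2 s * y := by
        norm_num
      rw [e] at h3
      exact h3)
    (fun y hy => (taylor1 hf s y).trans (mul_le_mul_of_nonneg_left
      (pow_le_pow_left₀ (abs_nonneg _) hy 2) hC))
  simp only [add_zero, mul_zero, sub_self, sub_zero, ne_eq, OfNat.ofNat_ne_zero, not_false_eq_true,
    zero_pow, zero_div] at h
  calc _ ≤ C * |x| ^ 2 * |x| := h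
    _ = _ := by ring

lemma sqrt_facts {δ : ℝ} (h0 : 0 ≤ δ) (h1 : δ ≤ 1) :
    0 ≤ 1 - √(1 - δ) ∧ 1 - √(1 - δ) ≤ δ ∧ |1 - √(1 - δ) - δ / 2| ≤ δ ^ 2 / 2 := by
  set q := √(1 - δ) with hq
  have hq0 : 0 ≤ q := Real.sqrt_nonneg _
  have hq2 : q ^ 2 = 1 - δ := Real.sq_sqrt (by linarith)
  have hq1 : q ≤ 1 := by nlinarith only [h0, hq2, hq0]
  have hd : δ = (1 - q) * (1 + q) := by linarith only [hq2]
  refine ⟨by linarith, by nlinarith only [hq2, hq0, hq1], ?_⟩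
  have e : 1 - q - δ / 2 = (1 - q) ^ 2 / 2 := by rw [hd]; ring
  rw [e, abs_of_nonneg (by positivity)]
  have h5 : 1 - q ≤ δ := by nlinarith only [hq2, h0, hq0]
  have h6 : (1 - q) ^ 2 ≤ δ ^ 2 := pow_le_pow_left₀ (by linarith) h5 2
  linarith

/-- first-order bounds -/
lemma bd_a (hf : CB3 C f f1 f2 f3) {δ : ℝ} (h0 : 0 ≤ δ) (h1 : δ ≤ 1) (s h : ℝ) :
    |f (√(1 - δ) * s + √δ * h) - f s| ≤ C * √δ * (1 + |s| + |h|) := by
  have hC := C_nonneg hf
  obtain ⟨g1, g2, -⟩ := sqrt_facts h0 h1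
  have hr0 : 0 ≤ √δ := Real.sqrt_nonneg _
  have hr2 : √δ ^ 2 = δ := Real.sq_sqrt h0
  have hr1 : √δ ≤ 1 := by nlinarith only [h1, hr2, hr0]
  have hδr : δ ≤ √δ := by nlinarith only [hr2, hr0, hr1]
  have e : √(1 - δ) * s + √δ * h = s + (√δ * h - (1 - √(1 - δ)) * s) := by ring
  rw [e]
  refine (lip hf s _).trans ?_
  rw [mul_assoc]
  refine mul_le_mul_of_nonneg_left ?_ hC
  calc |√δ * h - (1 - √(1 - δ)) * s| ≤ |√δ * h| + |(1 - √(1 - δ)) * s| := abs_sub _ _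
    _ = √δ * |h| + (1 - √(1 - δ)) * |s| := by
        rw [abs_mul, abs_mul, abs_of_nonneg hr0, abs_of_nonneg g1]
    _ ≤ √δ * |h| + √δ * |s| := by
        have : (1 - √(1 - δ)) * |s| ≤ √δ * |s| :=
          mul_le_mul_of_nonneg_right (g2.trans hδr) (abs_nonneg _)
        linarith
    _ ≤ √δ * (1 + |s| + |h|) := by linarith only [hr0]

lemma bd_b (hf : CB3 C f f1 f2 f3) {δ : ℝ} (h0 : 0 ≤ δ) (h1 : δ ≤ 1) (s h : ℝ) :
    |linE δ f f1 f2 s h - f s| ≤ C * √δ * (1 + |s| + |h|) := by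
  have hC := C_nonneg hf
  have hr0 : 0 ≤ √δ := Real.sqrt_nonneg _
  have hr2 : √δ ^ 2 = δ := Real.sq_sqrt h0
  have hr1 : √δ ≤ 1 := by nlinarith only [h1, hr2, hr0]
  have hδr : δ ≤ √δ := by nlinarith only [hr2, hr0, hr1]
  have e : linE δ f f1 f2 s h - f s = √δ * f1 s * h + δ / 2 * (f2 s - s * f1 s) := by
    unfold linE; ring
  rw [e]
  have e1 : |√δ * f1 s * h| ≤ √δ * (C * |h|) := by
    rw [abs_mul, abs_mul, abs_of_nonneg hr0, mul_assoc]
    exact mul_le_mul_of_nonneg_left (mul_le_mul_of_nonneg_right (hf.b1 s) (abs_nonneg _)) hr0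
  have e2 : |δ / 2 * (f2 s - s * f1 s)| ≤ √δ * (C * (1 + |s|)) := by
    rw [abs_mul, abs_of_nonneg (by positivity : 0 ≤ δ / 2)]
    have e3 : |f2 s - s * f1 s| ≤ C * (1 + |s|) := by
      refine (abs_sub _ _).trans ?_
      rw [abs_mul]
      have := mul_le_mul_of_nonneg_left (hf.b1 s) (abs_nonneg s)
      linarith [hf.b2 s]
    exact mul_le_mul (by linarith) e3 (abs_nonneg _) hr0
  refine (abs_add_le _ _).trans ?_
  linarith only [e1, e2]

/-- second-order bound -/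
lemma bd_r (hf : CB3 C f f1 f2 f3) {δ : ℝ} (h0 : 0 ≤ δ) (h1 : δ ≤ 1) (s h : ℝ) :
    |f (√(1 - δ) * s + √δ * h) - linE δ f f1 f2 s h - δ / 2 * (f2 s * (h ^ 2 - 1))|
      ≤ C * √δ ^ 3 * (1 + |s| + |h|) ^ 3 := by
  have hC := C_nonneg hf
  obtain ⟨g1, g2, g3⟩ := sqrt_facts h0 h1
  set r := √δ with hr
  have hr0 : 0 ≤ r := Real.sqrt_nonneg _
  have hr2 : r ^ 2 = δ := Real.sq_sqrt h0
  have hr1 : r ≤ 1 := by nlinarith only [h1, hr2, hr0]
  set k := 1 - √(1 - δ) with hk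
  set x := r * h - k * s with hx
  have e0 : √(1 - δ) * s + r * h = s + x := by rw [hx, hk]; ring
  rw [e0]
  have ht := taylor2 hf s x
  have e1 : f (s + x) - linE δ f f1 f2 s h - δ / 2 * (f2 s * (h ^ 2 - 1))
      = (f (s + x) - f s - f1 s * x - f2 s * (x ^ 2 / 2))
        + f1 s * (s * (δ / 2 - k)) + f2 s / 2 * (x ^ 2 - r ^ 2 * h ^ 2) := by
    unfold linE
    rw [← hr, hr2, hx]
    ring
  rw [e1]
  have hs := abs_nonneg s
  have hh := abs_nonneg h
  have hkr : k ≤ r ^ 2 := by rw [hr2]; exact g2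
  have hks : k * |s| ≤ r * |s| :=
    mul_le_mul_of_nonneg_right (hkr.trans (by nlinarith only [hr0, hr1])) hs
  have hxb : |x| ≤ r * (|s| + |h|) := by
    calc |x| ≤ |r * h| + |k * s| := abs_sub _ _
      _ = r * |h| + k * |s| := by rw [abs_mul, abs_mul, abs_of_nonneg hr0, abs_of_nonneg g1]
      _ ≤ r * (|s| + |h|) := by linarith only [hks]
  have b1 : C * |x| ^ 3 ≤ C * r ^ 3 * (|s| + |h|) ^ 3 := by
    have := pow_le_pow_left₀ (abs_nonneg x) hxb 3
    rw [mul_pow] at this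
    calc C * |x| ^ 3 ≤ C * (r ^ 3 * (|s| + |h|) ^ 3) := mul_le_mul_of_nonneg_left this hC
      _ = _ := by ring
  have hr43 : r ^ 4 ≤ r ^ 3 := by
    have : r ^ 3 * r ≤ r ^ 3 * 1 := mul_le_mul_of_nonneg_left hr1 (by positivity)
    calc r ^ 4 = r ^ 3 * r := by ring
      _ ≤ r ^ 3 := by linarith only [this]
  have b2 : |f1 s * (s * (δ / 2 - k))| ≤ C * r ^ 3 * |s| := by
    rw [abs_mul, abs_mul]
    have h5 : |δ / 2 - k| ≤ r ^ 3 := by
      rw [abs_sub_comm]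
      refine g3.trans ?_
      rw [← hr2]
      calc (r ^ 2) ^ 2 / 2 = r ^ 4 / 2 := by ring
        _ ≤ r ^ 3 := by linarith only [hr43, pow_nonneg hr0 3]
    calc |f1 s| * (|s| * |δ / 2 - k|) ≤ C * (|s| * r ^ 3) :=
          mul_le_mul (hf.b1 s) (mul_le_mul_of_nonneg_left h5 hs) (by positivity) hC
      _ = _ := by ring
  have b3 : |f2 s / 2 * (x ^ 2 - r ^ 2 * h ^ 2)| ≤ C * r ^ 3 * (|s| * (2 * |h| + |s|) / 2) := by
    rw [abs_mul, abs_div, abs_of_pos (by norm_num : (0 : ℝ) < 2)]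
    have e5 : x ^ 2 - r ^ 2 * h ^ 2 = -(k * s) * (2 * (r * h) - k * s) := by rw [hx]; ring
    rw [e5, abs_mul, abs_neg, abs_mul, abs_of_nonneg g1]
    have h6 : |2 * (r * h) - k * s| ≤ r * (2 * |h| + |s|) := by
      calc |2 * (r * h) - k * s| ≤ |2 * (r * h)| + |k * s| := abs_sub _ _
        _ = 2 * (r * |h|) + k * |s| := by
            rw [abs_mul, abs_mul, abs_mul, abs_of_nonneg hr0, abs_of_nonneg g1,
              abs_of_pos (by norm_num : (0 : ℝ) < 2)]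
        _ ≤ r * (2 * |h| + |s|) := by linarith only [hks]
    have h7 : k * |s| ≤ r ^ 2 * |s| := mul_le_mul_of_nonneg_right hkr hs
    have h8 : k * |s| * |2 * (r * h) - k * s| ≤ r ^ 2 * |s| * (r * (2 * |h| + |s|)) :=
      mul_le_mul h7 h6 (abs_nonneg _) (by positivity)
    have h9 : |f2 s| / 2 ≤ C / 2 := by linarith only [hf, hf.b2 s]
    calc |f2 s| / 2 * (k * |s| * |2 * (r * h) - k * s|)
        ≤ C / 2 * (r ^ 2 * |s| * (r * (2 * |h| + |s|))) :=
          mul_le_mul h9 h8 (by positivity) (by positivity)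
      _ = _ := by ring
  refine (abs_add_le _ _).trans ?_
  refine (add_le_add_left (abs_add_le _ _) _).trans ?_
  have hCr : 0 ≤ C * r ^ 3 := by positivity
  have key : (|s| + |h|) ^ 3 + |s| + |s| * (2 * |h| + |s|) / 2 ≤ (1 + |s| + |h|) ^ 3 := by
    linarith only [hs, hh, mul_nonneg hs hh, sq_nonneg (|s|), sq_nonneg (|h|)]
  calc _ ≤ C * r ^ 3 * (|s| + |h|) ^ 3 + C * r ^ 3 * |s|
        + C * r ^ 3 * (|s| * (2 * |h| + |s|) / 2) := by linarith only [ht, b1, b2, b3]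
    _ = C * r ^ 3 * ((|s| + |h|) ^ 3 + |s| + |s| * (2 * |h| + |s|) / 2) := by ring
    _ ≤ _ := mul_le_mul_of_nonneg_left key hCr

/-- comparison of exponentials -/
lemma exp_sub_le {a b M : ℝ} (ha : |a| ≤ M) (hb : |b| ≤ M) :
    |Real.exp a - Real.exp b| ≤ |a - b| * Real.exp M := by
  have h := Convex.norm_image_sub_le_of_norm_hasDerivWithin_le (f := Real.exp)
    (f' := Real.exp) (C := Real.exp M) (s := Metric.closedBall (0 : ℝ) M) (x := b) (y := a)
    (fun y _ => (Real.hasDerivAt_exp y).hasDerivWithinAt)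
    (fun y hy => by
      rw [mem_closedBall_zero_iff, Real.norm_eq_abs] at hy
      rw [Real.norm_eq_abs, Real.abs_exp]
      exact Real.exp_le_exp.2 ((le_abs_self y).trans hy))
    (convex_closedBall _ _) (by rwa [mem_closedBall_zero_iff, Real.norm_eq_abs])
    (by rwa [mem_closedBall_zero_iff, Real.norm_eq_abs])
  rw [Real.norm_eq_abs, Real.norm_eq_abs] at h
  linarith

lemma exp_sub_sub_le {a b M : ℝ} (ha : |a| ≤ M) (hb : |b| ≤ M) :
    |Real.exp a - Real.exp b - (a - b)| ≤ |a - b| * (M * Real.exp M) := by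
  have h := Convex.norm_image_sub_le_of_norm_hasDerivWithin_le (f := fun x => Real.exp x - x)
    (f' := fun x => Real.exp x - 1) (C := M * Real.exp M) (s := Metric.closedBall (0 : ℝ) M)
    (x := b) (y := a)
    (fun y _ => ((Real.hasDerivAt_exp y).sub (hasDerivAt_id y)).hasDerivWithinAt)
    (fun y hy => by
      rw [mem_closedBall_zero_iff, Real.norm_eq_abs] at hy
      rw [Real.norm_eq_abs]
      have h1 := exp_sub_le (a := y) (b := 0) (M := M) hy (by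
        rw [abs_zero]; exact (abs_nonneg y).trans hy)
      rw [Real.exp_zero, sub_zero] at h1
      exact h1.trans (mul_le_mul_of_nonneg_right hy (Real.exp_pos _).le))
    (convex_closedBall _ _) (by rwa [mem_closedBall_zero_iff, Real.norm_eq_abs])
    (by rwa [mem_closedBall_zero_iff, Real.norm_eq_abs])
  rw [Real.norm_eq_abs, Real.norm_eq_abs] at h
  have e : Real.exp a - Real.exp b - (a - b) = Real.exp a - a - (Real.exp b - b) := by ring
  rw [e]
  linarith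

/-- All the bounds for one point. -/
structure Bds (r Q F X Y m : ℝ) : Prop where
  x : |Real.exp X - Real.exp F| ≤ r * Q
  y : |Real.exp Y - Real.exp F| ≤ r * Q
  xy : |Real.exp X - Real.exp Y| ≤ r ^ 2 * Q
  xym : |Real.exp X - Real.exp Y - Real.exp F * m| ≤ r ^ 3 * Q
  nx : Real.exp (-X) ≤ Q
  ny : Real.exp (-Y) ≤ Q
  nf : Real.exp (-F) ≤ Q

lemma closeE {C T F : ℝ} (hC : 0 ≤ C) (hT : 1 ≤ T) (hF : F ≤ C) {q x : ℝ} (hq : 0 ≤ q)
    (hx : x ≤ q * ((2 * C ^ 2 + 4 * C + 1) * T ^ 4 * Real.exp (C * T))) :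
    Real.exp F * x ≤ q * Real.exp (cc C * T) := by
  have hT0 : 0 ≤ T := by linarith
  have hp : 0 ≤ q * ((2 * C ^ 2 + 4 * C + 1) * T ^ 4 * Real.exp (C * T)) := by positivity
  calc Real.exp F * x
      ≤ Real.exp F * (q * ((2 * C ^ 2 + 4 * C + 1) * T ^ 4 * Real.exp (C * T))) :=
        mul_le_mul_of_nonneg_left hx (Real.exp_pos _).le
    _ ≤ Real.exp C * (q * ((2 * C ^ 2 + 4 * C + 1) * T ^ 4 * Real.exp (C * T))) :=
        mul_le_mul_of_nonneg_right (Real.exp_le_exp.2 hF) hp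
    _ = q * (Real.exp C * ((2 * C ^ 2 + 4 * C + 1) * T ^ 4 * Real.exp (C * T))) := by ring
    _ ≤ q * Real.exp (cc C * T) := mul_le_mul_of_nonneg_left (absorb hC hT) hq

lemma exp_split (F z : ℝ) : Real.exp z = Real.exp F * Real.exp (z - F) := by
  rw [← Real.exp_add]
  congr 1
  ring

lemma firstE {C T r F z : ℝ} (hC : 0 ≤ C) (hT : 1 ≤ T) (hr0 : 0 ≤ r) (hr1 : r ≤ 1) (hF : F ≤ C)
    (hz : |z - F| ≤ C * r * T) : |Real.exp z - Real.exp F| ≤ r * Real.exp (cc C * T) := by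
  have hT0 : 0 ≤ T := by linarith
  have hCT : C * r * T ≤ C * T := by
    have : C * r * T ≤ C * 1 * T := by gcongr
    linarith
  have e1 := exp_sub_le (a := z - F) (b := 0) (M := C * T) (hz.trans hCT)
    (by rw [abs_zero]; positivity)
  rw [Real.exp_zero, sub_zero] at e1
  have e2 : Real.exp z - Real.exp F = Real.exp F * (Real.exp (z - F) - 1) := by
    rw [exp_split F z]; ring
  rw [e2, abs_mul, abs_of_pos (Real.exp_pos _)]
  refine closeE hC hT hF hr0 (e1.trans ?_)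
  have hE0 : 0 < Real.exp (C * T) := Real.exp_pos _
  have hT14 : T ≤ T ^ 4 := by
    have := pow_le_pow_right₀ hT (by norm_num : 1 ≤ 4)
    rwa [pow_one] at this
  have hCC : C ≤ 2 * C ^ 2 + 4 * C + 1 := by nlinarith only [hC]
  have e3 : C * T ≤ (2 * C ^ 2 + 4 * C + 1) * T ^ 4 :=
    mul_le_mul hCC hT14 hT0 (by positivity)
  calc |z - F| * Real.exp (C * T) ≤ C * r * T * Real.exp (C * T) :=
        mul_le_mul_of_nonneg_right hz hE0.le
    _ = r * (C * T * Real.exp (C * T)) := by ring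
    _ ≤ r * ((2 * C ^ 2 + 4 * C + 1) * T ^ 4 * Real.exp (C * T)) :=
        mul_le_mul_of_nonneg_left (mul_le_mul_of_nonneg_right e3 hE0.le) hr0

lemma secondE {C T r F X Y : ℝ} (hC : 0 ≤ C) (hT : 1 ≤ T) (hr1 : r ≤ 1)
    (hF : F ≤ C) (ha : |X - F| ≤ C * r * T) (hb : |Y - F| ≤ C * r * T)
    (hxy : |X - Y| ≤ 2 * C * r ^ 2 * T ^ 3) :
    |Real.exp X - Real.exp Y| ≤ r ^ 2 * Real.exp (cc C * T) := by
  have hT0 : 0 ≤ T := by linarith
  have hCT : C * r * T ≤ C * T := by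
    have : C * r * T ≤ C * 1 * T := by gcongr
    linarith
  have e1 := exp_sub_le (a := X - F) (b := Y - F) (M := C * T) (ha.trans hCT) (hb.trans hCT)
  rw [sub_sub_sub_cancel_right] at e1
  have e2 : Real.exp X - Real.exp Y = Real.exp F * (Real.exp (X - F) - Real.exp (Y - F)) := by
    rw [exp_split F X, exp_split F Y]; ring
  rw [e2, abs_mul, abs_of_pos (Real.exp_pos _)]
  refine closeE hC hT hF (by positivity) (e1.trans ?_)
  have hE0 : 0 < Real.exp (C * T) := Real.exp_pos _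
  have hT34 : T ^ 3 ≤ T ^ 4 := pow_le_pow_right₀ hT (by norm_num)
  have hCC : 2 * C ≤ 2 * C ^ 2 + 4 * C + 1 := by nlinarith only [hC]
  have e3 : 2 * C * T ^ 3 ≤ (2 * C ^ 2 + 4 * C + 1) * T ^ 4 :=
    mul_le_mul hCC hT34 (by positivity) (by positivity)
  calc |X - Y| * Real.exp (C * T) ≤ 2 * C * r ^ 2 * T ^ 3 * Real.exp (C * T) :=
        mul_le_mul_of_nonneg_right hxy hE0.le
    _ = r ^ 2 * (2 * C * T ^ 3 * Real.exp (C * T)) := by ring
    _ ≤ r ^ 2 * ((2 * C ^ 2 + 4 * C + 1) * T ^ 4 * Real.exp (C * T)) :=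
        mul_le_mul_of_nonneg_left (mul_le_mul_of_nonneg_right e3 hE0.le) (by positivity)

lemma thirdE {C T r F X Y m : ℝ} (hC : 0 ≤ C) (hT : 1 ≤ T) (hr0 : 0 ≤ r) (hr1 : r ≤ 1)
    (hF : F ≤ C) (ha : |X - F| ≤ C * r * T) (hb : |Y - F| ≤ C * r * T)
    (hxy : |X - Y| ≤ 2 * C * r ^ 2 * T ^ 3) (hm : |X - Y - m| ≤ C * r ^ 3 * T ^ 3) :
    |Real.exp X - Real.exp Y - Real.exp F * m| ≤ r ^ 3 * Real.exp (cc C * T) := by
  have hT0 : 0 ≤ T := by linarith
  have hCT : C * r * T ≤ C * T := by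
    have : C * r * T ≤ C * 1 * T := by gcongr
    linarith
  have e1 := exp_sub_sub_le (a := X - F) (b := Y - F) (M := C * r * T) ha hb
  rw [sub_sub_sub_cancel_right] at e1
  have e2 : Real.exp X - Real.exp Y - Real.exp F * m
      = Real.exp F * (Real.exp (X - F) - Real.exp (Y - F) - m) := by
    rw [exp_split F X, exp_split F Y]; ring
  rw [e2, abs_mul, abs_of_pos (Real.exp_pos _)]
  refine closeE hC hT hF (by positivity) ?_
  have e3 : Real.exp (X - F) - Real.exp (Y - F) - m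
      = (Real.exp (X - F) - Real.exp (Y - F) - (X - Y)) + (X - Y - m) := by ring
  rw [e3]
  have hE0 : 0 < Real.exp (C * T) := Real.exp_pos _
  have hE1 : 1 ≤ Real.exp (C * T) := Real.one_le_exp (by positivity)
  have e4 : Real.exp (C * r * T) ≤ Real.exp (C * T) := Real.exp_le_exp.2 hCT
  have e5 : |X - Y| * (C * r * T * Real.exp (C * r * T))
      ≤ 2 * C * r ^ 2 * T ^ 3 * (C * r * T * Real.exp (C * T)) :=
    mul_le_mul hxy (mul_le_mul_of_nonneg_left e4 (by positivity)) (by positivity)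
      (by positivity)
  have hT34 : T ^ 3 ≤ T ^ 4 := pow_le_pow_right₀ hT (by norm_num)
  have q1 : C ≤ 4 * C + 1 := by linarith
  have e7 : C * T ^ 3 ≤ (4 * C + 1) * T ^ 4 := mul_le_mul q1 hT34 (by positivity) (by positivity)
  have e8 : C * T ^ 3 * 1 ≤ (4 * C + 1) * T ^ 4 * Real.exp (C * T) :=
    mul_le_mul e7 hE1 (by norm_num) (by positivity)
  have e6 : C * r ^ 3 * T ^ 3 ≤ r ^ 3 * ((4 * C + 1) * T ^ 4 * Real.exp (C * T)) := by
    calc C * r ^ 3 * T ^ 3 = r ^ 3 * (C * T ^ 3 * 1) := by ring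
      _ ≤ _ := mul_le_mul_of_nonneg_left e8 (by positivity)
  refine (abs_add_le _ _).trans ?_
  calc _ ≤ 2 * C * r ^ 2 * T ^ 3 * (C * r * T * Real.exp (C * T))
        + r ^ 3 * ((4 * C + 1) * T ^ 4 * Real.exp (C * T)) :=
        add_le_add (e1.trans e5) (hm.trans e6)
    _ = _ := by ring

lemma negE {C T z : ℝ} (hC : 0 ≤ C) (hT : 1 ≤ T) (hz : -z ≤ C + C * T) :
    Real.exp (-z) ≤ Real.exp (cc C * T) := by
  have hT0 : 0 ≤ T := by linarith
  refine Real.exp_le_exp.2 (hz.trans ?_)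
  have h1 : 2 * C ≤ cc C := by unfold cc; nlinarith
  have h2 : C ≤ C * T := le_mul_of_one_le_right hC hT
  calc C + C * T ≤ 2 * C * T := by linarith
    _ ≤ cc C * T := mul_le_mul_of_nonneg_right h1 hT0

lemma bd_m (hf : CB3 C f f1 f2 f3) {δ : ℝ} (h0 : 0 ≤ δ) (s h : ℝ) :
    |δ / 2 * (f2 s * (h ^ 2 - 1))| ≤ C * √δ ^ 2 * (1 + |s| + |h|) ^ 3 := by
  have hC := C_nonneg hf
  have hr2 : √δ ^ 2 = δ := Real.sq_sqrt h0
  have hs := abs_nonneg s
  have hh := abs_nonneg h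
  have hT1 : 1 ≤ 1 + |s| + |h| := by linarith
  rw [abs_mul, abs_mul, abs_of_nonneg (by positivity : 0 ≤ δ / 2), hr2]
  have h5 : |h ^ 2 - 1| ≤ (1 + |s| + |h|) ^ 3 := by
    have e1 : |h ^ 2 - 1| ≤ h ^ 2 + 1 := by
      rw [abs_le]
      constructor <;> linarith only [sq_nonneg h]
    have e2 : h ^ 2 = |h| ^ 2 := (sq_abs h).symm
    have e3 : |h| ^ 2 + 1 ≤ (1 + |s| + |h|) ^ 2 := by nlinarith only [hs, hh]
    have e4 : (1 + |s| + |h|) ^ 2 ≤ (1 + |s| + |h|) ^ 3 := pow_le_pow_right₀ hT1 (by norm_num)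
    linarith
  have h6 : |f2 s| * |h ^ 2 - 1| ≤ C * (1 + |s| + |h|) ^ 3 :=
    mul_le_mul (hf.b2 s) h5 (abs_nonneg _) hC
  calc δ / 2 * (|f2 s| * |h ^ 2 - 1|) ≤ δ * (C * (1 + |s| + |h|) ^ 3) :=
        mul_le_mul (by linarith) h6 (by positivity) h0
    _ = _ := by ring

theorem bds (hf : CB3 C f f1 f2 f3) {δ : ℝ} (h0 : 0 ≤ δ) (h1 : δ ≤ 1) (s h : ℝ) :
    Bds (√δ) (Real.exp (cc C * (1 + |s| + |h|))) (f s) (f (√(1 - δ) * s + √δ * h))
      (linE δ f f1 f2 s h) (δ / 2 * (f2 s * (h ^ 2 - 1))) := by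
  have hC := C_nonneg hf
  have ha := bd_a hf h0 h1 s h
  have hb := bd_b hf h0 h1 s h
  have hr := bd_r hf h0 h1 s h
  have hm := bd_m hf h0 s h
  have hs := abs_nonneg s
  have hh := abs_nonneg h
  have hT1 : 1 ≤ 1 + |s| + |h| := by linarith
  have hT0 : 0 ≤ 1 + |s| + |h| := by linarith
  have hr0 : 0 ≤ √δ := Real.sqrt_nonneg _
  have hr2 : √δ ^ 2 = δ := Real.sq_sqrt h0
  have hr1 : √δ ≤ 1 := by nlinarith only [h1, hr2, hr0]
  have hxy : |f (√(1 - δ) * s + √δ * h) - linE δ f f1 f2 s h|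
      ≤ 2 * C * √δ ^ 2 * (1 + |s| + |h|) ^ 3 := by
    have e1 : f (√(1 - δ) * s + √δ * h) - linE δ f f1 f2 s h
        = (f (√(1 - δ) * s + √δ * h) - linE δ f f1 f2 s h - δ / 2 * (f2 s * (h ^ 2 - 1)))
          + δ / 2 * (f2 s * (h ^ 2 - 1)) := by ring
    have e3 : √δ ^ 3 ≤ √δ ^ 2 := pow_le_pow_of_le_one hr0 hr1 (by norm_num)
    have e2 : C * √δ ^ 3 * (1 + |s| + |h|) ^ 3 ≤ C * √δ ^ 2 * (1 + |s| + |h|) ^ 3 :=
      mul_le_mul_of_nonneg_right (mul_le_mul_of_nonneg_left e3 hC) (by positivity)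
    rw [e1]
    refine (abs_add_le _ _).trans ?_
    linarith only [hr, hm, e2]
  have hfs := abs_le.1 (hf.b0 s)
  have hCT : C * √δ * (1 + |s| + |h|) ≤ C * (1 + |s| + |h|) := by
    have : C * √δ ≤ C := mul_le_of_le_one_right hC hr1
    exact mul_le_mul_of_nonneg_right this hT0
  refine ⟨firstE hC hT1 hr0 hr1 hfs.2 ha, firstE hC hT1 hr0 hr1 hfs.2 hb,
    secondE hC hT1 hr1 hfs.2 ha hb hxy, thirdE hC hT1 hr0 hr1 hfs.2 ha hb hxy hr,
    negE hC hT1 ?_, negE hC hT1 ?_, negE hC hT1 ?_⟩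
  · have := (abs_le.1 (hf.b0 (√(1 - δ) * s + √δ * h))).1
    have : 0 ≤ C * (1 + |s| + |h|) := by positivity
    linarith
  · have := (abs_le.1 hb).1
    linarith [hfs.1]
  · have : 0 ≤ C * (1 + |s| + |h|) := by positivity
    linarith [hfs.1]

lemma inv_sum_le {Y : Type} [Fintype Y] {p x : Y → ℝ} (hp : ∀ y, 0 ≤ p y) (hp1 : ∑ y, p y = 1)
    (hx : ∀ y, 0 < x y) {A : ℝ} (hA : A = ∑ y, p y * x y) (hA0 : 0 < A) :
    A⁻¹ ≤ ∑ y, p y * (x y)⁻¹ := by
  have h1 : ∀ y, p y * (2 * A⁻¹ - x y * (A⁻¹) ^ 2) ≤ p y * (x y)⁻¹ := by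
    intro y
    refine mul_le_mul_of_nonneg_left ?_ (hp y)
    have h2 : 0 ≤ (x y)⁻¹ * (1 - x y * A⁻¹) ^ 2 := mul_nonneg (inv_nonneg.2 (hx y).le) (sq_nonneg _)
    have h3 : (x y)⁻¹ * (1 - x y * A⁻¹) ^ 2 = (x y)⁻¹ - 2 * A⁻¹ + x y * (A⁻¹) ^ 2 := by
      have := (hx y).ne'
      field_simp
      ring
    linarith only [h2, h3]
  have h2 : ∑ y, p y * (2 * A⁻¹ - x y * (A⁻¹) ^ 2) = A⁻¹ := by
    have e : ∀ y, p y * (2 * A⁻¹ - x y * (A⁻¹) ^ 2) = 2 * A⁻¹ * p y - (A⁻¹) ^ 2 * (p y * x y) := by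
      intro y; ring
    simp_rw [e]
    rw [Finset.sum_sub_distrib, ← Finset.mul_sum, ← Finset.mul_sum, hp1, ← hA]
    field_simp
    ring
  rw [← h2]
  exact Finset.sum_le_sum fun y _ => h1 y

/-- the deterministic estimate -/
theorem det_bound {Y : Type} [Fintype Y] {p : Y → ℝ} (hp : ∀ y, 0 ≤ p y) (hp1 : ∑ y, p y = 1)
    {r : ℝ} (hr : 0 ≤ r) {Q F X Z m : Y → ℝ} (hQ : ∀ y, 1 ≤ Q y)
    (hB : ∀ y, Bds r (Q y) (F y) (X y) (Z y) (m y)) :
    |Real.log (∑ y, p y * Real.exp (X y)) - Real.log (∑ y, p y * Real.exp (Z y))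
        - (∑ y, p y * (Real.exp (F y) * m y)) / ∑ y, p y * Real.exp (F y)|
      ≤ 2 * r ^ 3 * ∑ y, p y * Q y ^ 4 := by
  set A := ∑ y, p y * Real.exp (X y) with hA
  set B := ∑ y, p y * Real.exp (Z y) with hBdef
  set A0 := ∑ y, p y * Real.exp (F y) with hA0def
  set M := ∑ y, p y * (Real.exp (F y) * m y) with hM
  set q := ∑ y, p y * Q y with hq
  have hpos : ∀ g : Y → ℝ, 0 < ∑ y, p y * Real.exp (g y) := by
    intro g
    by_contra hcon
    have h1 : ∀ y ∈ (univ : Finset Y), 0 ≤ p y * Real.exp (g y) :=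
      fun y _ => mul_nonneg (hp y) (Real.exp_pos _).le
    have h2 := le_antisymm (not_lt.1 hcon) (Finset.sum_nonneg h1)
    have h3 := (Finset.sum_eq_zero_iff_of_nonneg h1).1 h2
    have h4 : ∀ y, p y = 0 := by
      intro y
      rcases mul_eq_zero.1 (h3 y (mem_univ y)) with h | h
      · exact h
      · exact absurd h (Real.exp_pos _).ne'
    rw [Finset.sum_eq_zero (fun y _ => h4 y)] at hp1
    exact zero_ne_one hp1
  have hAp : 0 < A := hpos X
  have hBp : 0 < B := hpos Z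
  have hA0p : 0 < A0 := hpos F
  have hinv : ∀ g : Y → ℝ, (∀ y, Real.exp (-g y) ≤ Q y) → (∑ y, p y * Real.exp (g y))⁻¹ ≤ q := by
    intro g hg
    refine (inv_sum_le hp hp1 (fun y => Real.exp_pos (g y)) rfl (hpos g)).trans ?_
    refine Finset.sum_le_sum fun y _ => mul_le_mul_of_nonneg_left ?_ (hp y)
    rw [← Real.exp_neg]
    exact hg y
  have hdiff : ∀ (g g' : Y → ℝ) (k : ℕ), (∀ y, |g y - g' y| ≤ r ^ k * Q y) →
      |∑ y, p y * g y - ∑ y, p y * g' y| ≤ r ^ k * q := by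
    intro g g' k hg
    rw [← Finset.sum_sub_distrib, hq, Finset.mul_sum]
    refine (Finset.abs_sum_le_sum_abs _ _).trans (Finset.sum_le_sum fun y _ => ?_)
    rw [← mul_sub, abs_mul, abs_of_nonneg (hp y)]
    calc p y * |g y - g' y| ≤ p y * (r ^ k * Q y) := mul_le_mul_of_nonneg_left (hg y) (hp y)
      _ = _ := by ring
  have d1 : |A - A0| ≤ r ^ 1 * q := hdiff _ _ 1 fun y => by rw [pow_one]; exact (hB y).x
  have d2 : |B - A0| ≤ r ^ 1 * q := hdiff _ _ 1 fun y => by rw [pow_one]; exact (hB y).y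
  have d3 : |A - B| ≤ r ^ 2 * q := hdiff _ _ 2 fun y => (hB y).xy
  have d4 : |A - B - M| ≤ r ^ 3 * q := by
    have e1 : A - B = ∑ y, p y * (Real.exp (X y) - Real.exp (Z y)) := by
      rw [hA, hBdef, ← Finset.sum_sub_distrib]
      exact Finset.sum_congr rfl fun y _ => by ring
    rw [e1]
    exact hdiff _ _ 3 fun y => (hB y).xym
  rw [pow_one] at d1 d2
  have i1 : A⁻¹ ≤ q := hinv X fun y => (hB y).nx
  have i2 : B⁻¹ ≤ q := hinv Z fun y => (hB y).ny
  have i3 : A0⁻¹ ≤ q := hinv F fun y => (hB y).nf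
  have hq1 : 1 ≤ q := by
    rw [← hp1, hq]
    exact Finset.sum_le_sum fun y _ => le_mul_of_one_le_right (hp y) (hQ y)
  have hq0 : 0 ≤ q := by linarith
  have key : ∀ D, 0 < D → D⁻¹ ≤ q → |D - A0| ≤ r * q →
      |(A - B) * D⁻¹ - (A - B) * A0⁻¹| ≤ r ^ 3 * q ^ 4 := by
    intro D hD h1 h2
    have e : (A - B) * D⁻¹ - (A - B) * A0⁻¹ = (A - B) * (A0 - D) * (D⁻¹ * A0⁻¹) := by
      field_simp
    rw [e, abs_mul, abs_mul, abs_of_pos (by positivity : 0 < D⁻¹ * A0⁻¹), abs_sub_comm A0 D]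
    have e2 : |A - B| * |D - A0| ≤ r ^ 2 * q * (r * q) :=
      mul_le_mul d3 h2 (abs_nonneg _) (by positivity)
    have e3 : D⁻¹ * A0⁻¹ ≤ q * q := mul_le_mul h1 i3 (by positivity) hq0
    calc _ ≤ r ^ 2 * q * (r * q) * (q * q) := mul_le_mul e2 e3 (by positivity) (by positivity)
      _ = _ := by ring
  have l1 : Real.log A - Real.log B ≤ (A - B) * B⁻¹ := by
    rw [← Real.log_div hAp.ne' hBp.ne']
    have := Real.log_le_sub_one_of_pos (div_pos hAp hBp)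
    have e : A / B - 1 = (A - B) * B⁻¹ := by field_simp
    linarith
  have l2 : (A - B) * A⁻¹ ≤ Real.log A - Real.log B := by
    have h1 := Real.log_le_sub_one_of_pos (div_pos hBp hAp)
    rw [Real.log_div hBp.ne' hAp.ne'] at h1
    have e : B / A - 1 = -((A - B) * A⁻¹) := by field_simp; ring
    linarith
  have k1 := abs_le.1 (key B hBp i2 d2)
  have k2 := abs_le.1 (key A hAp i1 d1)
  have k3 : |Real.log A - Real.log B - (A - B) * A0⁻¹| ≤ r ^ 3 * q ^ 4 := by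
    rw [abs_le]
    constructor <;> linarith only [l2, l1, k1.1, k1.2, k2.1, k2.2]
  have k4 : |(A - B) * A0⁻¹ - M / A0| ≤ r ^ 3 * q ^ 4 := by
    have e : (A - B) * A0⁻¹ - M / A0 = (A - B - M) * A0⁻¹ := by
      rw [div_eq_mul_inv]; ring
    rw [e, abs_mul, abs_of_pos (by positivity : 0 < A0⁻¹)]
    calc |A - B - M| * A0⁻¹ ≤ r ^ 3 * q * q := mul_le_mul d4 i3 (by positivity) (by positivity)
      _ = r ^ 3 * q ^ 2 := by ring
      _ ≤ r ^ 3 * q ^ 4 := by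
          have : q ^ 2 ≤ q ^ 4 := pow_le_pow_right₀ hq1 (by norm_num)
          gcongr
  have hq4 : q ^ 4 ≤ ∑ y, p y * Q y ^ 4 :=
    Real.pow_arith_mean_le_arith_mean_pow univ p Q (fun y _ => hp y) hp1
      (fun y _ => by linarith only [hQ y]) 4
  have e : Real.log A - Real.log B - M / A0
      = (Real.log A - Real.log B - (A - B) * A0⁻¹) + ((A - B) * A0⁻¹ - M / A0) := by ring
  rw [e]
  refine (abs_add_le _ _).trans ?_
  calc _ ≤ r ^ 3 * q ^ 4 + r ^ 3 * q ^ 4 := add_le_add k3 k4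
    _ = 2 * r ^ 3 * q ^ 4 := by ring
    _ ≤ _ := by gcongr

end Lin

end Vale.Agent.P157.Par
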