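import Vale.Agent.P157.ParGG
import Vale.Agent.P157.ParLinDet
import Vale.Agent.P157.Defs

open MeasureTheory ProbabilityTheory Filter Topology

namespace Vale.Agent.P157.Par

open Vale.Agent.P367.GT (gM)

/-- The sign of a spin. -/
def sgn (b : Bool) : ℝ := if b then 1 else -1

lemma sgn_sq (b : Bool) : sgn b ^ 2 = 1 := by cases b <;> simp [sgn]

/-- The normalized configuration, in dimension `N + 1`. -/
noncomputable def cubeφ (N : ℕ) (x : Fin (N + 1) → Bool) : EuclideanSpace ℝ (Fin (N + 1)) :=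
  WithLp.toLp 2 fun i => sgn (x i) / √((N : ℝ) + 1)

lemma cubeφ_sq (N : ℕ) (x : Fin (N + 1) → Bool) (i : Fin (N + 1)) :
    cubeφ N x i ^ 2 = 1 / ((N : ℝ) + 1) := by
  have h : cubeφ N x i = sgn (x i) / √((N : ℝ) + 1) := rfl
  rw [h, div_pow, sgn_sq, Real.sq_sqrt (by positivity)]

lemma norm_cubeφ (N : ℕ) (x : Fin (N + 1) → Bool) : ‖cubeφ N x‖ = 1 := by
  rw [EuclideanSpace.norm_eq, Real.sqrt_eq_one]
  have h : ∀ i, ‖cubeφ N x i‖ ^ 2 = 1 / ((N : ℝ) + 1) := fun i => by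
    rw [Real.norm_eq_abs, sq_abs, cubeφ_sq]
  simp_rw [h]
  rw [Finset.sum_const, Finset.card_univ, Fintype.card_fin, nsmul_eq_mul]
  push_cast
  field_simp

/-- The field of the pattern `g` at the configuration `x`. -/
noncomputable def cubeS {N : ℕ} (g : Fin (N + 1) → ℝ) (x : Fin (N + 1) → Bool) : ℝ :=
  ∑ i, g i * cubeφ N x i

/-- The perceptron on the cube `{-1,1}^(N+1)` with `M` patterns. -/
noncomputable def cubeBase (f : ℝ → ℝ) (hf : Measurable f) (C : ℝ) (hC : ∀ x, |f x| ≤ C)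
    (N M : ℕ) : Base :=
  patBase (gM (Fin (N + 1))) M (X := Fin (N + 1) → Bool)
    (fun ω x => ∑ a, f (cubeS (ω a) x))
    (fun x => Finset.measurable_sum _ fun a _ => hf.comp (by unfold cubeS; fun_prop))
    (M * C) (fun ω x => by
      refine (Finset.abs_sum_le_sum_abs _ _).trans ((Finset.sum_le_sum fun a _ => hC _).trans ?_)
      rw [Finset.sum_const, Finset.card_univ, Fintype.card_fin, nsmul_eq_mul])
    (cubeφ N) (norm_cubeφ N)

/-- The free energy increment for one more pattern: `E log ⟨exp f(S)⟩`, the field `S` being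
independent of the system. -/
noncomputable def Sys.dM (S : Sys) (f : ℝ → ℝ) : ℝ :=
  ∫ z : S.Ω × (Fin S.d → ℝ), Real.log (∑ x, S.w z.1 x * Real.exp (f (∑ i, z.2 i * S.φ x i)))
    ∂(S.P.prod (gM (Fin S.d)))

/-- The order `δ` term of the linearized energy. -/
noncomputable def cavB {M : ℕ} (δ : ℝ) (f1 f2 : ℝ → ℝ) (S : Fin M → ℝ) : ℝ :=
  ∑ a, δ / 2 * (f2 (S a) - S a * f1 (S a))

/-- The order `√δ` term of the linearized energy. -/
noncomputable def cavY {M : ℕ} (δ : ℝ) (f1 : ℝ → ℝ) (S H : Fin M → ℝ) : ℝ :=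
  ∑ a, √δ * f1 (S a) * H a

/-- The cavity form of the free energy increment for one more spin, for the perceptron on
`{-1,1}^(N+1)` with `M` patterns; here `δ = 1/(N+2)`. -/
noncomputable def cubeDN (f f1 f2 : ℝ → ℝ) (hf : Measurable f) (C : ℝ) (hC : ∀ x, |f x| ≤ C)
    (N M P : ℕ) (s : ℝ) (u : Fin P → ℝ) : ℝ :=
  (∫ z : ((Fin M → Fin (N + 1) → ℝ) × (GI P (N + 1) → ℝ)) × (Fin M → ℝ),
      Real.log (∑ x, ((cubeBase f hf C hC N M).sys P s u).w z.1 x *
        (Real.exp (cavB (1 / ((N : ℝ) + 2)) f1 f2 fun a => cubeS (z.1.1 a) x) *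
        Real.cosh (cavY (1 / ((N : ℝ) + 2)) f1 (fun a => cubeS (z.1.1 a) x) z.2)))
      ∂(((cubeBase f hf C hC N M).sys P s u).P.prod (gM (Fin M)))) -
  ∫ z : ((Fin M → Fin (N + 1) → ℝ) × (GI P (N + 1) → ℝ)) × (Fin M → Fin (N + 1) → ℝ),
      Real.log (∑ x, ((cubeBase f hf C hC N M).sys P s u).w z.1 x *
        Real.exp (cavB (1 / ((N : ℝ) + 2)) f1 f2 (fun a => cubeS (z.1.1 a) x) +
          cavY (1 / ((N : ℝ) + 2)) f1 (fun a => cubeS (z.1.1 a) x) fun a => cubeS (z.2 a) x))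
      ∂(((cubeBase f hf C hC N M).sys P s u).P.prod (Measure.pi fun _ => gM (Fin (N + 1))))

end Vale.Agent.P157.Par
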