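import Vale.Agent.P157.ParTrunc

open MeasureTheory ProbabilityTheory Filter Topology

namespace Vale.Agent.P157.Par

open Vale.Agent.P367.GT (gM)
open Vale.Agent.P157.Par.Cube

set_option linter.unusedSectionVars false

namespace Dnl

/-- averages of one replica -/
lemma tav_one (S : Sys) (G : S.T → S.X → ℝ) :
    S.tav (n := 1) (fun t x => G t (x 0)) = ∫ ω, ∑ x, S.w ω x * G (S.π ω) x ∂S.P := by
  unfold Sys.tav Sys.av
  congr 1
  funext ω
  rw [← (Equiv.funUnique (Fin 1) S.X).sum_comp]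
  apply Finset.sum_congr rfl
  intro x _
  simp

/-- currying of Gaussian vectors -/
lemma mp_curry (M N : ℕ) : MeasurePreserving (MeasurableEquiv.curry (Fin M) (Fin (N + 1)) ℝ)
    (gM (Fin M × Fin (N + 1))) (pm M N) := by
  refine ⟨(MeasurableEquiv.curry (Fin M) (Fin (N + 1)) ℝ).measurable, ?_⟩
  have h := Measure.infinitePi_map_curry
    (fun (_ : Fin M) (_ : Fin (N + 1)) => gaussianReal 0 1)
  simp_rw [Measure.infinitePi_eq_pi] at h
  exact h

lemma lin_ker1 {M N : ℕ} (δ : ℝ) (f1 : ℝ → ℝ) (t : Fin M → Fin (N + 1) → ℝ) (η : Fin M → ℝ)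
    (x : Fin (N + 1) → Bool) :
    lin (ker1 δ f1 t) η x = cavY δ f1 (fun a => cubeS (t a) x) η := rfl

lemma lin_ker2 {M N : ℕ} (δ : ℝ) (f1 : ℝ → ℝ) (t : Fin M → Fin (N + 1) → ℝ)
    (z : Fin M × Fin (N + 1) → ℝ) (x : Fin (N + 1) → Bool) :
    lin (ker2 δ f1 t) z x = cavY δ f1 (fun a => cubeS (t a) x)
      fun a => cubeS (MeasurableEquiv.curry (Fin M) (Fin (N + 1)) ℝ z a) x := by
  unfold lin ker2 cavY
  rw [Fintype.sum_prod_type]
  apply Finset.sum_congr rfl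
  intro a _
  unfold cubeS
  rw [Finset.mul_sum]
  apply Finset.sum_congr rfl
  intro i _
  simp only [MeasurableEquiv.coe_curry, Function.curry_apply]
  ring

lemma sum_ker1 {C : ℝ} {f1 : ℝ → ℝ} (hf1 : ∀ x, |f1 x| ≤ C) {M N : ℕ} {δ : ℝ} (hδ : 0 ≤ δ)
    (t : Fin M → Fin (N + 1) → ℝ) (x : Fin (N + 1) → Bool) :
    ∑ a, ker1 δ f1 t x a ^ 2 ≤ δ * M * C ^ 2 := by
  unfold ker1
  have h1 : ∀ a : Fin M, (√δ * f1 (cubeS (t a) x)) ^ 2 ≤ δ * C ^ 2 := by
    intro a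
    rw [mul_pow, Real.sq_sqrt hδ]
    refine mul_le_mul_of_nonneg_left ?_ hδ
    rw [← sq_abs]
    exact pow_le_pow_left₀ (abs_nonneg _) (hf1 _) 2
  refine (Finset.sum_le_sum fun a _ => h1 a).trans ?_
  rw [Finset.sum_const, Finset.card_univ, Fintype.card_fin, nsmul_eq_mul]
  apply le_of_eq
  ring

lemma sum_ker2 {C : ℝ} {f1 : ℝ → ℝ} (hf1 : ∀ x, |f1 x| ≤ C) {M N : ℕ} {δ : ℝ} (hδ : 0 ≤ δ)
    (t : Fin M → Fin (N + 1) → ℝ) (x : Fin (N + 1) → Bool) :
    ∑ p, ker2 δ f1 t x p ^ 2 ≤ δ * M * C ^ 2 := by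
  refine le_trans (le_of_eq ?_) (sum_ker1 hf1 hδ t x)
  rw [Fintype.sum_prod_type]
  apply Finset.sum_congr rfl
  intro a _
  unfold ker2 ker1
  simp_rw [mul_pow]
  rw [← Finset.mul_sum, sum_cubeφ_sq, mul_one]

lemma int_exp_abs_cubeS (N : ℕ) (t : ℝ) (x : Fin (N + 1) → Bool) :
    Integrable (fun g : Fin (N + 1) → ℝ => Real.exp (t * |cubeS g x|)) (gM (Fin (N + 1))) := by
  have h : ∀ r : ℝ, Integrable (fun g : Fin (N + 1) → ℝ => Real.exp (r * cubeS g x))
      (gM (Fin (N + 1))) := by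
    intro r
    have h1 := integrable_exp_lin (fun (y : Fin (N + 1) → Bool) i => r * cubeφ N y i) x
    refine h1.congr (Filter.Eventually.of_forall fun g => ?_)
    simp only
    congr 1
    unfold lin cubeS
    rw [Finset.mul_sum]
    apply Finset.sum_congr rfl
    intro i _
    ring
  exact integrable_exp_mul_abs (h t) (h (-t))

section

variable {f f1 f2 f3 : ℝ → ℝ} {C : ℝ}

lemma int_exp_cavB (hf : CB3 C f f1 f2 f3) {δ : ℝ} (hδ : 0 ≤ δ) (M N : ℕ)
    (x : Fin (N + 1) → Bool) :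
    Integrable (fun ω : Fin M → Fin (N + 1) → ℝ =>
      Real.exp (cavB δ f1 f2 fun a => cubeS (ω a) x)) (pm M N) := by
  have m1 := (Lin.continuous_f1 hf).measurable
  have m2 := (Lin.continuous_f2 hf).measurable
  unfold cavB
  simp_rw [Real.exp_sum]
  refine Integrable.fintype_prod (f := fun (_ : Fin M) (g : Fin (N + 1) → ℝ) =>
    Real.exp (δ / 2 * (f2 (cubeS g x) - cubeS g x * f1 (cubeS g x)))) fun a => ?_
  refine Integrable.mono' ((int_exp_abs_cubeS N (δ / 2 * C) x).const_mul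
    (Real.exp (δ / 2 * C))) ?_ (Filter.Eventually.of_forall fun g => ?_)
  · have h1 : Measurable fun g : Fin (N + 1) → ℝ => cubeS g x := by unfold cubeS; fun_prop
    have h2 := m1.comp h1
    have h3 := m2.comp h1
    exact (Real.measurable_exp.comp ((h3.sub (h1.mul h2)).const_mul _)).aestronglyMeasurable
  · rw [Real.norm_eq_abs, abs_of_pos (Real.exp_pos _), ← Real.exp_add]
    apply Real.exp_le_exp.2
    have h1 : f2 (cubeS g x) ≤ C := (le_abs_self _).trans (hf.b2 _)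
    have h2 : -(cubeS g x * f1 (cubeS g x)) ≤ C * |cubeS g x| := by
      have h3 : |cubeS g x * f1 (cubeS g x)| ≤ |cubeS g x| * C := by
        rw [abs_mul]
        exact mul_le_mul_of_nonneg_left (hf.b1 _) (abs_nonneg _)
      linarith [neg_abs_le (cubeS g x * f1 (cubeS g x))]
    have h4 : 0 ≤ δ / 2 := by linarith
    have h5 := mul_le_mul_of_nonneg_left (add_le_add h1 h2) h4
    calc _ ≤ δ / 2 * (C + C * |cubeS g x|) := by
          refine le_trans (le_of_eq ?_) h5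
          ring
      _ = _ := by ring

/-- bounded log-sum-exp -/
lemma abs_lse_le {X : Type} [Fintype X] {w : X → ℝ} (hw0 : ∀ x, 0 ≤ w x) (hw1 : ∑ x, w x = 1)
    {E : X → ℝ} {T : ℝ} (hE : ∀ x, |E x| ≤ T) : |Real.log (∑ x, w x * Real.exp (E x))| ≤ T := by
  have h1 : Real.exp (-T) ≤ ∑ x, w x * Real.exp (E x) := by
    calc Real.exp (-T) = ∑ x, w x * Real.exp (-T) := by rw [← Finset.sum_mul, hw1, one_mul]
      _ ≤ _ := Finset.sum_le_sum fun x _ =>
        mul_le_mul_of_nonneg_left (Real.exp_le_exp.2 (abs_le.1 (hE x)).1) (hw0 x)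
  have h2 : ∑ x, w x * Real.exp (E x) ≤ Real.exp T := by
    calc _ ≤ ∑ x, w x * Real.exp T := Finset.sum_le_sum fun x _ =>
        mul_le_mul_of_nonneg_left (Real.exp_le_exp.2 (abs_le.1 (hE x)).2) (hw0 x)
      _ = Real.exp T := by rw [← Finset.sum_mul, hw1, one_mul]
  have h3 : 0 < ∑ x, w x * Real.exp (E x) := (Real.exp_pos _).trans_le h1
  rw [abs_le]
  constructor
  · have := Real.log_le_log (Real.exp_pos _) h1
    rwa [Real.log_exp] at this
  · have := Real.log_le_log h3 h2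
    rwa [Real.log_exp] at this

lemma abs_trn_le {T : ℝ} (hT : 0 < T) (x : ℝ) : |trn T x| ≤ T := by
  unfold trn
  rw [abs_mul, abs_of_pos hT]
  have h : |Real.tanh (x / T)| ≤ 1 := by
    rw [abs_le]
    exact ⟨(Real.neg_one_lt_tanh _).le, (Real.tanh_lt_one _).le⟩
  calc T * |Real.tanh (x / T)| ≤ T * 1 := mul_le_mul_of_nonneg_left h hT.le
    _ = T := mul_one T

lemma abs_logcosh_trn_le {T : ℝ} (hT : 0 < T) (x : ℝ) :
    |Real.log (Real.cosh (trn T x))| ≤ T := by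
  rw [abs_of_nonneg (log_cosh_nonneg _)]
  exact (log_cosh_le _).trans (abs_trn_le hT x)

lemma measurable_trn (T : ℝ) : Measurable (trn T) := by
  unfold trn
  simp_rw [Real.tanh_eq_sinh_div_cosh]
  have h1 : Measurable fun x : ℝ => x / T := measurable_id.div_const T
  exact ((Real.measurable_sinh.comp h1).div (Real.measurable_cosh.comp h1)).const_mul T

section abs

variable {Ω X K : Type} [MeasurableSpace Ω] [Fintype X] [Fintype K] [DecidableEq K]
  {Q : Measure Ω} [IsProbabilityMeasure Q] {w B : Ω → X → ℝ} {κ : Ω → X → K → ℝ} {A b T : ℝ}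

lemma integrable_bdd_lse (hw0 : ∀ ω x, 0 ≤ w ω x) (hw1 : ∀ ω, ∑ x, w ω x = 1)
    (hwm : ∀ x, Measurable fun ω => w ω x) (hκ : ∀ x c, Measurable fun ω => κ ω x c)
    {h : ℝ → ℝ} (hh : Measurable h) (hb : ∀ x, |h x| ≤ T) :
    Integrable (fun z : Ω × (K → ℝ) =>
      Real.log (∑ x, w z.1 x * Real.exp (h (lin (κ z.1) z.2 x)))) (Q.prod (gM K)) := by
  refine Integrable.mono' (integrable_const T) ?_ (Filter.Eventually.of_forall fun z => ?_)
  · have h1 : ∀ x, Measurable fun z : Ω × (K → ℝ) => lin (κ z.1) z.2 x := by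
      intro x
      unfold lin
      refine Finset.measurable_sum _ fun c _ => ?_
      exact ((hκ x c).comp measurable_fst).mul ((measurable_pi_apply c).comp measurable_snd)
    have h2 : Measurable fun z : Ω × (K → ℝ) =>
        ∑ x, w z.1 x * Real.exp (h (lin (κ z.1) z.2 x)) :=
      Finset.measurable_sum _ fun x _ =>
        ((hwm x).comp measurable_fst).mul (Real.measurable_exp.comp (hh.comp (h1 x)))
    exact (Real.measurable_log.comp h2).aestronglyMeasurable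
  · exact abs_lse_le (hw0 z.1) (hw1 z.1) fun x => hb _

lemma lower_cosh (hw0 : ∀ ω x, 0 ≤ w ω x) (hw1 : ∀ ω, ∑ x, w ω x = 1)
    (hwm : ∀ x, Measurable fun ω => w ω x) (hκm : ∀ x c, Measurable fun ω => κ ω x c)
    (hκ : ∀ ω x, ∑ c, κ ω x c ^ 2 ≤ A) (hT : 0 < T)
    (hB : Integrable (fun ω => ∑ x, w ω x * |B ω x - b|) Q)
    (hF : Integrable (fun z : Ω × (K → ℝ) => Real.log (∑ x, w z.1 x *
      (Real.exp (B z.1 x) * Real.cosh (lin (κ z.1) z.2 x)))) (Q.prod (gM K))) :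
    b + (∫ z : Ω × (K → ℝ), Real.log (∑ x, w z.1 x *
        Real.exp (Real.log (Real.cosh (trn T (lin (κ z.1) z.2 x))))) ∂(Q.prod (gM K))) -
        Real.exp (A / 2) * ∫ ω, ∑ x, w ω x * |B ω x - b| ∂Q ≤
      ∫ z : Ω × (K → ℝ), Real.log (∑ x, w z.1 x *
        (Real.exp (B z.1 x) * Real.cosh (lin (κ z.1) z.2 x))) ∂(Q.prod (gM K)) := by
  have hI : Integrable (fun z : Ω × (K → ℝ) =>
      Real.log (∑ x, w z.1 x * Real.exp (Real.log (Real.cosh (trn T (lin (κ z.1) z.2 x))))))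
      (Q.prod (gM K)) :=
    integrable_bdd_lse (T := T) (h := fun y => Real.log (Real.cosh (trn T y))) hw0 hw1 hwm hκm
      (Real.measurable_log.comp (Real.measurable_cosh.comp (measurable_trn T)))
      fun y => abs_logcosh_trn_le hT y
  rw [integral_prod _ hI, integral_prod _ hF]
  rw [← integral_const_mul]
  have e1 : b + (∫ ω : Ω, ∫ z : K → ℝ, Real.log (∑ x, w ω x *
        Real.exp (Real.log (Real.cosh (trn T (lin (κ ω) z x))))) ∂(gM K) ∂Q) =
      ∫ ω : Ω, (b + ∫ z : K → ℝ, Real.log (∑ x, w ω x *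
        Real.exp (Real.log (Real.cosh (trn T (lin (κ ω) z x))))) ∂(gM K)) ∂Q := by
    rw [integral_add (integrable_const _) hI.integral_prod_left]
    simp
  have i1 : Integrable (fun ω : Ω => b + ∫ z : K → ℝ, Real.log (∑ x, w ω x *
      Real.exp (Real.log (Real.cosh (trn T (lin (κ ω) z x))))) ∂(gM K)) Q :=
    (integrable_const b).add hI.integral_prod_left
  rw [e1, ← integral_sub i1 (hB.const_mul _)]
  refine integral_mono (i1.sub (hB.const_mul _)) hF.integral_prod_left fun ω => ?_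
  exact trunc_cosh (hw0 ω) (hw1 ω) (B ω) (hκ ω) b hT

lemma upper_id {D : ℝ} (hD : ∀ (X K : Type) [Fintype X] [Fintype K] [DecidableEq K]
    (w : X → ℝ) (_hw0 : ∀ x, 0 ≤ w x) (_hw1 : ∑ x, w x = 1) (B : X → ℝ)
    (κ : X → K → ℝ) (_hκ : ∀ x, ∑ c, κ x c ^ 2 ≤ A) (b T : ℝ) (_hT : 1 ≤ T),
    ∫ z, Real.log (∑ x, w x * Real.exp (B x + lin κ z x)) ∂(gM K) ≤
      b + ∫ z, Real.log (∑ x, w x * Real.exp (trn T (lin κ z x))) ∂(gM K) +
        D * (∑ x, w x * |Real.exp (B x - b) - 1| + 1 / T ^ 2))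
    (hw0 : ∀ ω x, 0 ≤ w ω x) (hw1 : ∀ ω, ∑ x, w ω x = 1)
    (hwm : ∀ x, Measurable fun ω => w ω x) (hκm : ∀ x c, Measurable fun ω => κ ω x c)
    (hκ : ∀ ω x, ∑ c, κ ω x c ^ 2 ≤ A) (hT : 1 ≤ T)
    (hB : Integrable (fun ω => ∑ x, w ω x * |Real.exp (B ω x - b) - 1|) Q)
    (hF : Integrable (fun z : Ω × (K → ℝ) => Real.log (∑ x, w z.1 x *
      Real.exp (B z.1 x + lin (κ z.1) z.2 x))) (Q.prod (gM K))) :
    ∫ z : Ω × (K → ℝ), Real.log (∑ x, w z.1 x *
        Real.exp (B z.1 x + lin (κ z.1) z.2 x)) ∂(Q.prod (gM K)) ≤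
      b + (∫ z : Ω × (K → ℝ), Real.log (∑ x, w z.1 x *
        Real.exp (trn T (lin (κ z.1) z.2 x))) ∂(Q.prod (gM K))) +
        D * ((∫ ω, ∑ x, w ω x * |Real.exp (B ω x - b) - 1| ∂Q) + 1 / T ^ 2) := by
  have hT0 : 0 < T := lt_of_lt_of_le one_pos hT
  have hI : Integrable (fun z : Ω × (K → ℝ) =>
      Real.log (∑ x, w z.1 x * Real.exp (trn T (lin (κ z.1) z.2 x)))) (Q.prod (gM K)) :=
    integrable_bdd_lse (T := T) (h := trn T) hw0 hw1 hwm hκm (measurable_trn T)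
      fun y => abs_trn_le hT0 y
  rw [integral_prod _ hI, integral_prod _ hF]
  have e2 : D * ((∫ ω, ∑ x, w ω x * |Real.exp (B ω x - b) - 1| ∂Q) + 1 / T ^ 2) =
      ∫ ω, D * ((∑ x, w ω x * |Real.exp (B ω x - b) - 1|) + 1 / T ^ 2) ∂Q := by
    rw [integral_const_mul, integral_add hB (integrable_const _)]
    simp
  have e1 : b + (∫ ω : Ω, ∫ z : K → ℝ, Real.log (∑ x, w ω x *
        Real.exp (trn T (lin (κ ω) z x))) ∂(gM K) ∂Q) =
      ∫ ω : Ω, (b + ∫ z : K → ℝ, Real.log (∑ x, w ω x *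
        Real.exp (trn T (lin (κ ω) z x))) ∂(gM K)) ∂Q := by
    rw [integral_add (integrable_const _) hI.integral_prod_left]
    simp
  have i1 : Integrable (fun ω : Ω => b + ∫ z : K → ℝ, Real.log (∑ x, w ω x *
      Real.exp (trn T (lin (κ ω) z x))) ∂(gM K)) Q :=
    (integrable_const b).add hI.integral_prod_left
  have i2 : Integrable (fun ω : Ω => D * ((∑ x, w ω x * |Real.exp (B ω x - b) - 1|) +
      1 / T ^ 2)) Q :=
    (hB.add (integrable_const (1 / T ^ 2))).const_mul D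
  rw [e1, e2, ← integral_add i1 i2]
  refine integral_mono hF.integral_prod_left (i1.add i2) fun ω => ?_
  exact hD X K (w ω) (hw0 ω) (hw1 ω) (B ω) (κ ω) (hκ ω) b T hT

end abs

/-- integrability with the weights -/
lemma integrable_w (hfm : Measurable f) (hC : ∀ x, |f x| ≤ C) (M N : ℕ) {P : ℕ}
    (s : ℝ) (u : Fin P → ℝ) {H : Type} [MeasurableSpace H] {μ : Measure H}
    [IsProbabilityMeasure μ]
    {A : (Fin M → Fin (N + 1) → ℝ) → H → (Fin (N + 1) → Bool) → ℝ} (hA : ∀ ω η x, 0 < A ω η x)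
    (hi : Integrable (fun z : ((Fin M → Fin (N + 1) → ℝ) × (GI P (N + 1) → ℝ)) × H =>
      Real.log (∑ x, Real.exp (EE f s u z.1.1 z.1.2 x) * A z.1.1 z.2 x))
      (((pm M N).prod (gM (GI P (N + 1)))).prod μ)) :
    Integrable (fun z : ((Fin M → Fin (N + 1) → ℝ) × (GI P (N + 1) → ℝ)) × H =>
      Real.log (∑ x : Fin (N + 1) → Bool, (pS f hfm C hC N M P s u).w z.1 x *
        A z.1.1 z.2 x)) (((pm M N).prod (gM (GI P (N + 1)))).prod μ) := by
  have hlz : Integrable (fun z : (Fin M → Fin (N + 1) → ℝ) × (GI P (N + 1) → ℝ) =>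
      Real.log (∑ y, Real.exp (EE f s u z.1 z.2 y))) ((pm M N).prod (gM (GI P (N + 1)))) :=
    integrable_lse (integrable_EE hfm C hC N M s u)
  have hp : ∀ z : ((Fin M → Fin (N + 1) → ℝ) × (GI P (N + 1) → ℝ)) × H,
      Real.log (∑ x : Fin (N + 1) → Bool, ((cubeBase f hfm C hC N M).sys P s u).w z.1 x *
          A z.1.1 z.2 x) =
      Real.log (∑ x, Real.exp (EE f s u z.1.1 z.1.2 x) * A z.1.1 z.2 x) -
        Real.log (∑ y, Real.exp (EE f s u z.1.1 z.1.2 y)) := by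
    intro z
    rw [log_ratio (EE f s u z.1.1 z.1.2) (A z.1.1 z.2) (hA _ _)]
    simp only [w_eq]
    ring
  simp_rw [pS, hp]
  exact hi.sub (hlz.comp_fst _)

lemma w_le_one (S : Sys) (ω : S.Ω) (x : S.X) : S.w ω x ≤ 1 := by
  rw [← S.w1 ω]
  exact Finset.single_le_sum (f := fun x => S.w ω x) (fun y _ => S.w0 ω y) (Finset.mem_univ x)

/-- integrability of averages -/
lemma integrable_sum_w (S : Sys) {G : S.Ω → S.X → ℝ} (hG : ∀ x, Integrable (fun ω => G ω x) S.P) :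
    Integrable (fun ω => ∑ x, S.w ω x * G ω x) S.P := by
  refine integrable_finsetSum _ fun x _ => ?_
  refine (hG x).bdd_mul (c := 1) (S.hw x).aestronglyMeasurable
    (Filter.Eventually.of_forall fun ω => ?_)
  rw [Real.norm_eq_abs, abs_of_nonneg (S.w0 ω x)]
  exact w_le_one S ω x

lemma fin_arith {I1 I2 X Y b F1 F2 D e q : ℝ} (t1 : b + I1 - e * X ≤ F1)
    (t2 : F2 ≤ b + I2 + D * (Y + q)) (hX : 0 ≤ X) (hY : 0 ≤ Y) (hq : 0 ≤ q) (he : 0 ≤ e)
    (hD : 0 ≤ D) : I1 - I2 - (e + D) * (X + Y + q) ≤ F1 - F2 := by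
  linarith only [t1, t2, mul_nonneg he hY, mul_nonneg he hq, mul_nonneg hD hX]

end

end Dnl

open Dnl

/-- Lower bound of the cavity form of the increment by bounded functions of Gaussian fields. -/
theorem cubeDN_trunc (A : ℝ) : ∃ D : ℝ, 0 ≤ D ∧ ∀ (f f1 f2 f3 : ℝ → ℝ) (C : ℝ)
    (hf : CB3 C f f1 f2 f3) (hfm : Measurable f) (N M P : ℕ) (s : ℝ) (u : Fin P → ℝ),
    1 / ((N : ℝ) + 2) * M * C ^ 2 ≤ A → ∀ b T : ℝ, 1 ≤ T →
    (∫ z : ((Fin M → Fin (N + 1) → ℝ) × (GI P (N + 1) → ℝ)) × (Fin M → ℝ),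
      Real.log (∑ x, (pS f hfm C hf.b0 N M P s u).w z.1 x *
        Real.exp (Real.log (Real.cosh
          (trn T (lin (ker1 (1 / ((N : ℝ) + 2)) f1 z.1.1) z.2 x)))))
      ∂((pS f hfm C hf.b0 N M P s u).P.prod (gM (Fin M)))) -
    (∫ z : ((Fin M → Fin (N + 1) → ℝ) × (GI P (N + 1) → ℝ)) × (Fin M × Fin (N + 1) → ℝ),
      Real.log (∑ x, (pS f hfm C hf.b0 N M P s u).w z.1 x *
        Real.exp (trn T (lin (ker2 (1 / ((N : ℝ) + 2)) f1 z.1.1) z.2 x)))
      ∂((pS f hfm C hf.b0 N M P s u).P.prod (gM (Fin M × Fin (N + 1))))) -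
    D * ((pS f hfm C hf.b0 N M P s u).tav (n := 1) (fun t x =>
        |cavB (1 / ((N : ℝ) + 2)) f1 f2 (fun a => cubeS (t a) (x 0)) - b|) +
      (pS f hfm C hf.b0 N M P s u).tav (n := 1) (fun t x =>
        |Real.exp (cavB (1 / ((N : ℝ) + 2)) f1 f2 (fun a => cubeS (t a) (x 0)) - b) - 1|) +
      1 / T ^ 2) ≤ cubeDN f f1 f2 hfm C hf.b0 N M P s u := by
  obtain ⟨D0, hD0⟩ := trunc_id A
  refine ⟨Real.exp (A / 2) + |D0|, by positivity, ?_⟩
  intro f f1 f2 f3 C hf hfm N M P s u hA b T hT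
  have hT0 : 0 < T := lt_of_lt_of_le one_pos hT
  have hD : ∀ (X K : Type) [Fintype X] [Fintype K] [DecidableEq K]
      (w : X → ℝ) (_hw0 : ∀ x, 0 ≤ w x) (_hw1 : ∑ x, w x = 1) (B : X → ℝ)
      (κ : X → K → ℝ) (_hκ : ∀ x, ∑ c, κ x c ^ 2 ≤ A) (b T : ℝ) (_hT : 1 ≤ T),
      ∫ z, Real.log (∑ x, w x * Real.exp (B x + lin κ z x)) ∂(gM K) ≤
        b + ∫ z, Real.log (∑ x, w x * Real.exp (trn T (lin κ z x))) ∂(gM K) +
          |D0| * (∑ x, w x * |Real.exp (B x - b) - 1| + 1 / T ^ 2) := by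
    intro X K _ _ _ w hw0 hw1 B κ hκ b T hT
    refine (hD0 X K w hw0 hw1 B κ hκ b T hT).trans ?_
    have h1 : 0 ≤ ∑ x, w x * |Real.exp (B x - b) - 1| + 1 / T ^ 2 := by
      have : 0 ≤ ∑ x, w x * |Real.exp (B x - b) - 1| :=
        Finset.sum_nonneg fun x _ => mul_nonneg (hw0 x) (abs_nonneg _)
      positivity
    have h2 := mul_le_mul_of_nonneg_right (le_abs_self D0) h1
    linarith only [h2]
  set δ : ℝ := 1 / ((N : ℝ) + 2) with hδ
  have hδ0 : 0 ≤ δ := by positivity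
  set S := pS f hfm C hf.b0 N M P s u with hS
  have m1 := (Lin.continuous_f1 hf).measurable
  -- averages
  have iB : Integrable (fun ω : S.Ω => ∑ x : Fin (N + 1) → Bool, S.w ω x *
      |cavB δ f1 f2 (fun a => cubeS (S.π ω a) x) - b|) S.P := by
    refine integrable_sum_w S (G := fun ω x => |cavB δ f1 f2 (fun a => cubeS (S.π ω a) x) - b|)
      fun x => ?_
    have h := (((integrable_cavB hf δ M N x).sub (integrable_const b)).abs).comp_fst
      (gM (GI P (N + 1)))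
    exact h
  have iE : Integrable (fun ω : S.Ω => ∑ x : Fin (N + 1) → Bool, S.w ω x *
      |Real.exp (cavB δ f1 f2 (fun a => cubeS (S.π ω a) x) - b) - 1|) S.P := by
    refine integrable_sum_w S
      (G := fun ω x => |Real.exp (cavB δ f1 f2 (fun a => cubeS (S.π ω a) x) - b) - 1|)
      fun x => ?_
    have h0 : Integrable (fun ω : Fin M → Fin (N + 1) → ℝ =>
        |Real.exp (cavB δ f1 f2 (fun a => cubeS (ω a) x) - b) - 1|) (pm M N) := by
      have h1 := (int_exp_cavB hf hδ0 M N x).mul_const (Real.exp (-b))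
      refine Integrable.abs (Integrable.sub (h1.congr (Filter.Eventually.of_forall fun ω => ?_))
        (integrable_const 1))
      simp only
      rw [← Real.exp_add, ← sub_eq_add_neg]
    exact h0.comp_fst (gM (GI P (N + 1)))
  have mk1 : ∀ (x : Fin (N + 1) → Bool) (c : Fin M), Measurable
      fun ω : (Fin M → Fin (N + 1) → ℝ) × (GI P (N + 1) → ℝ) => ker1 δ f1 ω.1 x c := by
    intro x c
    unfold ker1
    exact (m1.comp (measurable_cubeS
      (g := fun ω : (Fin M → Fin (N + 1) → ℝ) × (GI P (N + 1) → ℝ) => ω.1 c)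
      (by fun_prop) x)).const_mul _
  have mk2 : ∀ (x : Fin (N + 1) → Bool) (c : Fin M × Fin (N + 1)), Measurable
      fun ω : (Fin M → Fin (N + 1) → ℝ) × (GI P (N + 1) → ℝ) => ker2 δ f1 ω.1 x c := by
    intro x c
    unfold ker2
    exact ((m1.comp (measurable_cubeS
      (g := fun ω : (Fin M → Fin (N + 1) → ℝ) × (GI P (N + 1) → ℝ) => ω.1 c.1)
      (by fun_prop) x)).const_mul _).mul_const _
  -- first term
  have i1 := integrable_w hfm hf.b0 M N s u (A := fun ω η x => A1 δ f1 f2 ω η x)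
    (fun ω η x => A1_pos δ f1 f2 ω η x) (integrable_F1 hf hfm δ M N s u)
  have t1 := lower_cosh (Q := S.P) (w := fun ω (x : Fin (N + 1) → Bool) => S.w ω x)
    (κ := fun ω => ker1 δ f1 (S.π ω))
    (B := fun ω x => cavB δ f1 f2 fun a => cubeS (S.π ω a) x) (A := A) (b := b) (T := T)
    (fun ω x => S.w0 ω x) (fun ω => S.w1 ω) (fun x => S.hw x) mk1
    (fun ω x => (sum_ker1 hf.b1 hδ0 _ x).trans hA) hT0 iB i1
  -- second term
  have i2 := integrable_w hfm hf.b0 M N s u (A := fun ω H x => A2 δ f1 f2 ω H x)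
    (fun ω η x => A2_pos δ f1 f2 ω η x) (integrable_F2 hf hfm δ M N s u)
  have mp : MeasurePreserving (fun z : ((Fin M → Fin (N + 1) → ℝ) × (GI P (N + 1) → ℝ)) ×
      (Fin M × Fin (N + 1) → ℝ) => (z.1, MeasurableEquiv.curry (Fin M) (Fin (N + 1)) ℝ z.2))
      (((pm M N).prod (gM (GI P (N + 1)))).prod (gM (Fin M × Fin (N + 1))))
      (((pm M N).prod (gM (GI P (N + 1)))).prod (pm M N)) :=
    (MeasurePreserving.id _).prod (mp_curry M N)
  have i2' := (mp.integrable_comp i2.aestronglyMeasurable).2 i2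
  have e2 := integral_map (μ := ((pm M N).prod (gM (GI P (N + 1)))).prod
    (gM (Fin M × Fin (N + 1)))) mp.measurable.aemeasurable
    (by rw [mp.map_eq]; exact i2.aestronglyMeasurable)
  rw [mp.map_eq] at e2
  have hp : ∀ z : ((Fin M → Fin (N + 1) → ℝ) × (GI P (N + 1) → ℝ)) ×
      (Fin M × Fin (N + 1) → ℝ),
      Real.log (∑ x : Fin (N + 1) → Bool, S.w z.1 x *
        A2 δ f1 f2 z.1.1 (MeasurableEquiv.curry (Fin M) (Fin (N + 1)) ℝ z.2) x) =
      Real.log (∑ x : Fin (N + 1) → Bool, S.w z.1 x *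
        Real.exp (cavB δ f1 f2 (fun a => cubeS (S.π z.1 a) x) +
          lin (ker2 δ f1 (S.π z.1)) z.2 x)) := by
    intro z
    congr 1
    refine Finset.sum_congr rfl fun x _ => ?_
    have h' : A2 δ f1 f2 z.1.1 (MeasurableEquiv.curry (Fin M) (Fin (N + 1)) ℝ z.2) x =
        Real.exp (cavB δ f1 f2 (fun a => cubeS (z.1.1 a) x) + lin (ker2 δ f1 z.1.1) z.2 x) := by
      rw [lin_ker2]
      rfl
    exact congrArg (S.w z.1 x * ·) h'
  have i2'' : Integrable (fun z : ((Fin M → Fin (N + 1) → ℝ) × (GI P (N + 1) → ℝ)) ×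
      (Fin M × Fin (N + 1) → ℝ) => Real.log (∑ x : Fin (N + 1) → Bool, S.w z.1 x *
        Real.exp (cavB δ f1 f2 (fun a => cubeS (S.π z.1 a) x) +
          lin (ker2 δ f1 (S.π z.1)) z.2 x)))
      (((pm M N).prod (gM (GI P (N + 1)))).prod (gM (Fin M × Fin (N + 1)))) :=
    i2'.congr (Filter.Eventually.of_forall fun z => hp z)
  have t2 := upper_id (Q := S.P) (D := |D0|) hD
    (w := fun ω (x : Fin (N + 1) → Bool) => S.w ω x)
    (κ := fun ω => ker2 δ f1 (S.π ω))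
    (B := fun ω x => cavB δ f1 f2 fun a => cubeS (S.π ω a) x) (b := b) (T := T)
    (fun ω x => S.w0 ω x) (fun ω => S.w1 ω) (fun x => S.hw x) mk2
    (fun ω x => (sum_ker2 hf.b1 hδ0 _ x).trans hA) hT iE i2''
  have e3 : cubeDN f f1 f2 hfm C hf.b0 N M P s u =
      (∫ z : S.Ω × (Fin M → ℝ), Real.log (∑ x : Fin (N + 1) → Bool, S.w z.1 x *
        (Real.exp (cavB δ f1 f2 fun a => cubeS (S.π z.1 a) x) *
          Real.cosh (lin (ker1 δ f1 (S.π z.1)) z.2 x))) ∂(S.P.prod (gM (Fin M)))) -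
      ∫ z : S.Ω × (Fin M × Fin (N + 1) → ℝ), Real.log (∑ x : Fin (N + 1) → Bool, S.w z.1 x *
        Real.exp (cavB δ f1 f2 (fun a => cubeS (S.π z.1 a) x) +
          lin (ker2 δ f1 (S.π z.1)) z.2 x)) ∂(S.P.prod (gM (Fin M × Fin (N + 1)))) := by
    have h1 : cubeDN f f1 f2 hfm C hf.b0 N M P s u =
      (∫ z : S.Ω × (Fin M → ℝ), Real.log (∑ x : Fin (N + 1) → Bool, S.w z.1 x *
        (Real.exp (cavB δ f1 f2 fun a => cubeS (S.π z.1 a) x) *
          Real.cosh (lin (ker1 δ f1 (S.π z.1)) z.2 x))) ∂(S.P.prod (gM (Fin M)))) -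
      ∫ z : ((Fin M → Fin (N + 1) → ℝ) × (GI P (N + 1) → ℝ)) × (Fin M → Fin (N + 1) → ℝ),
        Real.log (∑ x, (pS f hfm C hf.b0 N M P s u).w z.1 x * A2 δ f1 f2 z.1.1 z.2 x)
        ∂(((pm M N).prod (gM (GI P (N + 1)))).prod (pm M N)) := rfl
    exact h1.trans (congrArg₂ (· - ·) rfl
      (e2.trans (integral_congr_ae (Filter.Eventually.of_forall fun z => hp z))))
  have e4 : S.tav (n := 1) (fun t x => |cavB δ f1 f2 (fun a => cubeS (t a) (x 0)) - b|) =
      ∫ ω : S.Ω, ∑ x : Fin (N + 1) → Bool, S.w ω x *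
        |cavB δ f1 f2 (fun a => cubeS (S.π ω a) x) - b| ∂S.P :=
    tav_one S fun t x => |cavB δ f1 f2 (fun a => cubeS (t a) x) - b|
  have e5 : S.tav (n := 1)
      (fun t x => |Real.exp (cavB δ f1 f2 (fun a => cubeS (t a) (x 0)) - b) - 1|) =
      ∫ ω : S.Ω, ∑ x : Fin (N + 1) → Bool, S.w ω x *
        |Real.exp (cavB δ f1 f2 (fun a => cubeS (S.π ω a) x) - b) - 1| ∂S.P :=
    tav_one S fun t x => |Real.exp (cavB δ f1 f2 (fun a => cubeS (t a) x) - b) - 1|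
  have n4 : 0 ≤ ∫ ω : S.Ω, ∑ x : Fin (N + 1) → Bool, S.w ω x *
        |cavB δ f1 f2 (fun a => cubeS (S.π ω a) x) - b| ∂S.P :=
    integral_nonneg fun ω => Finset.sum_nonneg fun x _ => mul_nonneg (S.w0 ω x) (abs_nonneg _)
  have n5 : 0 ≤ ∫ ω : S.Ω, ∑ x : Fin (N + 1) → Bool, S.w ω x *
        |Real.exp (cavB δ f1 f2 (fun a => cubeS (S.π ω a) x) - b) - 1| ∂S.P :=
    integral_nonneg fun ω => Finset.sum_nonneg fun x _ => mul_nonneg (S.w0 ω x) (abs_nonneg _)
  rw [e3, e4, e5]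
  have n6 : (0 : ℝ) ≤ 1 / T ^ 2 := by positivity
  have n7 : 0 ≤ Real.exp (A / 2) := (Real.exp_pos _).le
  have n8 : 0 ≤ |D0| := abs_nonneg _
  exact fin_arith t1 t2 n4 n5 n6 n7 n8

end Vale.Agent.P157.Par
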