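import Vale.Agent.P157.ParHeat2

open MeasureTheory ProbabilityTheory Filter Topology Finset

namespace Vale.Agent.P157.Par

set_option linter.unusedSectionVars false

namespace Arr

variable {k : ℕ} {w : Fin (k + 1) → ℝ} {δ : Type} [Fintype δ] [DecidableEq δ]

lemma T_le (𝓐 : Arr k w δ) (c : Fin (k + 1) → ℝ) {χ : LM k δ → ℝ} {X : ℝ}
    (hχ : ∀ L, |χ L| ≤ X) {A : δ → ℝ → ℝ} {v : ℝ → ℝ} {C a : ℝ} (hA : ∀ i x, |A i x| ≤ C)
    (hv : ∀ x, |v x| ≤ a) (n : ℕ) :
    |𝓐.T c χ A v (Fin n)| ≤ 𝓐.C * X * C ^ Fintype.card δ * a ^ n := by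
  have h := 𝓐.T_bound (c := c) hχ (B := fun _ => C) hA hv (Fin n)
  rw [Finset.prod_const, Finset.card_univ, Fintype.card_fin] at h
  refine h.trans (le_of_eq ?_)
  ring

lemma abs_lk_le (l : Fin (k + 1)) (i j : δ) {χ : LM k δ → ℝ} {X : ℝ}
    (hχ : ∀ L, |χ L| ≤ X) (L : LM k δ) : |χ L * lk l i j L| ≤ X := by
  rw [abs_mul]
  have h1 : |lk l i j L| ≤ 1 := by
    unfold lk
    split_ifs <;> simp
  have h0 := hχ L
  nlinarith only [h0, h1, abs_nonneg (χ L), abs_nonneg (lk l i j L)]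

lemma abs_lift_le {χ : LM k δ → ℝ} {X : ℝ} (hχ : ∀ L, |χ L| ≤ X) (L : LM k (Option δ)) :
    |lift χ L| ≤ X := hχ _

lemma update_le {A : δ → ℝ → ℝ} {C : ℝ} (hA : ∀ i x, |A i x| ≤ C) {i : δ} {g : ℝ → ℝ}
    (hg : ∀ x, |g x| ≤ C) : ∀ j x, |Function.update A i g j x| ≤ C := by
  intro j x
  by_cases h : j = i
  · subst h; simpa using hg x
  · rw [Function.update_of_ne h]; exact hA j x

lemma ext_le {A : δ → ℝ → ℝ} {C : ℝ} (hA : ∀ i x, |A i x| ≤ C) {g : ℝ → ℝ}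
    (hg : ∀ x, |g x| ≤ C) : ∀ j x, |ext g A j x| ≤ C := by
  rintro (_ | i) x
  · exact hg x
  · exact hA i x

lemma pow_pred_le {a : ℝ} (ha0 : 0 < a) (ha : a ≤ 1) (n : ℕ) : a ^ (n - 1) ≤ a ^ n / a := by
  rw [le_div_iff₀ ha0]
  rcases n with _ | n
  · simpa using ha
  · simp [pow_succ]

lemma dT_aux {d n : ℝ} (hd : 0 ≤ d) (hn : 0 ≤ n) :
    d + 1 / 2 * d ^ 2 + n * (1 + d) + 1 / 2 * n ^ 2 ≤ (d + 1) ^ 2 * (n + 1) ^ 2 := by
  have h : (d + 1) ^ 2 * (n + 1) ^ 2 - (d + 1 / 2 * d ^ 2 + n * (1 + d) + 1 / 2 * n ^ 2) =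
      d ^ 2 * n ^ 2 + 2 * d ^ 2 * n + d ^ 2 / 2 + 2 * d * n ^ 2 + 3 * d * n + d + n ^ 2 / 2 + n +
        1 := by ring
  have h2 : 0 ≤ d ^ 2 * n ^ 2 + 2 * d ^ 2 * n + d ^ 2 / 2 + 2 * d * n ^ 2 + 3 * d * n + d +
      n ^ 2 / 2 + n + 1 := by positivity
  linarith only [h2]

lemma dT_le (𝓐 : Arr k w δ) (l : Fin (k + 1)) (c : Fin (k + 1) → ℝ) {χ : LM k δ → ℝ} {X : ℝ}
    (hχ : ∀ L, |χ L| ≤ X) {A LA Ax : δ → ℝ → ℝ} {v Lv vx : ℝ → ℝ} {C a : ℝ} (hC : 1 ≤ C)
    (hA : ∀ i x, |A i x| ≤ C) (hLA : ∀ i x, |LA i x| ≤ C) (hAx : ∀ i x, |Ax i x| ≤ C)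
    (hv : ∀ x, |v x| ≤ a) (hLv : ∀ x, |Lv x| ≤ C) (hvx : ∀ x, |vx x| ≤ C)
    (ha0 : 0 < a) (ha : a ≤ 1) (n : ℕ) :
    |𝓐.dT l c χ A LA Ax v Lv vx n| ≤
      𝓐.C * X * C ^ (Fintype.card δ + 2) * (Fintype.card δ + 1) ^ 2 / a ^ 2 *
        ((n + 1) ^ 2 * a ^ n) := by
  have hX0 : 0 ≤ X := (abs_nonneg _).trans (hχ fun _ _ => 0)
  have hC0 := 𝓐.C_nonneg
  set d := Fintype.card δ with hd
  set K := 𝓐.C * X * C ^ (d + 2) with hK
  have hK0 : 0 ≤ K := by positivity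
  have hle1 : 𝓐.C * X * C ^ d ≤ K := by
    rw [hK]
    gcongr
    omega
  have hle2 : 𝓐.C * X * C ^ (d + 1) ≤ K := by
    rw [hK]
    gcongr
    omega
  have hp1 := pow_pred_le ha0 ha n
  have hp2 : a ^ (n - 2) ≤ a ^ n / a ^ 2 := by
    have h1 := pow_pred_le ha0 ha (n - 1)
    have h2 : n - 1 - 1 = n - 2 := by omega
    rw [h2] at h1
    refine h1.trans ?_
    rw [pow_two, ← div_div]
    gcongr
  have t1 : ∀ i, |𝓐.T c χ (Function.update A i (LA i)) v (Fin n)| ≤ K * a ^ n := fun i =>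
    (𝓐.T_le c hχ (update_le hA (hLA i)) hv n).trans
      (mul_le_mul_of_nonneg_right hle1 (by positivity))
  have t2 : ∀ i i', |(if i = i' then 0 else 𝓐.T c (fun L => χ L * lk l i i' L)
      (Function.update (Function.update A i (Ax i)) i' (Ax i')) v (Fin n))| ≤ K * a ^ n := by
    intro i i'
    split_ifs
    · rw [abs_zero]; positivity
    · exact (𝓐.T_le c (abs_lk_le l i i' hχ) (update_le (update_le hA (hAx i)) (hAx i')) hv n).trans
        (mul_le_mul_of_nonneg_right hle1 (by positivity))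
  have t3 : |𝓐.mark.T c (lift χ) (ext Lv A) v (Fin (n - 1))| ≤ K * (a ^ n / a) := by
    have h := 𝓐.mark.T_le c (abs_lift_le hχ) (ext_le hA hLv) hv (n - 1)
    rw [Fintype.card_option] at h
    exact h.trans (mul_le_mul hle2 hp1 (by positivity) hK0)
  have t4 : ∀ i, |𝓐.mark.T c (fun L => lift χ L * lk l (some i) none L)
      (ext vx (Function.update A i (Ax i))) v (Fin (n - 1))| ≤ K * (a ^ n / a) := by
    intro i
    have h := 𝓐.mark.T_le c (abs_lk_le l (some i) none (abs_lift_le hχ))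
      (ext_le (update_le (i := i) hA (hAx i)) hvx) hv (n - 1)
    rw [Fintype.card_option] at h
    exact h.trans (mul_le_mul hle2 hp1 (by positivity) hK0)
  have t5 : |𝓐.mark.mark.T c (fun L => lift (lift χ) L * lk l (some none) none L)
      (ext vx (ext vx A)) v (Fin (n - 2))| ≤ K * (a ^ n / a ^ 2) := by
    have h := 𝓐.mark.mark.T_le c (abs_lk_le l (some none) none (abs_lift_le (abs_lift_le hχ)))
      (ext_le (ext_le hA hvx) hvx) hv (n - 2)
    rw [Fintype.card_option, Fintype.card_option] at h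
    exact h.trans (mul_le_mul_of_nonneg_left hp2 hK0)
  have s1 : |∑ i, 𝓐.T c χ (Function.update A i (LA i)) v (Fin n)| ≤ d * (K * a ^ n) := by
    refine (Finset.abs_sum_le_sum_abs _ _).trans ((Finset.sum_le_sum fun i _ => t1 i).trans ?_)
    rw [Finset.sum_const, Finset.card_univ, nsmul_eq_mul]
  have s2 : |∑ i, ∑ i', (if i = i' then 0 else 𝓐.T c (fun L => χ L * lk l i i' L)
      (Function.update (Function.update A i (Ax i)) i' (Ax i')) v (Fin n))| ≤
      d * (d * (K * a ^ n)) := by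
    refine (Finset.abs_sum_le_sum_abs _ _).trans ((Finset.sum_le_sum fun i _ =>
      (Finset.abs_sum_le_sum_abs _ _).trans (Finset.sum_le_sum fun i' _ => t2 i i')).trans ?_)
    rw [Finset.sum_const, Finset.sum_const, Finset.card_univ, nsmul_eq_mul, nsmul_eq_mul]
  have s4 : |∑ i, 𝓐.mark.T c (fun L => lift χ L * lk l (some i) none L)
      (ext vx (Function.update A i (Ax i))) v (Fin (n - 1))| ≤ d * (K * (a ^ n / a)) := by
    refine (Finset.abs_sum_le_sum_abs _ _).trans ((Finset.sum_le_sum fun i _ => t4 i).trans ?_)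
    rw [Finset.sum_const, Finset.card_univ, nsmul_eq_mul]
  have hn1 : ((n - 1 : ℕ) : ℝ) ≤ n := by exact_mod_cast Nat.sub_le n 1
  have hsq : ∀ x y z : ℝ, |x + y + z| ≤ |x| + |y| + |z| := fun x y z => abs_add_three x y z
  unfold dT
  refine (hsq _ _ _).trans ?_
  rw [abs_mul, abs_mul (n : ℝ), Nat.abs_cast]
  have s5 : |1 / 2 * ((n - 1 : ℕ) * 𝓐.mark.mark.T c
      (fun L => lift (lift χ) L * lk l (some none) none L)
      (ext vx (ext vx A)) v (Fin (n - 2)))| ≤ 1 / 2 * (n * (K * (a ^ n / a ^ 2))) := by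
    rw [abs_mul, abs_mul, Nat.abs_cast, abs_of_pos (by norm_num : (0:ℝ) < 1 / 2)]
    have h0 : 0 ≤ K * (a ^ n / a ^ 2) := by positivity
    gcongr
  have s6 := hsq (𝓐.mark.T c (lift χ) (ext Lv A) v (Fin (n - 1)))
    (∑ i, 𝓐.mark.T c (fun L => lift χ L * lk l (some i) none L)
      (ext vx (Function.update A i (Ax i))) v (Fin (n - 1)))
    (1 / 2 * ((n - 1 : ℕ) * 𝓐.mark.mark.T c (fun L => lift (lift χ) L * lk l (some none) none L)
      (ext vx (ext vx A)) v (Fin (n - 2))))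
  have hn0 : (0 : ℝ) ≤ n := Nat.cast_nonneg n
  have hd0 : (0 : ℝ) ≤ d := Nat.cast_nonneg d
  have s7 : (n : ℝ) * |𝓐.mark.T c (lift χ) (ext Lv A) v (Fin (n - 1)) +
    ∑ i, 𝓐.mark.T c (fun L => lift χ L * lk l (some i) none L)
      (ext vx (Function.update A i (Ax i))) v (Fin (n - 1)) +
    1 / 2 * ((n - 1 : ℕ) * 𝓐.mark.mark.T c (fun L => lift (lift χ) L * lk l (some none) none L)
      (ext vx (ext vx A)) v (Fin (n - 2)))| ≤ n * (K * (a ^ n / a) + d * (K * (a ^ n / a)) +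
        1 / 2 * (n * (K * (a ^ n / a ^ 2)))) := by
    apply mul_le_mul_of_nonneg_left _ hn0
    linarith only [t3, s4, s5, s6]
  have hq : a ^ n ≤ a ^ n / a ^ 2 := by
    rw [le_div_iff₀ (by positivity)]
    exact mul_le_of_le_one_right (pow_nonneg ha0.le n) (pow_le_one₀ ha0.le ha)
  have hq' : a ^ n / a ≤ a ^ n / a ^ 2 := by
    rw [pow_two, ← div_div]
    rw [le_div_iff₀ ha0]
    exact mul_le_of_le_one_right (div_nonneg (pow_nonneg ha0.le n) ha0.le) ha
  set q := a ^ n / a ^ 2 with hqdef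
  have hq0 : 0 ≤ q := by positivity
  have e1 : K * a ^ n ≤ K * q := mul_le_mul_of_nonneg_left hq hK0
  have e2 : K * (a ^ n / a) ≤ K * q := mul_le_mul_of_nonneg_left hq' hK0
  set Kq := K * q with hKq
  have hKq0 : 0 ≤ Kq := by positivity
  have final : K * (d + 1) ^ 2 / a ^ 2 * ((n + 1) ^ 2 * a ^ n) = Kq * ((d + 1) ^ 2 * (n + 1) ^ 2) := by
    rw [hKq, hqdef]
    field_simp
  rw [final, abs_of_pos (by norm_num : (0:ℝ) < 1 / 2)]
  calc _ ≤ d * Kq + 1 / 2 * (d * (d * Kq)) + n * (Kq + d * Kq + 1 / 2 * (n * Kq)) := by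
        refine add_le_add (add_le_add (s1.trans ?_) ?_) (s7.trans ?_)
        · gcongr
        · have : d * (d * (K * a ^ n)) ≤ d * (d * Kq) := by gcongr
          linarith only [s2, this]
        · gcongr
    _ = Kq * (d + 1 / 2 * d ^ 2 + n * (1 + d) + 1 / 2 * n ^ 2) := by ring
    _ ≤ Kq * ((d + 1) ^ 2 * (n + 1) ^ 2) := by
        exact mul_le_mul_of_nonneg_left (dT_aux hd0 hn0) hKq0

lemma choose_bound (e n : ℕ) : ((n + e).choose e : ℝ) * ((n : ℝ) + 1) ^ 2 ≤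
    ((e + 2) * (e + 1) : ℕ) * ((n + (e + 2)).choose (e + 2) : ℝ) := by
  have h1 := choose_id1 n e
  have h2 := choose_id1 n (e + 1)
  have h3 : (0 : ℝ) ≤ ((n + e).choose e : ℝ) := Nat.cast_nonneg _
  have h4 : ((n : ℝ) + 1) ^ 2 ≤ ((e + 1 : ℕ) + n) * ((e + 1 + 1 : ℕ) + n) := by
    push_cast
    nlinarith only [Nat.cast_nonneg (α := ℝ) e, Nat.cast_nonneg (α := ℝ) n,
      mul_nonneg (Nat.cast_nonneg (α := ℝ) e) (Nat.cast_nonneg (α := ℝ) n)]
  calc ((n + e).choose e : ℝ) * ((n : ℝ) + 1) ^ 2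
      ≤ ((n + e).choose e : ℝ) * (((e + 1 : ℕ) + n) * ((e + 1 + 1 : ℕ) + n)) := by gcongr
    _ = (((n + e).choose e : ℝ) * ((e + 1 : ℕ) + n)) * ((e + 1 + 1 : ℕ) + n) := by ring
    _ = (e + 1 : ℕ) * (((n + (e + 1)).choose (e + 1) : ℝ) * ((e + 1 + 1 : ℕ) + n)) := by
        rw [h1]; ring
    _ = _ := by
        rw [h2]
        push_cast
        ring

lemma summable_dT_bound (e : ℕ) {a : ℝ} (ha0 : 0 ≤ a) (ha : a < 1) (M : ℝ) :
    Summable fun n : ℕ => ((n + e).choose e : ℝ) * (M * (((n : ℝ) + 1) ^ 2 * a ^ n)) := by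
  have h1 : Summable fun n : ℕ => ((n + (e + 2)).choose (e + 2) : ℝ) * a ^ n :=
    summable_choose_mul_geometric_of_norm_lt_one (e + 2)
      (by rwa [Real.norm_eq_abs, abs_of_nonneg ha0])
  refine Summable.of_norm_bounded (h1.mul_left (|M| * ((e + 2) * (e + 1) : ℕ))) fun n => ?_
  rw [norm_mul, norm_mul, norm_mul, Real.norm_eq_abs, Real.norm_eq_abs, Real.norm_eq_abs,
    Real.norm_eq_abs, abs_of_nonneg (by positivity), abs_of_nonneg (by positivity : (0:ℝ) ≤ ((n : ℝ) + 1) ^ 2),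
    abs_of_nonneg (by positivity : (0:ℝ) ≤ a ^ n)]
  calc _ = |M| * ((((n + e).choose e : ℝ) * ((n : ℝ) + 1) ^ 2) * a ^ n) := by ring
    _ ≤ |M| * ((((e + 2) * (e + 1) : ℕ) * ((n + (e + 2)).choose (e + 2) : ℝ)) * a ^ n) :=
        mul_le_mul_of_nonneg_left (mul_le_mul_of_nonneg_right (choose_bound e n) (by positivity))
          (abs_nonneg _)
    _ = _ := by ring

/-- The derivative of the resummed functional. -/
theorem Q_hasDerivAt (𝓐 : Arr k w δ) (e : ℕ) {c : Fin (k + 1) → ℝ}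
    (hc : ∀ l, 0 ≤ c l) (l : Fin (k + 1)) (χ : LM k δ → ℝ) {σ C a : ℝ}
    {A At Ax Axx : δ → ℝ → ℝ → ℝ} {v vt vx vxx : ℝ → ℝ → ℝ}
    (hA : ∀ i, Nice (Set.Ioo 0 σ) C (A i) (At i) (Ax i) (Axx i))
    (hv : Nice (Set.Ioo 0 σ) C v vt vx vxx) (ha0 : 0 ≤ a) (ha : a < 1)
    (hva : ∀ t ∈ Set.Ioo 0 σ, ∀ x, |v t x| ≤ a) {t : ℝ} (ht : t ∈ Set.Ioo 0 σ) :
    HasDerivAt (fun s => 𝓐.Q e (Function.update c l s) χ (fun i => A i s) (v s))
      (∑' n : ℕ, ((n + e).choose e : ℝ) * 𝓐.dT l (Function.update c l t) χ (fun i => A i t)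
        (fun i => LL (At i) (Axx i) t) (fun i => Ax i t) (v t) (LL vt vxx t) (vx t) n) t := by
  obtain ⟨X, hX0, hX⟩ := exists_abs_bound χ
  set b := max a (1 / 2) with hb
  have hb0 : 0 < b := lt_of_lt_of_le (by norm_num) (le_max_right _ _)
  have hb1 : b < 1 := max_lt ha (by norm_num)
  set C' := max 1 (2 * |C|) with hC'
  have hC1 : 1 ≤ C' := le_max_left _ _
  have hCC : |C| ≤ C' := (by linarith [abs_nonneg C] : |C| ≤ 2 * |C|).trans (le_max_right _ _)
  have hCC0 : C ≤ C' := (le_abs_self C).trans hCC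
  have hLL : ∀ {h ht hx hxx : ℝ → ℝ → ℝ}, Nice (Set.Ioo 0 σ) C h ht hx hxx →
      ∀ t ∈ Set.Ioo 0 σ, ∀ x, |LL ht hxx t x| ≤ C' := by
    intro h ht hx hxx hn t ht' x
    unfold LL
    have h1 := hn.bt t ht' x
    have h2 := hn.b2 t ht' x
    have h3 := abs_add_le (ht t x) (1 / 2 * hxx t x)
    rw [abs_mul, abs_of_pos (by norm_num : (0:ℝ) < 1 / 2)] at h3
    have h4 : 2 * |C| ≤ C' := le_max_right _ _
    have h5 := le_abs_self C
    linarith only [hb0, hb1, hC1, h1, h2, h3, h4, h5, abs_nonneg C]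
  apply hasDerivAt_tsum_of_isPreconnected (summable_dT_bound e hb0.le hb1
    (𝓐.C * X * C' ^ (Fintype.card δ + 2) * (Fintype.card δ + 1) ^ 2 / b ^ 2)) isOpen_Ioo
    isPreconnected_Ioo (g := fun n s => ((n + e).choose e : ℝ) *
      𝓐.T (Function.update c l s) χ (fun i => A i s) (v s) (Fin n))
    (g' := fun n t => ((n + e).choose e : ℝ) * 𝓐.dT l (Function.update c l t) χ (fun i => A i t)
        (fun i => LL (At i) (Axx i) t) (fun i => Ax i t) (v t) (LL vt vxx t) (vx t) n)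
    (y₀ := t) _ _ ht _ ht
  · intro n s hs
    exact (𝓐.T_hasDerivAt hc l χ hA hv hs n).const_mul _
  · intro n s hs
    rw [norm_mul, Real.norm_eq_abs, Real.norm_eq_abs, abs_of_nonneg (by positivity)]
    apply mul_le_mul_of_nonneg_left _ (by positivity)
    exact 𝓐.dT_le l _ hX hC1 (fun i x => ((hA i).b0 s hs x).trans hCC0)
      (fun i x => hLL (hA i) s hs x) (fun i x => ((hA i).b1 s hs x).trans hCC0)
      (fun x => (hva s hs x).trans (le_max_left _ _)) (fun x => hLL hv s hs x)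
      (fun x => (hv.b1 s hs x).trans hCC0) hb0 hb1.le n
  · exact 𝓐.Q_summable e _ χ (fun i => ⟨(hA i).m0 t ht, C, (hA i).b0 t ht⟩) ha0 ha (hva t ht)

lemma tsum_shift (e : ℕ) (g : ℕ → ℝ)
    (hs : Summable fun n => ((n + (e + 1)).choose (e + 1) : ℝ) * g n) :
    Summable (fun n => ((n + e).choose e : ℝ) * (n * g (n - 1))) ∧
      ∑' n, ((n + e).choose e : ℝ) * (n * g (n - 1)) =
        ((e + 1 : ℕ) : ℝ) * ∑' n, ((n + (e + 1)).choose (e + 1) : ℝ) * g n := by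
  have hshift : ∀ n : ℕ, ((n + 1 + e).choose e : ℝ) * ((n + 1 : ℕ) * g (n + 1 - 1)) =
      ((e + 1 : ℕ) : ℝ) * (((n + (e + 1)).choose (e + 1) : ℝ) * g n) := by
    intro n
    rw [← mul_assoc, choose_id2, Nat.add_sub_cancel]
    ring
  have s5 : Summable fun n : ℕ => ((n + e).choose e : ℝ) * (n * g (n - 1)) := by
    rw [← summable_nat_add_iff 1]
    refine (hs.mul_left ((e + 1 : ℕ) : ℝ)).congr fun n => ?_
    rw [hshift n]
  refine ⟨s5, ?_⟩
  rw [s5.tsum_eq_zero_add]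
  simp only [Nat.cast_zero, zero_mul, mul_zero, zero_add]
  rw [← tsum_mul_left]
  exact tsum_congr hshift

/-- Resummation of the derivative. -/
theorem tsum_dT (𝓐 : Arr k w δ) (e : ℕ) (l : Fin (k + 1)) (c : Fin (k + 1) → ℝ)
    (χ : LM k δ → ℝ) {A LA Ax : δ → ℝ → ℝ} {v Lv vx : ℝ → ℝ} (hA : ∀ i, BM (A i))
    (hLA : ∀ i, BM (LA i)) (hAx : ∀ i, BM (Ax i)) (hLv : BM Lv) (hvx : BM vx) {a : ℝ}
    (ha0 : 0 ≤ a) (ha : a < 1) (hv : ∀ x, |v x| ≤ a) :
    ∑' n : ℕ, ((n + e).choose e : ℝ) * 𝓐.dT l c χ A LA Ax v Lv vx n =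
      ∑ i, 𝓐.Q e c χ (Function.update A i (LA i)) v +
      1 / 2 * ∑ i, ∑ i', (if i = i' then 0 else 𝓐.Q e c (fun L => χ L * lk l i i' L)
        (Function.update (Function.update A i (Ax i)) i' (Ax i')) v) +
      ((e + 1 : ℕ) : ℝ) * (𝓐.mark.Q (e + 1) c (lift χ) (ext Lv A) v +
        ∑ i, 𝓐.mark.Q (e + 1) c (fun L => lift χ L * lk l (some i) none L)
          (ext vx (Function.update A i (Ax i))) v) +
      1 / 2 * ((e + 1 : ℕ) : ℝ) * (((e + 2 : ℕ) : ℝ) * 𝓐.mark.mark.Q (e + 2) c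
        (fun L => lift (lift χ) L * lk l (some none) none L) (ext vx (ext vx A)) v) := by
  have sQ := fun (χ' : LM k δ → ℝ) (B : δ → ℝ → ℝ) (hB : ∀ i, BM (B i)) =>
    𝓐.Q_summable e c χ' hB ha0 ha hv
  have sQ1 := fun (χ' : LM k (Option δ) → ℝ) (B : Option δ → ℝ → ℝ) (hB : ∀ i, BM (B i)) =>
    𝓐.mark.Q_summable (e + 1) c χ' hB ha0 ha hv
  have sQ2 := 𝓐.mark.mark.Q_summable (e + 2) c
    (fun L => lift (lift χ) L * lk l (some none) none L) (BM_ext (BM_ext hA hvx) hvx) ha0 ha hv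
  have q1 := fun i => sQ χ _ (BM.update hA (hLA i) (a := i))
  have q2 : ∀ i i', Summable fun n : ℕ => (if i = i' then 0 else
      ((n + e).choose e : ℝ) * 𝓐.T c (fun L => χ L * lk l i i' L)
        (Function.update (Function.update A i (Ax i)) i' (Ax i')) v (Fin n)) := by
    intro i i'
    by_cases h : i = i'
    · simp only [h, if_true]; exact summable_zero
    · simp only [h, if_false]
      exact sQ _ _ (BM.update (BM.update hA (hAx i)) (hAx i'))
  have q3 := tsum_shift e _ (sQ1 (lift χ) _ (BM_ext hA hLv))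
  have q4 := fun i => tsum_shift e _ (sQ1 (fun L => lift χ L * lk l (some i) none L) _
    (BM_ext (BM.update hA (hAx i) (a := i)) hvx))
  have q5 := tsum_shift (e + 1) _ sQ2
  have q6 := tsum_shift e _ q5.1
  have hterm : ∀ n : ℕ, ((n + e).choose e : ℝ) * 𝓐.dT l c χ A LA Ax v Lv vx n =
      (((∑ i, ((n + e).choose e : ℝ) * 𝓐.T c χ (Function.update A i (LA i)) v (Fin n)) +
      1 / 2 * ∑ i, ∑ i', (if i = i' then 0 else
        ((n + e).choose e : ℝ) * 𝓐.T c (fun L => χ L * lk l i i' L)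
        (Function.update (Function.update A i (Ax i)) i' (Ax i')) v (Fin n))) +
      (((n + e).choose e : ℝ) * (n * 𝓐.mark.T c (lift χ) (ext Lv A) v (Fin (n - 1))) +
        ∑ i, ((n + e).choose e : ℝ) * (n * 𝓐.mark.T c (fun L => lift χ L * lk l (some i) none L)
      (ext vx (Function.update A i (Ax i))) v (Fin (n - 1))))) +
      1 / 2 * (((n + e).choose e : ℝ) * (n * ((n - 1 : ℕ) * 𝓐.mark.mark.T c
        (fun L => lift (lift χ) L * lk l (some none) none L)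
      (ext vx (ext vx A)) v (Fin (n - 1 - 1))))) := by
    intro n
    have e1 : ∑ i, ∑ i', (if i = i' then 0 else
        ((n + e).choose e : ℝ) * 𝓐.T c (fun L => χ L * lk l i i' L)
        (Function.update (Function.update A i (Ax i)) i' (Ax i')) v (Fin n)) =
        ((n + e).choose e : ℝ) * ∑ i, ∑ i', (if i = i' then 0 else
        𝓐.T c (fun L => χ L * lk l i i' L)
        (Function.update (Function.update A i (Ax i)) i' (Ax i')) v (Fin n)) := by
      simp only [Finset.mul_sum, mul_ite, mul_zero]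
    have e2 : n - 1 - 1 = n - 2 := by omega
    rw [e1, ← Finset.mul_sum, e2]
    simp only [← Finset.mul_sum]
    unfold dT
    ring
  simp_rw [hterm]
  have s1 : Summable fun n : ℕ => ∑ i, ((n + e).choose e : ℝ) *
      𝓐.T c χ (Function.update A i (LA i)) v (Fin n) := summable_sum fun i _ => q1 i
  have s2 : Summable fun n : ℕ => ∑ i, ∑ i', (if i = i' then 0 else
        ((n + e).choose e : ℝ) * 𝓐.T c (fun L => χ L * lk l i i' L)
        (Function.update (Function.update A i (Ax i)) i' (Ax i')) v (Fin n)) :=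
    summable_sum fun i _ => summable_sum fun i' _ => q2 i i'
  have s4 : Summable fun n : ℕ => ∑ i, ((n + e).choose e : ℝ) * (n * 𝓐.mark.T c
      (fun L => lift χ L * lk l (some i) none L)
      (ext vx (Function.update A i (Ax i))) v (Fin (n - 1))) :=
    summable_sum fun i _ => (q4 i).1
  rw [((s1.add (s2.mul_left (1 / 2))).add (q3.1.add s4)).tsum_add (q6.1.mul_left (1 / 2)),
    (s1.add (s2.mul_left (1 / 2))).tsum_add (q3.1.add s4),
    s1.tsum_add (s2.mul_left (1 / 2)), q3.1.tsum_add s4, tsum_mul_left, tsum_mul_left,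
    Summable.tsum_finsetSum fun i _ => q1 i,
    Summable.tsum_finsetSum fun i _ => summable_sum fun i' _ => q2 i i',
    Summable.tsum_finsetSum fun i _ => (q4 i).1, q3.2, q6.2, q5.2]
  have e3 : ∀ i, ∑' n : ℕ, ∑ i', (if i = i' then 0 else
        ((n + e).choose e : ℝ) * 𝓐.T c (fun L => χ L * lk l i i' L)
        (Function.update (Function.update A i (Ax i)) i' (Ax i')) v (Fin n)) =
      ∑ i', (if i = i' then 0 else 𝓐.Q e c (fun L => χ L * lk l i i' L)
        (Function.update (Function.update A i (Ax i)) i' (Ax i')) v) := by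
    intro i
    rw [Summable.tsum_finsetSum fun i' _ => q2 i i']
    apply Finset.sum_congr rfl
    intro i' _
    by_cases h : i = i'
    · simp [h]
    · simp only [h, if_false]
      rfl
  simp_rw [e3]
  have e4 : ∀ i, ∑' n : ℕ, ((n + e).choose e : ℝ) * (n * 𝓐.mark.T c
      (fun L => lift χ L * lk l (some i) none L)
      (ext vx (Function.update A i (Ax i))) v (Fin (n - 1))) =
      ((e + 1 : ℕ) : ℝ) * 𝓐.mark.Q (e + 1) c (fun L => lift χ L * lk l (some i) none L)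
          (ext vx (Function.update A i (Ax i))) v := fun i => (q4 i).2
  simp_rw [e4]
  rw [← Finset.mul_sum]
  unfold Q
  rw [show (e + 1 + 1 : ℕ) = e + 2 from rfl]
  ring

end Arr

end Vale.Agent.P157.Par
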