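import Vale.Agent.P157.ParHeat2

open MeasureTheory ProbabilityTheory Filter Topology Finset

namespace Vale.Agent.P157.Par

/-- Functions with two bounded continuous derivatives. -/
structure CB2 (g g' g'' : ℝ → ℝ) : Prop where
  d1 : ∀ x, HasDerivAt g (g' x) x
  d2 : ∀ x, HasDerivAt g' (g'' x) x
  c2 : Continuous g''
  b0 : ∃ C, ∀ x, |g x| ≤ C
  b1 : ∃ C, ∀ x, |g' x| ≤ C
  b2 : ∃ C, ∀ x, |g'' x| ≤ C

/-- The heat semigroup. -/
noncomputable def heat (s : ℝ) (g : ℝ → ℝ) (x : ℝ) : ℝ :=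
  ∫ z, g (x + √s * z) ∂(gaussianReal 0 1)

/-- A function of time and space which is regular inside and continuous up to the boundary. -/
structure Flow (σ C : ℝ) (h ht hx hxx : ℝ → ℝ → ℝ) : Prop where
  nice : Nice (Set.Ioo 0 σ) C h ht hx hxx
  cont : ContinuousOn (fun p : ℝ × ℝ => h p.1 p.2) (Set.Icc 0 σ ×ˢ Set.univ)
  bdd : ∀ t ∈ Set.Icc 0 σ, ∀ x, |h t x| ≤ C

/-- The flow of the weight: `W_t = (P_{σ-t} W^m)^{1/m}`. -/
noncomputable def flowW (m σ : ℝ) (W : ℝ → ℝ) (t x : ℝ) : ℝ :=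
  (heat (σ - t) (fun y => W y ^ m) x) ^ (1 / m)

/-- The flow of the observable: `h_t = P_{σ-t}(h W^m) / P_{σ-t}(W^m)`. -/
noncomputable def flowh (m σ : ℝ) (W h : ℝ → ℝ) (t x : ℝ) : ℝ :=
  heat (σ - t) (fun y => h y * W y ^ m) x / heat (σ - t) (fun y => W y ^ m) x

end Vale.Agent.P157.Par
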