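import Vale.Agent.P157.ParUMain
import Vale.Agent.P157.ParClsB

open MeasureTheory ProbabilityTheory Filter Topology

namespace Vale.Agent.P157.Par

/-- The statement of the lower bound for smooth class A potentials. -/
def LowerBound : Prop :=
  ∀ (ν : Measure ℝ) [IsFiniteMeasure ν] (C₀ : ℝ), ν.real Set.univ < C₀ →
    Integrable (fun θ : ℝ => θ ^ 4) ν → ∀ f : ℝ → ℝ,
    (∀ s : ℝ, Real.exp (f s) = C₀ - ∫ l, Real.cos (l * s) ∂ν) → ∀ α p : ℝ, 0 < α →
    (∀ ε > 0, ∃ᶠ N in atTop, meanPressure cube α f N < p + ε) →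
    ∀ ε > 0, ∃ (k : ℕ) (m r : ℕ → ℝ), Exponents k m ∧ Path k r ∧
      ∀ q, Path k q → q k ≤ 1 → parisi α f k m q r ≤ p + ε

section

variable {ν : Measure ℝ} [IsFiniteMeasure ν] {C₀ : ℝ} {f : ℝ → ℝ} {α : ℝ}

/-- The values of the Parisi functional for fixed exponents and dual path. -/
def vals (α : ℝ) (f : ℝ → ℝ) (k : ℕ) (m r : ℕ → ℝ) : Set ℝ :=
  {y | ∃ q, Path k q ∧ q k ≤ 1 ∧ y = parisi α f k m q r}

lemma Path.le_last {k : ℕ} {q : ℕ → ℝ} (hq : Path k q) {l : ℕ} (hl : l ≤ k) : q l ≤ q k := by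
  induction k with
  | zero =>
    obtain rfl : l = 0 := by omega
    exact le_rfl
  | succ k ih =>
    rcases Nat.le_succ_iff.1 hl with h | h
    · exact (ih ⟨hq.1, fun i hi => hq.2 i (by omega)⟩ h).trans (hq.2 k (by omega))
    · subst h
      exact le_rfl

lemma vals_le {k : ℕ} {m r : ℕ → ℝ} (hf : Measurable f) {K : ℝ} (hK : ∀ x, |f x| ≤ K)
    (hα : 0 < α) (hm : Exponents k m) (hr : Path k r) {y : ℝ} (hy : y ∈ vals α f k m r) :
    y ≤ α * K + spinPart k m r + 1 / 2 * ∑ l ∈ Finset.range (k + 1), (m (l + 1) - m l) * r l := by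
  obtain ⟨q, hq, hq1, rfl⟩ := hy
  unfold parisi
  have h1 : α * patternPart f k m q ≤ α * K :=
    mul_le_mul_of_nonneg_left ((le_abs_self _).trans (abs_patternPart_le hf hK hm q)) hα.le
  have h2 : ∑ l ∈ Finset.range (k + 1), (m (l + 1) - m l) * r l * q l ≤
      ∑ l ∈ Finset.range (k + 1), (m (l + 1) - m l) * r l := by
    refine Finset.sum_le_sum fun l hl => ?_
    have hl' : l ≤ k := by
      have := Finset.mem_range.1 hl
      omega
    have h3 : 0 ≤ (m (l + 1) - m l) * r l :=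
      mul_nonneg (sub_nonneg.2 (hm.2.2 l hl').le) (hr.nonneg l hl')
    have h4 : q l ≤ 1 := (hq.le_last hl').trans hq1
    exact mul_le_of_le_one_right h3 h4
  linarith

lemma vals_bdd {k : ℕ} {m r : ℕ → ℝ} (hf : Measurable f) {K : ℝ} (hK : ∀ x, |f x| ≤ K)
    (hα : 0 < α) (hm : Exponents k m) (hr : Path k r) : BddAbove (vals α f k m r) :=
  ⟨_, fun _ hy => vals_le hf hK hα hm hr hy⟩

lemma vals_nonempty (α : ℝ) (f : ℝ → ℝ) (k : ℕ) (m r : ℕ → ℝ) : (vals α f k m r).Nonempty :=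
  ⟨_, fun _ => 0, ⟨le_rfl, fun _ _ => le_rfl⟩, zero_le_one, rfl⟩

/-- The lower bound for all class A potentials. -/
lemma lower_classA (hlow : LowerBound) (hν : ν.real Set.univ < C₀)
    (hf : ∀ s : ℝ, Real.exp (f s) = C₀ - ∫ l, Real.cos (l * s) ∂ν) (hα : 0 < α) {p : ℝ}
    (hp : ∀ ε > 0, ∃ᶠ N in atTop, meanPressure cube α f N < p + ε) {ε : ℝ} (hε : 0 < ε) :
    ∃ (k : ℕ) (m r : ℕ → ℝ), Exponents k m ∧ Path k r ∧
      ∀ q, Path k q → q k ≤ 1 → parisi α f k m q r ≤ p + ε := by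
  obtain ⟨K, hK⟩ := classA_bdd hν hf
  have hδ : 0 < ε / (4 * α) := by positivity
  obtain ⟨ν', g, hfin, hν', h4, hg, hgf⟩ := classA_approx hν hf hδ
  obtain ⟨K', hK'⟩ := classA_bdd hν' hg
  have hfm := classA_meas hf
  have hgm := classA_meas hg
  have hb1 : ∀ x, |f x| ≤ max K K' := fun x => (hK x).trans (le_max_left _ _)
  have hb2 : ∀ x, |g x| ≤ max K K' := fun x => (hK' x).trans (le_max_right _ _)
  have hαδ : α * (ε / (4 * α)) = ε / 4 := by field_simp
  have hp' : ∀ η > 0, ∃ᶠ N in atTop, meanPressure cube α g N < (p + ε / 4) + η := by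
    intro η hη
    refine ((hp η hη).and_eventually (eventually_gt_atTop 0)).mono ?_
    rintro N ⟨h1, h2⟩
    have h3 := (abs_le.1 (meanPressure_lip hfm hgm hb1 hb2 hgf hα h2)).2
    rw [hαδ] at h3
    linarith
  obtain ⟨k, m, r, hm, hr, hq⟩ := hlow ν' C₀ hν' h4 g hg α (p + ε / 4) hα hp' (ε / 4) (by positivity)
  refine ⟨k, m, r, hm, hr, fun q h1 h2 => ?_⟩
  have h3 := hq q h1 h2
  have h4 := (abs_le.1 (patternPart_lip (k := k) (m := m) (q := q) hfm hgm hb1 hb2 hgf
    (fun l hl hl' => by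
      obtain ⟨j, rfl⟩ : ∃ j, l = j + 1 := ⟨l - 1, by omega⟩
      exact hm.pos j (by omega)))).1
  unfold parisi at h3 ⊢
  have h5 : α * patternPart f k m q ≤ α * patternPart g k m q + ε / 4 := by
    rw [← hαδ, ← mul_add]
    exact mul_le_mul_of_nonneg_left (by linarith) hα.le
  linarith

/-- The Parisi formula for class A potentials, from the lower bound. -/
theorem parisi_formula_of (hlow : LowerBound) (hν : ν.real Set.univ < C₀)
    (hf : ∀ s : ℝ, Real.exp (f s) = C₀ - ∫ l, Real.cos (l * s) ∂ν) (hα : 0 < α) :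
    ∃ L : ℝ, Tendsto (fun N => meanPressure cube α f N) atTop (𝓝 L) ∧
      (∀ (k : ℕ) (m r : ℕ → ℝ), Exponents k m → Path k r →
        BddAbove {y | ∃ q, Path k q ∧ q k ≤ 1 ∧ y = parisi α f k m q r}) ∧
      IsGLB {y | ∃ (k : ℕ) (m r : ℕ → ℝ), Exponents k m ∧ Path k r ∧
        IsLUB {y | ∃ q, Path k q ∧ q k ≤ 1 ∧ y = parisi α f k m q r} y} L := by
  obtain ⟨K, hK⟩ := classA_bdd hν hf
  have hfm := classA_meas hf
  have hbdd : ∀ (k : ℕ) (m r : ℕ → ℝ), Exponents k m → Path k r → BddAbove (vals α f k m r) :=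
    fun k m r hm hr => vals_bdd hfm hK hα hm hr
  set G : Set ℝ := {y | ∃ (k : ℕ) (m r : ℕ → ℝ), Exponents k m ∧ Path k r ∧
        IsLUB {y | ∃ q, Path k q ∧ q k ≤ 1 ∧ y = parisi α f k m q r} y} with hG
  -- the upper bound
  have hup : ∀ y ∈ G, ∀ ε > 0, ∀ᶠ N : ℕ in atTop, meanPressure cube α f N ≤ y + ε := by
    rintro y ⟨k, m, r, hm, hr, hy⟩ ε hε
    exact guerra_limit_classA hν hf hm hr hα (fun q h1 h2 => hy.1 ⟨q, h1, h2, rfl⟩) hε
  have hGne : G.Nonempty := by
    have hm : Exponents 0 (fun n => (n : ℝ)) := by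
      refine ⟨by simp, by simp, fun l hl => ?_⟩
      obtain rfl : l = 0 := by omega
      simp
    have hr : Path 0 (fun _ => (0 : ℝ)) := ⟨le_rfl, fun _ _ => le_rfl⟩
    exact ⟨_, 0, _, _, hm, hr, isLUB_csSup (vals_nonempty α f _ _ _) (hbdd _ _ _ hm hr)⟩
  have hlb : ∀ N : ℕ, 0 < N → -(α * K) ≤ meanPressure cube α f N := by
    intro N hN
    have h0 : ∀ x : ℝ, |(fun _ : ℝ => (0 : ℝ)) x| ≤ K := fun x => by
      simpa using (abs_nonneg _).trans (hK x)
    have h1 := meanPressure_lip (f := fun _ => 0) (g := f) measurable_const hfm h0 hK (ε := K)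
      (fun x => by simpa using hK x) hα hN
    have h2 : meanPressure cube α (fun _ => 0) N = 0 := by
      unfold meanPressure pressure
      have : IsProbabilityMeasure (cube N) := by unfold cube; infer_instance
      simp
    rw [h2, sub_zero] at h1
    exact (abs_le.1 h1).1
  have hGb : BddBelow G := by
    refine ⟨-(α * K), fun y hy => ?_⟩
    refine le_of_forall_pos_le_add fun ε hε => ?_
    obtain ⟨N, h1, h2⟩ := ((hup y hy ε hε).and (eventually_gt_atTop 0)).exists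
    exact (hlb N h2).trans h1
  have hglb : IsGLB G (sInf G) := isGLB_csInf hGne hGb
  refine ⟨sInf G, ?_, hbdd, hglb⟩
  rw [tendsto_order]
  constructor
  · intro a ha
    by_contra hcon
    have hfreq : ∀ ε > 0, ∃ᶠ N in atTop, meanPressure cube α f N < a + ε := by
      intro ε hε
      refine (Filter.not_eventually.1 hcon).mono fun N hN => ?_
      linarith [not_lt.1 hN]
    obtain ⟨k, m, r, hm, hr, hq⟩ := lower_classA hlow hν hf hα hfreq
      (ε := (sInf G - a) / 2) (by linarith)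
    have h1 : IsLUB (vals α f k m r) (sSup (vals α f k m r)) :=
      isLUB_csSup (vals_nonempty α f k m r) (hbdd k m r hm hr)
    have h2 : sInf G ≤ sSup (vals α f k m r) := hglb.1 ⟨k, m, r, hm, hr, h1⟩
    have h3 : sSup (vals α f k m r) ≤ a + (sInf G - a) / 2 := by
      refine csSup_le (vals_nonempty α f k m r) ?_
      rintro _ ⟨q, h1, h2, rfl⟩
      exact hq q h1 h2
    linarith
  · intro a ha
    obtain ⟨y, hy, hya⟩ := (csInf_lt_iff hGb hGne).1 ha
    have h1 : 0 < (a - y) / 2 := by linarith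
    filter_upwards [hup y hy _ h1] with N hN
    linarith

end

end Vale.Agent.P157.Par
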