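import Vale.Agent.P157.ParGG11

/-! Ghirlanda-Guerra identities for perturbed systems.

Main results (namespace `Vale.Agent.P157.Par`):
* `Base`, `Base.sys B P s u : Sys` (the perturbed system), `Base.sys_w` (its weights),
* `Base.ggDefect_le`, `Base.ggDefect_le_mh`, `Sys.ggDefect_zero`,
* `patBase`, `conc_patBase` (independent patterns),
* `Base.integral_dev_le`, `Base.integral_dev_le_flat`, `Base.integral_dev_le_sqrt`,
* `Base.cont_dev`, `Base.cont_mh`, `Base.cont_elz`, `nuP`, `ae_nuP`, `int_nuP`,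
* `asympGG_of_dev`. -/

open MeasureTheory ProbabilityTheory Filter Topology
open scoped RealInnerProductSpace

namespace Vale.Agent.P157.Par

/-- If the fluctuations of the perturbations are small compared to `s N`, the Ghirlanda-Guerra
identities hold asymptotically for all monomials. -/
theorem asympGG_of_dev {U : Ultrafilter ℕ} (B : ℕ → Base) (P : ℕ → ℕ) (s : ℕ → ℝ)
    (u : ∀ N, Fin (P N) → ℝ) (hs : ∀ᶠ N in (U : Filter ℕ), 0 < s N)
    (hu : ∀ᶠ N in (U : Filter ℕ), ∀ q, 1 ≤ u N q) (c : ∀ N, Fin (P N) → ℝ)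
    (hP : ∀ p : ℕ, ∀ᶠ N in (U : Filter ℕ), p < P N)
    (hdev : ∀ (p : ℕ) (ε : ℝ), 0 < ε → ∀ᶠ N in (U : Filter ℕ), ∀ h : p < P N,
      (B N).dev (P N) (s N) (u N) ⟨p, h⟩ (c N ⟨p, h⟩) ≤ ε * s N) (p : ℕ) :
    AsympGG U (fun N => (B N).sys (P N) (s N) (u N)) (fun x => x ^ p) := by
  intro n i ε hε
  cases p with
  | zero =>
    refine Filter.Eventually.of_forall fun N F _ => ?_
    rw [Sys.ggDefect_zero]
    simpa using hε.le
  | succ p =>
    filter_upwards [hs, hu, hP p, hdev p (ε / (2 * 2 ^ (p + 1))) (by positivity)]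
      with N hsN huN hPN hdN F hF
    have h := (B N).ggDefect_le (P N) (s N) (u N) hsN ⟨p, hPN⟩
      (by linarith [huN ⟨p, hPN⟩]) (c N ⟨p, hPN⟩) i F hF
    refine h.trans ?_
    have hd := hdN hPN
    have h2 : (0 : ℝ) < (1 / 2) ^ (p + 1) := by positivity
    have h3 : (2 : ℝ) ^ (p + 1) * (1 / 2) ^ (p + 1) = 1 := by rw [← mul_pow]; norm_num
    have huq := huN ⟨p, hPN⟩
    have hden : 0 < s N * u N ⟨p, hPN⟩ * (1 / 2) ^ (p + 1) := by positivity
    rw [div_le_iff₀ hden]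
    have h4 : 2 * (ε / (2 * 2 ^ (p + 1)) * s N) = ε * (s N * 1 * (1 / 2) ^ (p + 1)) := by
      have h5 : ((1 : ℝ) / 2) ^ (p + 1) = 1 / 2 ^ (p + 1) := by rw [one_div_pow]
      rw [h5]
      field_simp
    calc 2 * (B N).dev (P N) (s N) (u N) ⟨p, hPN⟩ (c N ⟨p, hPN⟩)
        ≤ 2 * (ε / (2 * 2 ^ (p + 1)) * s N) := by linarith
      _ = ε * (s N * 1 * (1 / 2) ^ (p + 1)) := h4
      _ ≤ ε * (s N * u N ⟨p, hPN⟩ * (1 / 2) ^ (p + 1)) := by
          refine mul_le_mul_of_nonneg_left ?_ hε.le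
          refine mul_le_mul_of_nonneg_right ?_ h2.le
          exact mul_le_mul_of_nonneg_left huq hsN.le

end Vale.Agent.P157.Par
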