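import Vale.Agent.P157.ParSys
import Vale.Agent.P367.GT.Stein

/-! Gibbs weights on a finite set, replica sums, Gaussian integration by parts. -/

open MeasureTheory ProbabilityTheory Filter Topology
open scoped RealInnerProductSpace

namespace Vale.Agent.P157.Par

section Gibbs

variable {X : Type*} [Fintype X]

/-- Gibbs weights with energy `E`. -/
noncomputable def gwt (E : X → ℝ) (x : X) : ℝ := Real.exp (E x) / ∑ y, Real.exp (E y)

set_option linter.unusedSectionVars false

/-- Gibbs average. -/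
noncomputable def gmean (E ψ : X → ℝ) : ℝ := ∑ x, gwt E x * ψ x

lemma gpart_pos [Nonempty X] (E : X → ℝ) : 0 < ∑ y, Real.exp (E y) :=
  Finset.sum_pos (fun _ _ => Real.exp_pos _) Finset.univ_nonempty

lemma gwt_nonneg (E : X → ℝ) (x : X) : 0 ≤ gwt E x :=
  div_nonneg (Real.exp_pos _).le (Finset.sum_nonneg fun _ _ => (Real.exp_pos _).le)

lemma sum_gwt [Nonempty X] (E : X → ℝ) : ∑ x, gwt E x = 1 := by
  unfold gwt
  rw [← Finset.sum_div, div_self (gpart_pos E).ne']

lemma gwt_le_one [Nonempty X] (E : X → ℝ) (x : X) : gwt E x ≤ 1 := by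
  rw [← sum_gwt E]
  exact Finset.single_le_sum (fun y _ => gwt_nonneg E y) (Finset.mem_univ x)

lemma abs_gmean_le [Nonempty X] (E ψ : X → ℝ) {C : ℝ} (h : ∀ x, |ψ x| ≤ C) :
    |gmean E ψ| ≤ C := by
  unfold gmean
  calc |∑ x, gwt E x * ψ x| ≤ ∑ x, |gwt E x * ψ x| := Finset.abs_sum_le_sum_abs _ _
    _ ≤ ∑ x, gwt E x * C := by
        refine Finset.sum_le_sum fun x _ => ?_
        rw [abs_mul, abs_of_nonneg (gwt_nonneg E x)]
        exact mul_le_mul_of_nonneg_left (h x) (gwt_nonneg E x)
    _ = C := by rw [← Finset.sum_mul, sum_gwt, one_mul]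

lemma hasDerivAt_gexp (E a : X → ℝ) (t : ℝ) (x : X) :
    HasDerivAt (fun t => Real.exp (E x + t * a x)) (Real.exp (E x + t * a x) * a x) t := by
  have h : HasDerivAt (fun t : ℝ => E x + t * a x) (a x) t := by
    simpa using ((hasDerivAt_id t).mul_const (a x)).const_add (E x)
  exact h.exp

lemma hasDerivAt_gpart (E a : X → ℝ) (t : ℝ) :
    HasDerivAt (fun t => ∑ y, Real.exp (E y + t * a y))
      (∑ y, Real.exp (E y + t * a y) * a y) t :=
  HasDerivAt.fun_sum fun y _ => hasDerivAt_gexp E a t y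

lemma gmean_eq (E ψ : X → ℝ) :
    gmean E ψ = (∑ x, Real.exp (E x) * ψ x) / ∑ y, Real.exp (E y) := by
  unfold gmean gwt
  rw [Finset.sum_div]
  exact Finset.sum_congr rfl fun x _ => by ring

lemma hasDerivAt_gwt [Nonempty X] (E a : X → ℝ) (t : ℝ) (x : X) :
    HasDerivAt (fun t => gwt (fun y => E y + t * a y) x)
      (gwt (fun y => E y + t * a y) x * (a x - gmean (fun y => E y + t * a y) a)) t := by
  have h := (hasDerivAt_gexp E a t x).div (hasDerivAt_gpart E a t)
    (gpart_pos (fun y => E y + t * a y)).ne'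
  have hZ := (gpart_pos (fun y => E y + t * a y)).ne'
  refine (h.congr_deriv ?_)
  rw [gmean_eq]
  unfold gwt
  field_simp

lemma hasDerivAt_glog [Nonempty X] (E a : X → ℝ) (t : ℝ) :
    HasDerivAt (fun t => Real.log (∑ y, Real.exp (E y + t * a y)))
      (gmean (fun y => E y + t * a y) a) t := by
  have h := (hasDerivAt_gpart E a t).log (gpart_pos (fun y => E y + t * a y)).ne'
  rw [gmean_eq]
  exact h

lemma hasDerivAt_gmean [Nonempty X] (E a ψ : X → ℝ) (t : ℝ) :
    HasDerivAt (fun t => gmean (fun y => E y + t * a y) ψ)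
      (gmean (fun y => E y + t * a y) (fun y => ψ y * a y) -
        gmean (fun y => E y + t * a y) ψ * gmean (fun y => E y + t * a y) a) t := by
  have h : HasDerivAt (fun t => gmean (fun y => E y + t * a y) ψ)
      (∑ x, gwt (fun y => E y + t * a y) x * (a x - gmean (fun y => E y + t * a y) a) * ψ x) t :=
    HasDerivAt.fun_sum fun x _ => (hasDerivAt_gwt E a t x).mul_const (ψ x)
  refine h.congr_deriv ?_
  have h2 : gmean (fun y => E y + t * a y) ψ * gmean (fun y => E y + t * a y) a =
      ∑ x, gwt (fun y => E y + t * a y) x * ψ x * gmean (fun y => E y + t * a y) a := by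
    rw [← Finset.sum_mul]; rfl
  rw [h2]
  unfold gmean
  rw [← Finset.sum_sub_distrib]
  exact Finset.sum_congr rfl fun x _ => by ring

lemma hasDerivAt_gprod [Nonempty X] (E a : X → ℝ) (t : ℝ) {n : ℕ} (x : Fin n → X) :
    HasDerivAt (fun t => ∏ i, gwt (fun y => E y + t * a y) (x i))
      ((∏ i, gwt (fun y => E y + t * a y) (x i)) *
        ∑ i, (a (x i) - gmean (fun y => E y + t * a y) a)) t := by
  have h := HasDerivAt.fun_finsetProd (u := Finset.univ)
    (f := fun i (t : ℝ) => gwt (fun y => E y + t * a y) (x i))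
    (f' := fun i => gwt (fun y => E y + t * a y) (x i) *
      (a (x i) - gmean (fun y => E y + t * a y) a)) (x := t)
    (fun i _ => hasDerivAt_gwt E a t (x i))
  refine h.congr_deriv ?_
  rw [Finset.mul_sum]
  refine Finset.sum_congr rfl fun i hi => ?_
  rw [← Finset.mul_prod_erase _ _ (Finset.mem_univ i)]
  simp only [smul_eq_mul]
  ring

end Gibbs

section Replica

variable {X : Type*} [Fintype X]

lemma rep_one {w : X → ℝ} (hw : ∑ x, w x = 1) (n : ℕ) :
    ∑ x : Fin n → X, ∏ j, w (x j) = 1 := by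
  classical
  rw [← Fintype.piFinset_univ, ← Finset.prod_univ_sum]
  simp [hw]

lemma rep_marg {w : X → ℝ} (hw : ∑ x, w x = 1) {n : ℕ} (i : Fin n) (G : X → ℝ) :
    ∑ x : Fin n → X, (∏ j, w (x j)) * G (x i) = ∑ y, w y * G y := by
  classical
  have h1 : ∀ x : Fin n → X, (∏ j, w (x j)) * G (x i) =
      ∏ j, (fun (j : Fin n) (y : X) => w y * (if j = i then G y else 1)) j (x j) := by
    intro x
    rw [Finset.prod_mul_distrib]
    congr 1
    rw [Finset.prod_ite_eq' Finset.univ i (fun j => G (x j))]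
    simp
  have h3 := Finset.prod_univ_sum (fun _ : Fin n => (Finset.univ : Finset X))
    (fun (j : Fin n) (y : X) => w y * (if j = i then G y else 1))
  rw [Fintype.piFinset_univ] at h3
  rw [Finset.sum_congr rfl fun x _ => h1 x, ← h3,
    ← Finset.mul_prod_erase _ _ (Finset.mem_univ i)]
  have h2 : ∏ j ∈ Finset.univ.erase i, ∑ y, w y * (if j = i then G y else 1) = 1 := by
    refine Finset.prod_eq_one fun j hj => ?_
    simp [Finset.ne_of_mem_erase hj, hw]
  rw [h2]
  simp

lemma rep_snoc (w : X → ℝ) {n : ℕ} (F : (Fin (n + 1) → X) → ℝ) :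
    ∑ x : Fin (n + 1) → X, (∏ j, w (x j)) * F x =
      ∑ x : Fin n → X, (∏ j, w (x j)) * ∑ y, w y * F (Fin.snoc x y) := by
  rw [← (Fin.snocEquiv (fun _ : Fin (n + 1) => X)).sum_comp, Fintype.sum_prod_type,
    Finset.sum_comm]
  refine Finset.sum_congr rfl fun x _ => ?_
  rw [Finset.mul_sum]
  refine Finset.sum_congr rfl fun y _ => ?_
  rw [Fin.prod_univ_castSucc]
  simp only [Fin.snocEquiv, Equiv.coe_fn_mk, Fin.snoc_castSucc, Fin.snoc_last]
  ring

end Replica

end Vale.Agent.P157.Par
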