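import Mathlib

/-! An Efron-Stein type bound for the variance of functions on product spaces. -/

open MeasureTheory ProbabilityTheory Filter Topology

namespace Vale.Agent.P157.Par

section Var

variable {α β : Type*} [MeasurableSpace α] [MeasurableSpace β]

/-- The variance. -/
noncomputable def VV (μ : Measure α) (f : α → ℝ) : ℝ :=
  ∫ x, f x ^ 2 ∂μ - (∫ x, f x ∂μ) ^ 2

lemma VV_eq (μ : Measure α) [IsProbabilityMeasure μ] {f : α → ℝ} (hf : MemLp f 2 μ) :
    VV μ f = ∫ x, (f x - ∫ y, f y ∂μ) ^ 2 ∂μ := by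
  have h1 : Integrable f μ := hf.integrable (by norm_num)
  have h2 : Integrable (fun x => f x ^ 2) μ := hf.integrable_sq
  set m := ∫ y, f y ∂μ with hm
  have e : ∀ x, (f x - m) ^ 2 = f x ^ 2 - 2 * m * f x + m ^ 2 := fun x => by ring
  have h3 : Integrable (fun x => 2 * m * f x) μ := h1.const_mul _
  have h4 : Integrable (fun x => f x ^ 2 - 2 * m * f x) μ := h2.sub h3
  simp only [e]
  rw [integral_add h4 (integrable_const _),
    integral_sub h2 h3, integral_const_mul, ← hm, integral_const]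
  unfold VV
  rw [← hm]
  simp only [probReal_univ, smul_eq_mul, one_mul]
  ring

lemma VV_nonneg (μ : Measure α) [IsProbabilityMeasure μ] {f : α → ℝ} (hf : MemLp f 2 μ) :
    0 ≤ VV μ f := by
  rw [VV_eq μ hf]
  exact integral_nonneg fun x => sq_nonneg _

lemma sq_integral_le_VV (μ : Measure α) [IsProbabilityMeasure μ] {f : α → ℝ} (hf : MemLp f 2 μ) :
    (∫ x, f x ∂μ) ^ 2 ≤ ∫ x, f x ^ 2 ∂μ := by
  have := VV_nonneg μ hf
  unfold VV at this
  linarith

lemma l1_le_sqrt_VV (μ : Measure α) [IsProbabilityMeasure μ] {f : α → ℝ} (hf : MemLp f 2 μ) :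
    ∫ x, |f x - ∫ y, f y ∂μ| ∂μ ≤ Real.sqrt (VV μ f) := by
  have h1 : MemLp (fun x => |f x - ∫ y, f y ∂μ|) 2 μ := (hf.sub (memLp_const _)).abs
  have h2 := sq_integral_le_VV μ h1
  simp only [sq_abs] at h2
  rw [← VV_eq μ hf] at h2
  exact Real.le_sqrt_of_sq_le h2

lemma VV_pair (μ : Measure α) [IsProbabilityMeasure μ] {g : α → ℝ} (hg : MemLp g 2 μ) :
    ∫ z : α × α, (g z.1 - g z.2) ^ 2 ∂(μ.prod μ) = 2 * VV μ g := by
  have h1 : MemLp (fun z : α × α => g z.1) 2 (μ.prod μ) := hg.comp_fst μ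
  have h2 : MemLp (fun z : α × α => g z.2) 2 (μ.prod μ) := hg.comp_snd μ
  have h3 : Integrable (fun z : α × α => g z.1 * g z.2) (μ.prod μ) := h1.integrable_mul h2
  have e : ∀ z : α × α, (g z.1 - g z.2) ^ 2 = g z.1 ^ 2 - 2 * (g z.1 * g z.2) + g z.2 ^ 2 :=
    fun z => by ring
  have h4 : Integrable (fun z : α × α => 2 * (g z.1 * g z.2)) (μ.prod μ) := h3.const_mul _
  have h5 : Integrable (fun z : α × α => g z.1 ^ 2 - 2 * (g z.1 * g z.2)) (μ.prod μ) :=
    h1.integrable_sq.sub h4
  simp only [e]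
  rw [integral_add h5 h2.integrable_sq,
    integral_sub h1.integrable_sq h4, integral_const_mul, integral_prod_mul g g]
  have e1 : ∫ z : α × α, g z.1 ^ 2 ∂(μ.prod μ) = ∫ x, g x ^ 2 ∂μ := by
    rw [integral_fun_fst (fun x => g x ^ 2)]; simp
  have e2 : ∫ z : α × α, g z.2 ^ 2 ∂(μ.prod μ) = ∫ x, g x ^ 2 ∂μ := by
    rw [integral_fun_snd (fun x => g x ^ 2)]; simp
  rw [e1, e2]
  unfold VV
  ring

lemma VV_le_of_diff (μ : Measure α) [IsProbabilityMeasure μ] {g : α → ℝ} (hg : MemLp g 2 μ)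
    {c : α × α → ℝ} (hc : Integrable (fun z => c z ^ 2) (μ.prod μ)) {C : ℝ}
    (hC : ∫ z, c z ^ 2 ∂(μ.prod μ) ≤ 2 * C)
    (h : ∀ᵐ z ∂(μ.prod μ), |g z.1 - g z.2| ≤ c z) : VV μ g ≤ C := by
  have h1 : ∫ z : α × α, (g z.1 - g z.2) ^ 2 ∂(μ.prod μ) ≤ ∫ z, c z ^ 2 ∂(μ.prod μ) := by
    refine integral_mono_of_nonneg (Filter.Eventually.of_forall fun z => sq_nonneg _) hc ?_
    filter_upwards [h] with z hz
    rw [← sq_abs]
    exact pow_le_pow_left₀ (abs_nonneg _) hz 2
  rw [VV_pair μ hg] at h1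
  linarith

/-- Total variance. -/
lemma VV_prod_le (μ : Measure α) [IsProbabilityMeasure μ] (π : Measure β)
    [IsProbabilityMeasure π] {f : α × β → ℝ} (hf : MemLp f 2 (μ.prod π))
    {A C : ℝ} (hA : ∀ x, MemLp (fun y => f (x, y)) 2 π → VV π (fun y => f (x, y)) ≤ A)
    (hC : MemLp (fun x => ∫ y, f (x, y) ∂π) 2 μ → VV μ (fun x => ∫ y, f (x, y) ∂π) ≤ C) :
    VV (μ.prod π) f ≤ A + C := by
  have h1 : Integrable f (μ.prod π) := hf.integrable (by norm_num)
  have h2 : Integrable (fun z => f z ^ 2) (μ.prod π) := hf.integrable_sq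
  have hs : ∀ᵐ x ∂μ, MemLp (fun y => f (x, y)) 2 π := by
    have hm := hf.1
    filter_upwards [h2.prod_right_ae, hm.prodMk_left] with x hx hmx
    exact (memLp_two_iff_integrable_sq hmx).2 hx
  set g : α → ℝ := fun x => ∫ y, f (x, y) ∂π with hg
  set q : α → ℝ := fun x => ∫ y, f (x, y) ^ 2 ∂π with hq
  have hqi : Integrable q μ := h2.integral_prod_left
  have hgi : Integrable g μ := h1.integral_prod_left
  have hgq : ∀ᵐ x ∂μ, g x ^ 2 ≤ q x := by
    filter_upwards [hs] with x hx
    exact sq_integral_le_VV π hx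
  have hg2 : MemLp g 2 μ := by
    refine (memLp_two_iff_integrable_sq hgi.aestronglyMeasurable).2 ?_
    refine hqi.mono' (hgi.aestronglyMeasurable.pow 2) ?_
    filter_upwards [hgq] with x hx
    rw [Real.norm_eq_abs, abs_of_nonneg (sq_nonneg _)]
    exact hx
  have hb : ∫ x, (q x - g x ^ 2) ∂μ ≤ A := by
    have h3 : ∫ x, (q x - g x ^ 2) ∂μ ≤ ∫ _x, A ∂μ := by
      refine integral_mono_ae (hqi.sub hg2.integrable_sq) (integrable_const _) ?_
      filter_upwards [hs] with x hx
      exact hA x hx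
    simpa using h3
  rw [integral_sub hqi hg2.integrable_sq] at hb
  have hc := hC hg2
  unfold VV at hc ⊢
  rw [integral_prod _ h1, integral_prod _ h2]
  linarith

lemma VV_comp {μ : Measure α} {ν : Measure β} {T : α → β} (hT : MeasurePreserving T μ ν)
    {f : β → ℝ} (hf : MemLp f 2 ν) : VV μ (fun x => f (T x)) = VV ν f := by
  have hm := hf.1
  rw [← hT.map_eq] at hm
  unfold VV
  congr 1
  · rw [← hT.map_eq]
    exact (integral_map (f := fun x => f x ^ 2) hT.measurable.aemeasurable (hm.pow 2)).symm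
  · rw [← hT.map_eq, integral_map hT.measurable.aemeasurable hm]

end Var

section ES

variable {E : Type*} [MeasurableSpace E] (μ : Measure E) [IsProbabilityMeasure μ]

lemma mp_cons (n : ℕ) : MeasurePreserving
    (fun z : E × (Fin n → E) => (Fin.cons z.1 z.2 : Fin (n + 1) → E))
    (μ.prod (Measure.pi fun _ : Fin n => μ)) (Measure.pi fun _ : Fin (n + 1) => μ) := by
  have h := (measurePreserving_piFinSuccAbove (fun _ : Fin (n + 1) => μ) 0).symm
  have e : (fun z : E × (Fin n → E) => (Fin.cons z.1 z.2 : Fin (n + 1) → E)) =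
      ((MeasurableEquiv.piFinSuccAbove (fun _ : Fin (n + 1) => E) 0).symm :
        E × (Fin n → E) → (Fin (n + 1) → E)) := by
    funext z
    simp only [MeasurableEquiv.piFinSuccAbove_symm_apply, Fin.insertNthEquiv]
    simp
  rw [e]
  exact h

/-- Efron-Stein for `Fin n`. -/
theorem ES_fin {ρ : E × E → ℝ} (hρ : Integrable (fun z => ρ z ^ 2) (μ.prod μ))
    (hρ2 : ∫ z, ρ z ^ 2 ∂(μ.prod μ) ≤ 2) (n : ℕ) {f : (Fin n → E) → ℝ}
    (hf : MemLp f 2 (Measure.pi fun _ : Fin n => μ)) (a : Fin n → ℝ)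
    (hd : ∀ x i y, |f x - f (Function.update x i y)| ≤ a i * ρ (x i, y)) :
    VV (Measure.pi fun _ : Fin n => μ) f ≤ ∑ i, a i ^ 2 := by
  induction n with
  | zero =>
    have h : ∀ x : Fin 0 → E, f x = f (fun i => i.elim0) := fun x => by
      congr 1; exact Subsingleton.elim _ _
    unfold VV
    simp only [h]
    simp
  | succ n ih =>
    have hT := mp_cons μ n
    rw [← VV_comp hT hf]
    have hf' : MemLp (fun z : E × (Fin n → E) => f (Fin.cons z.1 z.2)) 2
        (μ.prod (Measure.pi fun _ : Fin n => μ)) := hf.comp_measurePreserving hT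
    rw [Fin.sum_univ_succ]
    refine (VV_prod_le μ (Measure.pi fun _ : Fin n => μ) hf' (A := ∑ i : Fin n, a i.succ ^ 2)
      (C := a 0 ^ 2) ?_ ?_).trans (le_of_eq (add_comm _ _))
    · intro x hx
      refine ih hx (fun i => a i.succ) fun y i e => ?_
      have h := hd (Fin.cons x y) i.succ e
      rw [← Fin.cons_update, Fin.cons_succ] at h
      exact h
    · intro hg
      refine VV_le_of_diff μ hg (c := fun z => a 0 * ρ z) ?_ ?_ ?_
      · have h1 := hρ.const_mul (a 0 ^ 2)
        refine h1.congr (Filter.Eventually.of_forall fun z => ?_)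
        simp only
        ring
      · have h1 : ∀ z : E × E, (a 0 * ρ z) ^ 2 = a 0 ^ 2 * ρ z ^ 2 := fun z => by ring
        simp only [h1]
        rw [integral_const_mul]
        nlinarith [sq_nonneg (a 0)]
      · have hi : ∀ᵐ x ∂μ, Integrable (fun y => f (Fin.cons x y))
            (Measure.pi fun _ : Fin n => μ) :=
          (hf'.integrable (by norm_num)).prod_right_ae
        have h1 : ∀ᵐ z : E × E ∂(μ.prod μ), Integrable (fun y => f (Fin.cons z.1 y))
            (Measure.pi fun _ : Fin n => μ) := Measure.quasiMeasurePreserving_fst.ae hi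
        have h2 : ∀ᵐ z : E × E ∂(μ.prod μ), Integrable (fun y => f (Fin.cons z.2 y))
            (Measure.pi fun _ : Fin n => μ) := Measure.quasiMeasurePreserving_snd.ae hi
        filter_upwards [h1, h2] with z hz1 hz2
        rw [← integral_sub hz1 hz2]
        have h3 : ∀ y, |f (Fin.cons z.1 y) - f (Fin.cons z.2 y)| ≤ a 0 * ρ z := by
          intro y
          have h := hd (Fin.cons z.1 y) 0 z.2
          rw [Fin.update_cons_zero, Fin.cons_zero] at h
          exact h
        refine (abs_integral_le_integral_abs).trans ?_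
        have h4 := integral_mono (hz1.sub hz2).abs
          (integrable_const (μ := Measure.pi fun _ : Fin n => μ) (a 0 * ρ z)) h3
        simpa using h4

/-- Efron-Stein for a finite index set. -/
theorem ES_pi {ι : Type*} [Fintype ι] [DecidableEq ι] {ρ : E × E → ℝ}
    (hρ : Integrable (fun z => ρ z ^ 2) (μ.prod μ))
    (hρ2 : ∫ z, ρ z ^ 2 ∂(μ.prod μ) ≤ 2) {f : (ι → E) → ℝ}
    (hf : MemLp f 2 (Measure.pi fun _ : ι => μ)) (a : ι → ℝ)
    (hd : ∀ x i y, |f x - f (Function.update x i y)| ≤ a i * ρ (x i, y)) :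
    VV (Measure.pi fun _ : ι => μ) f ≤ ∑ i, a i ^ 2 := by
  set e : Fin (Fintype.card ι) ≃ ι := (Fintype.equivFin ι).symm with he
  have hT := measurePreserving_piCongrLeft (fun _ : ι => μ) e
  have hTa : ∀ (x : Fin (Fintype.card ι) → E) (i : ι),
      (MeasurableEquiv.piCongrLeft (fun _ : ι => E) e) x i = x (e.symm i) := by
    intro x i
    rw [MeasurableEquiv.coe_piCongrLeft]
    have h := Equiv.piCongrLeft_apply_apply (P := fun _ : ι => E) e x (e.symm i)
    simpa using h
  rw [← VV_comp hT hf]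
  have hf' := hf.comp_measurePreserving hT
  have h := ES_fin μ hρ hρ2 (Fintype.card ι) hf' (fun j => a (e j)) (fun x j y => ?_)
  · refine h.trans (le_of_eq ?_)
    exact e.sum_comp (fun i => a i ^ 2)
  · have h1 : (MeasurableEquiv.piCongrLeft (fun _ : ι => E) e) (Function.update x j y) =
        Function.update ((MeasurableEquiv.piCongrLeft (fun _ : ι => E) e) x) (e j) y := by
      funext i
      rw [hTa]
      by_cases hi : i = e j
      · subst hi
        simp
      · rw [Function.update_of_ne hi, hTa, Function.update_of_ne]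
        intro h
        exact hi (by rw [← h]; simp)
    have h2 := hd ((MeasurableEquiv.piCongrLeft (fun _ : ι => E) e) x) (e j) y
    rw [← h1, hTa] at h2
    simpa using h2

end ES

end Vale.Agent.P157.Par
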