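import Vale.Agent.P157.ParGG9
import Vale.Agent.P157.ParGG10

/-! Concentration of the free energy of the perturbed system, for flat features. -/

open MeasureTheory ProbabilityTheory Filter Topology
open scoped RealInnerProductSpace

namespace Vale.Agent.P157.Par

set_option linter.unusedSectionVars false

/-- Functions of the base disorder which vary less than the Hamiltonian have variance at
most `v`. -/
def Base.Conc (B : Base) (v : ℝ) : Prop :=
  ∀ g : B.Ω → ℝ, Measurable g → MemLp g 2 B.P →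
    (∀ ω ω' C, (∀ x, |B.H ω x - B.H ω' x| ≤ C) → |g ω - g ω'| ≤ C) → VV B.P g ≤ v

/-- The base whose disorder consists of `M` independent patterns. -/
noncomputable def patBase {E : Type} [mE : MeasurableSpace E] (μ : Measure E) [hμ : IsProbabilityMeasure μ]
    (M : ℕ) {X : Type} [fX : Fintype X] [nX : Nonempty X] (H : (Fin M → E) → X → ℝ)
    (hH : ∀ x, Measurable fun ω => H ω x) (K : ℝ) (hK : ∀ ω x, |H ω x| ≤ K) {d : ℕ}
    (φ : X → EuclideanSpace ℝ (Fin d)) (hφ : ∀ x, ‖φ x‖ = 1) : Base where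
  Ω := Fin M → E
  mΩ := inferInstance
  P := Measure.pi fun _ => μ
  hP := inferInstance
  X := X
  fX := fX
  nX := nX
  H := H
  hH := hH
  K := K
  hK := hK
  d := d
  φ := φ
  hφ := hφ

lemma conc_patBase {E : Type} [mE : MeasurableSpace E] (μ : Measure E)
    [hμ : IsProbabilityMeasure μ]
    (M : ℕ) {X : Type} [fX : Fintype X] [nX : Nonempty X] (H : (Fin M → E) → X → ℝ)
    (hH : ∀ x, Measurable fun ω => H ω x) (K : ℝ) (hK : ∀ ω x, |H ω x| ≤ K) {d : ℕ}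
    (φ : X → EuclideanSpace ℝ (Fin d)) (hφ : ∀ x, ‖φ x‖ = 1) {L : ℝ}
    (hd : ∀ ω a e x, |H (Function.update ω a e) x - H ω x| ≤ L) :
    (patBase μ M H hH K hK φ hφ).Conc (M * L ^ 2) := by
  intro g hg hg2 hgd
  have h := ES_pi μ (ι := Fin M) (ρ := fun _ => 1) (f := g) (by simp) (by simp) hg2
    (fun _ => L) (fun ω a e => by
      rw [mul_one]
      refine hgd ω (Function.update ω a e) L fun x => ?_
      rw [abs_sub_comm]
      exact hd ω a e x)
  have h' : VV (Measure.pi fun _ : Fin M => μ) g ≤ M * L ^ 2 := by simpa using h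
  exact h'

namespace Base

variable (B : Base) {P : ℕ} (s : ℝ) (u : Fin P → ℝ)

lemma gen_update_sub (ω : B.Ω) (a : GI P B.d → B.X → ℝ) (g : GI P B.d → ℝ) (e : GI P B.d)
    (y : ℝ) (x : B.X) :
    gen (B.H ω) a g x - gen (B.H ω) a (Function.update g e y) x = (g e - y) * a e x := by
  classical
  have h1 := gen_update (B.H ω) a g e y
  have h2 := gen_update (B.H ω) a g e (g e)
  rw [Function.update_eq_self] at h2
  rw [h1, h2]
  ring

lemma lz_update_le (ω : B.Ω) (g : GI P B.d → ℝ) (e : GI P B.d) (y : ℝ) {A : ℝ}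
    (hA : ∀ x, |B.coef P s u e x| ≤ A) :
    |B.lz s u (ω, g) - B.lz s u (ω, Function.update g e y)| ≤ A * |g e - y| := by
  unfold lz
  refine abs_glog_sub_le fun x => ?_
  rw [gen_update_sub, abs_mul, mul_comm]
  exact mul_le_mul_of_nonneg_right (hA x) (abs_nonneg _)

lemma lz_base_le (ω ω' : B.Ω) (g : GI P B.d → ℝ) {C : ℝ}
    (hC : ∀ x, |B.H ω x - B.H ω' x| ≤ C) :
    |B.lz s u (ω, g) - B.lz s u (ω', g)| ≤ C := by
  unfold lz
  refine abs_glog_sub_le fun x => ?_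
  unfold gen
  simp only [add_sub_add_right_eq_sub]
  exact hC x

lemma gauss_pair : Integrable (fun z : ℝ × ℝ => |z.1 - z.2| ^ 2)
    ((gaussianReal 0 1).prod (gaussianReal 0 1)) ∧
    ∫ z : ℝ × ℝ, |z.1 - z.2| ^ 2 ∂((gaussianReal 0 1).prod (gaussianReal 0 1)) ≤ 2 := by
  have h : MemLp (fun x : ℝ => x) 2 (gaussianReal 0 1) := memLp_id_gaussianReal 2
  constructor
  · simp only [sq_abs]
    exact ((h.comp_fst _).sub (h.comp_snd _)).integrable_sq
  · simp only [sq_abs]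
    rw [VV_pair (gaussianReal 0 1) h]
    have h1 : VV (gaussianReal 0 1) (fun x : ℝ => x) = 1 := by
      rw [VV_eq _ h]
      have h2 := variance_eq_integral (μ := gaussianReal 0 1) (X := fun x : ℝ => x)
        measurable_id.aemeasurable
      rw [← h2]
      exact variance_fun_id_gaussianReal
    rw [h1]
    norm_num

/-- The coefficients are small if the features are flat. -/
lemma coef_le_of_flat (hflat : ∀ x i, B.φ x i ^ 2 ≤ 1 / B.d) (e : GI P B.d) (x : B.X) :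
    |B.coef P s u e x| ≤ |s * u e.1 * (1 / 2) ^ ((e.1 : ℕ) + 1)| *
      Real.sqrt ((1 / B.d) ^ ((e.1 : ℕ) + 1)) := by
  unfold coef
  rw [abs_mul]
  refine mul_le_mul_of_nonneg_left ?_ (abs_nonneg _)
  refine Real.le_sqrt_of_sq_le ?_
  rw [sq_abs, ← Finset.prod_pow]
  calc ∏ r, B.φ x (e.2 r) ^ 2 ≤ ∏ _r : Fin ((e.1 : ℕ) + 1), (1 / (B.d : ℝ)) :=
        Finset.prod_le_prod (fun _ _ => sq_nonneg _) fun r _ => hflat x _
    _ = _ := by simp

lemma d_pos : 0 < B.d := by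
  rcases Nat.eq_zero_or_pos B.d with h | h
  · exfalso
    obtain ⟨x⟩ := B.nX
    have h1 := B.hφ x
    have h2 : B.φ x = 0 := by
      ext i
      exact absurd i.2 (by omega)
    rw [h2, norm_zero] at h1
    exact zero_ne_one h1
  · exact h

lemma sum_coef_sq (hu : ∀ q, 0 ≤ u q ∧ u q ≤ 3) :
    ∑ e : GI P B.d, (|s * u e.1 * (1 / 2) ^ ((e.1 : ℕ) + 1)| *
      Real.sqrt ((1 / B.d) ^ ((e.1 : ℕ) + 1))) ^ 2 ≤ 3 * s ^ 2 := by
  have hd : (0 : ℝ) < B.d := by exact_mod_cast B.d_pos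
  have e1 : ∀ e : GI P B.d, (|s * u e.1 * (1 / 2) ^ ((e.1 : ℕ) + 1)| *
      Real.sqrt ((1 / B.d) ^ ((e.1 : ℕ) + 1))) ^ 2 =
      s ^ 2 * u e.1 ^ 2 * (1 / 4) ^ ((e.1 : ℕ) + 1) * (1 / B.d) ^ ((e.1 : ℕ) + 1) := by
    intro e
    rw [mul_pow, sq_abs, Real.sq_sqrt (by positivity), mul_pow, mul_pow, ← pow_mul,
      mul_comm _ 2, pow_mul]
    norm_num
  simp only [e1]
  rw [Fintype.sum_sigma]
  have e2 : ∀ p : Fin P, ∑ _k : Fin ((p : ℕ) + 1) → Fin B.d,
      s ^ 2 * u p ^ 2 * (1 / 4) ^ ((p : ℕ) + 1) * (1 / (B.d : ℝ)) ^ ((p : ℕ) + 1) =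
      s ^ 2 * (u p ^ 2 * (1 / 4) ^ ((p : ℕ) + 1)) := by
    intro p
    rw [Finset.sum_const, Finset.card_univ, Fintype.card_fun, Fintype.card_fin,
      Fintype.card_fin, nsmul_eq_mul]
    push_cast
    have h : (B.d : ℝ) ^ ((p : ℕ) + 1) * (1 / (B.d : ℝ)) ^ ((p : ℕ) + 1) = 1 := by
      rw [← mul_pow, mul_one_div_cancel hd.ne', one_pow]
    calc _ = ((B.d : ℝ) ^ ((p : ℕ) + 1) * (1 / (B.d : ℝ)) ^ ((p : ℕ) + 1)) *
          (s ^ 2 * (u p ^ 2 * (1 / 4) ^ ((p : ℕ) + 1))) := by ring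
      _ = _ := by rw [h, one_mul]
  simp only [e2]
  rw [← Finset.mul_sum]
  have e3 : ∑ p : Fin P, u p ^ 2 * (1 / 4 : ℝ) ^ ((p : ℕ) + 1) ≤ 3 := by
    calc ∑ p : Fin P, u p ^ 2 * (1 / 4 : ℝ) ^ ((p : ℕ) + 1)
        ≤ ∑ p : Fin P, 9 * (1 / 4 : ℝ) ^ ((p : ℕ) + 1) := by
          refine Finset.sum_le_sum fun p _ => mul_le_mul_of_nonneg_right ?_ (by positivity)
          have := hu p
          nlinarith
      _ = 9 / 4 * ∑ p : Fin P, (1 / 4 : ℝ) ^ (p : ℕ) := by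
          rw [Finset.mul_sum]
          exact Finset.sum_congr rfl fun p _ => by ring
      _ = 9 / 4 * ∑ p ∈ Finset.range P, (1 / 4 : ℝ) ^ p := by
          rw [Fin.sum_univ_eq_sum_range (fun p => (1 / 4 : ℝ) ^ p)]
      _ ≤ 9 / 4 * (4 / 3) := by
          refine mul_le_mul_of_nonneg_left ?_ (by norm_num)
          rw [geom_sum_eq (by norm_num)]
          have : (0 : ℝ) ≤ (1 / 4) ^ P := by positivity
          rw [div_le_iff_of_neg (by norm_num)]
          linarith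
      _ = 3 := by norm_num
  calc s ^ 2 * ∑ p : Fin P, u p ^ 2 * (1 / 4 : ℝ) ^ ((p : ℕ) + 1) ≤ s ^ 2 * 3 :=
        mul_le_mul_of_nonneg_left e3 (sq_nonneg _)
    _ = 3 * s ^ 2 := by ring

lemma int_lz_section (ω : B.Ω) :
    Integrable (fun g => B.lz s u (ω, g)) (P367.GT.gM (GI P B.d)) := by
  have hm : Measurable fun g : GI P B.d → ℝ => B.lz s u (ω, g) :=
    (B.meas_lz s u).comp measurable_prodMk_left
  have hc : ∀ e : GI P B.d, Integrable (fun g : GI P B.d → ℝ => |g e|)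
      (P367.GT.gM (GI P B.d)) := fun e =>
    (integrable_comp_eval (μ := fun _ : GI P B.d => gaussianReal 0 1) (i := e) (f := fun x => x)
      ((memLp_id_gaussianReal 1).integrable le_rfl)).abs
  have hb : ∀ p : Fin P, Integrable (fun g : GI P B.d → ℝ => B.hb p (ω, g))
      (P367.GT.gM (GI P B.d)) := fun p => by
    unfold hb
    exact integrable_finsetSum _ fun k _ => hc ⟨p, k⟩
  have hi : Integrable (fun g : GI P B.d → ℝ => |Real.log (Fintype.card B.X)| +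
      (B.K + |s| * ∑ p, |u p| * B.hb p (ω, g))) (P367.GT.gM (GI P B.d)) := by
    have h1 : Integrable (fun g : GI P B.d → ℝ => ∑ p, |u p| * B.hb p (ω, g))
        (P367.GT.gM (GI P B.d)) := integrable_finsetSum _ fun p _ => (hb p).const_mul _
    have h2 : Integrable (fun g : GI P B.d → ℝ => B.K + |s| * ∑ p, |u p| * B.hb p (ω, g))
        (P367.GT.gM (GI P B.d)) := (integrable_const _).add (h1.const_mul _)
    exact (integrable_const _).add h2
  refine hi.mono' hm.aestronglyMeasurable (Filter.Eventually.of_forall fun g => ?_)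
  rw [Real.norm_eq_abs]
  exact B.abs_lz_le s u (ω, g)

/-- The variance of the free energy of the perturbed system. -/
theorem VV_lz_le {v : ℝ} (hc : B.Conc v) (hflat : ∀ x i, B.φ x i ^ 2 ≤ 1 / B.d)
    (hu : ∀ q, 0 ≤ u q ∧ u q ≤ 3) : VV (B.jl (GI P B.d)) (B.lz s u) ≤ 3 * s ^ 2 + v := by
  classical
  refine VV_prod_le B.P (P367.GT.gM (GI P B.d)) (B.memLp_lz s u) ?_ ?_
  · intro ω hω
    refine (ES_pi (gaussianReal 0 1) (ρ := fun z => |z.1 - z.2|) gauss_pair.1 gauss_pair.2 hω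
      (fun e => |s * u e.1 * (1 / 2) ^ ((e.1 : ℕ) + 1)| *
        Real.sqrt ((1 / B.d) ^ ((e.1 : ℕ) + 1))) (fun g e y => ?_)).trans
      (B.sum_coef_sq s u hu)
    exact B.lz_update_le s u ω g e y fun x => B.coef_le_of_flat s u hflat e x
  · intro hg
    refine hc _ ?_ hg ?_
    · exact ((B.meas_lz s u).stronglyMeasurable.integral_prod_right'
        (ν := P367.GT.gM (GI P B.d))).measurable
    · intro ω ω' C hC
      have hi : ∀ ω, Integrable (fun y => B.lz s u (ω, y)) (P367.GT.gM (GI P B.d)) := by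
        intro ω
        exact B.int_lz_section s u ω
      rw [← integral_sub (hi ω) (hi ω')]
      refine (abs_integral_le_integral_abs).trans ?_
      have h4 := integral_mono ((hi ω).sub (hi ω')).abs
          (integrable_const (μ := P367.GT.gM (GI P B.d)) C)
          (fun g => B.lz_base_le s u ω ω' g hC)
      simpa using h4

/-- The expected deviation of the free energy of the perturbed system. -/
theorem dlz_le {v : ℝ} (hc : B.Conc v) (hflat : ∀ x i, B.φ x i ^ 2 ≤ 1 / B.d)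
    (hu : ∀ q, 0 ≤ u q ∧ u q ≤ 3) : B.dlz s u ≤ Real.sqrt (3 * s ^ 2 + v) :=
  (l1_le_sqrt_VV (B.jl (GI P B.d)) (B.memLp_lz s u)).trans
    (Real.sqrt_le_sqrt (B.VV_lz_le s u hc hflat hu))

/-- The average over the parameters of the fluctuation of the `p`-th process. -/
theorem integral_dev_le_flat (hs : 0 < s) (p : Fin P) {η v : ℝ} (h0 : 0 < η) (h1 : η ≤ 1)
    (hc : B.Conc v) (hflat : ∀ x i, B.φ x i ^ 2 ≤ 1 / B.d) :
    ∫ u, B.dev P s u p (B.mh P s u p) ∂(nuP P) ≤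
      5 / 2 + 3 * Real.sqrt (3 * s ^ 2 + v) / (η * (s * (1 / 2) ^ ((p : ℕ) + 1))) +
        12 * η * (s * (1 / 2) ^ ((p : ℕ) + 1)) :=
  B.integral_dev_le s hs p h0 h1 fun u hu => B.dlz_le s u hc hflat hu

/-- Convenient form: if `v ≤ A d`, `1 ≤ s`, `s^2 ≤ d` and `d^(1/2) ≤ s^2`, then the average over
the parameters of the fluctuation of the `p`-th process is at most `C d^(1/4)`. -/
theorem integral_dev_le_sqrt (hs : 1 ≤ s) (p : Fin P) {A : ℝ} (hA : 0 ≤ A)
    (hc : B.Conc (A * B.d)) (hflat : ∀ x i, B.φ x i ^ 2 ≤ 1 / B.d)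
    (hs1 : s ^ 2 ≤ B.d) (hs2 : Real.sqrt B.d ≤ s ^ 2) :
    ∫ u, B.dev P s u p (B.mh P s u p) ∂(nuP P) ≤
      2 ^ ((p : ℕ) + 1) * (15 + 3 * Real.sqrt (3 + A)) * Real.sqrt (Real.sqrt B.d) := by
  have hd1 : (1 : ℝ) ≤ B.d := by exact_mod_cast B.d_pos
  have hs0 : 0 < s := by linarith
  set q := Real.sqrt (Real.sqrt B.d) with hq
  have hq4 : q ^ 2 = Real.sqrt B.d := Real.sq_sqrt (Real.sqrt_nonneg _)
  have hsd : Real.sqrt B.d ^ 2 = B.d := Real.sq_sqrt (by linarith)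
  have hq1 : 1 ≤ q := by
    rw [hq]
    exact Real.one_le_sqrt.2 (Real.one_le_sqrt.2 hd1)
  have hqs : q ≤ s := by
    rw [← hq4] at hs2
    exact (sq_le_sq₀ (by linarith) hs0.le).1 hs2
  have h := B.integral_dev_le_flat s hs0 p (η := q / s) (by positivity)
    (by rw [div_le_one hs0]; exact hqs) hc hflat
  refine h.trans ?_
  have hc1 : (0 : ℝ) < (1 / 2) ^ ((p : ℕ) + 1) := by positivity
  have hc2 : ((1 : ℝ) / 2) ^ ((p : ℕ) + 1) ≤ 1 := pow_le_one₀ (by norm_num) (by norm_num)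
  have hc3 : (2 : ℝ) ^ ((p : ℕ) + 1) * (1 / 2) ^ ((p : ℕ) + 1) = 1 := by
    rw [← mul_pow]; norm_num
  have hc4 : (1 : ℝ) ≤ 2 ^ ((p : ℕ) + 1) := one_le_pow₀ (by norm_num)
  have b1 : Real.sqrt (3 * s ^ 2 + A * B.d) ≤ Real.sqrt (3 + A) * q ^ 2 := by
    rw [hq4, ← Real.sqrt_mul (by linarith)]
    exact Real.sqrt_le_sqrt (by linarith only [hs1])
  have e1 : q / s * (s * (1 / 2) ^ ((p : ℕ) + 1)) = q * (1 / 2) ^ ((p : ℕ) + 1) := by
    field_simp
  have e2 : 12 * (q / s) * (s * (1 / 2) ^ ((p : ℕ) + 1)) = 12 * (q * (1 / 2) ^ ((p : ℕ) + 1)) := by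
    rw [mul_assoc, e1]
  rw [e1, e2]
  have b2 : 3 * Real.sqrt (3 * s ^ 2 + A * B.d) / (q * (1 / 2) ^ ((p : ℕ) + 1)) ≤
      2 ^ ((p : ℕ) + 1) * (3 * Real.sqrt (3 + A)) * q := by
    rw [div_le_iff₀ (by positivity)]
    calc 3 * Real.sqrt (3 * s ^ 2 + A * B.d) ≤ 3 * (Real.sqrt (3 + A) * q ^ 2) := by linarith only [b1]
      _ = (2 ^ ((p : ℕ) + 1) * (1 / 2) ^ ((p : ℕ) + 1)) * (3 * (Real.sqrt (3 + A) * q ^ 2)) := by
          rw [hc3, one_mul]
      _ = _ := by ring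
  have b3 : (5 : ℝ) / 2 ≤ 3 * (2 ^ ((p : ℕ) + 1) * q) := by nlinarith only [hq1, hc4]
  have b4 : 12 * (q * (1 / 2) ^ ((p : ℕ) + 1)) ≤ 12 * (2 ^ ((p : ℕ) + 1) * q) := by nlinarith only [hc2, hc4, hq1]
  linarith only [b2, b3, b4]

end Base

end Vale.Agent.P157.Par
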