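import Vale.Agent.P157.ParGG1

/-! The perturbed system and Gaussian integration by parts for it. -/

open MeasureTheory ProbabilityTheory Filter Topology
open scoped RealInnerProductSpace

namespace Vale.Agent.P157.Par

set_option linter.unusedSectionVars false

section Gen

variable {X : Type*} [Fintype X] {ι : Type*} [Fintype ι]

/-- The energy with Gaussian perturbation with coefficients `a`. -/
noncomputable def gen (H : X → ℝ) (a : ι → X → ℝ) (g : ι → ℝ) (x : X) : ℝ :=
  H x + ∑ e, g e * a e x

lemma gen_update [DecidableEq ι] (H : X → ℝ) (a : ι → X → ℝ) (g : ι → ℝ) (e : ι) (y : ℝ) :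
    gen H a (Function.update g e y) =
      fun z => gen H a (Function.update g e 0) z + y * a e z := by
  funext z
  unfold gen
  rw [← Finset.add_sum_erase Finset.univ (fun i => Function.update g e y i * a i z)
      (Finset.mem_univ e),
    ← Finset.add_sum_erase Finset.univ (fun i => Function.update g e 0 i * a i z)
      (Finset.mem_univ e)]
  have h : ∀ t : ℝ, ∑ i ∈ Finset.univ.erase e, Function.update g e t i * a i z =
      ∑ i ∈ Finset.univ.erase e, g i * a i z := fun t =>
    Finset.sum_congr rfl fun i hi => by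
      rw [Function.update_of_ne (Finset.ne_of_mem_erase hi)]
  rw [h, h]
  simp only [Function.update_self]
  ring

variable {Ω : Type*} [MeasurableSpace Ω]

lemma measurable_gen {H : Ω → X → ℝ} (hH : ∀ x, Measurable fun ω => H ω x) (a : ι → X → ℝ)
    (x : X) : Measurable fun z : Ω × (ι → ℝ) => gen (H z.1) a z.2 x := by
  unfold gen
  refine ((hH x).comp measurable_fst).add ?_
  refine Finset.measurable_sum _ fun e _ => ?_
  exact ((measurable_pi_apply e).comp measurable_snd).mul_const _

lemma measurable_gwt_gen {H : Ω → X → ℝ} (hH : ∀ x, Measurable fun ω => H ω x) (a : ι → X → ℝ)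
    (x : X) : Measurable fun z : Ω × (ι → ℝ) => gwt (gen (H z.1) a z.2) x := by
  unfold gwt
  exact ((measurable_gen hH a x).exp).div
    (Finset.measurable_sum _ fun y _ => (measurable_gen hH a y).exp)

lemma measurable_gmean_gen {H : Ω → X → ℝ} (hH : ∀ x, Measurable fun ω => H ω x)
    (a : ι → X → ℝ) (ψ : X → ℝ) :
    Measurable fun z : Ω × (ι → ℝ) => gmean (gen (H z.1) a z.2) ψ := by
  unfold gmean
  exact Finset.measurable_sum _ fun y _ => (measurable_gwt_gen hH a y).mul_const _

lemma prod_gwt_le [Nonempty X] {n : ℕ} (E : X → ℝ) (x : Fin n → X) :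
    |∏ i, gwt E (x i)| ≤ 1 := by
  rw [abs_of_nonneg (Finset.prod_nonneg fun i _ => gwt_nonneg E _)]
  exact Finset.prod_le_one (fun i _ => gwt_nonneg E _) fun i _ => gwt_le_one E _

lemma abs_sum_sub_le [Nonempty X] {n : ℕ} (E : X → ℝ) (x : Fin n → X) (ψ : X → ℝ) :
    |∑ i, (ψ (x i) - gmean E ψ)| ≤ n * (2 * ∑ y, |ψ y|) := by
  have hb : ∀ y, |ψ y| ≤ ∑ y, |ψ y| := fun y =>
    Finset.single_le_sum (f := fun y => |ψ y|) (fun _ _ => abs_nonneg _) (Finset.mem_univ y)
  calc |∑ i, (ψ (x i) - gmean E ψ)| ≤ ∑ i, |ψ (x i) - gmean E ψ| :=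
        Finset.abs_sum_le_sum_abs _ _
    _ ≤ ∑ _i : Fin n, (2 * ∑ y, |ψ y|) := by
        refine Finset.sum_le_sum fun i _ => ?_
        have h1 := hb (x i)
        have h2 := abs_gmean_le E ψ hb
        have h3 := abs_sub (ψ (x i)) (gmean E ψ)
        linarith
    _ = n * (2 * ∑ y, |ψ y|) := by simp

variable [Nonempty X] [DecidableEq ι]

/-- Gaussian integration by parts for fixed base disorder. -/
lemma gibp_fixed (H : X → ℝ) (a : ι → X → ℝ) (e : ι) {n : ℕ} (x : Fin n → X) :
    ∫ g, g e * ∏ i, gwt (gen H a g) (x i) ∂(P367.GT.gM ι) =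
      ∫ g, (∏ i, gwt (gen H a g) (x i)) * ∑ i, (a e (x i) - gmean (gen H a g) (a e))
        ∂(P367.GT.gM ι) := by
  have hg : ∀ y, Measurable fun g : ι → ℝ => gen H a g y := fun y => by
    unfold gen
    exact measurable_const.add
      (Finset.measurable_sum _ fun e _ => (measurable_pi_apply e).mul_const _)
  have hm : ∀ y, Measurable fun g : ι → ℝ => gwt (gen H a g) y := fun y => by
    unfold gwt
    exact ((hg y).exp).div (Finset.measurable_sum _ fun y _ => (hg y).exp)
  have hmm : Measurable fun g : ι → ℝ => gmean (gen H a g) (a e) := by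
    unfold gmean
    exact Finset.measurable_sum _ fun y _ => (hm y).mul_const _
  refine P367.GT.stein_pi e (fun g => ∏ i, gwt (gen H a g) (x i))
    (fun g => (∏ i, gwt (gen H a g) (x i)) * ∑ i, (a e (x i) - gmean (gen H a g) (a e)))
    (1 + n * (2 * ∑ y, |a e y|)) ?_ ?_ ?_ ?_ ?_
  · exact Finset.measurable_prod _ fun i _ => hm (x i)
  · exact (Finset.measurable_prod _ fun i _ => hm (x i)).mul
      (Finset.measurable_sum _ fun i _ => measurable_const.sub hmm)
  · intro J t
    have h := hasDerivAt_gprod (gen H a (Function.update J e 0)) (a e) t x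
    have h' : (fun y => ∏ i, gwt (gen H a (Function.update J e y)) (x i)) =
        fun y => ∏ i, gwt (fun z => gen H a (Function.update J e 0) z + y * a e z) (x i) := by
      funext y
      rw [gen_update H a J e y]
    rw [gen_update H a J e t, h']
    exact h
  · intro J
    have h1 := prod_gwt_le (gen H a J) x
    have h2 : 0 ≤ (n : ℝ) * (2 * ∑ y, |a e y|) := by positivity
    linarith
  · intro J
    rw [abs_mul]
    have h1 := prod_gwt_le (gen H a J) x
    have h2 := abs_sum_sub_le (gen H a J) x (a e)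
    have h3 : 0 ≤ (n : ℝ) * (2 * ∑ y, |a e y|) := by positivity
    calc |∏ i, gwt (gen H a J) (x i)| * |∑ i, (a e (x i) - gmean (gen H a J) (a e))|
        ≤ 1 * (n * (2 * ∑ y, |a e y|)) := mul_le_mul h1 h2 (abs_nonneg _) zero_le_one
      _ ≤ _ := by linarith

lemma integrable_coord (P : Measure Ω) [IsProbabilityMeasure P] (e : ι) :
    Integrable (fun z : Ω × (ι → ℝ) => z.2 e) (P.prod (P367.GT.gM ι)) := by
  have hJi : Integrable (fun J : ι → ℝ => J e) (P367.GT.gM ι) :=
    integrable_comp_eval (μ := fun _ : ι => gaussianReal 0 1) (i := e) (f := fun x => x)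
      ((memLp_id_gaussianReal 1).integrable le_rfl)
  exact hJi.comp_snd P

lemma integrable_bdd {α : Type*} [MeasurableSpace α] (μ : Measure α) [IsFiniteMeasure μ]
    {f : α → ℝ} (hf : Measurable f) (C : ℝ) (hC : ∀ z, |f z| ≤ C) : Integrable f μ :=
  Integrable.of_bound hf.aestronglyMeasurable C
    (Filter.Eventually.of_forall fun z => by rw [Real.norm_eq_abs]; exact hC z)

lemma integrable_mul_bdd {α : Type*} [MeasurableSpace α] {μ : Measure α}
    {f g : α → ℝ} (hg : Integrable g μ) (hf : Measurable f) (C : ℝ) (hC : ∀ z, |f z| ≤ C) :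
    Integrable (fun z => g z * f z) μ := by
  have := hg.bdd_mul (c := C) (f := f) hf.aestronglyMeasurable
    (Filter.Eventually.of_forall fun J => by rw [Real.norm_eq_abs]; exact hC J)
  refine this.congr (Filter.Eventually.of_forall fun J => ?_)
  simp only [mul_comm]

/-- Gaussian integration by parts. -/
lemma gibp_prod (P : Measure Ω) [IsProbabilityMeasure P] {H : Ω → X → ℝ}
    (hH : ∀ x, Measurable fun ω => H ω x) (a : ι → X → ℝ) (e : ι) {n : ℕ} (x : Fin n → X)
    {f : Ω → ℝ} (hf : Measurable f) {C : ℝ} (hC : ∀ ω, |f ω| ≤ C) :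
    ∫ z, z.2 e * ((∏ i, gwt (gen (H z.1) a z.2) (x i)) * f z.1) ∂(P.prod (P367.GT.gM ι)) =
      ∫ z, ((∏ i, gwt (gen (H z.1) a z.2) (x i)) * f z.1) *
        ∑ i, (a e (x i) - gmean (gen (H z.1) a z.2) (a e)) ∂(P.prod (P367.GT.gM ι)) := by
  have hC0 : 0 ≤ C ∨ IsEmpty Ω := by
    by_cases h : Nonempty Ω
    · obtain ⟨ω⟩ := h
      exact Or.inl ((abs_nonneg _).trans (hC ω))
    · exact Or.inr (not_nonempty_iff.1 h)
  have hW : Measurable fun z : Ω × (ι → ℝ) =>
      (∏ i, gwt (gen (H z.1) a z.2) (x i)) * f z.1 :=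
    (Finset.measurable_prod _ fun i _ => measurable_gwt_gen hH a (x i)).mul
      (hf.comp measurable_fst)
  have hWb : ∀ z : Ω × (ι → ℝ), |(∏ i, gwt (gen (H z.1) a z.2) (x i)) * f z.1| ≤ C := by
    intro z
    rw [abs_mul]
    calc _ ≤ 1 * C := mul_le_mul (prod_gwt_le _ _) (hC _) (abs_nonneg _) zero_le_one
      _ = C := one_mul C
  have hi1 : Integrable (fun z : Ω × (ι → ℝ) =>
      z.2 e * ((∏ i, gwt (gen (H z.1) a z.2) (x i)) * f z.1)) (P.prod (P367.GT.gM ι)) :=
    integrable_mul_bdd (integrable_coord P e) hW C hWb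
  have hi2 : Integrable (fun z : Ω × (ι → ℝ) =>
      ((∏ i, gwt (gen (H z.1) a z.2) (x i)) * f z.1) *
        ∑ i, (a e (x i) - gmean (gen (H z.1) a z.2) (a e))) (P.prod (P367.GT.gM ι)) := by
    refine integrable_mul_bdd (integrable_bdd _ hW C hWb) ?_ (n * (2 * ∑ y, |a e y|))
      fun z => abs_sum_sub_le _ x (a e)
    exact Finset.measurable_sum _ fun i _ => measurable_const.sub (measurable_gmean_gen hH a _)
  rw [integral_prod _ hi1, integral_prod _ hi2]
  refine integral_congr_ae (Filter.Eventually.of_forall fun ω => ?_)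
  have h := gibp_fixed (H ω) a e x
  calc ∫ y, y e * ((∏ i, gwt (gen (H ω) a y) (x i)) * f ω) ∂(P367.GT.gM ι)
      = (∫ y, y e * (∏ i, gwt (gen (H ω) a y) (x i)) ∂(P367.GT.gM ι)) * f ω := by
        rw [← integral_mul_const]
        refine integral_congr_ae (Filter.Eventually.of_forall fun y => ?_)
        simp only
        ring
    _ = _ := by
        rw [h, ← integral_mul_const]
        refine integral_congr_ae (Filter.Eventually.of_forall fun y => ?_)
        simp only
        ring

end Gen

end Vale.Agent.P157.Par
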