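import Vale.Agent.P157.ParGG2

/-! Calculus of replica averages; the perturbed systems; the Ghirlanda-Guerra identity from
Gaussian integration by parts. -/

open MeasureTheory ProbabilityTheory Filter Topology
open scoped RealInnerProductSpace

namespace Vale.Agent.P157.Par

set_option linter.unusedSectionVars false

section Calculus

variable {Ω X : Type*} [MeasurableSpace Ω] [Fintype X]

/-- Random probability weights. -/
structure IsWt (w : Ω → X → ℝ) : Prop where
  meas : ∀ x, Measurable fun ω => w ω x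
  nn : ∀ ω x, 0 ≤ w ω x
  one : ∀ ω, ∑ x, w ω x = 1

/-- The replica average. -/
noncomputable def rav (μ : Measure Ω) (w : Ω → X → ℝ) {n : ℕ} (F : Ω → (Fin n → X) → ℝ) : ℝ :=
  ∫ ω, ∑ x : Fin n → X, (∏ i, w ω (x i)) * F ω x ∂μ

variable {μ : Measure Ω} [IsProbabilityMeasure μ] {w : Ω → X → ℝ} (hw : IsWt w) {n : ℕ}

include hw

lemma IsWt.le_one (ω : Ω) (x : X) : w ω x ≤ 1 := by
  rw [← hw.one ω]
  exact Finset.single_le_sum (fun y _ => hw.nn ω y) (Finset.mem_univ x)

lemma IsWt.prod_nonneg (ω : Ω) (x : Fin n → X) : 0 ≤ ∏ i, w ω (x i) :=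
  Finset.prod_nonneg fun _ _ => hw.nn ω _

lemma IsWt.prod_le_one (ω : Ω) (x : Fin n → X) : |∏ i, w ω (x i)| ≤ 1 := by
  rw [abs_of_nonneg (hw.prod_nonneg ω x)]
  exact Finset.prod_le_one (fun _ _ => hw.nn ω _) fun _ _ => hw.le_one ω _

lemma IsWt.prod_meas (x : Fin n → X) : Measurable fun ω => ∏ i, w ω (x i) :=
  Finset.measurable_prod _ fun i _ => hw.meas (x i)

lemma IsWt.int {F : Ω → (Fin n → X) → ℝ} (hF : ∀ x, Integrable (fun ω => F ω x) μ)
    (x : Fin n → X) : Integrable (fun ω => (∏ i, w ω (x i)) * F ω x) μ := by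
  have h := integrable_mul_bdd (hF x) (hw.prod_meas x) 1 (fun ω => hw.prod_le_one ω x)
  exact h.congr (Filter.Eventually.of_forall fun ω => mul_comm _ _)

lemma IsWt.int_sum {F : Ω → (Fin n → X) → ℝ} (hF : ∀ x, Integrable (fun ω => F ω x) μ) :
    Integrable (fun ω => ∑ x : Fin n → X, (∏ i, w ω (x i)) * F ω x) μ :=
  integrable_finsetSum _ fun x _ => hw.int hF x

lemma IsWt.rav_eq {F : Ω → (Fin n → X) → ℝ} (hF : ∀ x, Integrable (fun ω => F ω x) μ) :
    rav μ w F = ∑ x : Fin n → X, ∫ ω, (∏ i, w ω (x i)) * F ω x ∂μ := by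
  unfold rav
  exact integral_finsetSum _ fun x _ => hw.int hF x

lemma IsWt.rav_add {F G : Ω → (Fin n → X) → ℝ} (hF : ∀ x, Integrable (fun ω => F ω x) μ)
    (hG : ∀ x, Integrable (fun ω => G ω x) μ) :
    rav μ w (fun ω x => F ω x + G ω x) = rav μ w F + rav μ w G := by
  unfold rav
  rw [← integral_add (hw.int_sum hF) (hw.int_sum hG)]
  congr 1
  funext ω
  rw [← Finset.sum_add_distrib]
  exact Finset.sum_congr rfl fun x _ => by ring

lemma IsWt.rav_sub {F G : Ω → (Fin n → X) → ℝ} (hF : ∀ x, Integrable (fun ω => F ω x) μ)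
    (hG : ∀ x, Integrable (fun ω => G ω x) μ) :
    rav μ w (fun ω x => F ω x - G ω x) = rav μ w F - rav μ w G := by
  unfold rav
  rw [← integral_sub (hw.int_sum hF) (hw.int_sum hG)]
  congr 1
  funext ω
  rw [← Finset.sum_sub_distrib]
  exact Finset.sum_congr rfl fun x _ => by ring

omit hw [IsProbabilityMeasure μ] in
lemma rav_const_mul (c : ℝ) (F : Ω → (Fin n → X) → ℝ) :
    rav μ w (fun ω x => c * F ω x) = c * rav μ w F := by
  unfold rav
  rw [← integral_const_mul]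
  congr 1
  funext ω
  rw [Finset.mul_sum]
  exact Finset.sum_congr rfl fun x _ => by ring

lemma IsWt.rav_sum {κ : Type*} (s : Finset κ) {F : κ → Ω → (Fin n → X) → ℝ}
    (hF : ∀ k ∈ s, ∀ x, Integrable (fun ω => F k ω x) μ) :
    rav μ w (fun ω x => ∑ k ∈ s, F k ω x) = ∑ k ∈ s, rav μ w (F k) := by
  unfold rav
  rw [← integral_finsetSum _ fun k hk => hw.int_sum (hF k hk)]
  congr 1
  funext ω
  rw [Finset.sum_comm]
  exact Finset.sum_congr rfl fun x _ => by rw [Finset.mul_sum]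

lemma IsWt.rav_mono {F G : Ω → (Fin n → X) → ℝ} (hF : ∀ x, Integrable (fun ω => F ω x) μ)
    (hG : ∀ x, Integrable (fun ω => G ω x) μ) (h : ∀ ω x, F ω x ≤ G ω x) :
    rav μ w F ≤ rav μ w G := by
  unfold rav
  refine integral_mono (hw.int_sum hF) (hw.int_sum hG) fun ω => ?_
  exact Finset.sum_le_sum fun x _ => mul_le_mul_of_nonneg_left (h ω x) (hw.prod_nonneg ω x)

lemma IsWt.rav_abs_le {F : Ω → (Fin n → X) → ℝ} (hF : ∀ x, Integrable (fun ω => F ω x) μ) :
    |rav μ w F| ≤ rav μ w (fun ω x => |F ω x|) := by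
  rw [abs_le]
  constructor
  · have h := hw.rav_mono (μ := μ) (F := fun ω x => (-1) * |F ω x|) (G := F)
      (fun x => ((hF x).abs).const_mul _) hF (fun ω x => by
        have := neg_abs_le (F ω x); linarith)
    rw [rav_const_mul] at h
    linarith
  · exact hw.rav_mono hF (fun x => (hF x).abs) fun ω x => le_abs_self _

lemma IsWt.rav_const (c : ℝ) : rav μ w (n := n) (fun _ _ => c) = c := by
  unfold rav
  have h : ∀ ω, ∑ x : Fin n → X, (∏ i, w ω (x i)) * c = c := fun ω => by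
    rw [← Finset.sum_mul, rep_one (hw.one ω), one_mul]
  simp [h]

lemma IsWt.rav_marg (i : Fin n) (G : Ω → X → ℝ) :
    rav μ w (n := n) (fun ω x => G ω (x i)) = ∫ ω, ∑ y, w ω y * G ω y ∂μ := by
  unfold rav
  congr 1
  funext ω
  exact rep_marg (hw.one ω) i (G ω)

omit hw [IsProbabilityMeasure μ] in
lemma rav_snoc (F : Ω → (Fin (n + 1) → X) → ℝ) :
    rav μ w F = rav μ w (n := n) (fun ω x => ∑ y, w ω y * F ω (Fin.snoc x y)) := by
  unfold rav
  congr 1
  funext ω
  exact rep_snoc (w ω) (F ω)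

omit hw [IsProbabilityMeasure μ] in
lemma rav_congr {F G : Ω → (Fin n → X) → ℝ} (h : ∀ ω x, F ω x = G ω x) :
    rav μ w F = rav μ w G := by
  have : F = G := by funext ω x; exact h ω x
  rw [this]

end Calculus

/-- A random Hamiltonian `H` on a finite set whose points carry unit feature vectors. -/
structure Base where
  Ω : Type
  mΩ : MeasurableSpace Ω
  P : Measure Ω
  hP : IsProbabilityMeasure P
  X : Type
  fX : Fintype X
  nX : Nonempty X
  H : Ω → X → ℝ
  hH : ∀ x, Measurable fun ω => H ω x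
  K : ℝ
  hK : ∀ ω x, |H ω x| ≤ K
  d : ℕ
  φ : X → EuclideanSpace ℝ (Fin d)
  hφ : ∀ x, ‖φ x‖ = 1

attribute [instance] Base.mΩ Base.hP Base.fX Base.nX

/-- The system obtained by adding the Gaussian term with coefficients `a`. -/
noncomputable def Base.gsys (B : Base) {ι : Type} [Fintype ι] (a : ι → B.X → ℝ) : Sys where
  Ω := B.Ω × (ι → ℝ)
  mΩ := inferInstance
  P := B.P.prod (P367.GT.gM ι)
  hP := inferInstance
  T := B.Ω
  mT := B.mΩ
  π := Prod.fst
  hπ := measurable_fst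
  X := B.X
  fX := B.fX
  w := fun z x => gwt (gen (B.H z.1) a z.2) x
  hw := fun x => measurable_gwt_gen B.hH a x
  w0 := fun _ _ => gwt_nonneg _ _
  w1 := fun _ => sum_gwt _
  d := B.d
  φ := B.φ
  hφ := B.hφ

/-- The index set of the Gaussian coordinates of the perturbation. -/
abbrev GI (P d : ℕ) : Type := Σ p : Fin P, (Fin ((p : ℕ) + 1) → Fin d)

/-- The Gaussian process with covariance `R^(p+1)`. -/
noncomputable def Base.hh (B : Base) {P : ℕ} (p : Fin P) (g : GI P B.d → ℝ) (x : B.X) : ℝ :=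
  ∑ k : Fin ((p : ℕ) + 1) → Fin B.d, g ⟨p, k⟩ * ∏ r, B.φ x (k r)

/-- The coefficients of the perturbation. -/
noncomputable def Base.coef (B : Base) (P : ℕ) (s : ℝ) (u : Fin P → ℝ) (e : GI P B.d)
    (x : B.X) : ℝ :=
  s * u e.1 * (1 / 2) ^ ((e.1 : ℕ) + 1) * ∏ r, B.φ x (e.2 r)

/-- The perturbed system. -/
noncomputable def Base.sys (B : Base) (P : ℕ) (s : ℝ) (u : Fin P → ℝ) : Sys :=
  B.gsys (B.coef P s u)

/-- The energy of the perturbed system. -/
lemma Base.gen_eq (B : Base) (P : ℕ) (s : ℝ) (u : Fin P → ℝ) (ω : B.Ω) (g : GI P B.d → ℝ)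
    (x : B.X) : gen (B.H ω) (B.coef P s u) g x =
      B.H ω x + s * ∑ p : Fin P, u p * (1 / 2) ^ ((p : ℕ) + 1) * B.hh p g x := by
  unfold gen Base.coef Base.hh
  rw [Fintype.sum_sigma, Finset.mul_sum]
  congr 1
  refine Finset.sum_congr rfl fun p _ => ?_
  rw [Finset.mul_sum, Finset.mul_sum]
  exact Finset.sum_congr rfl fun k _ => by ring

/-- The weights of the perturbed system. -/
lemma Base.sys_w (B : Base) (P : ℕ) (s : ℝ) (u : Fin P → ℝ) (z : B.Ω × (GI P B.d → ℝ))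
    (x : B.X) : (B.sys P s u).w z x =
      Real.exp (B.H z.1 x + s * ∑ p : Fin P, u p * (1 / 2) ^ ((p : ℕ) + 1) * B.hh p z.2 x) /
      ∑ y, Real.exp (B.H z.1 y + s * ∑ p : Fin P, u p * (1 / 2) ^ ((p : ℕ) + 1) * B.hh p z.2 y) := by
  simp only [← B.gen_eq]
  rfl

/-- The weights of the perturbed system, as a function on the product. -/
noncomputable def Base.wt (B : Base) {ι : Type} [Fintype ι] (a : ι → B.X → ℝ)
    (z : B.Ω × (ι → ℝ)) (x : B.X) : ℝ :=
  gwt (gen (B.H z.1) a z.2) x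

lemma Base.isWt (B : Base) {ι : Type} [Fintype ι] (a : ι → B.X → ℝ) : IsWt (B.wt a) where
  meas := fun x => measurable_gwt_gen B.hH a x
  nn := fun _ _ => gwt_nonneg _ _
  one := fun _ => sum_gwt _

lemma Base.gsys_av (B : Base) {ι : Type} [Fintype ι] (a : ι → B.X → ℝ) {n : ℕ}
    (F : B.Ω × (ι → ℝ) → (Fin n → B.X) → ℝ) :
    (B.gsys a).av F = rav (B.P.prod (P367.GT.gM ι)) (B.wt a) F := rfl

lemma Base.sys_av (B : Base) (P : ℕ) (s : ℝ) (u : Fin P → ℝ) {n : ℕ}
    (F : B.Ω × (GI P B.d → ℝ) → (Fin n → B.X) → ℝ) :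
    (B.sys P s u).av F =
      rav (B.P.prod (P367.GT.gM (GI P B.d))) (B.wt (B.coef P s u)) F := rfl

lemma Base.inner_pow (B : Base) (p : ℕ) (x y : B.X) :
    ∑ k : Fin (p + 1) → Fin B.d, (∏ r, B.φ x (k r)) * (∏ r, B.φ y (k r)) =
      ⟪B.φ x, B.φ y⟫ ^ (p + 1) := by
  have h : ⟪B.φ x, B.φ y⟫ = ∑ i, B.φ x i * B.φ y i := by
    rw [PiLp.inner_apply]
    exact Finset.sum_congr rfl fun i _ => by simp [mul_comm]
  rw [h, Fintype.sum_pow]
  exact Finset.sum_congr rfl fun k _ => by rw [Finset.prod_mul_distrib]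

end Vale.Agent.P157.Par
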