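import Vale.Agent.P157.ParGG3

/-! The Ghirlanda-Guerra defect is at most the fluctuation of the perturbation. -/

open MeasureTheory ProbabilityTheory Filter Topology
open scoped RealInnerProductSpace

namespace Vale.Agent.P157.Par

set_option linter.unusedSectionVars false

namespace Base

variable (B : Base)

/-- The joint law of the base disorder and of the Gaussian coordinates. -/
noncomputable abbrev jl (ι : Type) [Fintype ι] : Measure (B.Ω × (ι → ℝ)) :=
  B.P.prod (P367.GT.gM ι)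

lemma gibp_av {ι : Type} [Fintype ι] [DecidableEq ι] (a : ι → B.X → ℝ) (e : ι) {n : ℕ}
    {f : B.Ω → (Fin n → B.X) → ℝ} (hf : ∀ x, Measurable fun ω => f ω x) {C : ℝ}
    (hC : ∀ ω x, |f ω x| ≤ C) :
    rav (B.jl ι) (B.wt a) (n := n) (fun z x => z.2 e * f z.1 x) =
      rav (B.jl ι) (B.wt a) (n := n) (fun z x => f z.1 x *
        ∑ j, (a e (x j) - gmean (gen (B.H z.1) a z.2) (a e))) := by
  have hC0 : ∀ x : Fin n → B.X, ∀ ω, |f ω x| ≤ C := fun x ω => hC ω x
  have hf' : ∀ x : Fin n → B.X, Measurable fun z : B.Ω × (ι → ℝ) => f z.1 x := fun x =>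
    (hf x).comp measurable_fst
  have h1 : ∀ x : Fin n → B.X, Integrable (fun z : B.Ω × (ι → ℝ) => z.2 e * f z.1 x)
      (B.jl ι) := fun x =>
    integrable_mul_bdd (integrable_coord B.P e) (hf' x) C fun z => hC0 x _
  have h2 : ∀ x : Fin n → B.X, Integrable (fun z : B.Ω × (ι → ℝ) => f z.1 x *
      ∑ j, (a e (x j) - gmean (gen (B.H z.1) a z.2) (a e))) (B.jl ι) := by
    intro x
    refine integrable_mul_bdd (integrable_bdd _ (hf' x) C fun z => hC0 x _) ?_
      (n * (2 * ∑ y, |a e y|)) fun z => abs_sum_sub_le _ x (a e)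
    exact Finset.measurable_sum _ fun i _ => measurable_const.sub (measurable_gmean_gen B.hH a _)
  rw [(B.isWt a).rav_eq h1, (B.isWt a).rav_eq h2]
  refine Finset.sum_congr rfl fun x _ => ?_
  have h := gibp_prod B.P B.hH a e x (hf x) (hC0 x)
  calc _ = ∫ z, z.2 e * ((∏ i, gwt (gen (B.H z.1) a z.2) (x i)) * f z.1 x)
        ∂(B.jl ι) := by
        refine integral_congr_ae (Filter.Eventually.of_forall fun z => ?_)
        show (∏ i, gwt (gen (B.H z.1) a z.2) (x i)) * (z.2 e * f z.1 x) = _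
        ring
    _ = _ := by
        rw [h]
        refine integral_congr_ae (Filter.Eventually.of_forall fun z => ?_)
        show _ = (∏ i, gwt (gen (B.H z.1) a z.2) (x i)) * (f z.1 x * _)
        ring

/-- The monomials of the features. -/
noncomputable def mono (p : ℕ) (k : Fin (p + 1) → Fin B.d) (x : B.X) : ℝ :=
  ∏ r, B.φ x (k r)

lemma mono_inner (p : ℕ) (x y : B.X) :
    ∑ k : Fin (p + 1) → Fin B.d, B.mono p k x * B.mono p k y = ⟪B.φ x, B.φ y⟫ ^ (p + 1) :=
  B.inner_pow p x y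

lemma abs_phi_le (x : B.X) (i : Fin B.d) : |B.φ x i| ≤ 1 := by
  have h := PiLp.norm_apply_le (B.φ x) i
  rwa [B.hφ, Real.norm_eq_abs] at h

lemma abs_mono_le (p : ℕ) (k : Fin (p + 1) → Fin B.d) (x : B.X) : |B.mono p k x| ≤ 1 := by
  unfold mono
  rw [Finset.abs_prod]
  exact Finset.prod_le_one (fun _ _ => abs_nonneg _) fun _ _ => B.abs_phi_le _ _

lemma abs_inner_le (x y : B.X) : |⟪B.φ x, B.φ y⟫| ≤ 1 := by
  have h := abs_real_inner_le_norm (B.φ x) (B.φ y)
  rwa [B.hφ, B.hφ, one_mul] at h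

lemma abs_inner_pow_le (x y : B.X) (p : ℕ) : |⟪B.φ x, B.φ y⟫ ^ p| ≤ 1 := by
  rw [abs_pow]
  exact pow_le_one₀ (abs_nonneg _) (B.abs_inner_le x y)

variable (P : ℕ) (s : ℝ) (u : Fin P → ℝ)

/-- The coefficient of the `p`-th process. -/
noncomputable def cc (_ : Base) {P : ℕ} (s : ℝ) (u : Fin P → ℝ) (p : Fin P) : ℝ :=
  s * u p * (1 / 2) ^ ((p : ℕ) + 1)

lemma coef_apply (p : Fin P) (k : Fin ((p : ℕ) + 1) → Fin B.d) (x : B.X) :
    B.coef P s u ⟨p, k⟩ x = B.cc s u p * B.mono p k x := rfl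

lemma gmean_coef (p : Fin P) (k : Fin ((p : ℕ) + 1) → Fin B.d) (E : B.X → ℝ) :
    gmean E (B.coef P s u ⟨p, k⟩) = B.cc s u p * gmean E (B.mono p k) := by
  unfold gmean
  rw [Finset.mul_sum]
  exact Finset.sum_congr rfl fun x _ => by rw [coef_apply]; ring

lemma gmean_mono_inner (p : ℕ) (E : B.X → ℝ) (x : B.X) :
    ∑ k : Fin (p + 1) → Fin B.d, B.mono p k x * gmean E (B.mono p k) =
      gmean E (fun y => ⟪B.φ x, B.φ y⟫ ^ (p + 1)) := by
  unfold gmean
  simp only [← mono_inner, Finset.mul_sum]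
  rw [Finset.sum_comm]
  refine Finset.sum_congr rfl fun y _ => Finset.sum_congr rfl fun k _ => by ring

/-- Integration by parts for the average of the perturbation against a test function. -/
lemma av_hh (p : Fin P) {n : ℕ} (i : Fin n) {F : B.Ω → (Fin n → B.X) → ℝ}
    (hF : ∀ x, Measurable fun ω => F ω x) {C : ℝ} (hC : ∀ ω x, |F ω x| ≤ C) :
    rav (B.jl (GI P B.d)) (B.wt (B.coef P s u)) (n := n)
        (fun z x => F z.1 x * B.hh p z.2 (x i)) =
      B.cc s u p * (∑ j, rav (B.jl (GI P B.d)) (B.wt (B.coef P s u)) (n := n)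
          (fun z x => F z.1 x * ⟪B.φ (x i), B.φ (x j)⟫ ^ ((p : ℕ) + 1)) -
        n * rav (B.jl (GI P B.d)) (B.wt (B.coef P s u)) (n := n + 1)
          (fun z x => F z.1 (fun j => x j.castSucc) *
          ⟪B.φ (x i.castSucc), B.φ (x (Fin.last n))⟫ ^ ((p : ℕ) + 1))) := by
  classical
  set μ := B.jl (GI P B.d) with hμ
  set w := B.wt (B.coef P s u) with hw
  have hW : IsWt w := B.isWt _
  have hFm : ∀ x : Fin n → B.X, Measurable fun z : B.Ω × (GI P B.d → ℝ) => F z.1 x := fun x =>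
    (hF x).comp measurable_fst
  have hbd : ∀ (k : Fin ((p : ℕ) + 1) → Fin B.d) (x : Fin n → B.X),
      ∀ ω, |F ω x * B.mono p k (x i)| ≤ C := by
    intro k x ω
    rw [abs_mul]
    have h1 := hC ω x
    have h2 := B.abs_mono_le p k (x i)
    have h3 := abs_nonneg (F ω x)
    have h4 := abs_nonneg (B.mono p k (x i))
    nlinarith
  -- step 1
  have e1 : rav μ w (n := n) (fun z x => F z.1 x * B.hh p z.2 (x i)) =
      ∑ k : Fin ((p : ℕ) + 1) → Fin B.d,
        rav μ w (n := n) (fun z x => z.2 ⟨p, k⟩ * (F z.1 x * B.mono p k (x i))) := by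
    rw [← hW.rav_sum]
    · refine rav_congr fun z x => ?_
      unfold Base.hh Base.mono
      rw [Finset.mul_sum]
      exact Finset.sum_congr rfl fun k _ => by ring
    · intro k _ x
      exact integrable_mul_bdd (integrable_coord B.P _) ((hFm x).mul_const _) C
        fun z => hbd k x z.1
  have e2 : ∀ k : Fin ((p : ℕ) + 1) → Fin B.d,
      rav μ w (n := n) (fun z x => z.2 ⟨p, k⟩ * (F z.1 x * B.mono p k (x i))) =
      rav μ w (n := n) (fun z x => (F z.1 x * B.mono p k (x i)) *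
        ∑ j, (B.coef P s u ⟨p, k⟩ (x j) -
          gmean (gen (B.H z.1) (B.coef P s u) z.2) (B.coef P s u ⟨p, k⟩))) := by
    intro k
    exact B.gibp_av (B.coef P s u) ⟨p, k⟩ (f := fun ω x => F ω x * B.mono p k (x i))
      (C := C) (fun x => (hF x).mul_const _) fun ω x => hbd k x ω
  have e3 : ∑ k : Fin ((p : ℕ) + 1) → Fin B.d,
      rav μ w (n := n) (fun z x => z.2 ⟨p, k⟩ * (F z.1 x * B.mono p k (x i))) =
      rav μ w (n := n) (fun z x => B.cc s u p * (∑ j, F z.1 x *
          ⟪B.φ (x i), B.φ (x j)⟫ ^ ((p : ℕ) + 1) - n * (F z.1 x *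
          gmean (gen (B.H z.1) (B.coef P s u) z.2)
            (fun y => ⟪B.φ (x i), B.φ y⟫ ^ ((p : ℕ) + 1))))) := by
    rw [Finset.sum_congr rfl fun k _ => e2 k, ← hW.rav_sum]
    · refine rav_congr fun z x => ?_
      simp only [B.coef_apply, B.gmean_coef]
      rw [← B.gmean_mono_inner]
      simp only [← B.mono_inner, Finset.sum_sub_distrib, Finset.sum_const, Finset.card_univ,
        Fintype.card_fin, nsmul_eq_mul, mul_sub, Finset.mul_sum]
      congr 1
      · rw [Finset.sum_comm]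
        exact Finset.sum_congr rfl fun j _ => Finset.sum_congr rfl fun k _ => by ring
      · exact Finset.sum_congr rfl fun k _ => by ring
    · intro k _ x
      refine integrable_mul_bdd (integrable_bdd _ ((hFm x).mul_const _) C fun z => hbd k x z.1) ?_
        (n * (2 * ∑ y, |B.coef P s u ⟨p, k⟩ y|)) fun z => abs_sum_sub_le _ x _
      exact Finset.measurable_sum _ fun i _ =>
        measurable_const.sub (measurable_gmean_gen B.hH _ _)
  have hI : ∀ (j : Fin n) (x : Fin n → B.X), Integrable (fun z : B.Ω × (GI P B.d → ℝ) =>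
      F z.1 x * ⟪B.φ (x i), B.φ (x j)⟫ ^ ((p : ℕ) + 1)) μ := by
    intro j x
    refine (integrable_bdd _ (hFm x) C fun z => hC _ _).mul_const _
  have hJ : ∀ (x : Fin n → B.X), Integrable (fun z : B.Ω × (GI P B.d → ℝ) =>
      F z.1 x * gmean (gen (B.H z.1) (B.coef P s u) z.2)
        (fun y => ⟪B.φ (x i), B.φ y⟫ ^ ((p : ℕ) + 1))) μ := by
    intro x
    refine integrable_mul_bdd (integrable_bdd _ (hFm x) C fun z => hC _ _)
      (measurable_gmean_gen B.hH _ _) 1 fun z => abs_gmean_le _ _ fun y => B.abs_inner_pow_le _ _ _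
  rw [e1, e3, rav_const_mul, hW.rav_sub (fun x => integrable_finsetSum _ fun j _ => hI j x)
    (fun x => (hJ x).const_mul _), hW.rav_sum _ (fun j _ x => hI j x), rav_const_mul,
    rav_snoc (n := n)]
  congr 3
  refine rav_congr fun z x => ?_
  simp only [Fin.snoc_castSucc, Fin.snoc_last]
  unfold gmean
  rw [Finset.mul_sum]
  refine Finset.sum_congr rfl fun y _ => ?_
  show F z.1 x * (gwt (gen (B.H z.1) (B.coef P s u) z.2) y * _) =
    gwt (gen (B.H z.1) (B.coef P s u) z.2) y * _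
  ring

end Base

end Vale.Agent.P157.Par
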