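import Vale.Agent.P157.ParGG4

/-! The Ghirlanda-Guerra defect is at most the fluctuation of the perturbation (2). -/

open MeasureTheory ProbabilityTheory Filter Topology
open scoped RealInnerProductSpace

namespace Vale.Agent.P157.Par

set_option linter.unusedSectionVars false

namespace Base

variable (B : Base) (P : ℕ) (s : ℝ) (u : Fin P → ℝ)

/-- The average deviation of the `p`-th process from the constant `c`. -/
noncomputable def dev (p : Fin P) (c : ℝ) : ℝ :=
  (B.sys P s u).av (n := 1)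
    (fun (z : B.Ω × (GI P B.d → ℝ)) (x : Fin 1 → B.X) => |B.hh p z.2 (x 0) - c|)

/-- The average of the `p`-th process. -/
noncomputable def mh (p : Fin P) : ℝ :=
  (B.sys P s u).av (n := 1)
    (fun (z : B.Ω × (GI P B.d → ℝ)) (x : Fin 1 → B.X) => B.hh p z.2 (x 0))

lemma int_hh (p : Fin P) (x : B.X) :
    Integrable (fun z : B.Ω × (GI P B.d → ℝ) => B.hh p z.2 x) (B.jl (GI P B.d)) := by
  unfold hh
  exact integrable_finsetSum _ fun k _ => (integrable_coord B.P _).mul_const _

lemma dev_eq (p : Fin P) (c : ℝ) {n : ℕ} (i : Fin n) :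
    rav (B.jl (GI P B.d)) (B.wt (B.coef P s u)) (n := n)
      (fun z x => |B.hh p z.2 (x i) - c|) = B.dev P s u p c := by
  rw [dev, sys_av]
  rw [(B.isWt _).rav_marg i (fun z x => |B.hh p z.2 x - c|),
    (B.isWt _).rav_marg (0 : Fin 1) (fun z x => |B.hh p z.2 x - c|)]

lemma mh_eq (p : Fin P) {n : ℕ} (i : Fin n) :
    rav (B.jl (GI P B.d)) (B.wt (B.coef P s u)) (n := n)
      (fun z x => B.hh p z.2 (x i)) = B.mh P s u p := by
  rw [mh, sys_av]
  rw [(B.isWt _).rav_marg i (fun z x => B.hh p z.2 x),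
    (B.isWt _).rav_marg (0 : Fin 1) (fun z x => B.hh p z.2 x)]

/-- The average of the `p`-th process. -/
lemma mh_formula (p : Fin P) : B.mh P s u p = B.cc s u p *
    (1 - rav (B.jl (GI P B.d)) (B.wt (B.coef P s u)) (n := 2)
      (fun _ x => ⟪B.φ (x 0), B.φ (x 1)⟫ ^ ((p : ℕ) + 1))) := by
  have h := B.av_hh P s u p (n := 1) 0 (F := fun _ _ => 1) (C := 1)
    (fun _ => measurable_const) (fun _ _ => by simp)
  simp only [one_mul] at h
  rw [B.mh_eq P s u p (0 : Fin 1)] at h
  rw [h]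
  congr 1
  have h1 : rav (B.jl (GI P B.d)) (B.wt (B.coef P s u)) (n := 1)
      (fun _ x => ⟪B.φ (x 0), B.φ (x 0)⟫ ^ ((p : ℕ) + 1)) = 1 := by
    have h2 := (B.isWt (B.coef P s u)).rav_const (μ := B.jl (GI P B.d)) (n := 1) 1
    rw [← h2]
    refine rav_congr fun z x => ?_
    rw [real_inner_self_eq_norm_sq, B.hφ]
    simp
  simp only [Finset.univ_unique, Fin.default_eq_zero, Finset.sum_singleton, h1, Nat.cast_one,
    one_mul]
  rfl

lemma mh_nonneg (hs : 0 ≤ s) (p : Fin P) (hu : 0 ≤ u p) : 0 ≤ B.mh P s u p := by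
  rw [mh_formula]
  have h := (B.isWt (B.coef P s u)).rav_mono (μ := B.jl (GI P B.d)) (n := 2)
    (F := fun _ x => ⟪B.φ (x 0), B.φ (x 1)⟫ ^ ((p : ℕ) + 1)) (G := fun _ _ => 1)
    (fun _ => integrable_const _) (fun _ => integrable_const _)
    (fun z x => (le_abs_self _).trans (B.abs_inner_pow_le _ _ _))
  rw [(B.isWt (B.coef P s u)).rav_const] at h
  refine mul_nonneg ?_ (by linarith)
  unfold cc
  positivity

lemma mh_le (hs : 0 ≤ s) (p : Fin P) (hu : 0 ≤ u p) :
    B.mh P s u p ≤ 2 * (s * u p * (1 / 2) ^ ((p : ℕ) + 1)) := by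
  rw [mh_formula]
  have h := (B.isWt (B.coef P s u)).rav_mono (μ := B.jl (GI P B.d)) (n := 2)
    (G := fun _ x => ⟪B.φ (x 0), B.φ (x 1)⟫ ^ ((p : ℕ) + 1)) (F := fun _ _ => -1)
    (fun _ => integrable_const _) (fun _ => integrable_const _)
    (fun z x => (abs_le.1 (B.abs_inner_pow_le _ _ _)).1)
  rw [(B.isWt (B.coef P s u)).rav_const] at h
  have h2 : 0 ≤ B.cc s u p := by unfold cc; positivity
  have h3 : B.cc s u p = s * u p * (1 / 2) ^ ((p : ℕ) + 1) := rfl
  rw [← h3]
  nlinarith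

/-- The defect as a covariance. -/
lemma defect_eq (p : Fin P) {n : ℕ} (i : Fin n) {F : B.Ω → (Fin n → B.X) → ℝ}
    (hF : ∀ x, Measurable fun ω => F ω x) (hC : ∀ ω x, |F ω x| ≤ 1) :
    B.cc s u p * (B.sys P s u).ggDefect (fun x => x ^ ((p : ℕ) + 1)) i F =
      B.mh P s u p * rav (B.jl (GI P B.d)) (B.wt (B.coef P s u)) (n := n) (fun z x => F z.1 x) -
      rav (B.jl (GI P B.d)) (B.wt (B.coef P s u)) (n := n)
        (fun z x => F z.1 x * B.hh p z.2 (x i)) := by
  have h1 := B.av_hh P s u p i hF hC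
  rw [h1, mh_formula]
  unfold Sys.ggDefect
  have e1 : (B.sys P s u).tav (n := n) F =
      rav (B.jl (GI P B.d)) (B.wt (B.coef P s u)) (n := n) (fun z x => F z.1 x) := rfl
  have e2 : (B.sys P s u).tav (n := n + 1) (fun t (x : Fin (n + 1) → (B.sys P s u).X) =>
      F t (fun j => x j.castSucc) *
        (B.sys P s u).R (x i.castSucc) (x (Fin.last n)) ^ ((p : ℕ) + 1)) =
      rav (B.jl (GI P B.d)) (B.wt (B.coef P s u)) (n := n + 1)
        (fun z x => F z.1 (fun j => x j.castSucc) *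
          ⟪B.φ (x i.castSucc), B.φ (x (Fin.last n))⟫ ^ ((p : ℕ) + 1)) := rfl
  have e3 : (B.sys P s u).tav (n := 2) (fun _ (x : Fin 2 → (B.sys P s u).X) =>
      (B.sys P s u).R (x 0) (x 1) ^ ((p : ℕ) + 1)) =
      rav (B.jl (GI P B.d)) (B.wt (B.coef P s u)) (n := 2)
        (fun _ x => ⟪B.φ (x 0), B.φ (x 1)⟫ ^ ((p : ℕ) + 1)) := rfl
  have e4 : ∀ j : Fin n, (B.sys P s u).tav (n := n) (fun t (x : Fin n → (B.sys P s u).X) =>
      F t x * (B.sys P s u).R (x i) (x j) ^ ((p : ℕ) + 1)) =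
      rav (B.jl (GI P B.d)) (B.wt (B.coef P s u)) (n := n)
        (fun z x => F z.1 x * ⟪B.φ (x i), B.φ (x j)⟫ ^ ((p : ℕ) + 1)) := fun j => rfl
  simp only [e1, e2, e3, e4]
  rw [← Finset.add_sum_erase Finset.univ (fun j => rav (B.jl (GI P B.d))
    (B.wt (B.coef P s u)) (n := n)
    (fun z x => F z.1 x * ⟪B.φ (x i), B.φ (x j)⟫ ^ ((p : ℕ) + 1))) (Finset.mem_univ i)]
  have e5 : rav (B.jl (GI P B.d)) (B.wt (B.coef P s u)) (n := n)
      (fun z x => F z.1 x * ⟪B.φ (x i), B.φ (x i)⟫ ^ ((p : ℕ) + 1)) =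
      rav (B.jl (GI P B.d)) (B.wt (B.coef P s u)) (n := n) (fun z x => F z.1 x) := by
    refine rav_congr fun z x => ?_
    rw [real_inner_self_eq_norm_sq, B.hφ]
    simp
  rw [e5]
  ring

lemma int_test {n : ℕ} {F : B.Ω → (Fin n → B.X) → ℝ}
    (hF : ∀ x, Measurable fun ω => F ω x) (hC : ∀ ω x, |F ω x| ≤ 1) (x : Fin n → B.X) :
    Integrable (fun z : B.Ω × (GI P B.d → ℝ) => F z.1 x) (B.jl (GI P B.d)) :=
  integrable_bdd _ ((hF x).comp measurable_fst) 1 fun z => hC z.1 x

/-- The Ghirlanda-Guerra defect is bounded by the deviation of the perturbation from any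
constant. -/
theorem ggDefect_le (hs : 0 < s) (p : Fin P) (hu : 0 < u p) (c : ℝ) {n : ℕ} (i : Fin n)
    (F : (B.sys P s u).T → (Fin n → (B.sys P s u).X) → ℝ) (hF : (B.sys P s u).Test F) :
    |(B.sys P s u).ggDefect (fun x => x ^ ((p : ℕ) + 1)) i F| ≤
      2 * B.dev P s u p c / (s * u p * (1 / 2) ^ ((p : ℕ) + 1)) := by
  have hFm : ∀ x : Fin n → B.X, Measurable fun ω : B.Ω => F ω x := hF.meas
  have hFb : ∀ (ω : B.Ω) (x : Fin n → B.X), |F ω x| ≤ 1 := hF.bdd
  have h := B.defect_eq P s u p i hFm hFb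
  have hc : 0 < B.cc s u p := by unfold cc; positivity
  have h3 : B.cc s u p = s * u p * (1 / 2) ^ ((p : ℕ) + 1) := rfl
  have hW := B.isWt (B.coef P s u)
  set μ := B.jl (GI P B.d) with hμ
  set w := B.wt (B.coef P s u) with hw
  rw [← h3, le_div_iff₀ hc, mul_comm, ← abs_of_pos hc, ← abs_mul, h]
  have hFi := B.int_test P hFm hFb
  have hhi : ∀ x : Fin n → B.X, Integrable (fun z : B.Ω × (GI P B.d → ℝ) =>
      B.hh p z.2 (x i)) μ := fun x => B.int_hh P p (x i)
  have hFhi : ∀ x : Fin n → B.X, Integrable (fun z : B.Ω × (GI P B.d → ℝ) =>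
      F z.1 x * B.hh p z.2 (x i)) μ := fun x => by
    refine (integrable_mul_bdd (hhi x) ((hFm x).comp measurable_fst) 1
      fun z => hFb z.1 x).congr (Filter.Eventually.of_forall fun z => ?_)
    exact mul_comm _ _
  have e1 : rav μ w (n := n) (fun z x => F z.1 x * (B.hh p z.2 (x i) - c)) =
      rav μ w (n := n) (fun z x => F z.1 x * B.hh p z.2 (x i)) -
        c * rav μ w (n := n) (fun z x => F z.1 x) := by
    rw [← rav_const_mul, ← hW.rav_sub hFhi (fun x => (hFi x).const_mul c)]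
    exact rav_congr fun z x => by ring
  have e2 : rav μ w (n := n) (fun z x => B.hh p z.2 (x i) - c) = B.mh P s u p - c := by
    rw [hW.rav_sub hhi (fun x => integrable_const _), hW.rav_const, B.mh_eq]
  have b1 : |rav μ w (n := n) (fun z x => F z.1 x * (B.hh p z.2 (x i) - c))| ≤
      B.dev P s u p c := by
    rw [← B.dev_eq P s u p c i]
    refine (hW.rav_abs_le fun x => ?_).trans (hW.rav_mono (fun x => ?_) (fun x => ?_) ?_)
    · refine ((hFhi x).sub ((hFi x).mul_const c)).congr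
        (Filter.Eventually.of_forall fun z => ?_)
      simp only [Pi.sub_apply]
      ring
    · refine (((hFhi x).sub ((hFi x).mul_const c)).congr
        (Filter.Eventually.of_forall fun z => ?_)).abs
      simp only [Pi.sub_apply]
      ring
    · exact ((hhi x).sub (integrable_const c)).abs
    · intro z x
      rw [abs_mul]
      exact mul_le_of_le_one_left (abs_nonneg _) (hFb z.1 x)
  have b2 : |rav μ w (n := n) (fun z x => B.hh p z.2 (x i) - c)| ≤ B.dev P s u p c := by
    rw [← B.dev_eq P s u p c i]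
    exact hW.rav_abs_le fun x => (hhi x).sub (integrable_const c)
  have b3 : |rav μ w (n := n) (fun z x => F z.1 x)| ≤ 1 := by
    refine (hW.rav_abs_le hFi).trans ?_
    refine (hW.rav_mono (fun x => (hFi x).abs) (fun x => integrable_const 1)
      fun z x => hFb z.1 x).trans ?_
    rw [hW.rav_const]
  have e3 : B.mh P s u p * rav μ w (n := n) (fun z x => F z.1 x) -
      rav μ w (n := n) (fun z x => F z.1 x * B.hh p z.2 (x i)) =
      (rav μ w (n := n) (fun z x => B.hh p z.2 (x i) - c)) *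
        rav μ w (n := n) (fun z x => F z.1 x) -
      rav μ w (n := n) (fun z x => F z.1 x * (B.hh p z.2 (x i) - c)) := by
    rw [e1, e2]; ring
  rw [e3]
  calc _ ≤ |(rav μ w (n := n) (fun z x => B.hh p z.2 (x i) - c)) *
        rav μ w (n := n) (fun z x => F z.1 x)| +
      |rav μ w (n := n) (fun z x => F z.1 x * (B.hh p z.2 (x i) - c))| := abs_sub _ _
    _ ≤ B.dev P s u p c * 1 + B.dev P s u p c := by
        rw [abs_mul]
        refine add_le_add (mul_le_mul b2 b3 (abs_nonneg _) ?_) b1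
        exact (abs_nonneg _).trans b2
    _ = 2 * B.dev P s u p c := by ring

/-- The Ghirlanda-Guerra defect is bounded by the fluctuation of the perturbation. -/
theorem ggDefect_le_mh (hs : 0 < s) (p : Fin P) (hu : 0 < u p) {n : ℕ} (i : Fin n)
    (F : (B.sys P s u).T → (Fin n → (B.sys P s u).X) → ℝ) (hF : (B.sys P s u).Test F) :
    |(B.sys P s u).ggDefect (fun x => x ^ ((p : ℕ) + 1)) i F| ≤
      B.dev P s u p (B.mh P s u p) / (s * u p * (1 / 2) ^ ((p : ℕ) + 1)) := by
  have hFm : ∀ x : Fin n → B.X, Measurable fun ω : B.Ω => F ω x := hF.meas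
  have hFb : ∀ (ω : B.Ω) (x : Fin n → B.X), |F ω x| ≤ 1 := hF.bdd
  have h := B.defect_eq P s u p i hFm hFb
  have hc : 0 < B.cc s u p := by unfold cc; positivity
  have h3 : B.cc s u p = s * u p * (1 / 2) ^ ((p : ℕ) + 1) := rfl
  have hW := B.isWt (B.coef P s u)
  set c := B.mh P s u p with hcc
  set μ := B.jl (GI P B.d) with hμ
  set w := B.wt (B.coef P s u) with hw
  rw [← h3, le_div_iff₀ hc, mul_comm, ← abs_of_pos hc, ← abs_mul, h]
  have hFi := B.int_test P hFm hFb
  have hhi : ∀ x : Fin n → B.X, Integrable (fun z : B.Ω × (GI P B.d → ℝ) =>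
      B.hh p z.2 (x i)) μ := fun x => B.int_hh P p (x i)
  have hFhi : ∀ x : Fin n → B.X, Integrable (fun z : B.Ω × (GI P B.d → ℝ) =>
      F z.1 x * B.hh p z.2 (x i)) μ := fun x => by
    refine (integrable_mul_bdd (hhi x) ((hFm x).comp measurable_fst) 1
      fun z => hFb z.1 x).congr (Filter.Eventually.of_forall fun z => ?_)
    exact mul_comm _ _
  have e1 : rav μ w (n := n) (fun z x => F z.1 x * (B.hh p z.2 (x i) - c)) =
      rav μ w (n := n) (fun z x => F z.1 x * B.hh p z.2 (x i)) -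
        c * rav μ w (n := n) (fun z x => F z.1 x) := by
    rw [← rav_const_mul, ← hW.rav_sub hFhi (fun x => (hFi x).const_mul c)]
    exact rav_congr fun z x => by ring
  rw [abs_sub_comm, ← e1, ← B.dev_eq P s u p c i]
  refine (hW.rav_abs_le fun x => ?_).trans (hW.rav_mono (fun x => ?_) (fun x => ?_) ?_)
  · refine ((hFhi x).sub ((hFi x).mul_const c)).congr
      (Filter.Eventually.of_forall fun z => ?_)
    simp only [Pi.sub_apply]
    ring
  · refine (((hFhi x).sub ((hFi x).mul_const c)).congr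
      (Filter.Eventually.of_forall fun z => ?_)).abs
    simp only [Pi.sub_apply]
    ring
  · exact ((hhi x).sub (integrable_const c)).abs
  · intro z x
    rw [abs_mul]
    exact mul_le_of_le_one_left (abs_nonneg _) (hFb z.1 x)

end Base

/-- The Ghirlanda-Guerra defect for constants vanishes. -/
theorem Sys.ggDefect_zero (S : Sys) {n : ℕ} (i : Fin n) (F : S.T → (Fin n → S.X) → ℝ) :
    S.ggDefect (fun x => x ^ 0) i F = 0 := by
  have hw : IsWt S.w := ⟨S.hw, S.w0, S.w1⟩
  unfold Sys.ggDefect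
  simp only [pow_zero, mul_one]
  have h1 : S.tav (fun t (x : Fin (n + 1) → S.X) => F t (fun j => x j.castSucc)) = S.tav F := by
    have h := rav_snoc (μ := S.P) (w := S.w) (n := n)
      (fun ω x => F (S.π ω) (fun j => x j.castSucc))
    have h2 : rav S.P S.w (n := n) (fun ω x => ∑ y, S.w ω y *
        F (S.π ω) (fun j => (Fin.snoc x y : Fin (n + 1) → S.X) j.castSucc)) =
        rav S.P S.w (n := n) (fun ω x => F (S.π ω) x) := by
      refine rav_congr fun ω x => ?_
      simp only [Fin.snoc_castSucc]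
      rw [← Finset.sum_mul, S.w1, one_mul]
    exact h.trans h2
  have h3 : S.tav (fun _ (x : Fin 2 → S.X) => (1 : ℝ)) = 1 := hw.rav_const (μ := S.P) (n := 2) 1
  rw [h1, h3, Finset.sum_const, Finset.card_erase_of_mem (Finset.mem_univ i), Finset.card_univ,
    Fintype.card_fin, nsmul_eq_mul]
  have hn : 1 ≤ n := i.pos
  push_cast [Nat.cast_sub hn]
  ring

end Vale.Agent.P157.Par
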