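import Vale.Agent.P157.ParGG5

/-! Log-partition function of the perturbed system as a function of the parameters. -/

open MeasureTheory ProbabilityTheory Filter Topology
open scoped RealInnerProductSpace

namespace Vale.Agent.P157.Par

set_option linter.unusedSectionVars false

section Gibbs2

variable {X : Type*} [Fintype X] [Nonempty X]

lemma gmean_const_mul (E : X → ℝ) (c : ℝ) (ψ : X → ℝ) :
    gmean E (fun x => c * ψ x) = c * gmean E ψ := by
  unfold gmean
  rw [Finset.mul_sum]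
  exact Finset.sum_congr rfl fun x _ => by ring

lemma gmean_var (E ψ : X → ℝ) :
    gmean E (fun x => (ψ x - gmean E ψ) ^ 2) =
      gmean E (fun x => ψ x * ψ x) - gmean E ψ * gmean E ψ := by
  set m := gmean E ψ with hm
  have h1 : gmean E (fun x => (ψ x - m) ^ 2) =
      gmean E (fun x => ψ x * ψ x) - 2 * m * gmean E ψ + m ^ 2 * ∑ x, gwt E x := by
    unfold gmean
    rw [Finset.mul_sum, Finset.mul_sum, ← Finset.sum_sub_distrib, ← Finset.sum_add_distrib]
    exact Finset.sum_congr rfl fun x _ => by ring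
  rw [h1, sum_gwt, ← hm]
  ring

lemma gmean_mono {E ψ χ : X → ℝ} (h : ∀ x, ψ x ≤ χ x) : gmean E ψ ≤ gmean E χ :=
  Finset.sum_le_sum fun x _ => mul_le_mul_of_nonneg_left (h x) (gwt_nonneg E x)

lemma gmean_nonneg {E ψ : X → ℝ} (h : ∀ x, 0 ≤ ψ x) : 0 ≤ gmean E ψ :=
  Finset.sum_nonneg fun x _ => mul_nonneg (gwt_nonneg E x) (h x)

lemma glog_le {E E' : X → ℝ} {C : ℝ} (h : ∀ x, E x ≤ E' x + C) :
    Real.log (∑ y, Real.exp (E y)) ≤ Real.log (∑ y, Real.exp (E' y)) + C := by
  have h1 : ∑ y, Real.exp (E y) ≤ (∑ y, Real.exp (E' y)) * Real.exp C := by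
    rw [Finset.sum_mul]
    refine Finset.sum_le_sum fun y _ => ?_
    rw [← Real.exp_add]
    exact Real.exp_le_exp.2 (h y)
  have h2 := Real.log_le_log (gpart_pos E) h1
  rwa [Real.log_mul (gpart_pos E').ne' (Real.exp_pos _).ne', Real.log_exp] at h2

lemma abs_glog_sub_le {E E' : X → ℝ} {C : ℝ} (h : ∀ x, |E x - E' x| ≤ C) :
    |Real.log (∑ y, Real.exp (E y)) - Real.log (∑ y, Real.exp (E' y))| ≤ C := by
  rw [abs_le]
  constructor
  · have := glog_le (E := E') (E' := E) (C := C) fun x => by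
      have := (abs_le.1 (h x)).1; linarith
    linarith
  · have := glog_le (E := E) (E' := E') (C := C) fun x => by
      have := (abs_le.1 (h x)).2; linarith
    linarith

end Gibbs2

namespace Base

variable (B : Base) {P : ℕ} (s : ℝ) (u : Fin P → ℝ)

/-- The logarithm of the partition function. -/
noncomputable def lz (z : B.Ω × (GI P B.d → ℝ)) : ℝ :=
  Real.log (∑ y, Real.exp (gen (B.H z.1) (B.coef P s u) z.2 y))

/-- The Gibbs average of the `p`-th process. -/
noncomputable def hm (p : Fin P) (z : B.Ω × (GI P B.d → ℝ)) : ℝ :=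
  gmean (gen (B.H z.1) (B.coef P s u) z.2) (B.hh p z.2)

/-- The Gibbs variance of the `p`-th process. -/
noncomputable def hv (p : Fin P) (z : B.Ω × (GI P B.d → ℝ)) : ℝ :=
  gmean (gen (B.H z.1) (B.coef P s u) z.2) (fun x => B.hh p z.2 x * B.hh p z.2 x) -
    B.hm s u p z * B.hm s u p z

/-- The derivative of the energy in the `p`-th parameter is `kap p` times the process. -/
noncomputable def kap (_ : Base) {P : ℕ} (s : ℝ) (p : Fin P) : ℝ := s * (1 / 2) ^ ((p : ℕ) + 1)

lemma gen_upd (p : Fin P) (v : ℝ) (ω : B.Ω) (g : GI P B.d → ℝ) :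
    gen (B.H ω) (B.coef P s (Function.update u p v)) g =
      fun x => gen (B.H ω) (B.coef P s (Function.update u p 0)) g x +
        v * (B.kap s p * B.hh p g x) := by
  funext x
  rw [gen_eq, gen_eq]
  rw [← Finset.add_sum_erase Finset.univ (fun q : Fin P => Function.update u p v q *
      (1 / 2) ^ ((q : ℕ) + 1) * B.hh q g x) (Finset.mem_univ p),
    ← Finset.add_sum_erase Finset.univ (fun q : Fin P => Function.update u p 0 q *
      (1 / 2) ^ ((q : ℕ) + 1) * B.hh q g x) (Finset.mem_univ p)]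
  have h : ∀ t : ℝ, ∑ q ∈ Finset.univ.erase p, Function.update u p t q *
      (1 / 2) ^ ((q : ℕ) + 1) * B.hh q g x =
      ∑ q ∈ Finset.univ.erase p, u q * (1 / 2) ^ ((q : ℕ) + 1) * B.hh q g x := fun t =>
    Finset.sum_congr rfl fun i hi => by
      rw [Function.update_of_ne (Finset.ne_of_mem_erase hi)]
  rw [h, h]
  simp only [Function.update_self]
  unfold kap
  ring

lemma hasDerivAt_lz (p : Fin P) (z : B.Ω × (GI P B.d → ℝ)) (v : ℝ) :
    HasDerivAt (fun v => B.lz s (Function.update u p v) z)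
      (B.kap s p * B.hm s (Function.update u p v) p z) v := by
  have h := hasDerivAt_glog (gen (B.H z.1) (B.coef P s (Function.update u p 0)) z.2)
    (fun x => B.kap s p * B.hh p z.2 x) v
  rw [gmean_const_mul, ← B.gen_upd s u p v z.1 z.2] at h
  have h' : (fun v => B.lz s (Function.update u p v) z) =
      fun t => Real.log (∑ y, Real.exp (gen (B.H z.1) (B.coef P s (Function.update u p 0)) z.2 y +
        t * (B.kap s p * B.hh p z.2 y))) := by
    funext t
    unfold lz
    rw [B.gen_upd s u p t z.1 z.2]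
  rw [h']
  exact h

lemma hasDerivAt_hm (p : Fin P) (z : B.Ω × (GI P B.d → ℝ)) (v : ℝ) :
    HasDerivAt (fun v => B.hm s (Function.update u p v) p z)
      (B.kap s p * B.hv s (Function.update u p v) p z) v := by
  have h := hasDerivAt_gmean (gen (B.H z.1) (B.coef P s (Function.update u p 0)) z.2)
    (fun x => B.kap s p * B.hh p z.2 x) (B.hh p z.2) v
  rw [← B.gen_upd s u p v z.1 z.2] at h
  have h' : (fun v => B.hm s (Function.update u p v) p z) =
      fun t => gmean (fun y => gen (B.H z.1) (B.coef P s (Function.update u p 0)) z.2 y +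
        t * (B.kap s p * B.hh p z.2 y)) (B.hh p z.2) := by
    funext t
    unfold hm
    rw [B.gen_upd s u p t z.1 z.2]
  rw [h']
  refine h.congr_deriv ?_
  have h1 : (fun x => B.hh p z.2 x * (B.kap s p * B.hh p z.2 x)) =
      fun x => B.kap s p * (B.hh p z.2 x * B.hh p z.2 x) := by
    funext x; ring
  rw [h1, gmean_const_mul, gmean_const_mul]
  unfold hv hm
  ring

lemma hv_eq (p : Fin P) (z : B.Ω × (GI P B.d → ℝ)) :
    B.hv s u p z = gmean (gen (B.H z.1) (B.coef P s u) z.2)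
      (fun x => (B.hh p z.2 x - B.hm s u p z) ^ 2) := by
  unfold hv hm
  rw [gmean_var]

lemma hv_nonneg (p : Fin P) (z : B.Ω × (GI P B.d → ℝ)) : 0 ≤ B.hv s u p z := by
  rw [hv_eq]
  exact gmean_nonneg fun x => sq_nonneg _

/-- A bound for the `p`-th process. -/
noncomputable def hb (p : Fin P) (z : B.Ω × (GI P B.d → ℝ)) : ℝ :=
  ∑ k : Fin ((p : ℕ) + 1) → Fin B.d, |z.2 ⟨p, k⟩|

lemma hb_nonneg (p : Fin P) (z : B.Ω × (GI P B.d → ℝ)) : 0 ≤ B.hb p z :=
  Finset.sum_nonneg fun _ _ => abs_nonneg _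

lemma abs_hh_le (p : Fin P) (z : B.Ω × (GI P B.d → ℝ)) (x : B.X) :
    |B.hh p z.2 x| ≤ B.hb p z := by
  unfold hh hb
  refine (Finset.abs_sum_le_sum_abs _ _).trans (Finset.sum_le_sum fun k _ => ?_)
  rw [abs_mul]
  exact mul_le_of_le_one_right (abs_nonneg _) (B.abs_mono_le p k x)

lemma abs_hm_le (p : Fin P) (z : B.Ω × (GI P B.d → ℝ)) : |B.hm s u p z| ≤ B.hb p z :=
  abs_gmean_le _ _ fun x => B.abs_hh_le p z x

lemma hv_le (p : Fin P) (z : B.Ω × (GI P B.d → ℝ)) : B.hv s u p z ≤ B.hb p z ^ 2 := by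
  have h1 : gmean (gen (B.H z.1) (B.coef P s u) z.2)
      (fun x => B.hh p z.2 x * B.hh p z.2 x) ≤ B.hb p z ^ 2 := by
    refine (le_abs_self _).trans (abs_gmean_le _ _ fun x => ?_)
    rw [abs_mul, sq]
    exact mul_le_mul (B.abs_hh_le p z x) (B.abs_hh_le p z x) (abs_nonneg _) (B.hb_nonneg p z)
  unfold hv
  nlinarith [mul_self_nonneg (B.hm s u p z)]

lemma memLp_coord (e : GI P B.d) :
    MemLp (fun z : B.Ω × (GI P B.d → ℝ) => z.2 e) 2 (B.jl (GI P B.d)) := by
  have h1 : MemLp (fun J : GI P B.d → ℝ => J e) 2 (P367.GT.gM (GI P B.d)) :=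
    (memLp_id_gaussianReal (μ := 0) (v := 1) 2).comp_measurePreserving
      (measurePreserving_eval (fun _ : GI P B.d => gaussianReal 0 1) e)
  exact h1.comp_snd B.P

lemma memLp_hb (p : Fin P) : MemLp (B.hb p) 2 (B.jl (GI P B.d)) := by
  unfold hb
  exact memLp_finsetSum _ fun k _ => (B.memLp_coord ⟨p, k⟩).abs

lemma int_hb (p : Fin P) : Integrable (B.hb p) (B.jl (GI P B.d)) :=
  (B.memLp_hb p).integrable (by norm_num)

lemma int_hb_sq (p : Fin P) : Integrable (fun z => B.hb p z ^ 2) (B.jl (GI P B.d)) :=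
  (B.memLp_hb p).integrable_sq

end Base

end Vale.Agent.P157.Par
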