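import Vale.Agent.P157.ParGG6

/-! Measurability, continuity and integrability for the perturbed system. -/

open MeasureTheory ProbabilityTheory Filter Topology
open scoped RealInnerProductSpace

namespace Vale.Agent.P157.Par

set_option linter.unusedSectionVars false

namespace Base

variable (B : Base) {P : ℕ} (s : ℝ) (u : Fin P → ℝ)

/-! Joint measurability. -/

lemma jmeas_gen (x : B.X) : Measurable fun q : (Fin P → ℝ) × (B.Ω × (GI P B.d → ℝ)) =>
    gen (B.H q.2.1) (B.coef P s q.1) q.2.2 x := by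
  unfold gen coef
  refine ((B.hH x).comp (measurable_fst.comp measurable_snd)).add ?_
  refine Finset.measurable_sum _ fun e _ => ?_
  refine ((measurable_pi_apply e).comp (measurable_snd.comp measurable_snd)).mul ?_
  refine Measurable.mul_const (Measurable.mul_const (Measurable.const_mul ?_ _) _) _
  exact (measurable_pi_apply e.1).comp measurable_fst

lemma jmeas_gwt (x : B.X) : Measurable fun q : (Fin P → ℝ) × (B.Ω × (GI P B.d → ℝ)) =>
    gwt (gen (B.H q.2.1) (B.coef P s q.1) q.2.2) x := by
  unfold gwt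
  exact ((B.jmeas_gen s x).exp).div (Finset.measurable_sum _ fun y _ => (B.jmeas_gen s y).exp)

lemma jmeas_lz : Measurable fun q : (Fin P → ℝ) × (B.Ω × (GI P B.d → ℝ)) =>
    B.lz s q.1 q.2 := by
  unfold lz
  exact (Finset.measurable_sum _ fun y _ => (B.jmeas_gen s y).exp).log

lemma meas_hh (p : Fin P) (x : B.X) :
    Measurable fun z : B.Ω × (GI P B.d → ℝ) => B.hh p z.2 x := by
  unfold hh
  exact Finset.measurable_sum _ fun k _ =>
    ((measurable_pi_apply _).comp measurable_snd).mul_const _

lemma jmeas_hm (p : Fin P) : Measurable fun q : (Fin P → ℝ) × (B.Ω × (GI P B.d → ℝ)) =>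
    B.hm s q.1 p q.2 := by
  unfold hm gmean
  exact Finset.measurable_sum _ fun y _ =>
    (B.jmeas_gwt s y).mul ((B.meas_hh p y).comp measurable_snd)

lemma jmeas_hv (p : Fin P) : Measurable fun q : (Fin P → ℝ) × (B.Ω × (GI P B.d → ℝ)) =>
    B.hv s q.1 p q.2 := by
  unfold hv
  refine Measurable.sub ?_ ((B.jmeas_hm s p).mul (B.jmeas_hm s p))
  unfold gmean
  exact Finset.measurable_sum _ fun y _ => (B.jmeas_gwt s y).mul
    (((B.meas_hh p y).comp measurable_snd).mul ((B.meas_hh p y).comp measurable_snd))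

lemma meas_lz : Measurable (B.lz s u) := by
  have h : Measurable fun z : B.Ω × (GI P B.d → ℝ) => (u, z) := measurable_prodMk_left
  have h2 := (B.jmeas_lz s).comp h
  simp only [Function.comp_def] at h2
  exact h2

lemma meas_hm (p : Fin P) : Measurable (B.hm s u p) := by
  have h : Measurable fun z : B.Ω × (GI P B.d → ℝ) => (u, z) := measurable_prodMk_left
  have h2 := (B.jmeas_hm s p).comp h
  simp only [Function.comp_def] at h2
  exact h2

lemma meas_hv (p : Fin P) : Measurable (B.hv s u p) := by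
  have h : Measurable fun z : B.Ω × (GI P B.d → ℝ) => (u, z) := measurable_prodMk_left
  have h2 := (B.jmeas_hv s p).comp h
  simp only [Function.comp_def] at h2
  exact h2

/-! Continuity in the parameters. -/

lemma cont_gen (z : B.Ω × (GI P B.d → ℝ)) (x : B.X) :
    Continuous fun u : Fin P → ℝ => gen (B.H z.1) (B.coef P s u) z.2 x := by
  unfold gen coef
  refine continuous_const.add (continuous_finsetSum _ fun e _ => ?_)
  exact continuous_const.mul (((continuous_const.mul (continuous_apply e.1)).mul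
    continuous_const).mul continuous_const)

lemma cont_gwt (z : B.Ω × (GI P B.d → ℝ)) (x : B.X) :
    Continuous fun u : Fin P → ℝ => gwt (gen (B.H z.1) (B.coef P s u) z.2) x := by
  unfold gwt
  exact ((B.cont_gen s z x).rexp).div (continuous_finsetSum _ fun y _ => (B.cont_gen s z y).rexp)
    fun u => (gpart_pos _).ne'

lemma cont_hm (p : Fin P) (z : B.Ω × (GI P B.d → ℝ)) :
    Continuous fun u : Fin P → ℝ => B.hm s u p z := by
  unfold hm gmean
  exact continuous_finsetSum _ fun y _ => (B.cont_gwt s z y).mul continuous_const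

lemma cont_hv (p : Fin P) (z : B.Ω × (GI P B.d → ℝ)) :
    Continuous fun u : Fin P → ℝ => B.hv s u p z := by
  unfold hv
  refine Continuous.sub ?_ ((B.cont_hm s p z).mul (B.cont_hm s p z))
  unfold gmean
  exact continuous_finsetSum _ fun y _ => (B.cont_gwt s z y).mul continuous_const

lemma cont_upd (p : Fin P) : Continuous fun v : ℝ => Function.update u p v :=
  continuous_const.update p continuous_id

/-! Integrability. -/

lemma abs_lz_le (z : B.Ω × (GI P B.d → ℝ)) : |B.lz s u z| ≤
    |Real.log (Fintype.card B.X)| + (B.K + |s| * ∑ p, |u p| * B.hb p z) := by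
  have h : ∀ x, |gen (B.H z.1) (B.coef P s u) z.2 x - (fun _ => (0 : ℝ)) x| ≤
      B.K + |s| * ∑ p, |u p| * B.hb p z := by
    intro x
    rw [sub_zero, gen_eq]
    refine (abs_add_le _ _).trans (add_le_add (B.hK _ _) ?_)
    rw [abs_mul]
    refine mul_le_mul_of_nonneg_left ?_ (abs_nonneg _)
    refine (Finset.abs_sum_le_sum_abs _ _).trans (Finset.sum_le_sum fun p _ => ?_)
    rw [abs_mul, abs_mul]
    refine mul_le_mul ?_ (B.abs_hh_le p z x) (abs_nonneg _) (abs_nonneg _)
    refine mul_le_of_le_one_right (abs_nonneg _) ?_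
    rw [abs_of_pos (by positivity)]
    exact pow_le_one₀ (by norm_num) (by norm_num)
  have h2 : Real.log (∑ _y : B.X, Real.exp 0) = Real.log (Fintype.card B.X) := by simp
  have h1 : |B.lz s u z - Real.log (∑ _y : B.X, Real.exp 0)| ≤
      B.K + |s| * ∑ p, |u p| * B.hb p z := abs_glog_sub_le h
  rw [h2] at h1
  have h3 := abs_sub_abs_le_abs_sub (B.lz s u z) (Real.log (Fintype.card B.X))
  linarith

lemma memLp_bound : MemLp (fun z : B.Ω × (GI P B.d → ℝ) =>
    |Real.log (Fintype.card B.X)| + (B.K + |s| * ∑ p, |u p| * B.hb p z)) 2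
    (B.jl (GI P B.d)) := by
  have h1 : MemLp (fun z : B.Ω × (GI P B.d → ℝ) => ∑ p, |u p| * B.hb p z) 2
      (B.jl (GI P B.d)) := memLp_finsetSum _ fun p _ => (B.memLp_hb p).const_mul _
  have h2 : MemLp (fun z : B.Ω × (GI P B.d → ℝ) => |s| * ∑ p, |u p| * B.hb p z) 2
      (B.jl (GI P B.d)) := h1.const_mul _
  have h3 : MemLp (fun z : B.Ω × (GI P B.d → ℝ) => B.K + |s| * ∑ p, |u p| * B.hb p z) 2
      (B.jl (GI P B.d)) := (memLp_const B.K).add h2
  exact (memLp_const |Real.log (Fintype.card B.X)|).add h3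

lemma memLp_lz : MemLp (B.lz s u) 2 (B.jl (GI P B.d)) := by
  refine (B.memLp_bound s u).mono (B.meas_lz s u).aestronglyMeasurable
    (Filter.Eventually.of_forall fun z => ?_)
  rw [Real.norm_eq_abs, Real.norm_eq_abs]
  exact (B.abs_lz_le s u z).trans (le_abs_self _)

lemma int_lz : Integrable (B.lz s u) (B.jl (GI P B.d)) :=
  (B.memLp_lz s u).integrable (by norm_num)

lemma int_hm (p : Fin P) : Integrable (B.hm s u p) (B.jl (GI P B.d)) := by
  refine (B.int_hb p).mono' (B.meas_hm s u p).aestronglyMeasurable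
    (Filter.Eventually.of_forall fun z => ?_)
  rw [Real.norm_eq_abs]
  exact B.abs_hm_le s u p z

lemma int_hv (p : Fin P) : Integrable (B.hv s u p) (B.jl (GI P B.d)) := by
  refine (B.int_hb_sq p).mono' (B.meas_hv s u p).aestronglyMeasurable
    (Filter.Eventually.of_forall fun z => ?_)
  rw [Real.norm_eq_abs, abs_of_nonneg (B.hv_nonneg s u p z)]
  exact B.hv_le s u p z

lemma mh_eq_int (p : Fin P) : B.mh P s u p = ∫ z, B.hm s u p z ∂(B.jl (GI P B.d)) := by
  rw [mh, sys_av, (B.isWt _).rav_marg (0 : Fin 1) (fun z x => B.hh p z.2 x)]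
  rfl

/-- The expected free energy of the perturbed system. -/
noncomputable def elz : ℝ := ∫ z, B.lz s u z ∂(B.jl (GI P B.d))

/-- The process at a random point of the Gibbs measure deviates from a constant by at most the
thermal variance and the deviation of its Gibbs average. -/
lemma dev_le (p : Fin P) (c : ℝ) : B.dev P s u p c ≤
    1 / 2 + (∫ z, B.hv s u p z ∂(B.jl (GI P B.d))) / 2 +
      ∫ z, |B.hm s u p z - c| ∂(B.jl (GI P B.d)) := by
  rw [dev, sys_av, (B.isWt _).rav_marg (0 : Fin 1) (fun z x => |B.hh p z.2 x - c|)]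
  have h1 : Integrable (fun z : B.Ω × (GI P B.d → ℝ) =>
      ∑ y, B.wt (B.coef P s u) z y * |B.hh p z.2 y - c|) (B.jl (GI P B.d)) := by
    refine integrable_finsetSum _ fun y _ => ?_
    refine (integrable_mul_bdd ((B.int_hh P p y).sub (integrable_const c)).abs
      ((B.isWt (B.coef P s u)).meas y) 1 fun z => ?_).congr
      (Filter.Eventually.of_forall fun z => mul_comm _ _)
    rw [abs_of_nonneg ((B.isWt _).nn z y)]
    exact (B.isWt _).le_one z y
  have h2 : Integrable (fun z : B.Ω × (GI P B.d → ℝ) => |B.hm s u p z - c|)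
      (B.jl (GI P B.d)) := ((B.int_hm s u p).sub (integrable_const c)).abs
  have h3 : Integrable (fun z : B.Ω × (GI P B.d → ℝ) => 1 / 2 + B.hv s u p z / 2)
      (B.jl (GI P B.d)) := (integrable_const _).add ((B.int_hv s u p).div_const 2)
  have h4 := integral_mono h1 (h3.add h2) (fun z => ?_)
  · refine h4.trans (le_of_eq ?_)
    simp only [Pi.add_apply]
    rw [integral_add h3 h2, integral_add (integrable_const _) ((B.int_hv s u p).div_const 2),
      integral_const, integral_div]
    simp
  · simp only [Pi.add_apply]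
    have e1 : ∀ y, |B.hh p z.2 y - c| ≤ 1 / 2 + (B.hh p z.2 y - B.hm s u p z) ^ 2 / 2 +
        |B.hm s u p z - c| := by
      intro y
      have t1 : |B.hh p z.2 y - c| ≤ |B.hh p z.2 y - B.hm s u p z| + |B.hm s u p z - c| :=
        abs_sub_le _ _ _
      have t2 : |B.hh p z.2 y - B.hm s u p z| ≤
          1 / 2 + (B.hh p z.2 y - B.hm s u p z) ^ 2 / 2 := by
        rw [← sq_abs]
        nlinarith [sq_nonneg (|B.hh p z.2 y - B.hm s u p z| - 1)]
      linarith
    have e2 : ∑ y, B.wt (B.coef P s u) z y * |B.hh p z.2 y - c| ≤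
        ∑ y, B.wt (B.coef P s u) z y * (1 / 2 + (B.hh p z.2 y - B.hm s u p z) ^ 2 / 2 +
        |B.hm s u p z - c|) :=
      Finset.sum_le_sum fun y _ => mul_le_mul_of_nonneg_left (e1 y) ((B.isWt _).nn z y)
    refine e2.trans (le_of_eq ?_)
    have e3 : B.hv s u p z = ∑ y, B.wt (B.coef P s u) z y *
        (B.hh p z.2 y - B.hm s u p z) ^ 2 := B.hv_eq s u p z
    have e4 : ∑ y, B.wt (B.coef P s u) z y = 1 := (B.isWt _).one z
    rw [e3]
    calc _ = (∑ y, B.wt (B.coef P s u) z y) * (1 / 2) +
          (∑ y, B.wt (B.coef P s u) z y * (B.hh p z.2 y - B.hm s u p z) ^ 2) / 2 +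
          (∑ y, B.wt (B.coef P s u) z y) * |B.hm s u p z - c| := by
          rw [Finset.sum_mul, Finset.sum_mul, Finset.sum_div, ← Finset.sum_add_distrib,
            ← Finset.sum_add_distrib]
          exact Finset.sum_congr rfl fun y _ => by ring
      _ = _ := by rw [e4]; ring

end Base

end Vale.Agent.P157.Par
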