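import Vale.Agent.P157.ParGG7

/-! The average over one parameter of the fluctuation of the perturbation. -/

open MeasureTheory ProbabilityTheory Filter Topology
open scoped RealInnerProductSpace

namespace Vale.Agent.P157.Par

set_option linter.unusedSectionVars false

/-- Uniform measure on `[1,2]`. -/
noncomputable abbrev nu12 : Measure ℝ := volume.restrict (Set.Icc 1 2)

instance : IsProbabilityMeasure nu12 := ⟨by
  rw [Measure.restrict_apply_univ, Real.volume_Icc]
  norm_num⟩

lemma integral_nu12 (f : ℝ → ℝ) : ∫ v, f v ∂nu12 = ∫ v in (1 : ℝ)..2, f v := by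
  rw [intervalIntegral.integral_of_le (by norm_num), integral_Icc_eq_integral_Ioc]

/-- The average increment of a monotone function. -/
lemma mono_increment {M : ℝ → ℝ} (hM : Monotone M) {η L : ℝ} (h0 : 0 < η) (h1 : η ≤ 1)
    (hn : ∀ v, 0 ≤ v → 0 ≤ M v) (hL : M 3 ≤ L) :
    ∫ v, (M (v + η) - M (v - η)) ∂nu12 ≤ 2 * η * L := by
  have hI : ∀ a b : ℝ, IntervalIntegrable M volume a b := fun a b => hM.intervalIntegrable
  have hI1 : IntervalIntegrable (fun v => M (v + η)) volume 1 2 :=
    (show Monotone fun v => M (v + η) from fun a b h => hM (by linarith)).intervalIntegrable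
  have hI2 : IntervalIntegrable (fun v => M (v - η)) volume 1 2 :=
    (show Monotone fun v => M (v - η) from fun a b h => hM (by linarith)).intervalIntegrable
  rw [integral_nu12, intervalIntegral.integral_sub hI1 hI2,
    intervalIntegral.integral_comp_add_right, intervalIntegral.integral_comp_sub_right]
  have e1 : ∫ v in (1 + η)..(2 + η), M v =
      (∫ v in (1 + η)..(2 - η), M v) + ∫ v in (2 - η)..(2 + η), M v :=
    (intervalIntegral.integral_add_adjacent_intervals (hI _ _) (hI _ _)).symm
  have e2 : ∫ v in (1 - η)..(2 - η), M v =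
      (∫ v in (1 - η)..(1 + η), M v) + ∫ v in (1 + η)..(2 - η), M v :=
    (intervalIntegral.integral_add_adjacent_intervals (hI _ _) (hI _ _)).symm
  have b1 : ∫ v in (2 - η)..(2 + η), M v ≤ ∫ _v in (2 - η)..(2 + η), L := by
    refine intervalIntegral.integral_mono_on (by linarith) (hI _ _)
      intervalIntegrable_const fun v hv => ?_
    exact (hM (show v ≤ 3 by linarith [hv.2])).trans hL
  have b2 : 0 ≤ ∫ v in (1 - η)..(1 + η), M v := by
    refine intervalIntegral.integral_nonneg (by linarith) fun v hv => hn v (by linarith [hv.1])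
  rw [intervalIntegral.integral_const] at b1
  simp only [smul_eq_mul] at b1
  rw [e1, e2]
  linarith

namespace Base

variable (B : Base) {P : ℕ} (s : ℝ) (u : Fin P → ℝ)

lemma kap_nonneg (hs : 0 ≤ s) (p : Fin P) : 0 ≤ B.kap s p := by unfold kap; positivity

lemma kap_pos (hs : 0 < s) (p : Fin P) : 0 < B.kap s p := by unfold kap; positivity

lemma hm_mono (hs : 0 ≤ s) (p : Fin P) (z : B.Ω × (GI P B.d → ℝ)) :
    Monotone fun v => B.hm s (Function.update u p v) p z := by
  refine monotone_of_deriv_nonneg (fun v => (B.hasDerivAt_hm s u p z v).differentiableAt)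
    fun v => ?_
  rw [(B.hasDerivAt_hm s u p z v).deriv]
  exact mul_nonneg (B.kap_nonneg s hs p) (B.hv_nonneg s _ p z)

lemma lz_slope (hs : 0 ≤ s) (p : Fin P) (z : B.Ω × (GI P B.d → ℝ)) {a b : ℝ} (hab : a < b) :
    (b - a) * (B.kap s p * B.hm s (Function.update u p a) p z) ≤
      B.lz s (Function.update u p b) z - B.lz s (Function.update u p a) z ∧
    B.lz s (Function.update u p b) z - B.lz s (Function.update u p a) z ≤
      (b - a) * (B.kap s p * B.hm s (Function.update u p b) p z) := by
  obtain ⟨c, hc, h⟩ := exists_hasDerivAt_eq_slope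
    (fun v => B.lz s (Function.update u p v) z)
    (fun v => B.kap s p * B.hm s (Function.update u p v) p z) hab
    (fun v _ => (B.hasDerivAt_lz s u p z v).continuousAt.continuousWithinAt)
    (fun v _ => B.hasDerivAt_lz s u p z v)
  have hba : 0 < b - a := by linarith
  rw [eq_div_iff hba.ne'] at h
  have hk := B.kap_nonneg s hs p
  have h1 := B.hm_mono s u hs p z (show a ≤ c from hc.1.le)
  have h2 := B.hm_mono s u hs p z (show c ≤ b from hc.2.le)
  simp only at h1 h2 h
  rw [← h]
  constructor
  · rw [mul_comm]
    exact mul_le_mul_of_nonneg_right (mul_le_mul_of_nonneg_left h1 hk) hba.le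
  · rw [mul_comm]
    exact mul_le_mul_of_nonneg_left (mul_le_mul_of_nonneg_left h2 hk) hba.le

lemma mh_mono (hs : 0 ≤ s) (p : Fin P) :
    Monotone fun v => B.mh P s (Function.update u p v) p := by
  intro a b hab
  simp only [mh_eq_int]
  exact integral_mono (B.int_hm s _ p) (B.int_hm s _ p) fun z => B.hm_mono s u hs p z hab

lemma elz_slope (hs : 0 ≤ s) (p : Fin P) {a b : ℝ} (hab : a < b) :
    (b - a) * (B.kap s p * B.mh P s (Function.update u p a) p) ≤
      B.elz s (Function.update u p b) - B.elz s (Function.update u p a) ∧
    B.elz s (Function.update u p b) - B.elz s (Function.update u p a) ≤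
      (b - a) * (B.kap s p * B.mh P s (Function.update u p b) p) := by
  unfold elz
  rw [← integral_sub (B.int_lz s _) (B.int_lz s _), mh_eq_int, mh_eq_int,
    ← integral_const_mul, ← integral_const_mul, ← integral_const_mul, ← integral_const_mul]
  constructor
  · exact integral_mono (((B.int_hm s _ p).const_mul _).const_mul _)
      ((B.int_lz s _).sub (B.int_lz s _)) fun z => (B.lz_slope s u hs p z hab).1
  · exact integral_mono ((B.int_lz s _).sub (B.int_lz s _))
      (((B.int_hm s _ p).const_mul _).const_mul _) fun z => (B.lz_slope s u hs p z hab).2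

/-- The expected deviation of the free energy. -/
noncomputable def dlz : ℝ := ∫ z, |B.lz s u z - B.elz s u| ∂(B.jl (GI P B.d))

/-- Disorder part, for fixed parameters. -/
lemma disorder_le (hs : 0 ≤ s) (p : Fin P) {v η V : ℝ} (hη : 0 < η)
    (h1 : B.dlz s (Function.update u p v) ≤ V) (h2 : B.dlz s (Function.update u p (v + η)) ≤ V)
    (h3 : B.dlz s (Function.update u p (v - η)) ≤ V) :
    B.kap s p * ∫ z, |B.hm s (Function.update u p v) p z - B.mh P s (Function.update u p v) p|
      ∂(B.jl (GI P B.d)) ≤ 3 * V / η +
      B.kap s p * (B.mh P s (Function.update u p (v + η)) p -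
        B.mh P s (Function.update u p (v - η)) p) := by
  set κ := B.kap s p with hκ
  have hκ0 : 0 ≤ κ := B.kap_nonneg s hs p
  set μ := B.jl (GI P B.d) with hμ
  have pt : ∀ z, η * (κ * |B.hm s (Function.update u p v) p z -
      B.mh P s (Function.update u p v) p|) ≤
      |B.lz s (Function.update u p v) z - B.elz s (Function.update u p v)| +
      |B.lz s (Function.update u p (v + η)) z - B.elz s (Function.update u p (v + η))| +
      |B.lz s (Function.update u p (v - η)) z - B.elz s (Function.update u p (v - η))| +
      η * (κ * (B.mh P s (Function.update u p (v + η)) p -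
        B.mh P s (Function.update u p (v - η)) p)) := by
    intro z
    have a1 := (B.lz_slope s u hs p z (show v < v + η by linarith)).1
    have a2 := (B.lz_slope s u hs p z (show v - η < v by linarith)).2
    have a3 := (B.elz_slope s u hs p (show v < v + η by linarith)).2
    have a4 := (B.elz_slope s u hs p (show v - η < v by linarith)).1
    have a5 := B.mh_mono s u hs p (show v ≤ v + η by linarith)
    have a6 := B.mh_mono s u hs p (show v - η ≤ v by linarith)
    simp only at a5 a6
    have a7 := mul_le_mul_of_nonneg_left (mul_le_mul_of_nonneg_left a5 hκ0) hη.le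
    have a8 := mul_le_mul_of_nonneg_left (mul_le_mul_of_nonneg_left a6 hκ0) hη.le
    have c1 : v + η - v = η := by ring
    have c2 : v - (v - η) = η := by ring
    rw [c1] at a1 a3
    rw [c2] at a2 a4
    rw [← abs_of_nonneg hκ0, ← abs_mul, ← abs_of_pos hη, ← abs_mul, abs_of_nonneg hκ0,
      abs_of_pos hη, abs_le]
    have d1 := abs_le.1 (le_refl |B.lz s (Function.update u p v) z -
      B.elz s (Function.update u p v)|)
    have d2 := abs_le.1 (le_refl |B.lz s (Function.update u p (v + η)) z -
      B.elz s (Function.update u p (v + η))|)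
    have d3 := abs_le.1 (le_refl |B.lz s (Function.update u p (v - η)) z -
      B.elz s (Function.update u p (v - η))|)
    have n1 := abs_nonneg (B.lz s (Function.update u p (v + η)) z -
      B.elz s (Function.update u p (v + η)))
    have n2 := abs_nonneg (B.lz s (Function.update u p (v - η)) z -
      B.elz s (Function.update u p (v - η)))
    constructor
    · linarith only [a2, a4, a7, d1, d2, d3]
    · linarith only [a1, a3, a8, d1, d2, d3]
  have hi : ∀ t, Integrable (fun z => |B.lz s (Function.update u p t) z -
      B.elz s (Function.update u p t)|) μ := fun t =>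
    ((B.int_lz s _).sub (integrable_const _)).abs
  have hj : Integrable (fun z => |B.hm s (Function.update u p v) p z -
      B.mh P s (Function.update u p v) p|) μ := ((B.int_hm s _ p).sub (integrable_const _)).abs
  have hint := integral_mono ((hj.const_mul κ).const_mul η)
    ((((hi v).add (hi (v + η))).add (hi (v - η))).add (integrable_const
      (η * (κ * (B.mh P s (Function.update u p (v + η)) p -
        B.mh P s (Function.update u p (v - η)) p))))) pt
  rw [integral_add' (((hi v).add (hi (v + η))).add (hi (v - η))) (integrable_const _),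
    integral_add' ((hi v).add (hi (v + η))) (hi (v - η)), integral_add' (hi v) (hi (v + η)),
    integral_const_mul, integral_const_mul, integral_const] at hint
  simp only [probReal_univ, smul_eq_mul, one_mul] at hint
  have hV : η * (κ * ∫ z, |B.hm s (Function.update u p v) p z -
      B.mh P s (Function.update u p v) p| ∂μ) ≤ 3 * V +
      η * (κ * (B.mh P s (Function.update u p (v + η)) p -
        B.mh P s (Function.update u p (v - η)) p)) := by
    unfold dlz at h1 h2 h3
    linarith
  rw [div_add' _ _ _ hη.ne', le_div_iff₀ hη]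
  linarith

/-- Thermal part. -/
lemma thermal_le (hs : 0 < s) (p : Fin P) :
    ∫ v, ∫ z, B.hv s (Function.update u p v) p z ∂(B.jl (GI P B.d)) ∂nu12 ≤ 4 := by
  have hκ := B.kap_pos s hs p
  have hmeas : Measurable fun q : ℝ × (B.Ω × (GI P B.d → ℝ)) =>
      B.hv s (Function.update u p q.1) p q.2 := by
    have h : Measurable fun q : ℝ × (B.Ω × (GI P B.d → ℝ)) =>
        (Function.update u p q.1, q.2) :=
      ((cont_upd u p).measurable.comp measurable_fst).prodMk measurable_snd
    have h2 := (B.jmeas_hv s p).comp h
    simp only [Function.comp_def] at h2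
    exact h2
  have hint : Integrable (fun q : ℝ × (B.Ω × (GI P B.d → ℝ)) =>
      B.hv s (Function.update u p q.1) p q.2) (nu12.prod (B.jl (GI P B.d))) := by
    refine ((B.int_hb_sq p).comp_snd nu12).mono' hmeas.aestronglyMeasurable
      (Filter.Eventually.of_forall fun q => ?_)
    rw [Real.norm_eq_abs, abs_of_nonneg (B.hv_nonneg s _ p q.2)]
    exact B.hv_le s _ p q.2
  rw [integral_integral_swap (f := fun v z => B.hv s (Function.update u p v) p z) hint]
  have e1 : ∀ z, ∫ v, B.hv s (Function.update u p v) p z ∂nu12 =
      (B.kap s p)⁻¹ * (B.hm s (Function.update u p 2) p z - B.hm s (Function.update u p 1) p z) := by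
    intro z
    rw [integral_nu12]
    have h := intervalIntegral.integral_eq_sub_of_hasDerivAt (a := 1) (b := 2)
      (f := fun v => B.hm s (Function.update u p v) p z)
      (f' := fun v => B.kap s p * B.hv s (Function.update u p v) p z)
      (fun v _ => B.hasDerivAt_hm s u p z v)
      ((continuous_const.mul ((B.cont_hv s p z).comp (cont_upd u p))).intervalIntegrable _ _)
    rw [intervalIntegral.integral_const_mul] at h
    rw [← h, ← mul_assoc, inv_mul_cancel₀ hκ.ne', one_mul]
  simp only [e1]
  rw [integral_const_mul, integral_sub (B.int_hm s _ p) (B.int_hm s _ p), ← mh_eq_int,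
    ← mh_eq_int]
  have h1 := B.mh_nonneg P s (Function.update u p 1) hs.le p (by simp)
  have h2 := B.mh_le P s (Function.update u p 2) hs.le p (by simp)
  rw [Function.update_self] at h2
  have h3 : 2 * (s * 2 * (1 / 2) ^ ((p : ℕ) + 1)) = B.kap s p * 4 := by
    unfold kap; ring
  rw [h3] at h2
  rw [inv_mul_le_iff₀ hκ]
  linarith

end Base

end Vale.Agent.P157.Par
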