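import Vale.Agent.P157.ParGG8

/-! Continuity in the parameters, and the average over all parameters of the fluctuation. -/

open MeasureTheory ProbabilityTheory Filter Topology
open scoped RealInnerProductSpace

namespace Vale.Agent.P157.Par

set_option linter.unusedSectionVars false

namespace Base

variable (B : Base) {P : ℕ} (s : ℝ) (u : Fin P → ℝ)

lemma cont_mh (p : Fin P) : Continuous fun u : Fin P → ℝ => B.mh P s u p := by
  simp only [mh_eq_int]
  refine continuous_of_dominated (bound := B.hb p)
    (fun u => (B.meas_hm s u p).aestronglyMeasurable)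
    (fun u => Filter.Eventually.of_forall fun z => ?_) (B.int_hb p)
    (Filter.Eventually.of_forall fun z => B.cont_hm s p z)
  rw [Real.norm_eq_abs]
  exact B.abs_hm_le s u p z

/-- The deviation as an integral. -/
lemma dev_eq_int (p : Fin P) (c : ℝ) : B.dev P s u p c =
    ∫ z, ∑ y, B.wt (B.coef P s u) z y * |B.hh p z.2 y - c| ∂(B.jl (GI P B.d)) := by
  rw [dev, sys_av, (B.isWt _).rav_marg (0 : Fin 1) (fun z x => |B.hh p z.2 x - c|)]

lemma int_devf (p : Fin P) (c : ℝ) : Integrable (fun z : B.Ω × (GI P B.d → ℝ) =>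
    ∑ y, B.wt (B.coef P s u) z y * |B.hh p z.2 y - c|) (B.jl (GI P B.d)) := by
  refine integrable_finsetSum _ fun y _ => ?_
  refine (integrable_mul_bdd ((B.int_hh P p y).sub (integrable_const c)).abs
    ((B.isWt (B.coef P s u)).meas y) 1 fun z => ?_).congr
    (Filter.Eventually.of_forall fun z => mul_comm _ _)
  rw [abs_of_nonneg ((B.isWt _).nn z y)]
  exact (B.isWt _).le_one z y

lemma sum_wt_mul_le (z : B.Ω × (GI P B.d → ℝ)) {f : B.X → ℝ} {C : ℝ} (hf : ∀ y, f y ≤ C) :
    ∑ y, B.wt (B.coef P s u) z y * f y ≤ C := by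
  calc _ ≤ ∑ y, B.wt (B.coef P s u) z y * C :=
        Finset.sum_le_sum fun y _ => mul_le_mul_of_nonneg_left (hf y) ((B.isWt _).nn z y)
    _ = C := by rw [← Finset.sum_mul, (B.isWt _).one z, one_mul]

lemma dev_nonneg (p : Fin P) (c : ℝ) : 0 ≤ B.dev P s u p c := by
  rw [dev_eq_int]
  exact integral_nonneg fun z => Finset.sum_nonneg fun y _ =>
    mul_nonneg ((B.isWt _).nn z y) (abs_nonneg _)

lemma cont_dev_const (p : Fin P) (c : ℝ) : Continuous fun u : Fin P → ℝ => B.dev P s u p c := by
  simp only [dev_eq_int]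
  refine continuous_of_dominated (bound := fun z => B.hb p z + |c|)
    (fun u => (B.int_devf s u p c).aestronglyMeasurable)
    (fun u => Filter.Eventually.of_forall fun z => ?_) ((B.int_hb p).add (integrable_const _))
    (Filter.Eventually.of_forall fun z => ?_)
  · rw [Real.norm_eq_abs, abs_of_nonneg (Finset.sum_nonneg fun y _ =>
      mul_nonneg ((B.isWt _).nn z y) (abs_nonneg _))]
    refine B.sum_wt_mul_le s u z fun y => ?_
    exact (abs_sub _ _).trans (add_le_add (B.abs_hh_le p z y) le_rfl)
  · exact continuous_finsetSum _ fun y _ => (B.cont_gwt s z y).mul continuous_const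

lemma abs_dev_sub_le (p : Fin P) (c c' : ℝ) :
    |B.dev P s u p c - B.dev P s u p c'| ≤ |c - c'| := by
  have key : ∀ c c' : ℝ, B.dev P s u p c ≤ B.dev P s u p c' + |c - c'| := by
    intro c c'
    rw [dev_eq_int, dev_eq_int]
    have h : ∫ _z : B.Ω × (GI P B.d → ℝ), |c - c'| ∂(B.jl (GI P B.d)) = |c - c'| := by simp
    rw [← h, ← integral_add (B.int_devf s u p c') (integrable_const _)]
    refine integral_mono (B.int_devf s u p c) ((B.int_devf s u p c').add (integrable_const _))
      fun z => ?_
    simp only
    have e : |c - c'| = ∑ y, B.wt (B.coef P s u) z y * |c - c'| := by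
      rw [← Finset.sum_mul, (B.isWt _).one z, one_mul]
    rw [e, ← Finset.sum_add_distrib]
    refine Finset.sum_le_sum fun y _ => ?_
    rw [← mul_add]
    refine mul_le_mul_of_nonneg_left ?_ ((B.isWt _).nn z y)
    have h1 : B.hh p z.2 y - c = (B.hh p z.2 y - c') + (c' - c) := by ring
    rw [h1, abs_sub_comm c c']
    exact abs_add_le _ _
  rw [abs_le]
  constructor
  · have := key c' c
    rw [abs_sub_comm] at this
    linarith
  · have := key c c'
    linarith

/-- The fluctuation is continuous in the parameters. -/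
lemma cont_dev (p : Fin P) :
    Continuous fun u : Fin P → ℝ => B.dev P s u p (B.mh P s u p) := by
  rw [continuous_iff_continuousAt]
  intro u
  have h1 : Tendsto (fun u' : Fin P → ℝ => B.dev P s u' p (B.mh P s u p)) (𝓝 u)
      (𝓝 (B.dev P s u p (B.mh P s u p))) := (B.cont_dev_const s p _).continuousAt
  have h2 : Tendsto (fun u' : Fin P → ℝ => B.dev P s u' p (B.mh P s u' p) -
      B.dev P s u' p (B.mh P s u p)) (𝓝 u) (𝓝 0) := by
    have h3 : Tendsto (fun u' : Fin P → ℝ => |B.mh P s u' p - B.mh P s u p|) (𝓝 u) (𝓝 0) := by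
      have h4 : Tendsto (fun u' : Fin P → ℝ => B.mh P s u' p) (𝓝 u) (𝓝 (B.mh P s u p)) :=
        (B.cont_mh s p).continuousAt
      have h5 := (h4.sub_const (B.mh P s u p)).abs
      simpa using h5
    refine squeeze_zero_norm (fun u' => ?_) h3
    rw [Real.norm_eq_abs]
    exact B.abs_dev_sub_le s u' p _ _
  have h6 := h2.add h1
  simp only [sub_add_cancel, zero_add] at h6
  exact h6

lemma abs_lz_sub_le (u' : Fin P → ℝ) (z : B.Ω × (GI P B.d → ℝ)) :
    |B.lz s u z - B.lz s u' z| ≤ |s| * ∑ p, |u p - u' p| * B.hb p z := by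
  unfold lz
  refine abs_glog_sub_le fun x => ?_
  rw [gen_eq, gen_eq]
  have h : B.H z.1 x + s * ∑ p : Fin P, u p * (1 / 2) ^ ((p : ℕ) + 1) * B.hh p z.2 x -
      (B.H z.1 x + s * ∑ p : Fin P, u' p * (1 / 2) ^ ((p : ℕ) + 1) * B.hh p z.2 x) =
      s * ∑ p : Fin P, (u p - u' p) * ((1 / 2) ^ ((p : ℕ) + 1) * B.hh p z.2 x) := by
    rw [add_sub_add_left_eq_sub, ← mul_sub, ← Finset.sum_sub_distrib]
    congr 1
    exact Finset.sum_congr rfl fun p _ => by ring
  rw [h, abs_mul]
  refine mul_le_mul_of_nonneg_left ?_ (abs_nonneg _)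
  refine (Finset.abs_sum_le_sum_abs _ _).trans (Finset.sum_le_sum fun p _ => ?_)
  rw [abs_mul, abs_mul]
  refine mul_le_mul_of_nonneg_left ?_ (abs_nonneg _)
  have h1 : |((1 : ℝ) / 2) ^ ((p : ℕ) + 1)| ≤ 1 := by
    rw [abs_of_pos (by positivity)]
    exact pow_le_one₀ (by norm_num) (by norm_num)
  exact (mul_le_of_le_one_left (abs_nonneg _) h1).trans (B.abs_hh_le p z x)

/-- The expected free energy is continuous in the parameters. -/
lemma cont_elz : Continuous fun u : Fin P → ℝ => B.elz s u := by
  rw [continuous_iff_continuousAt]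
  intro u
  have h0 : ∀ u' : Fin P → ℝ, |B.elz s u' - B.elz s u| ≤
      |s| * ∑ p, |u' p - u p| * ∫ z, B.hb p z ∂(B.jl (GI P B.d)) := by
    intro u'
    unfold elz
    rw [← integral_sub (B.int_lz s _) (B.int_lz s _)]
    refine (abs_integral_le_integral_abs).trans ?_
    have hi : Integrable (fun z : B.Ω × (GI P B.d → ℝ) =>
        |s| * ∑ p, |u' p - u p| * B.hb p z) (B.jl (GI P B.d)) :=
      (integrable_finsetSum _ fun p _ => (B.int_hb p).const_mul _).const_mul _
    refine (integral_mono ((B.int_lz s _).sub (B.int_lz s _)).abs hi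
      fun z => B.abs_lz_sub_le s u' u z).trans (le_of_eq ?_)
    rw [integral_const_mul, integral_finsetSum _ fun p _ => (B.int_hb p).const_mul _]
    congr 1
    exact Finset.sum_congr rfl fun p _ => integral_const_mul _ _
  have h1 : Tendsto (fun u' : Fin P → ℝ => |s| * ∑ p, |u' p - u p| *
      ∫ z, B.hb p z ∂(B.jl (GI P B.d))) (𝓝 u) (𝓝 0) := by
    have hc : Continuous fun u' : Fin P → ℝ => |s| * ∑ p, |u' p - u p| *
        ∫ z, B.hb p z ∂(B.jl (GI P B.d)) :=
      continuous_const.mul (continuous_finsetSum _ fun p _ =>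
        (((continuous_apply p).sub continuous_const).abs).mul continuous_const)
    have h2 := hc.tendsto u
    simpa using h2
  have h2 : Tendsto (fun u' => B.elz s u' - B.elz s u) (𝓝 u) (𝓝 0) :=
    squeeze_zero_norm (fun u' => by rw [Real.norm_eq_abs]; exact h0 u') h1
  have h3 := h2.add_const (B.elz s u)
  simp only [sub_add_cancel, zero_add] at h3
  exact h3

/-- Average over one parameter. -/
lemma integral_dev_one (hs : 0 < s) (p : Fin P) {η V : ℝ} (h0 : 0 < η) (h1 : η ≤ 1)
    (hu : ∀ q, 0 ≤ u q ∧ u q ≤ 3)
    (hV : ∀ u : Fin P → ℝ, (∀ q, 0 ≤ u q ∧ u q ≤ 3) → B.dlz s u ≤ V) :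
    ∫ v, B.dev P s (Function.update u p v) p (B.mh P s (Function.update u p v) p) ∂nu12 ≤
      5 / 2 + 3 * V / (η * B.kap s p) + 12 * η * B.kap s p := by
  have hκ := B.kap_pos s hs p
  have hupd : ∀ v : ℝ, 0 ≤ v → v ≤ 3 → ∀ q, 0 ≤ Function.update u p v q ∧
      Function.update u p v q ≤ 3 := by
    intro v hv0 hv3 q
    by_cases h : q = p
    · subst h
      simp [hv0, hv3]
    · rw [Function.update_of_ne h]
      exact hu q
  have hmeas : Measurable fun q : ℝ × (B.Ω × (GI P B.d → ℝ)) =>
      B.hv s (Function.update u p q.1) p q.2 := by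
    have h : Measurable fun q : ℝ × (B.Ω × (GI P B.d → ℝ)) =>
        (Function.update u p q.1, q.2) :=
      ((cont_upd u p).measurable.comp measurable_fst).prodMk measurable_snd
    have h2 := (B.jmeas_hv s p).comp h
    simp only [Function.comp_def] at h2
    exact h2
  have hint : Integrable (fun q : ℝ × (B.Ω × (GI P B.d → ℝ)) =>
      B.hv s (Function.update u p q.1) p q.2) (nu12.prod (B.jl (GI P B.d))) := by
    refine ((B.int_hb_sq p).comp_snd nu12).mono' hmeas.aestronglyMeasurable
      (Filter.Eventually.of_forall fun q => ?_)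
    rw [Real.norm_eq_abs, abs_of_nonneg (B.hv_nonneg s _ p q.2)]
    exact B.hv_le s _ p q.2
  have hi1 : Integrable (fun v => ∫ z, B.hv s (Function.update u p v) p z
      ∂(B.jl (GI P B.d))) nu12 := hint.integral_prod_left
  have hcont : Continuous fun v => B.mh P s (Function.update u p v) p :=
    (B.cont_mh s p).comp (cont_upd u p)
  have hi2 : Integrable (fun v => B.mh P s (Function.update u p (v + η)) p -
      B.mh P s (Function.update u p (v - η)) p) nu12 := by
    have hc : Continuous fun v => B.mh P s (Function.update u p (v + η)) p -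
      B.mh P s (Function.update u p (v - η)) p :=
      (hcont.comp (continuous_id.add continuous_const)).sub
        (hcont.comp (continuous_id.sub continuous_const))
    exact hc.continuousOn.integrableOn_compact isCompact_Icc
  have hb : ∀ᵐ v ∂nu12, B.dev P s (Function.update u p v) p
      (B.mh P s (Function.update u p v) p) ≤
      1 / 2 + (∫ z, B.hv s (Function.update u p v) p z ∂(B.jl (GI P B.d))) / 2 +
      (3 * V / (η * B.kap s p) + (B.mh P s (Function.update u p (v + η)) p -
      B.mh P s (Function.update u p (v - η)) p)) := by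
    filter_upwards [ae_restrict_mem measurableSet_Icc] with v hv
    have t1 := B.dev_le s (Function.update u p v) p (B.mh P s (Function.update u p v) p)
    have t2 := B.disorder_le s u hs.le p h0
      (hV _ (hupd v (by linarith [hv.1]) (by linarith [hv.2])))
      (hV _ (hupd (v + η) (by linarith [hv.1]) (by linarith [hv.2])))
      (hV _ (hupd (v - η) (by linarith [hv.1]) (by linarith [hv.2])))
    have t3 : ∫ z, |B.hm s (Function.update u p v) p z - B.mh P s (Function.update u p v) p|
        ∂(B.jl (GI P B.d)) ≤ 3 * V / (η * B.kap s p) +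
        (B.mh P s (Function.update u p (v + η)) p -
          B.mh P s (Function.update u p (v - η)) p) := by
      rw [← mul_le_mul_iff_of_pos_left hκ]
      refine t2.trans (le_of_eq ?_)
      field_simp
    linarith
  have hj1 : Integrable (fun v => 1 / 2 + (∫ z, B.hv s (Function.update u p v) p z
      ∂(B.jl (GI P B.d))) / 2) nu12 := (integrable_const _).add (hi1.div_const 2)
  have hj2 : Integrable (fun v => 3 * V / (η * B.kap s p) +
      (B.mh P s (Function.update u p (v + η)) p -
      B.mh P s (Function.update u p (v - η)) p)) nu12 := (integrable_const _).add hi2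
  have hi3 : Integrable (fun v => 1 / 2 + (∫ z, B.hv s (Function.update u p v) p z
      ∂(B.jl (GI P B.d))) / 2 +
      (3 * V / (η * B.kap s p) + (B.mh P s (Function.update u p (v + η)) p -
      B.mh P s (Function.update u p (v - η)) p))) nu12 := hj1.add hj2
  refine (integral_mono_of_nonneg (Filter.Eventually.of_forall fun v => B.dev_nonneg s _ p _)
    hi3 hb).trans ?_
  rw [integral_add hj1 hj2, integral_add (integrable_const _) (hi1.div_const 2),
    integral_add (integrable_const _) hi2]
  simp only [integral_div, integral_const, probReal_univ, smul_eq_mul, one_mul]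
  have t4 := B.thermal_le s u hs p
  have t5 := mono_increment (B.mh_mono s u hs.le p) h0 h1 (L := 6 * B.kap s p)
    (fun v hv => B.mh_nonneg P s _ hs.le p (by rw [Function.update_self]; exact hv)) (by
      have h2 := B.mh_le P s (Function.update u p 3) hs.le p (by simp)
      rw [Function.update_self] at h2
      refine h2.trans (le_of_eq ?_)
      unfold kap; ring)
  linarith

end Base

section Resample

variable {E : Type*} [MeasurableSpace E] {ι : Type*} [Fintype ι] [DecidableEq ι]

lemma measurable_upd' (e : ι) :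
    Measurable (fun q : (ι → E) × E => Function.update q.1 e q.2) := by
  rw [measurable_pi_iff]
  intro i
  by_cases h : i = e
  · subst h
    simp only [Function.update_self]
    exact measurable_snd
  · simp only [Function.update_of_ne h]
    exact (measurable_pi_apply i).comp measurable_fst

/-- Resampling one coordinate. -/
lemma map_update' (μ : Measure E) [IsProbabilityMeasure μ] (e : ι) :
    ((Measure.pi fun _ : ι => μ).prod μ).map
      (fun q : (ι → E) × E => Function.update q.1 e q.2) = Measure.pi fun _ : ι => μ := by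
  symm
  apply Measure.pi_eq
  intro s hs
  rw [Measure.map_apply (measurable_upd' e) (MeasurableSet.univ_pi hs)]
  have h1 : (fun q : (ι → E) × E => Function.update q.1 e q.2) ⁻¹' (Set.univ.pi s)
      = (Set.univ.pi (Function.update s e Set.univ)) ×ˢ (s e) := by
    ext ⟨J, x⟩
    simp only [Set.mem_preimage, Set.mem_pi, Set.mem_univ, forall_true_left, Set.mem_prod]
    constructor
    · intro h
      refine ⟨fun i => ?_, ?_⟩
      · by_cases hi : i = e
        · subst hi; simp
        · have := h i
          simpa [Function.update_of_ne hi] using this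
      · simpa using h e
    · rintro ⟨h, h'⟩ i
      by_cases hi : i = e
      · subst hi; simpa using h'
      · have := h i
        simpa [Function.update_of_ne hi] using this
  rw [h1, Measure.prod_prod, Measure.pi_pi]
  rw [← Finset.prod_erase_mul _ _ (Finset.mem_univ e),
    ← Finset.prod_erase_mul (s := Finset.univ) (a := e) _ (Finset.mem_univ e)]
  simp only [Function.update_self, measure_univ, mul_one]
  congr 1
  apply Finset.prod_congr rfl
  intro i hi
  rw [Function.update_of_ne (Finset.ne_of_mem_erase hi)]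

lemma integral_resample (μ : Measure E) [IsProbabilityMeasure μ] (e : ι) {F : (ι → E) → ℝ}
    (hF : Integrable F (Measure.pi fun _ : ι => μ)) :
    ∫ J, F J ∂(Measure.pi fun _ : ι => μ) =
      ∫ J, ∫ x, F (Function.update J e x) ∂μ ∂(Measure.pi fun _ : ι => μ) := by
  have hF' : Integrable F (((Measure.pi fun _ : ι => μ).prod μ).map
      (fun q : (ι → E) × E => Function.update q.1 e q.2)) := by
    rw [map_update']; exact hF
  conv_lhs => rw [← map_update' μ e]
  rw [integral_map (measurable_upd' e).aemeasurable hF'.aestronglyMeasurable]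
  rw [integral_prod]
  exact (integrable_map_measure hF'.aestronglyMeasurable
    (measurable_upd' e).aemeasurable).mp hF'

end Resample

/-- The average over all parameters in `[1,2]`. -/
noncomputable abbrev nuP (P : ℕ) : Measure (Fin P → ℝ) := Measure.pi fun _ : Fin P => nu12

lemma nuP_eq (P : ℕ) : nuP P = volume.restrict (Set.univ.pi fun _ : Fin P => Set.Icc 1 2) := by
  rw [volume_pi, Measure.restrict_pi_pi]

lemma ae_nuP (P : ℕ) : ∀ᵐ u ∂(nuP P), ∀ q, 1 ≤ u q ∧ u q ≤ 2 := by
  rw [nuP_eq]
  filter_upwards [ae_restrict_mem (MeasurableSet.univ_pi fun _ => measurableSet_Icc)] with u hu q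
  exact hu q (Set.mem_univ q)

lemma int_nuP {P : ℕ} {f : (Fin P → ℝ) → ℝ} (hf : Continuous f) : Integrable f (nuP P) := by
  rw [nuP_eq]
  exact hf.continuousOn.integrableOn_compact (isCompact_univ_pi fun _ => isCompact_Icc)

/-- The average over all parameters of the fluctuation of the `p`-th process. -/
theorem Base.integral_dev_le (B : Base) {P : ℕ} (s : ℝ) (hs : 0 < s) (p : Fin P) {η V : ℝ}
    (h0 : 0 < η) (h1 : η ≤ 1)
    (hV : ∀ u : Fin P → ℝ, (∀ q, 0 ≤ u q ∧ u q ≤ 3) → B.dlz s u ≤ V) :
    ∫ u, B.dev P s u p (B.mh P s u p) ∂(nuP P) ≤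
      5 / 2 + 3 * V / (η * B.kap s p) + 12 * η * B.kap s p := by
  rw [integral_resample nu12 p (int_nuP (B.cont_dev s p))]
  have hb : ∀ᵐ u ∂(nuP P), ∫ v, B.dev P s (Function.update u p v) p
      (B.mh P s (Function.update u p v) p) ∂nu12 ≤
      5 / 2 + 3 * V / (η * B.kap s p) + 12 * η * B.kap s p := by
    filter_upwards [ae_nuP P] with u hu
    exact B.integral_dev_one s u hs p h0 h1 (fun q => ⟨by linarith [(hu q).1],
      by linarith [(hu q).2]⟩) hV
  refine (integral_mono_of_nonneg (Filter.Eventually.of_forall fun u => ?_)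
    (integrable_const _) hb).trans (by simp)
  exact integral_nonneg fun v => B.dev_nonneg s _ p _

end Vale.Agent.P157.Par
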