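import Vale.Agent.P367.GT.Stein

open MeasureTheory ProbabilityTheory Filter Topology Finset

namespace Vale.Agent.P157.Par

set_option linter.unusedSectionVars false

open Vale.Agent.P367.GT (gM stein_pi)

variable {J K : Type} [Fintype J] [DecidableEq J] [Fintype K] [DecidableEq K]

/-- The linear forms `Z_a(ξ) = ∑ U_{a c} ξ_c`. -/
def lin (U : J → K → ℝ) (ξ : K → ℝ) (a : J) : ℝ := ∑ c, U a c * ξ c

/-- `E ∏ f_a(Z_a)`. -/
noncomputable def gE (U : J → K → ℝ) (f : J → ℝ → ℝ) : ℝ :=
  ∫ ξ, ∏ a, f a (lin U ξ a) ∂(gM K)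

/-- The Gram matrix. -/
def gram (U V : J → K → ℝ) (a b : J) : ℝ := ∑ c, U a c * V b c

lemma measurable_lin (U : J → K → ℝ) (a : J) : Measurable fun ξ : K → ℝ => lin U ξ a := by
  unfold lin; fun_prop

lemma measurable_prod_lin {U : J → K → ℝ} {f : J → ℝ → ℝ} (hf : ∀ a, Measurable (f a))
    (s : Finset J) : Measurable fun ξ : K → ℝ => ∏ a ∈ s, f a (lin U ξ a) := by
  refine Finset.measurable_prod _ fun a _ => (hf a).comp (measurable_lin U a)

lemma abs_prod_le {s : Finset J} {f : J → ℝ} {C : ℝ} (hf : ∀ a ∈ s, |f a| ≤ C) :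
    |∏ a ∈ s, f a| ≤ C ^ s.card := by
  rw [Finset.abs_prod, ← Finset.prod_const]
  exact Finset.prod_le_prod (fun _ _ => abs_nonneg _) hf

lemma integrable_prod_lin {U : J → K → ℝ} {f : J → ℝ → ℝ} (hf : ∀ a, Measurable (f a))
    {C : ℝ} (hC : ∀ a x, |f a x| ≤ C) (s : Finset J) :
    Integrable (fun ξ : K → ℝ => ∏ a ∈ s, f a (lin U ξ a)) (gM K) := by
  refine Integrable.mono' (integrable_const (C ^ s.card))
    (measurable_prod_lin hf s).aestronglyMeasurable (Filter.Eventually.of_forall fun ξ => ?_)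
  rw [Real.norm_eq_abs]
  exact abs_prod_le fun a _ => hC a _

lemma abs_gE_le {U : J → K → ℝ} {f : J → ℝ → ℝ} {C : J → ℝ}
    (hC : ∀ a x, |f a x| ≤ C a) : |gE U f| ≤ ∏ a, C a := by
  unfold gE
  rw [← Real.norm_eq_abs]
  calc ‖∫ ξ, ∏ a, f a (lin U ξ a) ∂(gM K)‖ ≤ ∫ ξ, (∏ a, C a) ∂(gM K) := by
        refine norm_integral_le_of_norm_le (integrable_const _)
          (Filter.Eventually.of_forall fun ξ => ?_)
        rw [Real.norm_eq_abs, Finset.abs_prod]
        exact Finset.prod_le_prod (fun _ _ => abs_nonneg _) fun a _ => hC a _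
    _ = ∏ a, C a := by simp

/-- A time dependent function with two space derivatives and one time derivative, all bounded. -/
structure Nice (T : Set ℝ) (C : ℝ) (h ht hx hxx : ℝ → ℝ → ℝ) : Prop where
  m0 : ∀ t ∈ T, Measurable (h t)
  mt : ∀ t ∈ T, Measurable (ht t)
  m1 : ∀ t ∈ T, Measurable (hx t)
  m2 : ∀ t ∈ T, Measurable (hxx t)
  b0 : ∀ t ∈ T, ∀ x, |h t x| ≤ C
  bt : ∀ t ∈ T, ∀ x, |ht t x| ≤ C
  b1 : ∀ t ∈ T, ∀ x, |hx t x| ≤ C
  b2 : ∀ t ∈ T, ∀ x, |hxx t x| ≤ C
  path : ∀ t ∈ T, ∀ (x : ℝ → ℝ) (x' : ℝ), HasDerivAt x x' t →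
    HasDerivAt (fun s => h s (x s)) (ht t (x t) + hx t (x t) * x') t
  d1 : ∀ t ∈ T, ∀ x, HasDerivAt (h t) (hx t x) x
  d2 : ∀ t ∈ T, ∀ x, HasDerivAt (hx t) (hxx t x) x

/-- The functions in the second derivative of a product. -/
def D2 (h hx hxx : J → ℝ → ℝ) (a b : J) : J → ℝ → ℝ :=
  if a = b then Function.update h a (hxx a)
  else Function.update (Function.update h a (hx a)) b (hx b)

lemma prod_update (f : J → ℝ → ℝ) (a : J) (g : ℝ → ℝ) (z : J → ℝ) :
    ∏ b, Function.update f a g b (z b) = g (z a) * ∏ b ∈ univ.erase a, f b (z b) := by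
  rw [← Finset.mul_prod_erase _ _ (Finset.mem_univ a)]
  congr 1
  · simp
  · apply Finset.prod_congr rfl
    intro b hb
    rw [Function.update_of_ne (Finset.ne_of_mem_erase hb)]

lemma lin_update_hasDerivAt (U : J → K → ℝ) (ξ : K → ℝ) (c : K) (b : J) (x : ℝ) :
    HasDerivAt (fun y => lin U (Function.update ξ c y) b) (U b c) x := by
  have h1 : (fun y => lin U (Function.update ξ c y) b) =
      fun y => U b c * y + ∑ c' ∈ univ.erase c, U b c' * ξ c' := by
    funext y
    unfold lin
    rw [← Finset.add_sum_erase _ _ (Finset.mem_univ c)]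
    congr 1
    · simp
    · apply Finset.sum_congr rfl
      intro c' hc'
      rw [Function.update_of_ne (Finset.ne_of_mem_erase hc')]
  rw [h1]
  have h2 := ((hasDerivAt_id x).const_mul (U b c)).add_const
    (∑ c' ∈ univ.erase c, U b c' * ξ c')
  rwa [mul_one] at h2

/-- Integration by parts for a product. -/
lemma stein_prod (U : J → K → ℝ) {h hx hxx : J → ℝ → ℝ} {C : ℝ}
    (m0 : ∀ a, Measurable (h a)) (m1 : ∀ a, Measurable (hx a)) (m2 : ∀ a, Measurable (hxx a))
    (b0 : ∀ a x, |h a x| ≤ C) (b1 : ∀ a x, |hx a x| ≤ C) (b2 : ∀ a x, |hxx a x| ≤ C)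
    (d1 : ∀ a x, HasDerivAt (h a) (hx a x) x) (d2 : ∀ a x, HasDerivAt (hx a) (hxx a x) x)
    (a : J) (c : K) :
    ∫ ξ, ξ c * ∏ b, Function.update h a (hx a) b (lin U ξ b) ∂(gM K) =
      ∑ b, U b c * gE U (D2 h hx hxx a b) := by
  classical
  have hC : 0 ≤ C := (abs_nonneg _).trans (b0 a 0)
  set f : J → ℝ → ℝ := Function.update h a (hx a) with hf
  set f' : J → ℝ → ℝ := Function.update hx a (hxx a) with hf'
  have mf : ∀ b, Measurable (f b) := by
    intro b
    by_cases hb : b = a
    · subst hb; simpa [hf] using m1 b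
    · simpa [hf, Function.update_of_ne hb] using m0 b
  have mf' : ∀ b, Measurable (f' b) := by
    intro b
    by_cases hb : b = a
    · subst hb; simpa [hf'] using m2 b
    · simpa [hf', Function.update_of_ne hb] using m1 b
  have bf : ∀ b x, |f b x| ≤ C := by
    intro b x
    by_cases hb : b = a
    · subst hb; simpa [hf] using b1 b x
    · simpa [hf, Function.update_of_ne hb] using b0 b x
  have bf' : ∀ b x, |f' b x| ≤ C := by
    intro b x
    by_cases hb : b = a
    · subst hb; simpa [hf'] using b2 b x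
    · simpa [hf', Function.update_of_ne hb] using b1 b x
  have df : ∀ b x, HasDerivAt (f b) (f' b x) x := by
    intro b x
    by_cases hb : b = a
    · subst hb; simpa [hf, hf'] using d2 b x
    · simpa [hf, hf', Function.update_of_ne hb] using d1 b x
  have hD : ∀ b, D2 h hx hxx a b = Function.update f b (f' b) := by
    intro b
    unfold D2
    split_ifs with hab
    · subst hab
      simp [hf, hf']
    · have hba : b ≠ a := fun h => hab h.symm
      simp [hf, hf', Function.update_of_ne hba]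
  have hG' : ∀ ξ : K → ℝ, ∑ b, U b c * ∏ b', Function.update f b (f' b) b' (lin U ξ b') =
      ∑ b, (∏ b' ∈ univ.erase b, f b' (lin U ξ b')) • (f' b (lin U ξ b) * U b c) := by
    intro ξ
    apply Finset.sum_congr rfl
    intro b _
    rw [prod_update, smul_eq_mul]
    ring
  have mU : ∀ b, Measurable fun ξ : K → ℝ => ∏ b', Function.update f b (f' b) b' (lin U ξ b') := by
    intro b
    apply measurable_prod_lin
    intro b'
    by_cases hb : b' = b
    · subst hb; simpa using mf' b'
    · simpa [Function.update_of_ne hb] using mf b'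
  have bU : ∀ b b' x, |Function.update f b (f' b) b' x| ≤ C := by
    intro b b' x
    by_cases hb : b' = b
    · subst hb; simpa using bf' b' x
    · simpa [Function.update_of_ne hb] using bf b' x
  have key := stein_pi (ι := K) c (fun ξ => ∏ b, f b (lin U ξ b))
    (fun ξ => ∑ b, U b c * ∏ b', Function.update f b (f' b) b' (lin U ξ b'))
    (max (C ^ (univ : Finset J).card) (∑ b, |U b c| * C ^ (univ : Finset J).card))
    (measurable_prod_lin mf _)
    (Finset.measurable_sum _ fun b _ => (mU b).const_mul _) ?_ ?_ ?_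
  · rw [key, integral_finsetSum _ fun b _ => ?_]
    · apply Finset.sum_congr rfl
      intro b _
      rw [integral_const_mul, hD b]
      rfl
    · apply Integrable.const_mul
      apply integrable_prod_lin (C := C)
      · intro b'
        by_cases hb : b' = b
        · subst hb; simpa using mf' b'
        · simpa [Function.update_of_ne hb] using mf b'
      · exact bU b
  · intro ξ x
    rw [hG']
    have h2 : ∀ b ∈ (univ : Finset J), HasDerivAt
        (fun y => f b (lin U (Function.update ξ c y) b))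
        (f' b (lin U (Function.update ξ c x) b) * U b c) x := by
      intro b _
      exact (df b _).comp x (lin_update_hasDerivAt U ξ c b x)
    exact HasDerivAt.fun_finsetProd h2
  · intro ξ
    exact (abs_prod_le fun b _ => bf b _).trans (le_max_left _ _)
  · intro ξ
    refine le_trans (Finset.abs_sum_le_sum_abs _ _) (le_trans ?_ (le_max_right _ _))
    apply Finset.sum_le_sum
    intro b _
    rw [abs_mul]
    exact mul_le_mul_of_nonneg_left (abs_prod_le fun b' _ => bU b b' _) (abs_nonneg _)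

lemma integrable_coord_gM (c : K) : Integrable (fun ξ : K → ℝ => ξ c) (gM K) :=
  integrable_comp_eval (μ := fun _ : K => gaussianReal 0 1) (i := c) (f := fun x => x)
    ((memLp_id_gaussianReal 1).integrable le_rfl)

lemma lin_hasDerivAt {U : ℝ → J → K → ℝ} {U' : J → K → ℝ} {t : ℝ} {a : J}
    (hU : ∀ c, HasDerivAt (fun s => U s a c) (U' a c) t) (ξ : K → ℝ) :
    HasDerivAt (fun s => lin (U s) ξ a) (lin U' ξ a) t := by
  unfold lin
  exact HasDerivAt.fun_sum fun c _ => (hU c).mul_const _

lemma abs_lin_le {U : J → K → ℝ} {B : ℝ} {a : J} (hB : ∀ c, |U a c| ≤ B) (ξ : K → ℝ) :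
    |lin U ξ a| ≤ B * ∑ c, |ξ c| := by
  unfold lin
  calc |∑ c, U a c * ξ c| ≤ ∑ c, |U a c * ξ c| := Finset.abs_sum_le_sum_abs _ _
    _ ≤ ∑ c, B * |ξ c| := by
        apply Finset.sum_le_sum
        intro c _
        rw [abs_mul]
        exact mul_le_mul_of_nonneg_right (hB c) (abs_nonneg _)
    _ = B * ∑ c, |ξ c| := by rw [Finset.mul_sum]

/-- Differentiation of `E ∏ h_a(t, Z_a(t))`. -/
theorem hasDerivAt_gE {T : Set ℝ} (hT : IsOpen T) {C : ℝ} {h ht hx hxx : J → ℝ → ℝ → ℝ}
    (hn : ∀ a, Nice T C (h a) (ht a) (hx a) (hxx a)) {U U' : ℝ → J → K → ℝ}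
    (hU : ∀ t ∈ T, ∀ a c, HasDerivAt (fun s => U s a c) (U' t a c) t) {t : ℝ} (htT : t ∈ T)
    {B : ℝ} (hB : ∀ᶠ s in 𝓝 t, ∀ a c, |U' s a c| ≤ B) :
    HasDerivAt (fun s => gE (U s) (fun a => h a s))
      (∑ a, gE (U t) (Function.update (fun a => h a t) a (ht a t)) +
        ∑ a, ∑ b, gram (U' t) (U t) a b *
          gE (U t) (D2 (fun a => h a t) (fun a => hx a t) (fun a => hxx a t) a b)) t := by
  classical
  rcases isEmpty_or_nonempty J with hJ | hJ
  · simp only [Finset.univ_eq_empty, Finset.sum_empty, add_zero, gE, Finset.prod_empty]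
    exact hasDerivAt_const _ _
  have hC : 0 ≤ C := (abs_nonneg _).trans ((hn hJ.some).b0 t htT 0)
  obtain ⟨V, hVT, hVopen, hVt⟩ : ∃ V : Set ℝ, (∀ s ∈ V, s ∈ T ∧ ∀ a c, |U' s a c| ≤ B) ∧
      IsOpen V ∧ t ∈ V := by
    have h0 : ∀ᶠ s in 𝓝 t, s ∈ T := hT.mem_nhds htT
    obtain ⟨V, h1, h2, h3⟩ := eventually_nhds_iff.1 (h0.and hB)
    exact ⟨V, fun s hs => h1 s hs, h2, h3⟩
  set F : ℝ → (K → ℝ) → ℝ := fun s ξ => ∏ a, h a s (lin (U s) ξ a) with hF
  set F' : ℝ → (K → ℝ) → ℝ := fun s ξ => ∑ a, (∏ b ∈ univ.erase a, h b s (lin (U s) ξ b)) •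
    (ht a s (lin (U s) ξ a) + hx a s (lin (U s) ξ a) * lin (U' s) ξ a) with hF'
  have hd : ∀ s ∈ V, ∀ ξ, HasDerivAt (fun s => F s ξ) (F' s ξ) s := by
    intro s hs ξ
    apply HasDerivAt.fun_finsetProd
    intro a _
    exact (hn a).path s (hVT s hs).1 _ _ (lin_hasDerivAt (hU s (hVT s hs).1 a) ξ)
  set q := (univ : Finset J).card with hq
  have hbound : ∀ s ∈ V, ∀ ξ, ‖F' s ξ‖ ≤ ∑ _a : J, ((1 + C) ^ q * ((1 + C) * (1 + |B| * ∑ c, |ξ c|))) := by
    intro s hs ξ
    rw [hF', Real.norm_eq_abs]
    refine (Finset.abs_sum_le_sum_abs _ _).trans (Finset.sum_le_sum fun a _ => ?_)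
    rw [smul_eq_mul, abs_mul]
    have h1 : |∏ b ∈ univ.erase a, h b s (lin (U s) ξ b)| ≤ (1 + C) ^ q := by
      have h2 := abs_prod_le (s := univ.erase a) (f := fun b => h b s (lin (U s) ξ b)) (C := 1 + C)
        (fun b _ => ((hn b).b0 s (hVT s hs).1 _).trans (by linarith))
      refine h2.trans (pow_le_pow_right₀ (by linarith) ?_)
      exact Finset.card_le_card (Finset.erase_subset _ _)
    have h3 : |ht a s (lin (U s) ξ a) + hx a s (lin (U s) ξ a) * lin (U' s) ξ a| ≤
        (1 + C) * (1 + |B| * ∑ c, |ξ c|) := by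
      have h4 := (hn a).bt s (hVT s hs).1 (lin (U s) ξ a)
      have h5 := (hn a).b1 s (hVT s hs).1 (lin (U s) ξ a)
      have h6 : |lin (U' s) ξ a| ≤ |B| * ∑ c, |ξ c| :=
        abs_lin_le (fun c => ((hVT s hs).2 a c).trans (le_abs_self B)) ξ
      have h7 : 0 ≤ ∑ c, |ξ c| := Finset.sum_nonneg fun _ _ => abs_nonneg _
      have h8 : 0 ≤ |B| * ∑ c, |ξ c| := mul_nonneg (abs_nonneg _) h7
      calc _ ≤ |ht a s (lin (U s) ξ a)| + |hx a s (lin (U s) ξ a)| * |lin (U' s) ξ a| := by
            rw [← abs_mul]; exact abs_add_le _ _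
        _ ≤ C + C * (|B| * ∑ c, |ξ c|) :=
            add_le_add h4 (mul_le_mul h5 h6 (abs_nonneg _) hC)
        _ ≤ _ := by nlinarith
    exact mul_le_mul h1 h3 (abs_nonneg _) (by positivity)
  have hint : Integrable (fun ξ : K → ℝ =>
      ∑ _a : J, ((1 + C) ^ q * ((1 + C) * (1 + |B| * ∑ c, |ξ c|)))) (gM K) := by
    apply integrable_finsetSum
    intro a _
    apply Integrable.const_mul
    apply Integrable.const_mul
    apply (integrable_const _).add
    apply Integrable.const_mul
    exact integrable_finsetSum _ fun c _ => (integrable_coord_gM c).abs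
  have hFm : ∀ s ∈ V, Measurable (F s) := fun s hs =>
    measurable_prod_lin (f := fun a => h a s) (fun a => (hn a).m0 s (hVT s hs).1) _
  have hF'm : Measurable (F' t) := by
    apply Finset.measurable_sum
    intro a _
    apply Measurable.mul
    · exact measurable_prod_lin (f := fun a => h a t) (fun a => (hn a).m0 t htT) _
    · exact (((hn a).mt t htT).comp (measurable_lin _ _)).add
        ((((hn a).m1 t htT).comp (measurable_lin _ _)).mul (measurable_lin _ _))
  have key := hasDerivAt_integral_of_dominated_loc_of_deriv_le (μ := gM K) (F := F) (F' := F')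
    (x₀ := t) (hVopen.mem_nhds hVt)
    (by filter_upwards [hVopen.mem_nhds hVt] with s hs using (hFm s hs).aestronglyMeasurable)
    (integrable_prod_lin (f := fun a => h a t) (C := C) (fun a => (hn a).m0 t htT)
      (fun a x => (hn a).b0 t htT x) _)
    hF'm.aestronglyMeasurable
    (Filter.Eventually.of_forall fun ξ s hs => hbound s hs ξ) hint
    (Filter.Eventually.of_forall fun ξ s hs => hd s hs ξ)
  have h1 := key.2
  have h2 : ∫ ξ, F' t ξ ∂(gM K) =
      ∑ a, gE (U t) (Function.update (fun a => h a t) a (ht a t)) +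
        ∑ a, ∑ b, gram (U' t) (U t) a b *
          gE (U t) (D2 (fun a => h a t) (fun a => hx a t) (fun a => hxx a t) a b) := by
    have e1 : ∀ ξ, F' t ξ =
        ∑ a, ∏ b, Function.update (fun a => h a t) a (ht a t) b (lin (U t) ξ b) +
        ∑ a, ∑ c, U' t a c *
          (ξ c * ∏ b, Function.update (fun a => h a t) a (hx a t) b (lin (U t) ξ b)) := by
      intro ξ
      rw [hF', ← Finset.sum_add_distrib]
      apply Finset.sum_congr rfl
      intro a _
      rw [prod_update, smul_eq_mul]
      simp_rw [prod_update]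
      rw [show lin (U' t) ξ a = ∑ c, U' t a c * ξ c from rfl]
      have : ∑ c, U' t a c * (ξ c * (hx a t (lin (U t) ξ a) *
          ∏ b ∈ univ.erase a, h b t (lin (U t) ξ b))) =
          (∑ c, U' t a c * ξ c) * (hx a t (lin (U t) ξ a) *
          ∏ b ∈ univ.erase a, h b t (lin (U t) ξ b)) := by
        rw [Finset.sum_mul]
        apply Finset.sum_congr rfl
        intro c _
        ring
      rw [this]
      ring
    have mu : ∀ (a : J) (g : ℝ → ℝ), Measurable g → ∀ b, Measurable
        (Function.update (fun a => h a t) a g b) := by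
      intro a g hg b
      by_cases hb : b = a
      · subst hb; simpa using hg
      · simpa [Function.update_of_ne hb] using (hn b).m0 t htT
    have bu : ∀ (a : J) (g : ℝ → ℝ), (∀ x, |g x| ≤ C) → ∀ b x,
        |Function.update (fun a => h a t) a g b x| ≤ C := by
      intro a g hg b x
      by_cases hb : b = a
      · subst hb; simpa using hg x
      · simpa [Function.update_of_ne hb] using (hn b).b0 t htT x
    have i1 : ∀ a, Integrable (fun ξ : K → ℝ =>
        ∏ b, Function.update (fun a => h a t) a (ht a t) b (lin (U t) ξ b)) (gM K) := fun a =>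
      integrable_prod_lin (C := C) (mu a _ ((hn a).mt t htT)) (bu a _ ((hn a).bt t htT)) _
    have i2 : ∀ a c, Integrable (fun ξ : K → ℝ => U' t a c * (ξ c *
        ∏ b, Function.update (fun a => h a t) a (hx a t) b (lin (U t) ξ b))) (gM K) := by
      intro a c
      apply Integrable.const_mul
      have := (integrable_coord_gM c).bdd_mul (c := C ^ (univ : Finset J).card)
        (f := fun ξ : K → ℝ => ∏ b, Function.update (fun a => h a t) a (hx a t) b (lin (U t) ξ b))
        (measurable_prod_lin (mu a _ ((hn a).m1 t htT)) _).aestronglyMeasurable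
        (Filter.Eventually.of_forall fun ξ => by
          rw [Real.norm_eq_abs]
          exact abs_prod_le fun b _ => bu a _ ((hn a).b1 t htT) b _)
      refine this.congr (Filter.Eventually.of_forall fun ξ => ?_)
      simp only [mul_comm]
    simp_rw [e1]
    rw [integral_add (integrable_finsetSum _ fun a _ => i1 a)
      (integrable_finsetSum _ fun a _ => integrable_finsetSum _ fun c _ => i2 a c),
      integral_finsetSum _ fun a _ => i1 a]
    congr 1
    rw [integral_finsetSum _ fun a _ => integrable_finsetSum _ fun c _ => i2 a c]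
    apply Finset.sum_congr rfl
    intro a _
    rw [integral_finsetSum _ fun c _ => i2 a c]
    have e2 : ∀ c, ∫ ξ, U' t a c * (ξ c *
        ∏ b, Function.update (fun a => h a t) a (hx a t) b (lin (U t) ξ b)) ∂(gM K) =
        U' t a c * ∑ b, U t b c *
          gE (U t) (D2 (fun a => h a t) (fun a => hx a t) (fun a => hxx a t) a b) := by
      intro c
      rw [integral_const_mul]
      congr 1
      exact stein_prod (U t) (fun a => (hn a).m0 t htT) (fun a => (hn a).m1 t htT)
        (fun a => (hn a).m2 t htT) (fun a => (hn a).b0 t htT) (fun a => (hn a).b1 t htT)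
        (fun a => (hn a).b2 t htT) (fun a => (hn a).d1 t htT) (fun a => (hn a).d2 t htT) a c
    simp_rw [e2, Finset.mul_sum]
    rw [Finset.sum_comm]
    apply Finset.sum_congr rfl
    intro b _
    rw [gram, Finset.sum_mul]
    apply Finset.sum_congr rfl
    intro c _
    ring
  rw [h2] at h1
  exact h1

end Vale.Agent.P157.Par
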