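import Vale.Agent.P157.ParGauss

open MeasureTheory ProbabilityTheory Filter Topology Finset

namespace Vale.Agent.P157.Par

set_option linter.unusedSectionVars false

open Vale.Agent.P367.GT (gM stein_pi)

variable {J K K' : Type} [Fintype J] [DecidableEq J] [Fintype K] [DecidableEq K] [Fintype K']
  [DecidableEq K']

/-- Extra coordinates on the right can be dropped. -/
lemma gE_inl (U : J → K → ℝ) (f : J → ℝ → ℝ) :
    gE (K := K ⊕ K') (fun a => Sum.elim (U a) (fun _ => 0)) f = gE U f := by
  have mp := measurePreserving_sumPiEquivProdPi (X := fun _ : K ⊕ K' => ℝ)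
    (fun _ : K ⊕ K' => gaussianReal 0 1)
  have e1 : ∀ ξ : K ⊕ K' → ℝ, ∏ a, f a (lin (fun a => Sum.elim (U a) (fun _ => 0)) ξ a) =
      (fun p : (K → ℝ) × (K' → ℝ) => ∏ a, f a (lin U p.1 a))
        (MeasurableEquiv.sumPiEquivProdPi (fun _ : K ⊕ K' => ℝ) ξ) := by
    intro ξ
    simp only [lin, Fintype.sum_sum_type, Sum.elim_inl, Sum.elim_inr, zero_mul,
      Finset.sum_const_zero, add_zero]
    rfl
  unfold gE
  simp_rw [e1]
  rw [mp.integral_comp' (g := fun p : (K → ℝ) × (K' → ℝ) => ∏ a, f a (lin U p.1 a))]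
  rw [integral_fun_fst (μ := gM K) (ν := gM K') (fun ξ => ∏ a, f a (lin U ξ a))]
  simp

/-- Extra coordinates on the left can be dropped. -/
lemma gE_inr (V : J → K' → ℝ) (f : J → ℝ → ℝ) :
    gE (K := K ⊕ K') (fun a => Sum.elim (fun _ => 0) (V a)) f = gE V f := by
  have mp := measurePreserving_sumPiEquivProdPi (X := fun _ : K ⊕ K' => ℝ)
    (fun _ : K ⊕ K' => gaussianReal 0 1)
  have e1 : ∀ ξ : K ⊕ K' → ℝ, ∏ a, f a (lin (fun a => Sum.elim (fun _ => 0) (V a)) ξ a) =
      (fun p : (K → ℝ) × (K' → ℝ) => ∏ a, f a (lin V p.2 a))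
        (MeasurableEquiv.sumPiEquivProdPi (fun _ : K ⊕ K' => ℝ) ξ) := by
    intro ξ
    simp only [lin, Fintype.sum_sum_type, Sum.elim_inl, Sum.elim_inr, zero_mul,
      Finset.sum_const_zero, zero_add]
    rfl
  unfold gE
  simp_rw [e1]
  rw [mp.integral_comp' (g := fun p : (K → ℝ) × (K' → ℝ) => ∏ a, f a (lin V p.2 a))]
  rw [integral_fun_snd (μ := gM K) (ν := gM K') (fun ξ => ∏ a, f a (lin V ξ a))]
  simp

/-- Reindexing of the Gaussian coordinates. -/
lemma gE_reindex_right (U : J → K → ℝ) (e : K' ≃ K) (f : J → ℝ → ℝ) :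
    gE (fun a c => U a (e c)) f = gE U f := by
  have mp := measurePreserving_piCongrLeft (α := fun _ : K => ℝ)
    (fun _ : K => gaussianReal 0 1) e
  unfold gE
  rw [← mp.integral_comp' (g := fun ξ : K → ℝ => ∏ a, f a (lin U ξ a))]
  apply integral_congr_ae
  filter_upwards with ξ
  apply Finset.prod_congr rfl
  intro a _
  congr 1
  unfold lin
  rw [← e.sum_comp]
  apply Finset.sum_congr rfl
  intro c _
  congr 1
  rw [MeasurableEquiv.coe_piCongrLeft]
  exact (Equiv.piCongrLeft_apply_apply (fun _ : K => ℝ) e ξ c).symm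

/-- Reindexing of the factors. -/
lemma gE_reindex_left {J' : Type} [Fintype J'] [DecidableEq J'] (U : J → K → ℝ) (e : J' ≃ J)
    (f : J → ℝ → ℝ) : gE (fun a => U (e a)) (fun a => f (e a)) = gE U f := by
  unfold gE
  congr 1
  funext ξ
  rw [← e.prod_comp]
  rfl

lemma gE_continuousOn {S : Set ℝ} {U : ℝ → J → K → ℝ}
    (hU : ∀ a c, ContinuousOn (fun t => U t a c) S) {h : J → ℝ → ℝ → ℝ} {C : ℝ}
    (hc : ∀ a, ContinuousOn (fun p : ℝ × ℝ => h a p.1 p.2) (S ×ˢ Set.univ))
    (hm : ∀ a, ∀ t ∈ S, Measurable (h a t)) (hb : ∀ a, ∀ t ∈ S, ∀ x, |h a t x| ≤ C) :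
    ContinuousOn (fun t => gE (U t) (fun a => h a t)) S := by
  unfold gE
  apply continuousOn_of_dominated (bound := fun _ => C ^ (univ : Finset J).card)
  · intro t ht
    exact (measurable_prod_lin (f := fun a => h a t) (fun a => hm a t ht) _).aestronglyMeasurable
  · intro t ht
    filter_upwards with ξ
    rw [Real.norm_eq_abs]
    exact abs_prod_le fun a _ => hb a t ht _
  · exact integrable_const _
  · filter_upwards with ξ
    apply continuousOn_finsetProd
    intro a _
    have h1 : ContinuousOn (fun t => (t, lin (U t) ξ a)) S := by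
      apply continuousOn_id.prodMk
      unfold lin
      exact continuousOn_finsetSum _ fun c _ => (hU a c).mul continuousOn_const
    exact (hc a).comp h1 fun t ht => ⟨ht, Set.mem_univ _⟩

/-- Comparison of two Gaussian families through their Gram matrices. -/
theorem gE_compare (U : J → K → ℝ) (V : J → K' → ℝ) {f f' f'' : J → ℝ → ℝ} {C : ℝ}
    (b0 : ∀ a x, |f a x| ≤ C) (b1 : ∀ a x, |f' a x| ≤ C) (b2 : ∀ a x, |f'' a x| ≤ C)
    (d1 : ∀ a x, HasDerivAt (f a) (f' a x) x) (d2 : ∀ a x, HasDerivAt (f' a) (f'' a x) x)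
    (m2 : ∀ a, Measurable (f'' a)) {M : J → J → ℝ}
    (hM : ∀ a b, ∀ W : J → K ⊕ K' → ℝ, |gE W (D2 f f' f'' a b)| ≤ M a b) :
    |gE V f - gE U f| ≤ 1 / 2 * ∑ a, ∑ b, |gram V V a b - gram U U a b| * M a b := by
  classical
  have c0 : ∀ a, Continuous (f a) := fun a =>
    continuous_iff_continuousAt.2 fun x => (d1 a x).continuousAt
  have c1 : ∀ a, Continuous (f' a) := fun a =>
    continuous_iff_continuousAt.2 fun x => (d2 a x).continuousAt
  set W : ℝ → J → K ⊕ K' → ℝ := fun t a =>
    Sum.elim (fun c => √(1 - t) * U a c) (fun c => √t * V a c) with hW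
  set W' : ℝ → J → K ⊕ K' → ℝ := fun t a =>
    Sum.elim (fun c => -(1 / (2 * √(1 - t))) * U a c) (fun c => 1 / (2 * √t) * V a c) with hW'
  have hW0 : W 0 = fun a => Sum.elim (U a) (fun _ => 0) := by
    funext a c
    cases c <;> simp [hW]
  have hW1 : W 1 = fun a => Sum.elim (fun _ => 0) (V a) := by
    funext a c
    cases c <;> simp [hW]
  have hcont : ContinuousOn (fun t => gE (W t) f) (Set.Icc 0 1) := by
    apply gE_continuousOn (h := fun a _ => f a) (C := C)
    · intro a c
      cases c
      · simp only [hW, Sum.elim_inl]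
        exact ((Real.continuous_sqrt.comp (continuous_const.sub continuous_id)).mul
          continuous_const).continuousOn
      · simp only [hW, Sum.elim_inr]
        exact (Real.continuous_sqrt.mul continuous_const).continuousOn
    · intro a
      exact ((c0 a).comp continuous_snd).continuousOn
    · intro a t _
      exact (c0 a).measurable
    · intro a t _ x
      exact b0 a x
  have hderiv : ∀ t ∈ Set.Ioo (0 : ℝ) 1, HasDerivAt (fun t => gE (W t) f)
      (∑ a, ∑ b, (1 / 2 * (gram V V a b - gram U U a b)) * gE (W t) (D2 f f' f'' a b)) t := by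
    intro t ht
    have hnice : ∀ a, Nice (Set.Ioo (0 : ℝ) 1) C (fun _ => f a) (fun _ _ => 0) (fun _ => f' a)
        (fun _ => f'' a) := by
      intro a
      refine ⟨fun _ _ => (c0 a).measurable, fun _ _ => measurable_const,
        fun _ _ => (c1 a).measurable, fun _ _ => m2 a, fun _ _ => b0 a, fun _ _ _ => ?_,
        fun _ _ => b1 a, fun _ _ => b2 a, fun s _ x x' hx => ?_, fun _ _ => d1 a,
        fun _ _ => d2 a⟩
      · simpa using (abs_nonneg _).trans (b0 a 0)
      · have := (d1 a (x s)).comp s hx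
        rw [zero_add]
        exact this
    have hUd : ∀ t ∈ Set.Ioo (0 : ℝ) 1, ∀ a c, HasDerivAt (fun s => W s a c) (W' t a c) t := by
      intro t ht a c
      cases c with
      | inl c =>
        simp only [hW, hW', Sum.elim_inl]
        have h1 : HasDerivAt (fun s : ℝ => √(1 - s)) (-(1 / (2 * √(1 - t)))) t := by
          have h2 : HasDerivAt (fun s : ℝ => 1 - s) (-1) t := by
            simpa using (hasDerivAt_id t).const_sub 1
          have h3 := h2.sqrt (by linarith [ht.2] : (1 - t) ≠ 0)
          convert h3 using 1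
          ring
        exact h1.mul_const _
      | inr c =>
        simp only [hW, hW', Sum.elim_inr]
        exact (Real.hasDerivAt_sqrt ht.1.ne').mul_const _
    have hB : ∃ B : ℝ, ∀ᶠ s in 𝓝 t, ∀ a c, |W' s a c| ≤ B := by
      have h1 : ∀ a c, ∃ B : ℝ, ∀ᶠ s in 𝓝 t, |W' s a c| ≤ B := by
        intro a c
        have hc : ContinuousAt (fun s => W' s a c) t := by
          cases c with
          | inl c =>
            simp only [hW', Sum.elim_inl]
            apply ContinuousAt.mul _ continuousAt_const
            apply ContinuousAt.neg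
            apply ContinuousAt.div continuousAt_const
            · exact (continuousAt_const.mul
                (Real.continuous_sqrt.comp (continuous_const.sub continuous_id)).continuousAt)
            · have := Real.sqrt_pos.2 (by linarith [ht.2] : (0:ℝ) < 1 - t)
              positivity
          | inr c =>
            simp only [hW', Sum.elim_inr]
            apply ContinuousAt.mul _ continuousAt_const
            apply ContinuousAt.div continuousAt_const
            · exact (continuousAt_const.mul Real.continuous_sqrt.continuousAt)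
            · have := Real.sqrt_pos.2 ht.1
              positivity
        refine ⟨|W' t a c| + 1, ?_⟩
        have := hc.abs.eventually (gt_mem_nhds (lt_add_one |W' t a c|))
        filter_upwards [this] with s hs using hs.le
      choose B hB using h1
      refine ⟨∑ a, ∑ c, |B a c|, ?_⟩
      have h2 : ∀ᶠ s in 𝓝 t, ∀ a, ∀ c, |W' s a c| ≤ B a c :=
        Filter.eventually_all.2 fun a => Filter.eventually_all.2 fun c => hB a c
      filter_upwards [h2] with s hs a c
      calc |W' s a c| ≤ B a c := hs a c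
        _ ≤ |B a c| := le_abs_self _
        _ ≤ ∑ c, |B a c| := Finset.single_le_sum (f := fun c => |B a c|)
            (fun _ _ => abs_nonneg _) (Finset.mem_univ c)
        _ ≤ _ := Finset.single_le_sum (f := fun a => ∑ c, |B a c|)
            (fun _ _ => Finset.sum_nonneg fun _ _ => abs_nonneg _) (Finset.mem_univ a)
    obtain ⟨B, hB⟩ := hB
    have key := hasDerivAt_gE isOpen_Ioo hnice hUd ht hB
    have hz : ∀ a, gE (W t) (Function.update f a (fun _ => 0)) = 0 := by
      intro a
      unfold gE
      have : ∀ ξ : K ⊕ K' → ℝ, ∏ b, Function.update f a (fun _ => 0) b (lin (W t) ξ b) = 0 := by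
        intro ξ
        apply Finset.prod_eq_zero (Finset.mem_univ a)
        simp
      simp [this]
    have hg : ∀ a b, gram (W' t) (W t) a b = 1 / 2 * (gram V V a b - gram U U a b) := by
      intro a b
      unfold gram
      rw [Fintype.sum_sum_type]
      simp only [hW, hW', Sum.elim_inl, Sum.elim_inr]
      have h1 : √(1 - t) ≠ 0 := (Real.sqrt_pos.2 (by linarith [ht.2])).ne'
      have h2 : √t ≠ 0 := (Real.sqrt_pos.2 ht.1).ne'
      have e1 : ∑ c, -(1 / (2 * √(1 - t))) * U a c * (√(1 - t) * U b c) =
          -(1 / 2 * ∑ c, U a c * U b c) := by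
        rw [Finset.mul_sum, ← Finset.sum_neg_distrib]
        apply Finset.sum_congr rfl
        intro c _
        field_simp
      have e2 : ∑ c, 1 / (2 * √t) * V a c * (√t * V b c) = 1 / 2 * ∑ c, V a c * V b c := by
        rw [Finset.mul_sum]
        apply Finset.sum_congr rfl
        intro c _
        field_simp
      rw [e1, e2]
      ring
    have hz' : ∑ a, gE (W t) (Function.update (fun a => (fun _ => f a : ℝ → ℝ → ℝ) t) a
        ((fun _ _ => 0 : ℝ → ℝ → ℝ) t)) = 0 := Finset.sum_eq_zero fun a _ => hz a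
    rw [hz', zero_add] at key
    simp only [hg] at key
    exact key
  obtain ⟨t, ht, hslope⟩ := exists_hasDerivAt_eq_slope (fun t => gE (W t) f) _
    (zero_lt_one' ℝ) hcont hderiv
  have hend : gE V f - gE U f = ∑ a, ∑ b, (1 / 2 * (gram V V a b - gram U U a b)) *
      gE (W t) (D2 f f' f'' a b) := by
    rw [hslope, hW1, hW0, gE_inl U f,
      gE_inr V f]
    simp
  rw [hend]
  refine (Finset.abs_sum_le_sum_abs _ _).trans ?_
  rw [Finset.mul_sum]
  refine Finset.sum_le_sum fun a _ => (Finset.abs_sum_le_sum_abs _ _).trans ?_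
  rw [Finset.mul_sum]
  refine Finset.sum_le_sum fun b _ => ?_
  rw [abs_mul, abs_mul, abs_of_pos (by norm_num : (0:ℝ) < 1 / 2), mul_assoc]
  refine mul_le_mul_of_nonneg_left ?_ (by norm_num)
  exact mul_le_mul_of_nonneg_left (hM a b _) (abs_nonneg _)

end Vale.Agent.P157.Par
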