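import Vale.Agent.P157.ParStab

open MeasureTheory ProbabilityTheory Filter Topology Finset

namespace Vale.Agent.P157.Par

set_option linter.unusedSectionVars false

open Vale.Agent.P367.GT (gM stein_pi)

variable {k : ℕ} {J : Type} [Fintype J] [DecidableEq J]

/-- The derivative of the coefficients of the Gaussian family in the variance of the level `l`. -/
noncomputable def UL' (l : Fin (k + 1)) (t : ℝ) (L : LM k J) : J → Fin (k + 1) × (J → Bool) → ℝ :=
  fun a p => if p.2 = cl L p.1 a ∧ p.1 = l then 1 / (2 * √t) else 0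

lemma UL_hasDerivAt (c : Fin (k + 1) → ℝ) (l : Fin (k + 1)) (L : LM k J) {t : ℝ} (ht : 0 < t)
    (a : J) (p : Fin (k + 1) × (J → Bool)) :
    HasDerivAt (fun s => UL (Function.update c l s) L a p) (UL' l t L a p) t := by
  unfold UL UL'
  by_cases h : p.2 = cl L p.1 a
  · by_cases h' : p.1 = l
    · simp only [h, h', and_self, if_true, Function.update_self]
      exact Real.hasDerivAt_sqrt ht.ne'
    · simp only [h, h', and_false, if_true, if_false, Function.update_of_ne h']
      exact hasDerivAt_const _ _
  · simp only [h, false_and, if_false]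
    exact hasDerivAt_const _ _

lemma gram_UL' (c : Fin (k + 1) → ℝ) (l : Fin (k + 1)) {L : LM k J} (hL : Ultra L) {t : ℝ}
    (ht : 0 < t) (a b : J) :
    gram (UL' l t L) (UL (Function.update c l t) L) a b = 1 / 2 * if l ≤ L a b then 1 else 0 := by
  unfold gram
  rw [Fintype.sum_prod_type]
  have h1 : ∀ l' : Fin (k + 1), ∑ s : J → Bool,
      UL' l t L a (l', s) * UL (Function.update c l t) L b (l', s) =
      if l' = l then (1 / 2 * if l ≤ L a b then 1 else 0) else 0 := by
    intro l'
    by_cases h : l' = l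
    · subst h
      have h2 : ∀ s : J → Bool, UL' l' t L a (l', s) * UL (Function.update c l' t) L b (l', s) =
          if s = cl L l' a then (1 / 2 * if l' ≤ L a b then 1 else 0) else 0 := by
        intro s
        simp only [UL', UL, Function.update_self, and_true]
        by_cases hs : s = cl L l' a
        · subst hs
          simp only [if_true, cl_eq_iff hL]
          have := Real.sqrt_pos.2 ht
          split_ifs
          · field_simp
          · simp
        · simp [hs]
      simp_rw [h2]
      rw [Finset.sum_ite_eq' Finset.univ (cl L l' a)]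
      simp
    · simp only [UL', h, and_false, if_false, zero_mul, Finset.sum_const_zero]
  simp_rw [h1]
  rw [Finset.sum_ite_eq' Finset.univ l]
  simp

/-- Time derivative plus half of the second space derivative. -/
noncomputable def LL (ht hxx : ℝ → ℝ → ℝ) (t x : ℝ) : ℝ := ht t x + 1 / 2 * hxx t x

/-- The derivative of the product functional in the variance of the level `l`. -/
theorem gE_UL_hasDerivAt {c : Fin (k + 1) → ℝ} (l : Fin (k + 1)) {σ C : ℝ}
    {h ht hx hxx : J → ℝ → ℝ → ℝ}
    (hn : ∀ a, Nice (Set.Ioo 0 σ) C (h a) (ht a) (hx a) (hxx a)) {L : LM k J}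
    {t : ℝ} (htσ : t ∈ Set.Ioo 0 σ) :
    HasDerivAt (fun s => gE (UL (Function.update c l s) L) (fun a => h a s))
      (∑ a, gE (UL (Function.update c l t) L) (Function.update (fun a => h a t) a (ht a t)) +
        ∑ a, ∑ b, gram (UL' l t L) (UL (Function.update c l t) L) a b *
          gE (UL (Function.update c l t) L)
            (D2 (fun a => h a t) (fun a => hx a t) (fun a => hxx a t) a b)) t := by
  apply hasDerivAt_gE isOpen_Ioo hn (U' := fun s => UL' l s L) _ htσ
    (B := 1 / (2 * √(t / 2)))
  · filter_upwards [Ioi_mem_nhds (by linarith [htσ.1] : t / 2 < t)] with s hs a p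
    have hs' : t / 2 < s := hs
    have h0 : 0 < t / 2 := by linarith [htσ.1]
    have h1 : √(t / 2) ≤ √s := Real.sqrt_le_sqrt hs'.le
    have h2 : 0 < √(t / 2) := Real.sqrt_pos.2 h0
    unfold UL'
    split_ifs
    · rw [abs_of_nonneg (by positivity)]
      apply div_le_div_of_nonneg_left (by norm_num) (by positivity)
      linarith
    · rw [abs_zero]; positivity
  · intro s hs a p
    exact UL_hasDerivAt c l L hs.1 a p

/-- The derivative on an ultrametric matrix. -/
lemma deriv_formula (c : Fin (k + 1) → ℝ) (l : Fin (k + 1)) {C : ℝ} {σ : ℝ}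
    {h ht hx hxx : J → ℝ → ℝ → ℝ}
    (hn : ∀ a, Nice (Set.Ioo 0 σ) C (h a) (ht a) (hx a) (hxx a)) {L : LM k J} (hL : Ultra L)
    {t : ℝ} (htσ : t ∈ Set.Ioo 0 σ) :
    (∑ a, gE (UL (Function.update c l t) L) (Function.update (fun a => h a t) a (ht a t)) +
        ∑ a, ∑ b, gram (UL' l t L) (UL (Function.update c l t) L) a b *
          gE (UL (Function.update c l t) L)
            (D2 (fun a => h a t) (fun a => hx a t) (fun a => hxx a t) a b)) =
      ∑ a, gE (UL (Function.update c l t) L)
        (Function.update (fun a => h a t) a (LL (ht a) (hxx a) t)) +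
      1 / 2 * ∑ a, ∑ b, (if a = b then 0 else
        (if l ≤ L a b then 1 else 0) * gE (UL (Function.update c l t) L)
          (Function.update (Function.update (fun a => h a t) a (hx a t)) b (hx b t))) := by
  have hbm : ∀ a, BM (h a t) := fun a => ⟨(hn a).m0 t htσ, C, (hn a).b0 t htσ⟩
  have hbt : ∀ a, BM (ht a t) := fun a => ⟨(hn a).mt t htσ, C, (hn a).bt t htσ⟩
  have hb2 : ∀ a, BM (hxx a t) := fun a => ⟨(hn a).m2 t htσ, C, (hn a).b2 t htσ⟩
  have e1 : ∀ a, gE (UL (Function.update c l t) L)
      (Function.update (fun a => h a t) a (LL (ht a) (hxx a) t)) =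
      gE (UL (Function.update c l t) L) (Function.update (fun a => h a t) a (ht a t)) +
      1 / 2 * gE (UL (Function.update c l t) L)
        (Function.update (fun a => h a t) a (hxx a t)) := by
    intro a
    have h2 : LL (ht a) (hxx a) t = fun x => ht a t x + (1 / 2 * hxx a t x) := rfl
    rw [h2, gE_update_add _ hbm a (hbt a) ((BM.const (1 / 2)).mul (hb2 a)), gE_update_smul]
  simp_rw [e1]
  rw [Finset.sum_add_distrib, add_assoc]
  congr 1
  rw [Finset.mul_sum, ← Finset.sum_add_distrib]
  apply Finset.sum_congr rfl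
  intro a _
  simp_rw [gram_UL' c l hL htσ.1]
  rw [Finset.mul_sum, ← Finset.add_sum_erase _ _ (Finset.mem_univ a),
    ← Finset.add_sum_erase (a := a) (s := univ) (f := fun b => 1 / 2 * (if a = b then 0 else
        (if l ≤ L a b then (1:ℝ) else 0) * gE (UL (Function.update c l t) L)
          (Function.update (Function.update (fun a => h a t) a (hx a t)) b (hx b t))))
      (Finset.mem_univ a)]
  have h3 : l ≤ L a a := by rw [hL.diag]; exact Fin.le_last l
  simp only [h3, if_true, D2, mul_one, mul_zero, zero_add]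
  congr 1
  apply Finset.sum_congr rfl
  intro b hb
  have hab : a ≠ b := (Finset.ne_of_mem_erase hb).symm
  simp only [if_neg hab]
  ring

namespace Arr

variable {w : Fin (k + 1) → ℝ} {δ : Type} [Fintype δ] [DecidableEq δ]

lemma E_hasDerivAt (𝓐 : Arr k w δ) {ι : Type} [Fintype ι] [DecidableEq ι]
    {A : ℝ → LM k (δ ⊕ ι) → ℝ} {A' : LM k (δ ⊕ ι) → ℝ} {t : ℝ}
    (h : ∀ L, HasDerivAt (fun s => A s L) (A' L) t) :
    HasDerivAt (fun s => 𝓐.E ι (A s)) (𝓐.E ι A') t := by
  have h1 : HasDerivAt A A' t := hasDerivAt_pi.2 h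
  exact (LinearMap.toContinuousLinearMap (𝓐.E ι)).hasFDerivAt.comp_hasDerivAt t h1

lemma E_continuousOn (𝓐 : Arr k w δ) {ι : Type} [Fintype ι] [DecidableEq ι]
    {A : ℝ → LM k (δ ⊕ ι) → ℝ} {S : Set ℝ}
    (h : ∀ L, ContinuousOn (fun s => A s L) S) : ContinuousOn (fun s => 𝓐.E ι (A s)) S := by
  have h1 : ContinuousOn A S := continuousOn_pi.2 h
  exact (LinearMap.toContinuousLinearMap (𝓐.E ι)).continuous.comp_continuousOn h1

end Arr

end Vale.Agent.P157.Par
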