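import Vale.Agent.P157.ParHeat

open MeasureTheory ProbabilityTheory Filter Topology Finset

namespace Vale.Agent.P157.Par

set_option linter.unusedSectionVars false

open Vale.Agent.P367.GT (gM stein_pi)

lemma alg_split {δ ι : Type} [Fintype δ] [DecidableEq δ] [Fintype ι] [DecidableEq ι]
    (x : ℝ) (D : δ ⊕ ι → ℝ) (P : δ ⊕ ι → δ ⊕ ι → ℝ)
    (hP : ∀ i j, P (Sum.inr j) (Sum.inl i) = P (Sum.inl i) (Sum.inr j)) :
    x * (∑ a, D a + 1 / 2 * ∑ a, ∑ b, (if a = b then 0 else P a b)) =
      ∑ i : δ, x * D (Sum.inl i) +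
      1 / 2 * ∑ i : δ, ∑ i' : δ, (if i = i' then 0 else x * P (Sum.inl i) (Sum.inl i')) +
      ∑ j : ι, (x * D (Sum.inr j) + ∑ i : δ, x * P (Sum.inl i) (Sum.inr j) +
        1 / 2 * ∑ j' : ι, (if j = j' then 0 else x * P (Sum.inr j) (Sum.inr j'))) := by
  simp only [Fintype.sum_sum_type, Sum.inl.injEq, Sum.inr.injEq, reduceCtorEq, if_false, hP]
  have e1 : ∑ i : δ, ∑ i' : δ, (if i = i' then 0 else x * P (Sum.inl i) (Sum.inl i')) =
      x * ∑ i : δ, ∑ i' : δ, (if i = i' then 0 else P (Sum.inl i) (Sum.inl i')) := by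
    simp only [Finset.mul_sum, mul_ite, mul_zero]
  have e2 : ∑ i : ι, ∑ i' : ι, (if i = i' then 0 else x * P (Sum.inr i) (Sum.inr i')) =
      x * ∑ i : ι, ∑ i' : ι, (if i = i' then 0 else P (Sum.inr i) (Sum.inr i')) := by
    simp only [Finset.mul_sum, mul_ite, mul_zero]
  have e4 : ∑ j : ι, ∑ i : δ, P (Sum.inl i) (Sum.inr j) =
      ∑ i : δ, ∑ j : ι, P (Sum.inl i) (Sum.inr j) := Finset.sum_comm
  simp only [Finset.sum_add_distrib, ← Finset.mul_sum, e1, e2, e4]
  ring

namespace Arr

variable {k : ℕ} {w : Fin (k + 1) → ℝ} {δ : Type} [Fintype δ] [DecidableEq δ]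

/-- The index `j` becomes special. -/
def tau {n : ℕ} (j : Fin (n + 1)) : δ ⊕ Fin (n + 1) → Option δ ⊕ Fin n :=
  fun x => tr' (Sum.map id (finSuccEquiv' j) x)

lemma E_mark_gen (𝓐 : Arr k w δ) (n : ℕ) (j : Fin (n + 1)) (B : LM k (δ ⊕ Fin (n + 1)) → ℝ) :
    𝓐.E (Fin (n + 1)) B = 𝓐.mark.E (Fin n) fun L => B fun a b => L (tau j a) (tau j b) := by
  have h1 : 𝓐.mark.E (Fin n) (fun L => B fun a b => L (tau j a) (tau j b)) =
      𝓐.E (Option (Fin n)) fun L => B fun a b => L (tr (tau j a)) (tr (tau j b)) := rfl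
  rw [h1]
  have h2 : ∀ x : δ ⊕ Fin (n + 1), tr (tau j x) = Sum.map id (finSuccEquiv' j) x := by
    intro x
    exact (trE (δ := δ) (ι := Fin n)).right_inv _
  simp_rw [h2]
  rw [← 𝓐.reindex (Fin (n + 1)) (Option (Fin n)) (finSuccEquiv' j)]
  congr 1
  funext L
  congr 1
  funext a b
  have h3 : ∀ x : δ ⊕ Fin (n + 1), Sum.map id (finSuccEquiv' j).symm
      (Sum.map id (finSuccEquiv' j) x) = x := by
    rintro (i | i) <;> simp
  show L a b = L (Sum.map id (finSuccEquiv' j).symm (Sum.map id (finSuccEquiv' j) a))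
    (Sum.map id (finSuccEquiv' j).symm (Sum.map id (finSuccEquiv' j) b))
  rw [h3, h3]

/-- The equivalence underlying `tau`. -/
def tauE {n : ℕ} (j : Fin (n + 1)) : δ ⊕ Fin (n + 1) ≃ Option δ ⊕ Fin n :=
  (Equiv.sumCongr (Equiv.refl δ) (finSuccEquiv' j)).trans (trE (δ := δ) (ι := Fin n)).symm

lemma tauE_apply {n : ℕ} (j : Fin (n + 1)) (x : δ ⊕ Fin (n + 1)) :
    tauE j x = tau j x := by
  rcases x with i | i <;> rfl

lemma tau_inl {n : ℕ} (j : Fin (n + 1)) (i : δ) :
    tau j (Sum.inl i) = (Sum.inl (some i) : Option δ ⊕ Fin n) := rfl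

lemma tau_self {n : ℕ} (j : Fin (n + 1)) :
    tau j (Sum.inr j) = (Sum.inl none : Option δ ⊕ Fin n) := by
  simp [tau, tr']

lemma tau_succAbove {n : ℕ} (j : Fin (n + 1)) (m : Fin n) :
    tau j (Sum.inr (j.succAbove m)) = (Sum.inr m : Option δ ⊕ Fin n) := by
  simp [tau, tr']

/-- Marking one of two other indices. -/
lemma E_mark_pair (𝓐 : Arr k w δ) {c : Fin (k + 1) → ℝ} (hc : ∀ l, 0 ≤ c l)
    (χ : LM k δ → ℝ) {A : δ → ℝ → ℝ} {g v : ℝ → ℝ} (hA : ∀ i, Measurable (A i))
    (hg : Measurable g) (hv : Measurable v) (l : Fin (k + 1)) (n : ℕ) (j : Fin (n + 2))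
    (m : Fin (n + 1)) :
    𝓐.E (Fin (n + 2)) (fun L => χ (res L) *
      ((if l ≤ L (Sum.inr j) (Sum.inr (j.succAbove m)) then 1 else 0) *
        gE (UL c L) (Function.update (Function.update (fam A v) (Sum.inr j) g)
          (Sum.inr (j.succAbove m)) g))) =
      𝓐.mark.mark.T c (fun L => lift (lift χ) L * lk l (some none) none L)
        (ext g (ext g A)) v (Fin n) := by
  rw [E_mark_gen 𝓐 (n + 1) j]
  rw [← 𝓐.mark.E_mark hc (fun L => lift (lift χ) L * lk l (some none) none L)
    (A := ext g A) (g := g) (v := v) (by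
      rintro (_ | i)
      · exact hg
      · exact hA i) hg hv n m]
  apply 𝓐.mark.congr_ultra
  intro L hL
  have h1 : (if l ≤ L (tau j (Sum.inr j)) (tau j (Sum.inr (j.succAbove m))) then (1:ℝ) else 0) =
      if l ≤ L (Sum.inl none) (Sum.inr m) then 1 else 0 := by
    rw [tau_self, tau_succAbove]
  have hF : ∀ x : Option δ ⊕ Fin (n + 1), Measurable
      (Function.update (fam (ext g A) v) (Sum.inr m) g x) := by
    intro x
    by_cases hx : x = Sum.inr m
    · subst hx; simpa using hg
    · rw [Function.update_of_ne hx]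
      rcases x with (_ | i) | i
      · exact hg
      · exact hA i
      · exact hv
  have h2 : gE (UL c fun a b => L (tau j a) (tau j b))
      (Function.update (Function.update (fam A v) (Sum.inr j) g) (Sum.inr (j.succAbove m)) g) =
      gE (UL c L) (Function.update (fam (ext g A) v) (Sum.inr m) g) := by
    have h3 := gE_UL_equiv hc hL (tauE j) hF
    rw [← h3]
    simp only [tauE_apply]
    congr 1
    funext x
    rcases x with i | i
    · rw [Function.update_of_ne (by simp), Function.update_of_ne (by simp), tau_inl,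
        Function.update_of_ne (by simp)]
      rfl
    · by_cases h : i = j
      · subst h
        rw [Function.update_of_ne (by simp),
          Function.update_self, tau_self, Function.update_of_ne (by simp)]
        rfl
      · obtain ⟨m', rfl⟩ := Fin.exists_succAbove_eq h
        by_cases h' : m' = m
        · subst h'
          rw [Function.update_self, tau_succAbove, Function.update_self]
        · rw [Function.update_of_ne (by simpa using h'), Function.update_of_ne (by simp),
            tau_succAbove, Function.update_of_ne (by simpa using h')]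
          rfl
  show χ (res fun a b => L (tau j a) (tau j b)) *
      ((if l ≤ L (tau j (Sum.inr j)) (tau j (Sum.inr (j.succAbove m))) then (1:ℝ) else 0) *
        gE (UL c fun a b => L (tau j a) (tau j b)) _) = _
  rw [h1, h2, ← mul_assoc]
  rfl

/-- Time dependent families. -/
def famT {ι : Type} (A : δ → ℝ → ℝ → ℝ) (v : ℝ → ℝ → ℝ) : δ ⊕ ι → ℝ → ℝ → ℝ :=
  Sum.elim A fun _ => v

lemma famT_apply {ι : Type} (A : δ → ℝ → ℝ → ℝ) (v : ℝ → ℝ → ℝ) (t : ℝ) :
    (fun a : δ ⊕ ι => famT A v a t) = fam (fun i => A i t) (v t) := by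
  funext a
  rcases a with i | i <;> rfl

/-- The derivative of the functional in the variance of a level. -/
noncomputable def dT (𝓐 : Arr k w δ) (l : Fin (k + 1)) (c : Fin (k + 1) → ℝ)
    (χ : LM k δ → ℝ) (A LA Ax : δ → ℝ → ℝ) (v Lv vx : ℝ → ℝ) (n : ℕ) : ℝ :=
  ∑ i, 𝓐.T c χ (Function.update A i (LA i)) v (Fin n) +
  1 / 2 * ∑ i, ∑ i', (if i = i' then 0 else 𝓐.T c (fun L => χ L * lk l i i' L)
    (Function.update (Function.update A i (Ax i)) i' (Ax i')) v (Fin n)) +
  n * (𝓐.mark.T c (lift χ) (ext Lv A) v (Fin (n - 1)) +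
    ∑ i, 𝓐.mark.T c (fun L => lift χ L * lk l (some i) none L)
      (ext vx (Function.update A i (Ax i))) v (Fin (n - 1)) +
    1 / 2 * ((n - 1 : ℕ) * 𝓐.mark.mark.T c (fun L => lift (lift χ) L * lk l (some none) none L)
      (ext vx (ext vx A)) v (Fin (n - 2))))

lemma E_inl (𝓐 : Arr k w δ) (c : Fin (k + 1) → ℝ) (χ : LM k δ → ℝ) (A : δ → ℝ → ℝ)
    (v : ℝ → ℝ) (i : δ) (g : ℝ → ℝ) (n : ℕ) :
    𝓐.E (Fin n) (fun L => χ (res L) *
      gE (UL c L) (Function.update (fam A v) (Sum.inl i) g)) =
      𝓐.T c χ (Function.update A i g) v (Fin n) := by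
  unfold T
  rw [fam_update]

lemma E_inl_inl (𝓐 : Arr k w δ) (c : Fin (k + 1) → ℝ) (χ : LM k δ → ℝ) (A : δ → ℝ → ℝ)
    (v : ℝ → ℝ) (i i' : δ) (g g' : ℝ → ℝ) (l : Fin (k + 1)) (n : ℕ) :
    𝓐.E (Fin n) (fun L => χ (res L) * ((if l ≤ L (Sum.inl i) (Sum.inl i') then 1 else 0) *
      gE (UL c L) (Function.update (Function.update (fam A v) (Sum.inl i) g)
        (Sum.inl i') g'))) =
      𝓐.T c (fun L => χ L * lk l i i' L)
        (Function.update (Function.update A i g) i' g') v (Fin n) := by
  unfold T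
  rw [fam_update, fam_update]
  congr 1
  funext L
  rw [← mul_assoc]
  rfl

lemma E_inr (𝓐 : Arr k w δ) {c : Fin (k + 1) → ℝ} (hc : ∀ l, 0 ≤ c l) (χ : LM k δ → ℝ)
    {A : δ → ℝ → ℝ} {g v : ℝ → ℝ} (hA : ∀ i, Measurable (A i))
    (hg : Measurable g) (hv : Measurable v) (n : ℕ) (j : Fin (n + 1)) :
    𝓐.E (Fin (n + 1)) (fun L => χ (res L) *
      gE (UL c L) (Function.update (fam A v) (Sum.inr j) g)) =
      𝓐.mark.T c (lift χ) (ext g A) v (Fin n) := by
  rw [← 𝓐.E_mark hc (lift χ) hA hg hv n j]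
  rfl

lemma E_inl_inr (𝓐 : Arr k w δ) {c : Fin (k + 1) → ℝ} (hc : ∀ l, 0 ≤ c l) (χ : LM k δ → ℝ)
    {A : δ → ℝ → ℝ} {g' g v : ℝ → ℝ} (hA : ∀ i, Measurable (A i)) (hg' : Measurable g')
    (hg : Measurable g) (hv : Measurable v) (l : Fin (k + 1)) (n : ℕ) (i : δ)
    (j : Fin (n + 1)) :
    𝓐.E (Fin (n + 1)) (fun L => χ (res L) *
      ((if l ≤ L (Sum.inl i) (Sum.inr j) then 1 else 0) *
      gE (UL c L) (Function.update (Function.update (fam A v) (Sum.inl i) g') (Sum.inr j) g))) =
      𝓐.mark.T c (fun L => lift χ L * lk l (some i) none L)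
        (ext g (Function.update A i g')) v (Fin n) := by
  have hA' : ∀ i', Measurable (Function.update A i g' i') := by
    intro i'
    by_cases h : i' = i
    · subst h; simpa using hg'
    · rw [Function.update_of_ne h]; exact hA i'
  rw [← 𝓐.E_mark hc (fun L => lift χ L * lk l (some i) none L) hA' hg hv n j]
  rw [fam_update]
  congr 1
  funext L
  rw [← mul_assoc]
  rfl

theorem T_hasDerivAt (𝓐 : Arr k w δ) {c : Fin (k + 1) → ℝ} (hc : ∀ l, 0 ≤ c l)
    (l : Fin (k + 1)) (χ : LM k δ → ℝ) {σ C : ℝ} {A At Ax Axx : δ → ℝ → ℝ → ℝ}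
    {v vt vx vxx : ℝ → ℝ → ℝ}
    (hA : ∀ i, Nice (Set.Ioo 0 σ) C (A i) (At i) (Ax i) (Axx i))
    (hv : Nice (Set.Ioo 0 σ) C v vt vx vxx) {t : ℝ} (ht : t ∈ Set.Ioo 0 σ) (n : ℕ) :
    HasDerivAt (fun s => 𝓐.T (Function.update c l s) χ (fun i => A i s) (v s) (Fin n))
      (𝓐.dT l (Function.update c l t) χ (fun i => A i t) (fun i => LL (At i) (Axx i) t)
        (fun i => Ax i t) (v t) (LL vt vxx t) (vx t) n) t := by
  have hct : ∀ l', 0 ≤ Function.update c l t l' := by
    intro l'
    by_cases h : l' = l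
    · subst h; rw [Function.update_self]; exact ht.1.le
    · rw [Function.update_of_ne h]; exact hc l'
  have bA : ∀ i, BM (A i t) := fun i => ⟨(hA i).m0 t ht, C, (hA i).b0 t ht⟩
  have bAt : ∀ i, BM (At i t) := fun i => ⟨(hA i).mt t ht, C, (hA i).bt t ht⟩
  have bAx : ∀ i, BM (Ax i t) := fun i => ⟨(hA i).m1 t ht, C, (hA i).b1 t ht⟩
  have bAxx : ∀ i, BM (Axx i t) := fun i => ⟨(hA i).m2 t ht, C, (hA i).b2 t ht⟩
  have bv : BM (v t) := ⟨hv.m0 t ht, C, hv.b0 t ht⟩
  have bvt : BM (vt t) := ⟨hv.mt t ht, C, hv.bt t ht⟩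
  have bvx : BM (vx t) := ⟨hv.m1 t ht, C, hv.b1 t ht⟩
  have bvxx : BM (vxx t) := ⟨hv.m2 t ht, C, hv.b2 t ht⟩
  have bLA : ∀ i, BM (LL (At i) (Axx i) t) := fun i =>
    (bAt i).add ((BM.const (1 / 2)).mul (bAxx i))
  have bLv : BM (LL vt vxx t) := bvt.add ((BM.const (1 / 2)).mul bvxx)
  have hn : ∀ a : δ ⊕ Fin n, Nice (Set.Ioo 0 σ) C (famT A v a) (famT At vt a) (famT Ax vx a)
      (famT Axx vxx a) := by
    rintro (i | i)
    · exact hA i
    · exact hv
  -- the derivative in terms of level matrices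
  have h1 : HasDerivAt (fun s => 𝓐.T (Function.update c l s) χ (fun i => A i s) (v s) (Fin n))
      (𝓐.E (Fin n) fun L => χ (res L) *
        (∑ a, gE (UL (Function.update c l t) L)
          (Function.update (fun a => famT A v a t) a (famT At vt a t)) +
        ∑ a, ∑ b, gram (UL' l t L) (UL (Function.update c l t) L) a b *
          gE (UL (Function.update c l t) L)
            (D2 (fun a => famT A v a t) (fun a => famT Ax vx a t) (fun a => famT Axx vxx a t) a b)))
      t := by
    unfold T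
    apply 𝓐.E_hasDerivAt
    intro L
    have h2 := gE_UL_hasDerivAt (c := c) l hn (L := L) ht
    have h3 : (fun s => gE (UL (Function.update c l s) L) (fun a => famT A v a s)) =
        fun s => gE (UL (Function.update c l s) L) (fam (fun i => A i s) (v s)) := by
      funext s
      rw [famT_apply]
    rw [h3] at h2
    exact h2.const_mul _
  convert h1 using 1
  set c' := Function.update c l t with hc'
  set F : δ ⊕ Fin n → ℝ → ℝ := fam (fun i => A i t) (v t) with hF
  have hFt : (fun a : δ ⊕ Fin n => famT A v a t) = F := famT_apply A v t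
  -- rewrite the integrand on ultrametric matrices
  have h2 : 𝓐.E (Fin n) (fun L => χ (res L) *
        (∑ a, gE (UL c' L)
          (Function.update (fun a => famT A v a t) a (famT At vt a t)) +
        ∑ a, ∑ b, gram (UL' l t L) (UL c' L) a b *
          gE (UL c' L)
            (D2 (fun a => famT A v a t) (fun a => famT Ax vx a t) (fun a => famT Axx vxx a t) a b)))
      = 𝓐.E (Fin n) (fun L =>
        ∑ i : δ, χ (res L) * gE (UL c' L) (Function.update F (Sum.inl i) (LL (At i) (Axx i) t)) +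
        1 / 2 * ∑ i : δ, ∑ i' : δ, (if i = i' then 0 else χ (res L) *
          ((if l ≤ L (Sum.inl i) (Sum.inl i') then 1 else 0) * gE (UL c' L)
            (Function.update (Function.update F (Sum.inl i) (Ax i t)) (Sum.inl i') (Ax i' t)))) +
        ∑ j : Fin n, (χ (res L) * gE (UL c' L) (Function.update F (Sum.inr j) (LL vt vxx t)) +
          ∑ i : δ, χ (res L) * ((if l ≤ L (Sum.inl i) (Sum.inr j) then 1 else 0) *
            gE (UL c' L) (Function.update (Function.update F (Sum.inl i) (Ax i t))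
              (Sum.inr j) (vx t))) +
          1 / 2 * ∑ j' : Fin n, (if j = j' then 0 else χ (res L) *
            ((if l ≤ L (Sum.inr j) (Sum.inr j') then 1 else 0) *
            gE (UL c' L) (Function.update (Function.update F (Sum.inr j) (vx t))
              (Sum.inr j') (vx t)))))) := by
    apply 𝓐.congr_ultra
    intro L hL
    rw [deriv_formula c l hn hL ht, hFt]
    have hsymm : ∀ (i : δ) (j : Fin n),
        ((if l ≤ L (Sum.inr j) (Sum.inl i) then (1:ℝ) else 0) * gE (UL c' L)
          (Function.update (Function.update F (Sum.inr j) (famT Ax vx (Sum.inr j : δ ⊕ Fin n) t))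
            (Sum.inl i) (famT Ax vx (Sum.inl i : δ ⊕ Fin n) t))) =
        ((if l ≤ L (Sum.inl i) (Sum.inr j) then (1:ℝ) else 0) * gE (UL c' L)
          (Function.update (Function.update F (Sum.inl i) (famT Ax vx (Sum.inl i : δ ⊕ Fin n) t))
            (Sum.inr j) (famT Ax vx (Sum.inr j : δ ⊕ Fin n) t))) := by
      intro i j
      rw [hL.symm (Sum.inr j) (Sum.inl i), Function.update_comm (by simp)]
    exact alg_split (χ (res L)) (fun a => gE (UL c' L)
        (Function.update F a (LL (famT At vt a) (famT Axx vxx a) t)))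
      (fun a b => (if l ≤ L a b then 1 else 0) * gE (UL c' L)
          (Function.update (Function.update F a (famT Ax vx a t)) b (famT Ax vx b t))) hsymm
  rw [h2]
  -- linearity
  have h3 : (fun L : LM k (δ ⊕ Fin n) =>
        ∑ i : δ, χ (res L) * gE (UL c' L) (Function.update F (Sum.inl i) (LL (At i) (Axx i) t)) +
        1 / 2 * ∑ i : δ, ∑ i' : δ, (if i = i' then 0 else χ (res L) *
          ((if l ≤ L (Sum.inl i) (Sum.inl i') then 1 else 0) * gE (UL c' L)
            (Function.update (Function.update F (Sum.inl i) (Ax i t)) (Sum.inl i') (Ax i' t)))) +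
        ∑ j : Fin n, (χ (res L) * gE (UL c' L) (Function.update F (Sum.inr j) (LL vt vxx t)) +
          ∑ i : δ, χ (res L) * ((if l ≤ L (Sum.inl i) (Sum.inr j) then 1 else 0) *
            gE (UL c' L) (Function.update (Function.update F (Sum.inl i) (Ax i t))
              (Sum.inr j) (vx t))) +
          1 / 2 * ∑ j' : Fin n, (if j = j' then 0 else χ (res L) *
            ((if l ≤ L (Sum.inr j) (Sum.inr j') then 1 else 0) *
            gE (UL c' L) (Function.update (Function.update F (Sum.inr j) (vx t))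
              (Sum.inr j') (vx t)))))) =
      ∑ i : δ, (fun L : LM k (δ ⊕ Fin n) =>
        χ (res L) * gE (UL c' L) (Function.update F (Sum.inl i) (LL (At i) (Axx i) t))) +
      (1 / 2 : ℝ) • ∑ i : δ, ∑ i' : δ, (if i = i' then 0 else fun L : LM k (δ ⊕ Fin n) =>
        χ (res L) * ((if l ≤ L (Sum.inl i) (Sum.inl i') then 1 else 0) * gE (UL c' L)
            (Function.update (Function.update F (Sum.inl i) (Ax i t)) (Sum.inl i') (Ax i' t)))) +
      ∑ j : Fin n, ((fun L : LM k (δ ⊕ Fin n) =>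
          χ (res L) * gE (UL c' L) (Function.update F (Sum.inr j) (LL vt vxx t))) +
        ∑ i : δ, (fun L : LM k (δ ⊕ Fin n) =>
          χ (res L) * ((if l ≤ L (Sum.inl i) (Sum.inr j) then 1 else 0) *
            gE (UL c' L) (Function.update (Function.update F (Sum.inl i) (Ax i t))
              (Sum.inr j) (vx t)))) +
        (1 / 2 : ℝ) • ∑ j' : Fin n, (if j = j' then 0 else fun L : LM k (δ ⊕ Fin n) =>
          χ (res L) * ((if l ≤ L (Sum.inr j) (Sum.inr j') then 1 else 0) *
            gE (UL c' L) (Function.update (Function.update F (Sum.inr j) (vx t))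
              (Sum.inr j') (vx t))))) := by
    funext L
    simp only [Pi.add_apply, Finset.sum_apply, Pi.smul_apply, smul_eq_mul, ite_apply,
      Pi.zero_apply]
  rw [h3]
  simp only [map_add, map_sum, map_smul, smul_eq_mul, apply_ite (𝓐.E (Fin n)), map_zero]
  rw [hF]
  simp only [E_inl, E_inl_inl]
  unfold dT
  congr 1
  clear h1 h2 h3 hn hFt hF F
  rcases n with _ | n
  · simp
  · have hj : ∀ j : Fin (n + 1),
        (𝓐.E (Fin (n + 1)) fun L => χ (res L) * gE (UL c' L)
          (Function.update (fam (fun i => A i t) (v t)) (Sum.inr j) (LL vt vxx t))) +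
        ∑ i, (𝓐.E (Fin (n + 1)) fun L => χ (res L) *
          ((if l ≤ L (Sum.inl i) (Sum.inr j) then 1 else 0) * gE (UL c' L)
            (Function.update (Function.update (fam (fun i => A i t) (v t)) (Sum.inl i) (Ax i t))
              (Sum.inr j) (vx t)))) +
        1 / 2 * ∑ j', (if j = j' then 0 else 𝓐.E (Fin (n + 1)) fun L => χ (res L) *
          ((if l ≤ L (Sum.inr j) (Sum.inr j') then 1 else 0) * gE (UL c' L)
            (Function.update (Function.update (fam (fun i => A i t) (v t)) (Sum.inr j) (vx t))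
              (Sum.inr j') (vx t)))) =
        𝓐.mark.T c' (lift χ) (ext (LL vt vxx t) fun i => A i t) (v t) (Fin n) +
        ∑ i, 𝓐.mark.T c' (fun L => lift χ L * lk l (some i) none L)
          (ext (vx t) (Function.update (fun i => A i t) i (Ax i t))) (v t) (Fin n) +
        1 / 2 * ((n : ℕ) * 𝓐.mark.mark.T c'
          (fun L => lift (lift χ) L * lk l (some none) none L)
          (ext (vx t) (ext (vx t) fun i => A i t)) (v t) (Fin (n - 1))) := by
      intro j
      rw [E_inr 𝓐 hct χ (fun i => (bA i).meas) bLv.meas bv.meas n j]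
      have e1 : ∀ i, (𝓐.E (Fin (n + 1)) fun L => χ (res L) *
          ((if l ≤ L (Sum.inl i) (Sum.inr j) then 1 else 0) * gE (UL c' L)
            (Function.update (Function.update (fam (fun i => A i t) (v t)) (Sum.inl i) (Ax i t))
              (Sum.inr j) (vx t)))) =
          𝓐.mark.T c' (fun L => lift χ L * lk l (some i) none L)
          (ext (vx t) (Function.update (fun i => A i t) i (Ax i t))) (v t) (Fin n) := fun i =>
        E_inl_inr 𝓐 hct χ (fun i => (bA i).meas) (bAx i).meas bvx.meas bv.meas l n i j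
      simp_rw [e1]
      congr 2
      rw [Fin.sum_univ_succAbove _ j]
      simp only [if_true, zero_add]
      rcases n with _ | n
      · simp
      · have e2 : ∀ m : Fin (n + 1), (if j = j.succAbove m then 0 else
            𝓐.E (Fin (n + 1 + 1)) fun L => χ (res L) *
              ((if l ≤ L (Sum.inr j) (Sum.inr (j.succAbove m)) then 1 else 0) * gE (UL c' L)
              (Function.update (Function.update (fam (fun i => A i t) (v t)) (Sum.inr j) (vx t))
                (Sum.inr (j.succAbove m)) (vx t)))) =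
            𝓐.mark.mark.T c' (fun L => lift (lift χ) L * lk l (some none) none L)
              (ext (vx t) (ext (vx t) fun i => A i t)) (v t) (Fin n) := by
          intro m
          rw [if_neg (Fin.succAbove_ne j m).symm]
          exact E_mark_pair 𝓐 hct χ (fun i => (bA i).meas) bvx.meas bv.meas l n j m
        simp_rw [e2]
        rw [Finset.sum_const, Finset.card_univ, Fintype.card_fin, nsmul_eq_mul]
        rfl
    simp_rw [hj]
    rw [Finset.sum_const, Finset.card_univ, Fintype.card_fin, nsmul_eq_mul]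
    rfl

end Arr

end Vale.Agent.P157.Par
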