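import Vale.Agent.P157.ParAdd

open MeasureTheory ProbabilityTheory Filter Topology

namespace Vale.Agent.P157.Par

namespace Rho

lemma measurable_cubeS_apply {N M : ℕ} (a : Fin M) (x : Fin (N + 1) → Bool) :
    Measurable fun t : Fin M → Fin (N + 1) → ℝ => cubeS (t a) x := by
  unfold cubeS
  fun_prop

lemma abs_prod_le {ι : Type*} [Fintype ι] {h : ℝ → ℝ} {H : ℝ}
    (hhb : ∀ x, |h x| ≤ H) (y : ι → ℝ) : |∏ i, h (y i)| ≤ H ^ (Fintype.card ι) := by
  rw [Finset.abs_prod]
  calc ∏ i, |h (y i)| ≤ ∏ _i : ι, H := Finset.prod_le_prod (fun _ _ => abs_nonneg _)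
        fun i _ => hhb _
    _ = H ^ (Fintype.card ι) := by rw [Finset.prod_const, Finset.card_univ]

lemma abs_prod_le' {n : ℕ} {h : ℝ → ℝ} {H : ℝ}
    (hhb : ∀ x, |h x| ≤ H) (y : Fin n → ℝ) : |∏ i, h (y i)| ≤ H ^ n := by
  have := abs_prod_le hhb y
  rwa [Fintype.card_fin] at this

lemma measurable_one {N M n : ℕ} {h : ℝ → ℝ} (hh : Measurable h) (a : Fin M)
    (x : Fin n → Fin (N + 1) → Bool) :
    Measurable fun t : Fin M → Fin (N + 1) → ℝ => ∏ i, h (cubeS (t a) (x i)) :=
  Finset.measurable_prod _ fun i _ => hh.comp (measurable_cubeS_apply a (x i))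

lemma measurable_addF {N M n : ℕ} {h : ℝ → ℝ} (hh : Measurable h) (δ : ℝ)
    (x : Fin n → Fin (N + 1) → Bool) :
    Measurable fun t : Fin M → Fin (N + 1) → ℝ => addF δ h t x :=
  (Finset.measurable_sum _ fun a _ => measurable_one hh a x).const_mul δ

lemma abs_addF_le {N M n : ℕ} {h : ℝ → ℝ} {H : ℝ} (hhb : ∀ x, |h x| ≤ H) {δ : ℝ} (hδ : 0 ≤ δ)
    (t : Fin M → Fin (N + 1) → ℝ) (x : Fin n → Fin (N + 1) → Bool) :
    |addF δ h t x| ≤ δ * M * H ^ n := by
  unfold addF
  rw [abs_mul, abs_of_nonneg hδ, mul_assoc]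
  refine mul_le_mul_of_nonneg_left ?_ hδ
  refine (Finset.abs_sum_le_sum_abs _ _).trans ?_
  refine (Finset.sum_le_sum fun a _ => abs_prod_le' hhb _).trans ?_
  rw [Finset.sum_const, Finset.card_univ, Fintype.card_fin, nsmul_eq_mul]

lemma addF_succ {N M n : ℕ} {h : ℝ → ℝ} (δ : ℝ) (t : Fin (M + 1) → Fin (N + 1) → ℝ)
    (x : Fin n → Fin (N + 1) → Bool) :
    addF δ h t x = δ * ∏ i, h (cubeS (t 0) (x i)) + addF δ h (fun a => t a.succ) x := by
  unfold addF
  rw [Fin.sum_univ_succ, mul_add]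

lemma addF_swap {N M n : ℕ} {h : ℝ → ℝ} (δ : ℝ) (a b : Fin M) (t : Fin M → Fin (N + 1) → ℝ)
    (x : Fin n → Fin (N + 1) → Bool) :
    addF δ h (fun c => t (Equiv.swap a b c)) x = addF δ h t x := by
  unfold addF
  rw [Equiv.sum_comp (Equiv.swap a b) fun c => ∏ i, h (cubeS (t c) (x i))]

end Rho

open Rho

/-- The reduced algebra of `rho_conc` for one index. -/
theorem rho_one {f : ℝ → ℝ} (hf : Measurable f) (C : ℝ) (hC : ∀ x, |f x| ≤ C)
    {N M P : ℕ} {s : ℝ} {u : Fin P → ℝ} {α : ℝ} (hα : 0 < α) {n : ℕ} {h : ℝ → ℝ}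
    (hh : Measurable h) {H : ℝ} (hH : 1 ≤ H) (hhb : ∀ x, |h x| ≤ H)
    (V : (Fin n → Fin (N + 1) → Bool) → ℝ) (hV : ∀ x, |V x| ≤ H ^ n) {E : ℝ}
    (hE : 0 ≤ E) {ε : ℝ} (hε : 0 < ε) (hε1 : ε ≤ 1)
    (ha : |((M : ℝ) + 1) / (N + 2) - α| ≤ ε) (hδ : 1 / ((N : ℝ) + 2) ≤ ε)
    (e1 : |(pS f hf C hC N (M + 1) P s u).tav (n := n)
        (fun t x => addF (1 / ((N : ℝ) + 2)) h (fun a => t a.succ) x *
          ∏ i, h (cubeS (t 0) (x i))) -
        (pS f hf C hC N M P s u).tav (n := n)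
          (fun t x => addF (1 / ((N : ℝ) + 2)) h t x * V x)| ≤ (α + 1) * H ^ n * (E + ε))
    (e2 : |(pS f hf C hC N (M + 1) P s u).tav (n := n)
        (fun t x => addF (1 / ((N : ℝ) + 2)) h (fun a => t a.succ) x * V x) -
        (pS f hf C hC N M P s u).tav (n := n)
          (fun t x => addF (1 / ((N : ℝ) + 2)) h t x * V x)| ≤ (α + 1) * H ^ n * H ^ n * ε)
    (e3 : |(pS f hf C hC N (M + 1) P s u).tav (n := n)
        (fun t x => V x * ∏ i, h (cubeS (t 0) (x i))) -
        (pS f hf C hC N M P s u).tav (n := n) (fun _ x => V x * V x)| ≤ H ^ n * (E + ε))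
    (e4 : |(pS f hf C hC N (M + 1) P s u).tav (n := n) (fun _ x => V x * V x) -
        (pS f hf C hC N M P s u).tav (n := n) (fun _ x => V x * V x)| ≤ H ^ n * H ^ n * ε) :
      (pS f hf C hC N (M + 1) P s u).tav (n := n)
        (fun t x => (addF (1 / ((N : ℝ) + 2)) h t x - α * V x) ^ 2) ≤
      4 * (α + 1) ^ 2 * H ^ n * E + 7 * (α + 1) ^ 2 * (H ^ n * H ^ n) * ε := by
  set δ : ℝ := 1 / ((N : ℝ) + 2) with hδdef
  have hN2 : (0 : ℝ) < (N : ℝ) + 2 := by positivity
  have hδ0 : 0 < δ := by positivity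
  set a : ℝ := ((M : ℝ) + 1) / (N + 2) with hadef
  have haδ : a = δ * (M + 1) := by rw [hadef, hδdef]; ring
  have ha0 : 0 ≤ a := by positivity
  have ha1 : a ≤ α + 1 := by
    have := (abs_le.mp ha).2
    linarith
  set K : ℝ := H ^ n with hKdef
  have hK1 : 1 ≤ K := one_le_pow₀ hH
  have hK0 : 0 ≤ K := by linarith only [hK1]
  -- bounds
  let u0 : (Fin (M + 1) → Fin (N + 1) → ℝ) → (Fin n → Fin (N + 1) → Bool) → ℝ :=
    fun t x => ∏ i, h (cubeS (t 0) (x i))
  let r : (Fin (M + 1) → Fin (N + 1) → ℝ) → (Fin n → Fin (N + 1) → Bool) → ℝ :=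
    fun t x => addF δ h t x
  let rm : (Fin (M + 1) → Fin (N + 1) → ℝ) → (Fin n → Fin (N + 1) → Bool) → ℝ :=
    fun t x => addF δ h (fun a => t a.succ) x
  let W : (Fin (M + 1) → Fin (N + 1) → ℝ) → (Fin n → Fin (N + 1) → Bool) → ℝ :=
    fun _ x => V x
  let S : Sys := pS f hf C hC N (M + 1) P s u
  have bu : Sys.Bdd S (n := n) u0 K :=
    ⟨fun x => measurable_one hh 0 x, fun t x => abs_prod_le' hhb _⟩
  have br : Sys.Bdd S (n := n) r ((α + 1) * K) := by
    refine ⟨fun x => measurable_addF hh δ x, fun t x => ?_⟩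
    refine (abs_addF_le hhb hδ0.le t x).trans ?_
    have : δ * ((M + 1 : ℕ) : ℝ) = a := by rw [haδ]; push_cast; ring
    rw [this]
    exact mul_le_mul_of_nonneg_right ha1 hK0
  have brm : Sys.Bdd S (n := n) rm ((α + 1) * K) := by
    refine ⟨fun x => (measurable_addF hh δ x).comp (measurable_pi_lambda _ fun a =>
      measurable_pi_apply a.succ), fun t x => ?_⟩
    refine (abs_addF_le hhb hδ0.le _ x).trans ?_
    refine mul_le_mul_of_nonneg_right ?_ hK0
    refine le_trans ?_ ha1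
    rw [haδ]
    exact mul_le_mul_of_nonneg_left (le_add_of_nonneg_right zero_le_one) hδ0.le
  have bW : Sys.Bdd S (n := n) W K := ⟨fun x => measurable_const, fun t x => hV x⟩
  -- averages
  have hr : ∀ t x, r t x = δ * u0 t x + rm t x := fun t x => addF_succ δ t x
  -- (1)
  have q1 : S.tav (n := n) (fun t x => r t x * r t x) =
      a * S.tav (n := n) (fun t x => u0 t x * r t x) := by
    have h1 := tav_sum_patterns (n := n) hf C hC N M P s u
      (F := fun g x => ∏ i, h (cubeS g (x i)))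
      (fun x => Finset.measurable_prod _ fun i _ => hh.comp (by unfold cubeS; fun_prop))
      (B := K) (fun g x => abs_prod_le' hhb _) (G := r) (fun x => measurable_addF hh δ x)
      (D := (α + 1) * K) br.bdd (fun a b t x => addF_swap δ a b t x)
    have h2 : S.tav (n := n) (fun t x => r t x * r t x) =
        S.tav (n := n) (fun t x => δ * ((∑ a, ∏ i, h (cubeS (t a) (x i))) * r t x)) :=
      Sys.tav_congr fun t x => mul_assoc _ _ _
    rw [h2, Sys.tav_smul, haδ, mul_assoc]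
    exact congrArg (δ * ·) h1
  have q2 : S.tav (n := n) (fun t x => r t x * W t x) =
      a * S.tav (n := n) (fun t x => u0 t x * W t x) := by
    have h1 := tav_sum_patterns (n := n) hf C hC N M P s u
      (F := fun g x => ∏ i, h (cubeS g (x i)))
      (fun x => Finset.measurable_prod _ fun i _ => hh.comp (by unfold cubeS; fun_prop))
      (B := K) (fun g x => abs_prod_le' hhb _) (G := W) (fun x => measurable_const)
      (D := K) bW.bdd (fun a b t x => rfl)
    have h2 : S.tav (n := n) (fun t x => r t x * W t x) =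
        S.tav (n := n) (fun t x => δ * ((∑ a, ∏ i, h (cubeS (t a) (x i))) * W t x)) :=
      Sys.tav_congr fun t x => mul_assoc _ _ _
    rw [h2, Sys.tav_smul, haδ, mul_assoc]
    exact congrArg (δ * ·) h1
  have p3 : ∀ (t : Fin (M + 1) → Fin (N + 1) → ℝ) (x : Fin n → Fin (N + 1) → Bool),
      u0 t x * r t x = δ * (u0 t x * u0 t x) + rm t x * u0 t x := fun t x => by
    rw [hr]; ring
  have p4 : ∀ (t : Fin (M + 1) → Fin (N + 1) → ℝ) (x : Fin n → Fin (N + 1) → Bool),
      r t x * W t x = δ * (u0 t x * W t x) + rm t x * W t x := fun t x => by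
    rw [hr]; ring
  have q3 : S.tav (n := n) (fun t x => u0 t x * r t x) =
      δ * S.tav (n := n) (fun t x => u0 t x * u0 t x) +
        S.tav (n := n) (fun t x => rm t x * u0 t x) := by
    have h1 : S.tav (n := n) (fun t x => u0 t x * r t x) =
        S.tav (n := n) (fun t x => δ * (u0 t x * u0 t x) + rm t x * u0 t x) :=
      Sys.tav_congr p3
    rw [h1, Sys.tav_add (C := δ * (K * K)) (D := (α + 1) * K * K), Sys.tav_smul]
    · exact ⟨fun x => ((bu.mul bu).meas x).const_mul δ, fun t x => by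
        rw [abs_mul, abs_of_pos hδ0]
        exact mul_le_mul_of_nonneg_left ((bu.mul bu).bdd t x) hδ0.le⟩
    · exact brm.mul bu
  have q4 : S.tav (n := n) (fun t x => r t x * W t x) =
      δ * S.tav (n := n) (fun t x => u0 t x * W t x) +
        S.tav (n := n) (fun t x => rm t x * W t x) := by
    have h1 : S.tav (n := n) (fun t x => r t x * W t x) =
        S.tav (n := n) (fun t x => δ * (u0 t x * W t x) + rm t x * W t x) :=
      Sys.tav_congr p4
    rw [h1, Sys.tav_add (C := δ * (K * K)) (D := (α + 1) * K * K), Sys.tav_smul]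
    · exact ⟨fun x => ((bu.mul bW).meas x).const_mul δ, fun t x => by
        rw [abs_mul, abs_of_pos hδ0]
        exact mul_le_mul_of_nonneg_left ((bu.mul bW).bdd t x) hδ0.le⟩
    · exact brm.mul bW
  have q5 : S.tav (n := n) (fun t x => (r t x - α * W t x) ^ 2) =
      S.tav (n := n) (fun t x => r t x * r t x) - 2 * α * S.tav (n := n) (fun t x => r t x * W t x)
        + α ^ 2 * S.tav (n := n) (fun t x => W t x * W t x) := by
    have h1 : S.tav (n := n) (fun t x => (r t x - α * W t x) ^ 2) =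
        S.tav (n := n) (fun t x => (r t x * r t x - 2 * α * (r t x * W t x)) +
          α ^ 2 * (W t x * W t x)) := Sys.tav_congr fun t x => by ring
    have b1 : Sys.Bdd S (n := n) (fun t x => 2 * α * (r t x * W t x)) (2 * α * ((α + 1) * K * K)) :=
      ⟨fun x => ((br.mul bW).meas x).const_mul _, fun t x => by
        rw [abs_mul, abs_of_pos (by positivity : (0 : ℝ) < 2 * α)]
        exact mul_le_mul_of_nonneg_left ((br.mul bW).bdd t x) (by positivity)⟩
    have b2 : Sys.Bdd S (n := n) (fun t x => α ^ 2 * (W t x * W t x)) (α ^ 2 * (K * K)) :=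
      ⟨fun x => ((bW.mul bW).meas x).const_mul _, fun t x => by
        rw [abs_mul, abs_of_pos (by positivity : (0 : ℝ) < α ^ 2)]
        exact mul_le_mul_of_nonneg_left ((bW.mul bW).bdd t x) (by positivity)⟩
    have b3 : Sys.Bdd S (n := n) (fun t x => r t x * r t x - 2 * α * (r t x * W t x))
        ((α + 1) * K * ((α + 1) * K) + 2 * α * ((α + 1) * K * K)) :=
      ⟨fun x => ((br.mul br).meas x).sub (b1.meas x), fun t x =>
        (abs_sub _ _).trans (add_le_add ((br.mul br).bdd t x) (b1.bdd t x))⟩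
    rw [h1, Sys.tav_add b3 b2, Sys.tav_sub (br.mul br) b1, Sys.tav_smul, Sys.tav_smul]
  have cst : ∀ c : ℝ, 0 ≤ c → Sys.Bdd S (n := n) (fun _ _ => c) c := fun c hc =>
    ⟨fun x => measurable_const, fun t x => (abs_of_nonneg hc).le⟩
  have buu : |S.tav (n := n) (fun t x => u0 t x * u0 t x)| ≤ K * K := by
    have := Sys.tav_abs_le (bu.mul bu) (cst (K * K) (by positivity)) (bu.mul bu).bdd
    rwa [Sys.tav_const] at this
  have buV : |S.tav (n := n) (fun t x => u0 t x * W t x)| ≤ K * K := by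
    have := Sys.tav_abs_le (bu.mul bW) (cst (K * K) (by positivity)) (bu.mul bW).bdd
    rwa [Sys.tav_const] at this
  have bVV : |S.tav (n := n) (fun t x => W t x * W t x)| ≤ K * K := by
    have := Sys.tav_abs_le (bW.mul bW) (cst (K * K) (by positivity)) (bW.mul bW).bdd
    rwa [Sys.tav_const] at this
  have e3' : |S.tav (n := n) (fun t x => u0 t x * W t x) -
      (pS f hf C hC N M P s u).tav (n := n) (fun _ x => V x * V x)| ≤ K * (E + ε) := by
    have h1 : S.tav (n := n) (fun t x => u0 t x * W t x) =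
      S.tav (n := n) (fun t x => V x * ∏ i, h (cubeS (t 0) (x i))) :=
      Sys.tav_congr fun t x => mul_comm _ _
    rw [h1]
    exact e3
  have e1' : |S.tav (n := n) (fun t x => rm t x * u0 t x) -
        (pS f hf C hC N M P s u).tav (n := n)
          (fun t x => addF δ h t x * V x)| ≤ (α + 1) * K * (E + ε) := e1
  have e2' : |S.tav (n := n) (fun t x => rm t x * W t x) -
        (pS f hf C hC N M P s u).tav (n := n)
          (fun t x => addF δ h t x * V x)| ≤ (α + 1) * K * K * ε := e2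
  have e4' : |S.tav (n := n) (fun t x => W t x * W t x) -
        (pS f hf C hC N M P s u).tav (n := n) (fun _ x => V x * V x)| ≤ K * K * ε := e4
  show S.tav (n := n) (fun t x => (r t x - α * W t x) ^ 2) ≤ _
  rw [q5]
  -- abstract the averages
  generalize hq : S.tav (n := n) (fun t x => r t x * r t x) = q at *
  generalize hx : S.tav (n := n) (fun t x => r t x * W t x) = x at *
  generalize hv : S.tav (n := n) (fun t x => W t x * W t x) = v at *
  generalize hur : S.tav (n := n) (fun t x => u0 t x * r t x) = ur at *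
  generalize huu : S.tav (n := n) (fun t x => u0 t x * u0 t x) = uu at *
  generalize huV : S.tav (n := n) (fun t x => u0 t x * W t x) = uV at *
  generalize hru : S.tav (n := n) (fun t x => rm t x * u0 t x) = ru at *
  generalize hrV : S.tav (n := n) (fun t x => rm t x * W t x) = rV at *
  generalize hs1 : (pS f hf C hC N M P s u).tav (n := n)
          (fun t x => addF δ h t x * V x) = s1 at *
  generalize hw : (pS f hf C hC N M P s u).tav (n := n) (fun _ x => V x * V x) = w at *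
  clear e1 e2 e3 e4 hq hx hv hur huu huV hru hrV hs1 hw br brm bu bW hr cst
  -- the identity
  have key : q - 2 * α * x + α ^ 2 * v = (a - α) ^ 2 * v + a * δ * (uu - uV) +
      a * ((ru - s1) - (rV - s1)) + a * (a - 2 * α) * ((uV - w) - (v - w)) := by
    have h1 : rV = x - δ * uV := by linarith only [q4]
    rw [q1, q3, h1]
    have h2 : x = a * uV := q2
    rw [h2]
    ring
  rw [key]
  have hA0 : 0 ≤ α + 1 := by linarith only [hα]
  have t1 : (a - α) ^ 2 * v ≤ (α + 1) ^ 2 * (K * K) * ε := by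
    have h1 : (a - α) ^ 2 ≤ ε * 1 := by
      rw [← sq_abs, pow_two]
      exact mul_le_mul ha (ha.trans hε1) (abs_nonneg _) hε.le
    have h2 : v ≤ K * K := (le_abs_self v).trans bVV
    have h3 : (1 : ℝ) ≤ (α + 1) ^ 2 := one_le_pow₀ (by linarith only [hα])
    calc (a - α) ^ 2 * v ≤ (a - α) ^ 2 * (K * K) := mul_le_mul_of_nonneg_left h2 (sq_nonneg _)
      _ ≤ (ε * 1) * (K * K) := mul_le_mul_of_nonneg_right h1 (by positivity)
      _ = 1 * ((K * K) * ε) := by ring
      _ ≤ (α + 1) ^ 2 * ((K * K) * ε) := mul_le_mul_of_nonneg_right h3 (by positivity)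
      _ = (α + 1) ^ 2 * (K * K) * ε := by ring
  have t2 : a * δ * (uu - uV) ≤ 2 * (α + 1) ^ 2 * (K * K) * ε := by
    have h1 : uu - uV ≤ 2 * (K * K) := by
      have := (abs_le.mp buu).2
      have := (abs_le.mp buV).1
      linarith
    have h3 : α + 1 ≤ (α + 1) ^ 2 :=
      le_self_pow₀ (le_add_of_nonneg_left hα.le) two_ne_zero
    calc a * δ * (uu - uV) ≤ a * δ * (2 * (K * K)) := mul_le_mul_of_nonneg_left h1 (by positivity)
      _ ≤ (α + 1) * ε * (2 * (K * K)) :=
        mul_le_mul_of_nonneg_right (mul_le_mul ha1 hδ hδ0.le hA0) (by positivity)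
      _ = (α + 1) * (2 * (K * K) * ε) := by ring
      _ ≤ (α + 1) ^ 2 * (2 * (K * K) * ε) := mul_le_mul_of_nonneg_right h3 (by positivity)
      _ = 2 * (α + 1) ^ 2 * (K * K) * ε := by ring
  have t3 : a * ((ru - s1) - (rV - s1)) ≤ (α + 1) ^ 2 * K * E + 2 * (α + 1) ^ 2 * (K * K) * ε := by
    have h1 : (ru - s1) - (rV - s1) ≤ (α + 1) * K * (E + ε) + (α + 1) * K * K * ε := by
      have := (abs_le.mp e1').2
      have := (abs_le.mp e2').1
      linarith
    have h0 : 0 ≤ (α + 1) * K * (E + ε) + (α + 1) * K * K * ε := by positivity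
    calc a * ((ru - s1) - (rV - s1)) ≤ a * ((α + 1) * K * (E + ε) + (α + 1) * K * K * ε) :=
          mul_le_mul_of_nonneg_left h1 ha0
      _ ≤ (α + 1) * ((α + 1) * K * (E + ε) + (α + 1) * K * K * ε) :=
        mul_le_mul_of_nonneg_right ha1 h0
      _ = (α + 1) ^ 2 * K * E + (α + 1) ^ 2 * (K * 1) * ε + (α + 1) ^ 2 * (K * K) * ε := by ring
      _ ≤ (α + 1) ^ 2 * K * E + (α + 1) ^ 2 * (K * K) * ε + (α + 1) ^ 2 * (K * K) * ε := by
        gcongr
      _ = _ := by ring
  have t4 : a * (a - 2 * α) * ((uV - w) - (v - w)) ≤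
      (α + 1) ^ 2 * K * E + 2 * (α + 1) ^ 2 * (K * K) * ε := by
    have h1 : |(uV - w) - (v - w)| ≤ K * (E + ε) + K * K * ε :=
      (abs_sub _ _).trans (add_le_add e3' e4')
    have h2 : |a - 2 * α| ≤ α + 1 := by
      have := abs_le.mp ha
      rw [abs_le]
      constructor <;> linarith
    have h3 : |a * (a - 2 * α)| ≤ (α + 1) * (α + 1) := by
      rw [abs_mul, abs_of_nonneg ha0]
      exact mul_le_mul ha1 h2 (abs_nonneg _) hA0
    calc a * (a - 2 * α) * ((uV - w) - (v - w)) ≤ |a * (a - 2 * α) * ((uV - w) - (v - w))| :=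
          le_abs_self _
      _ = |a * (a - 2 * α)| * |(uV - w) - (v - w)| := abs_mul _ _
      _ ≤ ((α + 1) * (α + 1)) * (K * (E + ε) + K * K * ε) :=
        mul_le_mul h3 h1 (abs_nonneg _) (by positivity)
      _ = (α + 1) ^ 2 * K * E + (α + 1) ^ 2 * (K * 1) * ε + (α + 1) ^ 2 * (K * K) * ε := by ring
      _ ≤ (α + 1) ^ 2 * K * E + (α + 1) ^ 2 * (K * K) * ε + (α + 1) ^ 2 * (K * K) * ε := by
        gcongr
      _ = _ := by ring
  have t5 : 0 ≤ (α + 1) ^ 2 * K * E := by positivity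
  linarith only [t1, t2, t3, t4, t5]

/-- RHO-ALG: the additive functionals are close to functions of the overlap. -/
theorem rho_conc {f : ℝ → ℝ} (hf : Measurable f) (C : ℝ) (hC : ∀ x, |f x| ≤ C)
    {U : Ultrafilter ℕ} {N M P : ℕ → ℕ} {s : ℕ → ℝ} {u : ∀ j, Fin (P j) → ℝ} {α : ℝ}
    (hα : 0 < α) (hMN : Tendsto (fun j => ((M j : ℝ) + 1) / (N j + 2)) U (𝓝 α))
    (hN : Tendsto N U atTop) {n : ℕ} {h : ℝ → ℝ} (hh : Measurable h) {H : ℝ} (hH : 1 ≤ H)
    (hhb : ∀ x, |h x| ≤ H)
    (V : ∀ j, (Fin n → Fin (N j + 1) → Bool) → ℝ) (hV : ∀ j x, |V j x| ≤ H ^ n) {E : ℝ}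
    (hE : 0 ≤ E)
    (T0 : ∀ Φ : ∀ j, (Fin (M j) → Fin (N j + 1) → ℝ) → (Fin n → Fin (N j + 1) → Bool) → ℝ,
      (∀ j x, Measurable fun t => Φ j t x) → (∀ j t x, |Φ j t x| ≤ 1) → ∀ η > 0,
      ∀ᶠ j in (U : Filter ℕ), |(pS f hf C hC (N j) (M j + 1) (P j) (s j) (u j)).tav (n := n)
        (fun t x => Φ j (fun a => t a.succ) x) -
        (pS f hf C hC (N j) (M j) (P j) (s j) (u j)).tav (n := n) (Φ j)| ≤ η)
    (T1 : ∀ Φ : ∀ j, (Fin (M j) → Fin (N j + 1) → ℝ) → (Fin n → Fin (N j + 1) → Bool) → ℝ,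
      (∀ j x, Measurable fun t => Φ j t x) → (∀ j t x, |Φ j t x| ≤ 1) → ∀ η > 0,
      ∀ᶠ j in (U : Filter ℕ), |(pS f hf C hC (N j) (M j + 1) (P j) (s j) (u j)).tav (n := n)
        (fun t x => Φ j (fun a => t a.succ) x * ∏ i, h (cubeS (t 0) (x i))) -
        (pS f hf C hC (N j) (M j) (P j) (s j) (u j)).tav (n := n)
          (fun t x => Φ j t x * V j x)| ≤ E + η) :
    ∀ η > 0, ∀ᶠ j in (U : Filter ℕ),
      (pS f hf C hC (N j) (M j + 1) (P j) (s j) (u j)).tav (n := n)
        (fun t x => (addF (1 / ((N j : ℝ) + 2)) h t x - α * V j x) ^ 2) ≤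
      4 * (α + 1) ^ 2 * H ^ n * E + η := by
  intro η hη
  have hK1 : 1 ≤ H ^ n := one_le_pow₀ hH
  have hK0 : 0 < H ^ n := by linarith
  have hA0 : 0 < α + 1 := by linarith
  obtain ⟨ε, hε, hε1, hεη⟩ : ∃ ε : ℝ, 0 < ε ∧ ε ≤ 1 ∧
      7 * (α + 1) ^ 2 * (H ^ n * H ^ n) * ε ≤ η := by
    have hD : 0 < 7 * (α + 1) ^ 2 * (H ^ n * H ^ n) := by positivity
    refine ⟨min 1 (η / (7 * (α + 1) ^ 2 * (H ^ n * H ^ n))), lt_min one_pos (div_pos hη hD),
      min_le_left _ _, ?_⟩
    calc 7 * (α + 1) ^ 2 * (H ^ n * H ^ n) * min 1 (η / (7 * (α + 1) ^ 2 * (H ^ n * H ^ n)))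
        ≤ 7 * (α + 1) ^ 2 * (H ^ n * H ^ n) * (η / (7 * (α + 1) ^ 2 * (H ^ n * H ^ n))) :=
          mul_le_mul_of_nonneg_left (min_le_right _ _) hD.le
      _ = η := by field_simp
  -- the cut-off coefficient
  let c : ℕ → ℝ := fun j => if ((M j : ℝ) + 1) / (N j + 2) ≤ α + 1 then 1 / ((α + 1) * H ^ n) else 0
  have hc0 : ∀ j, 0 ≤ c j := fun j => by
    show 0 ≤ ite _ _ _
    split_ifs
    · positivity
    · exact le_rfl
  have hcb : ∀ j (t : Fin (M j) → Fin (N j + 1) → ℝ) (x : Fin n → Fin (N j + 1) → Bool),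
      |c j * addF (1 / ((N j : ℝ) + 2)) h t x| ≤ 1 := by
    intro j t x
    show |ite _ _ _ * _| ≤ 1
    split_ifs with hj
    · rw [abs_mul, abs_of_pos (by positivity : (0 : ℝ) < 1 / ((α + 1) * H ^ n))]
      have h1 := abs_addF_le hhb (δ := 1 / ((N j : ℝ) + 2)) (by positivity) t x
      have h2 : 1 / ((N j : ℝ) + 2) * M j ≤ α + 1 := by
        refine le_trans ?_ hj
        rw [one_div, inv_mul_eq_div]
        exact div_le_div_of_nonneg_right (by linarith) (by positivity)
      have h3 : |addF (1 / ((N j : ℝ) + 2)) h t x| ≤ (α + 1) * H ^ n :=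
        h1.trans (mul_le_mul_of_nonneg_right h2 hK0.le)
      calc 1 / ((α + 1) * H ^ n) * |addF (1 / ((N j : ℝ) + 2)) h t x|
          ≤ 1 / ((α + 1) * H ^ n) * ((α + 1) * H ^ n) :=
            mul_le_mul_of_nonneg_left h3 (by positivity)
        _ = 1 := by field_simp
    · simp
  have hVb : ∀ j (x : Fin n → Fin (N j + 1) → Bool), |1 / H ^ n * V j x| ≤ 1 := by
    intro j x
    rw [abs_mul, abs_of_pos (by positivity : (0 : ℝ) < 1 / H ^ n)]
    calc 1 / H ^ n * |V j x| ≤ 1 / H ^ n * H ^ n :=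
          mul_le_mul_of_nonneg_left (hV j x) (by positivity)
      _ = 1 := by field_simp
  have E1 := T1 (fun j t x => c j * addF (1 / ((N j : ℝ) + 2)) h t x)
    (fun j x => (measurable_addF hh _ x).const_mul _) hcb ε hε
  have E2 := T0 (fun j t x => (c j * addF (1 / ((N j : ℝ) + 2)) h t x) * (1 / H ^ n * V j x))
    (fun j x => ((measurable_addF hh _ x).const_mul _).mul_const _) (fun j t x => by
      rw [abs_mul]
      exact mul_le_one₀ (hcb j t x) (abs_nonneg _) (hVb j x)) ε hε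
  have E3 := T1 (fun j t x => 1 / H ^ n * V j x) (fun j x => measurable_const)
    (fun j t x => hVb j x) ε hε
  have E4 := T0 (fun j t x => (1 / H ^ n * V j x) * (1 / H ^ n * V j x))
    (fun j x => measurable_const) (fun j t x => by
      rw [abs_mul]
      exact mul_le_one₀ (hVb j x) (abs_nonneg _) (hVb j x)) ε hε
  have E5 : ∀ᶠ j in (U : Filter ℕ), |((M j : ℝ) + 1) / (N j + 2) - α| ≤ ε := by
    have := (Metric.tendsto_nhds.mp hMN) ε hε
    filter_upwards [this] with j hj
    exact (Real.dist_eq _ _ ▸ hj).le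
  have E6 : ∀ᶠ j in (U : Filter ℕ), 1 / ((N j : ℝ) + 2) ≤ ε := by
    have h1 := hN.eventually (eventually_ge_atTop ⌈1 / ε⌉₊)
    filter_upwards [h1] with j hj
    have h2 : 1 / ε ≤ (N j : ℝ) + 2 := by
      have h3 : 1 / ε ≤ (⌈1 / ε⌉₊ : ℝ) := Nat.le_ceil _
      have h4 : (⌈1 / ε⌉₊ : ℝ) ≤ N j := by exact_mod_cast hj
      linarith only [h3, h4]
    rw [div_le_iff₀ (by positivity)]
    rw [div_le_iff₀ hε] at h2
    linarith only [h2]
  filter_upwards [E1, E2, E3, E4, E5, E6] with j f1 f2 f3 f4 f5 f6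
  have hcj : c j = 1 / ((α + 1) * H ^ n) := by
    show ite _ _ _ = _
    rw [if_pos]
    have := (abs_le.mp f5).2
    linarith only [hε1, this]
  have hcj0 : 0 < c j := by rw [hcj]; positivity
  refine (rho_one hf C hC hα hh hH hhb (V j) (hV j) hE hε hε1 f5 f6 ?_ ?_ ?_ ?_).trans ?_
  · -- (1)
    have g1 : (pS f hf C hC (N j) (M j + 1) (P j) (s j) (u j)).tav (n := n)
        (fun t x => (c j * addF (1 / ((N j : ℝ) + 2)) h (fun a => t a.succ) x) *
          ∏ i, h (cubeS (t 0) (x i))) =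
        c j * (pS f hf C hC (N j) (M j + 1) (P j) (s j) (u j)).tav (n := n)
        (fun t x => addF (1 / ((N j : ℝ) + 2)) h (fun a => t a.succ) x *
          ∏ i, h (cubeS (t 0) (x i))) := by
      rw [← Sys.tav_smul]
      exact Sys.tav_congr fun t x => mul_assoc _ _ _
    have g2 : (pS f hf C hC (N j) (M j) (P j) (s j) (u j)).tav (n := n)
        (fun t x => (c j * addF (1 / ((N j : ℝ) + 2)) h t x) * V j x) =
        c j * (pS f hf C hC (N j) (M j) (P j) (s j) (u j)).tav (n := n)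
        (fun t x => addF (1 / ((N j : ℝ) + 2)) h t x * V j x) := by
      rw [← Sys.tav_smul]
      exact Sys.tav_congr fun t x => mul_assoc _ _ _
    have f1' := (congrArg₂ (fun a b : ℝ => |a - b|) g1 g2).symm.le.trans f1
    beta_reduce at f1'
    rw [← mul_sub, abs_mul, abs_of_pos hcj0, hcj, one_div, inv_mul_le_iff₀
      (by positivity)] at f1'
    exact f1'
  · -- (2)
    have g1 : (pS f hf C hC (N j) (M j + 1) (P j) (s j) (u j)).tav (n := n)
        (fun t x => (c j * addF (1 / ((N j : ℝ) + 2)) h (fun a => t a.succ) x) *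
          (1 / H ^ n * V j x)) =
        (c j * (1 / H ^ n)) * (pS f hf C hC (N j) (M j + 1) (P j) (s j) (u j)).tav (n := n)
        (fun t x => addF (1 / ((N j : ℝ) + 2)) h (fun a => t a.succ) x * V j x) := by
      rw [← Sys.tav_smul]
      exact Sys.tav_congr fun t x => mul_mul_mul_comm _ _ _ _
    have g2 : (pS f hf C hC (N j) (M j) (P j) (s j) (u j)).tav (n := n)
        (fun t x => (c j * addF (1 / ((N j : ℝ) + 2)) h t x) * (1 / H ^ n * V j x)) =
        (c j * (1 / H ^ n)) * (pS f hf C hC (N j) (M j) (P j) (s j) (u j)).tav (n := n)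
        (fun t x => addF (1 / ((N j : ℝ) + 2)) h t x * V j x) := by
      rw [← Sys.tav_smul]
      exact Sys.tav_congr fun t x => mul_mul_mul_comm _ _ _ _
    have f2' := (congrArg₂ (fun a b : ℝ => |a - b|) g1 g2).symm.le.trans f2
    beta_reduce at f2'
    have hd : c j * (1 / H ^ n) = 1 / ((α + 1) * H ^ n * H ^ n) := by
      rw [hcj]; field_simp
    rw [← mul_sub, abs_mul, hd, abs_of_pos (by positivity), one_div, inv_mul_le_iff₀
      (by positivity)] at f2'
    exact f2'
  · -- (3)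
    have g1 : (pS f hf C hC (N j) (M j + 1) (P j) (s j) (u j)).tav (n := n)
        (fun t x => (1 / H ^ n * V j x) * ∏ i, h (cubeS (t 0) (x i))) =
        (1 / H ^ n) * (pS f hf C hC (N j) (M j + 1) (P j) (s j) (u j)).tav (n := n)
        (fun t x => V j x * ∏ i, h (cubeS (t 0) (x i))) := by
      rw [← Sys.tav_smul]
      exact Sys.tav_congr fun t x => mul_assoc _ _ _
    have g2 : (pS f hf C hC (N j) (M j) (P j) (s j) (u j)).tav (n := n)
        (fun t x => (1 / H ^ n * V j x) * V j x) =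
        (1 / H ^ n) * (pS f hf C hC (N j) (M j) (P j) (s j) (u j)).tav (n := n)
        (fun _ x => V j x * V j x) := by
      rw [← Sys.tav_smul]
      exact Sys.tav_congr fun t x => mul_assoc _ _ _
    have f3' := (congrArg₂ (fun a b : ℝ => |a - b|) g1 g2).symm.le.trans f3
    beta_reduce at f3'
    rw [← mul_sub, abs_mul, abs_of_pos (by positivity), one_div, inv_mul_le_iff₀
      (by positivity)] at f3'
    exact f3'
  · -- (4)
    have g1 : (pS f hf C hC (N j) (M j + 1) (P j) (s j) (u j)).tav (n := n)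
        (fun t x => (1 / H ^ n * V j x) * (1 / H ^ n * V j x)) =
        (1 / H ^ n * (1 / H ^ n)) * (pS f hf C hC (N j) (M j + 1) (P j) (s j) (u j)).tav (n := n)
        (fun _ x => V j x * V j x) := by
      rw [← Sys.tav_smul]
      exact Sys.tav_congr fun t x => mul_mul_mul_comm _ _ _ _
    have g2 : (pS f hf C hC (N j) (M j) (P j) (s j) (u j)).tav (n := n)
        (fun t x => (1 / H ^ n * V j x) * (1 / H ^ n * V j x)) =
        (1 / H ^ n * (1 / H ^ n)) * (pS f hf C hC (N j) (M j) (P j) (s j) (u j)).tav (n := n)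
        (fun _ x => V j x * V j x) := by
      rw [← Sys.tav_smul]
      exact Sys.tav_congr fun t x => mul_mul_mul_comm _ _ _ _
    have f4' := (congrArg₂ (fun a b : ℝ => |a - b|) g1 g2).symm.le.trans f4
    beta_reduce at f4'
    have hd : 1 / H ^ n * (1 / H ^ n) = 1 / (H ^ n * H ^ n) := by field_simp
    rw [← mul_sub, abs_mul, hd, abs_of_pos (by positivity), one_div, inv_mul_le_iff₀
      (by positivity)] at f4'
    exact f4'
  · linarith only [hεη]

end Vale.Agent.P157.Par
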