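import Vale.Agent.P157.ParUM
import Vale.Agent.P157.ParArr2

open MeasureTheory ProbabilityTheory Filter Topology

namespace Vale.Agent.P157.Par

/-- Average over the disorder of the average over replicas indexed by a finite type. -/
noncomputable def Sys.avT (S : Sys) {J : Type} [Fintype J] [DecidableEq J]
    (F : S.Ω → (J → S.X) → ℝ) : ℝ :=
  ∫ ω, ∑ x : J → S.X, (∏ a, S.w ω (x a)) * F ω x ∂S.P

/-- The level of a number with respect to the boundaries `b`. -/
noncomputable def lev {k : ℕ} (b : Fin k → ℝ) (r : ℝ) : Fin (k + 1) :=
  ⟨(Finset.univ.filter fun i => b i ≤ r).card, by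
    have := Finset.card_filter_le (Finset.univ : Finset (Fin k)) fun i => b i ≤ r
    rw [Finset.card_univ, Fintype.card_fin] at this
    omega⟩

/-- The matrix of levels of a family of replicas. -/
noncomputable def Sys.LMat (S : Sys) {k : ℕ} (b : Fin k → ℝ) {J : Type} [DecidableEq J]
    (x : J → S.X) : LM k J :=
  fun a c => if a = c then Fin.last k else lev b (S.R (x a) (x c))

end Vale.Agent.P157.Par
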