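import Vale.Agent.P157.ParChain
import Vale.Agent.P157.ParDefs

open MeasureTheory ProbabilityTheory Filter Topology Finset

namespace Vale.Agent.P157.Par

set_option linter.unusedSectionVars false

/-- The weight after `n` steps of the cascade starting from the level `k`. -/
noncomputable def parW (m v : ℕ → ℝ) (k : ℕ) (W : ℝ → ℝ) : ℕ → ℝ → ℝ
  | 0 => W
  | n + 1 => flowW (m (k - n)) (v (k - n)) (parW m v k W n) 0

/-- The weight at the level `l`. -/
noncomputable def lvW (m v : ℕ → ℝ) (k : ℕ) (W : ℝ → ℝ) (l : ℕ) : ℝ → ℝ := parW m v k W (k - l)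

/-- The observable after `n` steps of the cascade starting from the level `s`. -/
noncomputable def parh (m v : ℕ → ℝ) (V : ℕ → ℝ → ℝ) (s : ℕ) (h : ℝ → ℝ) : ℕ → ℝ → ℝ
  | 0 => h
  | n + 1 => flowh (m (s - n)) (v (s - n)) (V (s - n)) (parh m v V s h n) 0

/-- The observable at the level `l ≤ s` when it is `h` at the level `s`. -/
noncomputable def lvh (m v : ℕ → ℝ) (V : ℕ → ℝ → ℝ) (s : ℕ) (h : ℝ → ℝ) (l : ℕ) : ℝ → ℝ :=
  parh m v V s h (s - l)

section

variable {m v : ℕ → ℝ} {k : ℕ} {W : ℝ → ℝ}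

lemma lvW_top : lvW m v k W k = W := by simp [lvW, parW]

lemma lvW_succ {l : ℕ} (hl : l < k) :
    lvW m v k W l = flowW (m (l + 1)) (v (l + 1)) (lvW m v k W (l + 1)) 0 := by
  unfold lvW
  have h1 : k - l = (k - (l + 1)) + 1 := by omega
  have h2 : k - (k - (l + 1)) = l + 1 := by omega
  rw [h1, parW, h2]

variable {V : ℕ → ℝ → ℝ} {s : ℕ} {h : ℝ → ℝ}

lemma lvh_top : lvh m v V s h s = h := by simp [lvh, parh]

lemma lvh_succ {l : ℕ} (hl : l < s) :
    lvh m v V s h l = flowh (m (l + 1)) (v (l + 1)) (V (l + 1)) (lvh m v V s h (l + 1)) 0 := by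
  unfold lvh
  have h1 : s - l = (s - (l + 1)) + 1 := by omega
  have h2 : s - (s - (l + 1)) = l + 1 := by omega
  rw [h1, parh, h2]

lemma down_ind {P : ℕ → Prop} {k : ℕ} (top : P k) (step : ∀ l < k, P (l + 1) → P l) :
    ∀ l ≤ k, P l := by
  have h : ∀ d l, l + d = k → P l := by
    intro d
    induction d with
    | zero => intro l hl; rw [add_zero] at hl; rwa [hl]
    | succ d ih => intro l hl; exact step l (by omega) (ih (l + 1) (by omega))
  intro l hl
  exact h (k - l) l (by omega)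

lemma lvh_lvh {l : ℕ} (hl : l ≤ s) :
    ∀ l' ≤ l, lvh m v V l (lvh m v V s h l) l' = lvh m v V s h l' := by
  apply down_ind
  · rw [lvh_top]
  · intro l' hl' ih
    rw [lvh_succ hl', ih, ← lvh_succ (by omega)]

/-- Regularity and bounds of the weights. -/
lemma lvW_spec (hm : ∀ l, 1 ≤ l → l ≤ k → 0 < m l) {a : ℝ} (ha : 0 < a)
    (hW : ∃ W' W'', CB2 W W' W'') (hWa : ∀ x, a ≤ W x) (hW1 : ∀ x, W x ≤ 1) :
    ∀ l ≤ k, (∃ V' V'', CB2 (lvW m v k W l) V' V'') ∧ (∀ x, a ≤ lvW m v k W l x) ∧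
      ∀ x, lvW m v k W l x ≤ 1 := by
  apply down_ind
  · rw [lvW_top]; exact ⟨hW, hWa, hW1⟩
  · intro l hl ih
    obtain ⟨⟨V', V'', hV⟩, h1, h2⟩ := ih
    have hm' := hm (l + 1) (by omega) (by omega)
    rw [lvW_succ hl]
    refine ⟨flowW_cb2 hm' ha hV h1 h2, fun x => ?_, fun x => ?_⟩
    · exact (flowW_mem hm' ha hV.cont.measurable h1 h2 x).1
    · exact (flowW_mem hm' ha hV.cont.measurable h1 h2 x).2

/-- Regularity of the observables. -/
lemma lvh_spec (hm : ∀ l, 1 ≤ l → l ≤ k → 0 < m l) {a : ℝ} (ha : 0 < a)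
    (hV : ∀ l ≤ k, (∃ V' V'', CB2 (V l) V' V'') ∧ (∀ x, a ≤ V l x) ∧ ∀ x, V l x ≤ 1)
    (hs : s ≤ k) (hh : ∃ h' h'', CB2 h h' h'') :
    ∀ l ≤ s, ∃ h' h'', CB2 (lvh m v V s h l) h' h'' := by
  apply down_ind
  · rw [lvh_top]; exact hh
  · intro l hl ih
    obtain ⟨h', h'', ih⟩ := ih
    have hm' := hm (l + 1) (by omega) (by omega)
    obtain ⟨⟨V', V'', hV0⟩, h1, h2⟩ := hV (l + 1) (by omega)
    rw [lvh_succ hl]
    exact flowh_cb2 hm' ha hV0 h1 h2 ih

lemma lvh_one (hm : ∀ l, 1 ≤ l → l ≤ k → 0 < m l) {a : ℝ} (ha : 0 < a)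
    (hV : ∀ l ≤ k, (∃ V' V'', CB2 (V l) V' V'') ∧ (∀ x, a ≤ V l x) ∧ ∀ x, V l x ≤ 1)
    (hs : s ≤ k) : ∀ l ≤ s, lvh m v V s (fun _ => 1) l = fun _ => 1 := by
  apply down_ind
  · rw [lvh_top]
  · intro l hl ih
    have hm' := hm (l + 1) (by omega) (by omega)
    obtain ⟨⟨V', V'', hV0⟩, h1, h2⟩ := hV (l + 1) (by omega)
    rw [lvh_succ hl, ih]
    funext x
    exact flowh_one hm' ha hV0.cont.measurable h1 h2 x

end

/-- The increments up to the level `l`. -/
noncomputable def cut {k : ℕ} (v : ℕ → ℝ) (l : ℕ) : Fin (k + 1) → ℝ :=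
  fun i => if (i : ℕ) ≤ l then v i else 0

section

variable {k : ℕ} {v : ℕ → ℝ}

lemma cut_nonneg (hv : ∀ l, 0 ≤ v l) (l : ℕ) (i : Fin (k + 1)) : 0 ≤ cut v l i := by
  unfold cut
  split_ifs
  · exact hv _
  · exact le_rfl

lemma cut_update {l : ℕ} (hl : l < k) :
    Function.update (cut v (l + 1) : Fin (k + 1) → ℝ) ⟨l + 1, by omega⟩ 0 = cut v l := by
  funext i
  by_cases h : i = ⟨l + 1, by omega⟩
  · subst h
    rw [Function.update_self]
    simp [cut]
  · rw [Function.update_of_ne h]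
    unfold cut
    have h2 : (i : ℕ) ≠ l + 1 := fun h3 => h (Fin.ext h3)
    by_cases h3 : (i : ℕ) ≤ l
    · rw [if_pos h3, if_pos (by omega)]
    · rw [if_neg h3, if_neg (by omega)]

lemma cut_apply {l : ℕ} (hl : l < k + 1) : (cut v l : Fin (k + 1) → ℝ) ⟨l, hl⟩ = v l := by
  simp [cut]

lemma cut_above {l : ℕ} (i : Fin (k + 1)) (hi : l < (i : ℕ)) : cut v l i = 0 := by
  unfold cut
  rw [if_neg (by omega)]

end

namespace Arr

variable {k : ℕ} {w : Fin (k + 1) → ℝ} {δ : Type} [Fintype δ] [DecidableEq δ]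

/-- The logarithm. -/
theorem Lg_eval (𝓐 : Arr k w Empty) (hw : ∑ l, w l = 1) {m v : ℕ → ℝ} (hv : ∀ l, 0 ≤ v l)
    (hm : ∀ l, 1 ≤ l → l ≤ k → 0 < m l) (hmw : ∀ l : Fin (k + 1), up w l = 1 - m l)
    {a : ℝ} (ha : 0 < a) {W : ℝ → ℝ} (hW : ∃ W' W'', CB2 W W' W'') (hWa : ∀ x, a ≤ W x)
    (hW1 : ∀ x, W x ≤ 1) :
    𝓐.Lg (cut v k) (fun x => 1 - W x) = - (𝓐.E (Fin 1) (fun _ => 1) *
        ∫ z, Real.log (lvW m v k W 0 (√(v 0) * z)) ∂(gaussianReal 0 1)) := by
  have hspec := lvW_spec (v := v) hm ha hW hWa hW1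
  have h1 : ∀ l ≤ k, 𝓐.Lg (cut v k) (fun x => 1 - W x) =
      𝓐.Lg (cut v l) (fun x => 1 - lvW m v k W l x) := by
    apply down_ind
    · rw [lvW_top]
    · intro l hl ih
      rw [ih]
      obtain ⟨⟨V', V'', hV⟩, h2, h3⟩ := hspec (l + 1) (by omega)
      have hm' := hm (l + 1) (by omega) (by omega)
      have hmw' := hmw ⟨l + 1, by omega⟩
      simp only at hmw'
      have hcol := 𝓐.Lg_collapse (cut_nonneg hv (l + 1)) (l := ⟨l + 1, by omega⟩)
        (fun l' hl' => cut_above l' hl') (by rw [hmw']; linarith) ha hV h2 h3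
      rw [hcol, cut_update hl, cut_apply, hmw']
      have e1 : 1 - (1 - m (l + 1)) = m (l + 1) := by ring
      rw [e1, lvW_succ hl]
  rw [h1 0 (Nat.zero_le k)]
  obtain ⟨⟨V', V'', hV⟩, h2, h3⟩ := hspec 0 (Nat.zero_le k)
  rw [𝓐.Lg_level0 hw (cut_nonneg hv 0) (fun l hl => cut_above l (by
    rcases Nat.eq_zero_or_pos (l : ℕ) with h | h
    · exact absurd (Fin.ext h) hl
    · exact h)) hV.cont.measurable ha h2 h3]
  rfl

/-- Collapse of the levels above `l₀`, when the pairs are not linked at these levels or one of the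
observables is `1`. -/
theorem Q_chain (𝓐 : Arr k w δ) {e : ℕ} (he : Fintype.card δ = e + 1) {m v : ℕ → ℝ}
    (hv : ∀ l, 0 ≤ v l)
    (hm : ∀ l, 1 ≤ l → l ≤ k → 0 < m l) (hmw : ∀ l : Fin (k + 1), up w l = 1 - m l)
    {a : ℝ} (ha : 0 < a) {V : ℕ → ℝ → ℝ}
    (hV : ∀ l ≤ k, (∃ V' V'', CB2 (V l) V' V'') ∧ (∀ x, a ≤ V l x) ∧ ∀ x, V l x ≤ 1)
    (hVs : ∀ l < k, V l = flowW (m (l + 1)) (v (l + 1)) (V (l + 1)) 0)
    (χ : LM k δ → ℝ) {h : δ → ℝ → ℝ}
    (hh : ∀ i, ∃ h' h'', CB2 (h i) h' h'') {s l₀ : ℕ} (hs : s ≤ k) (hl₀ : l₀ ≤ s)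
    (cons : ∀ l : Fin (k + 1), l₀ < (l : ℕ) → (l : ℕ) ≤ s → ∀ i j, i ≠ j →
      (∀ L, Ultra L → χ L * lk l i j L = 0) ∨ (h i = fun _ => 1) ∨ (h j = fun _ => 1)) :
    𝓐.Q e (cut v s) χ (fun i x => h i x * V s x) (fun x => 1 - V s x) =
      𝓐.Q e (cut v l₀) χ (fun i x => lvh m v V s (h i) l₀ x * V l₀ x)
        (fun x => 1 - V l₀ x) := by
  have hspec := fun i => lvh_spec (v := v) hm ha hV hs (hh i)
  have hone := lvh_one (v := v) hm ha hV hs
  have h1 : ∀ l ≤ s, l₀ ≤ l → 𝓐.Q e (cut v s) χ (fun i x => h i x * V s x) (fun x => 1 - V s x) =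
      𝓐.Q e (cut v l) χ (fun i x => lvh m v V s (h i) l x * V l x) (fun x => 1 - V l x) := by
    apply down_ind
    · intro _
      simp only [lvh_top]
    · intro l hl ih hl'
      rw [ih (by omega)]
      obtain ⟨⟨V', V'', hV0⟩, h2, h3⟩ := hV (l + 1) (by omega)
      have hm' := hm (l + 1) (by omega) (by omega)
      have hmw' := hmw ⟨l + 1, by omega⟩
      simp only at hmw'
      choose h' h'' hh' using fun i => hspec i (l + 1) (by omega)
      have hcol := 𝓐.Q_collapse he (cut_nonneg hv (l + 1)) (l := ⟨l + 1, by omega⟩)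
        (fun l' hl' => cut_above l' hl') (by rw [hmw']; linarith) χ ha hV0 h2 h3 hh'
        (fun i j hij => by
          rcases cons ⟨l + 1, by omega⟩ (by simp; omega) (by simp; omega) i j hij with h4 | h4 | h4
          · exact Or.inl h4
          · right; left; rw [h4]; exact hone (l + 1) (by omega)
          · right; right; rw [h4]; exact hone (l + 1) (by omega))
      rw [hcol, cut_update (by omega), cut_apply, hmw']
      have e1 : 1 - (1 - m (l + 1)) = m (l + 1) := by ring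
      simp only [e1]
      simp only [← hVs l (by omega), ← lvh_succ hl]
  exact h1 l₀ hl₀ le_rfl

/-- One special index. -/
theorem Q_eval_one (𝓐 : Arr k w δ) (hcard : Fintype.card δ = 1) (hw : ∑ l, w l = 1) {m v : ℕ → ℝ}
    (hv : ∀ l, 0 ≤ v l)
    (hm : ∀ l, 1 ≤ l → l ≤ k → 0 < m l) (hmw : ∀ l : Fin (k + 1), up w l = 1 - m l)
    {a : ℝ} (ha : 0 < a) {W : ℝ → ℝ} (hW : ∃ W' W'', CB2 W W' W'') (hWa : ∀ x, a ≤ W x)
    (hW1 : ∀ x, W x ≤ 1) (χ : LM k δ → ℝ) {h : ℝ → ℝ} (hh : ∃ h' h'', CB2 h h' h'') :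
    𝓐.Q 0 (cut v k) χ (fun _ x => h x * W x) (fun x => 1 - W x) =
      𝓐.E (Fin 0) (fun L => χ (res L)) *
        ∫ z, lvh m v (lvW m v k W) k h 0 (√(v 0) * z) ∂(gaussianReal 0 1) := by
  have hspec := lvW_spec (v := v) hm ha hW hWa hW1
  have hsub : ∀ i j : δ, i = j := Fintype.card_le_one_iff.1 hcard.le
  have h1 := 𝓐.Q_chain (e := 0) (by simpa using hcard) hv hm hmw ha hspec
    (fun l hl => lvW_succ hl) χ (h := fun _ => h) (fun _ => hh) le_rfl (Nat.zero_le k)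
    (fun l _ _ i j hij => absurd (hsub i j) hij)
  rw [lvW_top] at h1
  rw [h1]
  obtain ⟨h', h'', hh0⟩ := lvh_spec (v := v) hm ha hspec le_rfl hh 0 (Nat.zero_le k)
  obtain ⟨⟨V', V'', hV⟩, h2, h3⟩ := hspec 0 (Nat.zero_le k)
  rw [𝓐.Q_level0 (e := 0) hw (by simpa using hcard) (cut_nonneg hv 0) (fun l hl => cut_above l (by
    rcases Nat.eq_zero_or_pos (l : ℕ) with h | h
    · exact absurd (Fin.ext h) hl
    · exact h)) χ (fun _ => ⟨hh0.cont.measurable, hh0.b0⟩) hV.cont.measurable ha h2 h3]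
  simp [cut, hcard]

/-- The value of the pair functional for replicas linked exactly at the level `l`. -/
noncomputable def pairVal (m v : ℕ → ℝ) (k : ℕ) (W h : ℝ → ℝ) (l : ℕ) : ℝ :=
  ∫ z, lvh m v (lvW m v k W) l (fun x => lvh m v (lvW m v k W) k h l x ^ 2) 0 (√(v 0) * z)
    ∂(gaussianReal 0 1)

/-- Two special indices, linked exactly at the level `l₀`. -/
theorem Q_eval_two (𝓐 : Arr k w δ) (hcard : Fintype.card δ = 2) {i₀ j₀ : δ} (hne : i₀ ≠ j₀)
    (hw : ∑ l, w l = 1) {m v : ℕ → ℝ} (hv : ∀ l, 0 ≤ v l)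
    (hm : ∀ l, 1 ≤ l → l ≤ k → 0 < m l) (hmw : ∀ l : Fin (k + 1), up w l = 1 - m l)
    {a : ℝ} (ha : 0 < a) {W : ℝ → ℝ} (hW : ∃ W' W'', CB2 W W' W'') (hWa : ∀ x, a ≤ W x)
    (hW1 : ∀ x, W x ≤ 1) {h : ℝ → ℝ} (hh : ∃ h' h'', CB2 h h' h'') (l₀ : Fin (k + 1)) :
    𝓐.Q 1 (cut v k) (fun L => if L i₀ j₀ = l₀ then 1 else 0) (fun _ x => h x * W x)
      (fun x => 1 - W x) =
      𝓐.E (Fin 0) (fun L => if L (Sum.inl i₀) (Sum.inl j₀) = l₀ then 1 else 0) *
        pairVal m v k W h l₀ := by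
  have hall : ∀ i : δ, i = i₀ ∨ i = j₀ := by
    intro i
    by_contra hcon
    push Not at hcon
    have h1 : ({i, i₀, j₀} : Finset δ).card ≤ 2 := by
      rw [← hcard]; exact Finset.card_le_univ _
    have h2 : ({i, i₀, j₀} : Finset δ).card = 3 := by
      rw [Finset.card_eq_three]
      exact ⟨i, i₀, j₀, hcon.1, hcon.2, hne, rfl⟩
    omega
  have huniv : (Finset.univ : Finset δ) = {i₀, j₀} := by
    ext i
    simpa using hall i
  have hspec := lvW_spec (v := v) hm ha hW hWa hW1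
  set V := lvW m v k W with hVdef
  set χ : LM k δ → ℝ := fun L => if L i₀ j₀ = l₀ then 1 else 0 with hχ
  have hl₀ : (l₀ : ℕ) ≤ k := by omega
  -- above `l₀`
  have h1 := 𝓐.Q_chain (e := 1) hcard hv hm hmw ha hspec (fun l hl => lvW_succ hl) χ
    (h := fun _ => h) (fun _ => hh) (s := k) (l₀ := l₀) le_rfl hl₀
    (fun l hl _ i j hij => by
      left
      intro L hL
      simp only [hχ]
      by_cases h2 : L i₀ j₀ = l₀
      · have h3 : L i j = l₀ := by
          rcases hall i with rfl | rfl <;> rcases hall j with rfl | rfl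
          · exact absurd rfl hij
          · exact h2
          · rw [hL.symm]; exact h2
          · exact absurd rfl hij
        unfold lk
        rw [h3, if_neg (show ¬ l ≤ l₀ from not_le.2 hl), mul_zero]
      · rw [if_neg h2, zero_mul])
  have hVk : V k = W := lvW_top
  rw [hVk] at h1
  rw [h1]
  set g : ℝ → ℝ := lvh m v V k h l₀ with hg
  obtain ⟨g', g'', hg0⟩ := lvh_spec (v := v) hm ha hspec le_rfl hh l₀ hl₀
  rw [← hg] at hg0
  obtain ⟨⟨V', V'', hV⟩, h2, h3⟩ := hspec l₀ hl₀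
  -- on the link, everything can be moved
  have hχlk : ∀ L, Ultra L → χ L = χ L * lk l₀ i₀ j₀ L := by
    intro L _
    simp only [hχ]
    by_cases h4 : L i₀ j₀ = l₀
    · unfold lk
      rw [if_pos h4, if_pos (le_of_eq h4.symm), mul_one]
    · rw [if_neg h4, zero_mul]
  have hcl : ∀ l', l₀ < l' → (cut v l₀ : Fin (k + 1) → ℝ) l' = 0 := fun l' hl' => cut_above l' hl'
  have e1 : ∀ A : δ → ℝ → ℝ, 𝓐.Q 1 (cut v l₀) χ A (fun x => 1 - V l₀ x) =
      𝓐.qq 1 (cut v l₀) l₀ χ A (fun x => 1 - V l₀ x) i₀ j₀ fun x => A i₀ x * A j₀ x := by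
    intro A
    rw [𝓐.Q_congr 1 _ hχlk]
    have h4 := 𝓐.Q_pair 1 (l := l₀) χ (A := A) (v := fun x => 1 - V l₀ x) hcl hne (A i₀) (A j₀)
    rw [Function.update_eq_self, Function.update_eq_self] at h4
    exact h4
  have e2 : 𝓐.Q 1 (cut v l₀) χ (fun _ x => g x * V l₀ x) (fun x => 1 - V l₀ x) =
      𝓐.Q 1 (cut v l₀) χ (fun i x => (if i = i₀ then fun x => g x ^ 2 else fun _ => 1) x * V l₀ x)
        (fun x => 1 - V l₀ x) := by
    rw [e1, e1]
    unfold qq
    congr 1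
    funext i x
    by_cases hi : i = j₀
    · subst hi
      simp only [Function.update_self]
    · have hi' : i = i₀ := (hall i).resolve_right hi
      subst hi'
      rw [Function.update_of_ne hne, Function.update_of_ne hne, Function.update_self,
        Function.update_self]
      simp only [if_true, if_neg hne.symm]
      ring
  rw [e2]
  have hg2 : ∃ p' p'', CB2 (fun x => g x ^ 2) p' p'' := by
    have h4 := hg0.mul hg0
    have h5 : (fun x => g x ^ 2) = fun x => g x * g x := by funext x; ring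
    rw [h5]
    exact ⟨_, _, h4⟩
  have hone : ∃ p' p'', CB2 (fun _ : ℝ => (1 : ℝ)) p' p'' :=
    ⟨fun _ => 0, fun _ => 0, ⟨fun x => hasDerivAt_const x 1, fun x => hasDerivAt_const x 0,
      continuous_const, ⟨1, by simp⟩, ⟨0, by simp⟩, ⟨0, by simp⟩⟩⟩
  -- below `l₀`
  have h5 := 𝓐.Q_chain (e := 1) hcard hv hm hmw ha hspec (fun l hl => lvW_succ hl) χ
    (h := fun i => if i = i₀ then fun x => g x ^ 2 else fun _ => 1)
    (fun i => by
      by_cases hi : i = i₀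
      · simpa [hi] using hg2
      · simpa [hi] using hone) (s := l₀) (l₀ := 0) hl₀ (Nat.zero_le _)
    (fun l _ _ i j hij => by
      right
      rcases hall i with rfl | rfl
      · right
        rcases hall j with rfl | rfl
        · exact absurd rfl hij
        · rw [if_neg hne.symm]
      · left
        rw [if_neg hne.symm])
  rw [h5]
  obtain ⟨⟨V0', V0'', hV0⟩, h20, h30⟩ := hspec 0 (Nat.zero_le k)
  obtain ⟨p', p'', hp⟩ := lvh_spec (v := v) hm ha hspec hl₀ hg2 0 (Nat.zero_le _)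
  have hone0 := lvh_one (v := v) hm ha hspec hl₀ 0 (Nat.zero_le _)
  rw [𝓐.Q_level0 (e := 1) hw hcard (cut_nonneg hv 0) (fun l hl => cut_above l (by
    rcases Nat.eq_zero_or_pos (l : ℕ) with h | h
    · exact absurd (Fin.ext h) hl
    · exact h)) χ (fun i => by
      by_cases hi : i = i₀
      · simp only [hi, if_true]
        exact ⟨hp.cont.measurable, hp.b0⟩
      · simp only [hi, if_false, hone0]
        exact BM.const 1) hV0.cont.measurable ha h20 h30]
  rw [huniv]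
  simp only [Finset.prod_pair hne, if_true, if_neg hne.symm, hone0, mul_one]
  unfold pairVal
  rw [← hVdef, ← hg]
  have e3 : (cut v 0 : Fin (k + 1) → ℝ) 0 = v 0 := by simp [cut]
  rw [e3]
  rfl

end Arr

end Vale.Agent.P157.Par
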