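import Vale.Agent.P157.ParLevDefs

open MeasureTheory ProbabilityTheory Filter Topology

namespace Vale.Agent.P157.Par

set_option linter.unusedSectionVars false
set_option linter.unusedVariables false

/-! ### levels -/

section lev

variable {k : ℕ} {b : Fin k → ℝ}

theorem le_iff_lt_lev (hb : StrictMono b) (i : Fin k) (r : ℝ) :
    b i ≤ r ↔ i.val < (lev b r).val := by
  unfold lev
  simp only
  constructor
  · intro h
    have h1 : Finset.Iic i ⊆ Finset.univ.filter fun j => b j ≤ r := by
      intro j hj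
      rw [Finset.mem_Iic] at hj
      rw [Finset.mem_filter]
      exact ⟨Finset.mem_univ _, (hb.monotone hj).trans h⟩
    have h2 := Finset.card_le_card h1
    rw [Fin.card_Iic] at h2
    omega
  · intro h
    by_contra hcon
    have h1 : (Finset.univ.filter fun j => b j ≤ r) ⊆ Finset.Iio i := by
      intro j hj
      rw [Finset.mem_filter] at hj
      rw [Finset.mem_Iio]
      by_contra hji
      exact hcon ((hb.monotone (not_lt.mp hji)).trans hj.2)
    have h2 := Finset.card_le_card h1
    rw [Fin.card_Iio] at h2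
    omega

theorem lev_val_eq (hb : StrictMono b) {m : ℕ} (hm : m ≤ k) {r : ℝ}
    (h : ∀ j : Fin k, b j ≤ r ↔ j.val < m) : (lev b r).val = m := by
  rcases lt_trichotomy (lev b r).val m with h1 | h1 | h1
  · have h2 := (h ⟨(lev b r).val, by omega⟩).2 h1
    rw [le_iff_lt_lev hb] at h2
    exact absurd h2 (lt_irrefl _)
  · exact h1
  · have h3 := (lev b r).2
    have h2 : b ⟨m, by omega⟩ ≤ r := by
      rw [le_iff_lt_lev hb]
      exact h1
    exact absurd ((h _).1 h2) (lt_irrefl _)

theorem lev_remove {k : ℕ} {b : Fin (k + 1) → ℝ} (hb : StrictMono b) (i : Fin (k + 1))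
    (l : Fin (k + 2)) (hil : l.val = i.val + 1 ∨ (l.val = 0 ∧ i.val = 0))
    (q : Fin (k + 2) → ℝ) (r : ℝ) (hr : lev b r ≠ l) :
    q (l.succAbove (lev (fun j => b (i.succAbove j)) r)) = q (lev b r) := by
  have hb' : StrictMono fun j => b (i.succAbove j) :=
    hb.comp (Fin.strictMono_succAbove i)
  set m := (lev b r).val with hm
  have hml : m ≠ l.val := fun h => hr (Fin.ext h)
  have hmk : m < k + 2 := (lev b r).2
  have hik := i.2
  have h1 : (lev (fun j => b (i.succAbove j)) r).val = if i.val < m then m - 1 else m := by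
    refine lev_val_eq hb' ?_ ?_
    · split_ifs <;> omega
    · intro j
      rw [le_iff_lt_lev hb, ← hm]
      have h2 : (i.succAbove j).val = if j.val < i.val then j.val else j.val + 1 := by
        unfold Fin.succAbove
        by_cases h3 : j.val < i.val
        · have h4 : j.castSucc < i := h3
          rw [if_pos h4, if_pos h3]
          rfl
        · have h4 : ¬ j.castSucc < i := h3
          rw [if_neg h4, if_neg h3]
          rfl
      rw [h2]
      split_ifs <;> omega
  congr 1
  apply Fin.ext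
  set j := lev (fun j => b (i.succAbove j)) r with hj
  have h2 : (l.succAbove j).val = if j.val < l.val then j.val else j.val + 1 := by
    unfold Fin.succAbove
    by_cases h3 : j.val < l.val
    · have h4 : j.castSucc < l := h3
      rw [if_pos h4, if_pos h3]
      rfl
    · have h4 : ¬ j.castSucc < l := h3
      rw [if_neg h4, if_neg h3]
      rfl
  rw [h2, h1, ← hm]
  split_ifs <;> omega

end lev

/-! ### limits along the ultrafilter -/

theorem exists_ulim (U : Ultrafilter ℕ) {f : ℕ → ℝ} {C : ℝ} (h : ∀ N, |f N| ≤ C) :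
    ∃ a, Tendsto f U (𝓝 a) := by
  have h1 : IsCompact (Set.Icc (-C) C) := isCompact_Icc
  have h2 : ((U.map f : Ultrafilter ℝ) : Filter ℝ) ≤ 𝓟 (Set.Icc (-C) C) := by
    rw [le_principal_iff]
    have h3 : f ⁻¹' (Set.Icc (-C) C) ∈ (U : Filter ℕ) := Filter.univ_mem' fun N => abs_le.mp (h N)
    exact h3
  obtain ⟨a, -, ha⟩ := h1.ultrafilter_le_nhds (U.map f) h2
  exact ⟨a, ha⟩

variable {U : Ultrafilter ℕ} {S : ℕ → Sys}

theorem Sys.pr_le_one (S : Sys) {n : ℕ} (E : (Fin n → S.X) → Prop) : S.pr E ≤ 1 := by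
  have h := Sys.tav_mono (G := fun _ _ => (1 : ℝ)) (D := 1) (Sys.bdd_ind E)
    ⟨fun _ => measurable_const, fun _ _ => by norm_num⟩ (fun _ x => ind_le_one (E x))
  rwa [Sys.tav_const] at h

theorem Sys.pr_sum_eq_one (S : Sys) {n : ℕ} {κ : Type*} [Fintype κ] [DecidableEq κ]
    (f : (Fin n → S.X) → κ) : ∑ l, S.pr (fun x => f x = l) = 1 := by
  have h1 : ∀ s : Finset κ, ∑ t ∈ s, S.pr (fun x => f x = t) =
      S.tav (n := n) (fun _ x => ∑ t ∈ s, ind (f x = t)) := by
    intro s
    induction s using Finset.induction_on with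
    | empty =>
      simp only [Finset.sum_empty]
      exact (Sys.tav_const 0).symm
    | insert t s hts ih =>
      rw [Finset.sum_insert hts, ih]
      obtain ⟨D, hD⟩ := Sys.exists_bdd (S := S) (fun x : Fin n → S.X => ∑ t ∈ s, ind (f x = t))
      unfold Sys.pr
      rw [← Sys.tav_add (Sys.bdd_ind fun x => f x = t) hD]
      refine Sys.tav_congr fun _ x => ?_
      rw [Finset.sum_insert hts]
  rw [h1 Finset.univ]
  have h2 : ∀ x : Fin n → S.X, ∑ t, ind (f x = t) = 1 := by
    intro x
    rw [Finset.sum_eq_single (f x)]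
    · exact ind_of rfl
    · intro t _ ht
      exact ind_of_not fun h => ht h.symm
    · intro h
      exact absurd (Finset.mem_univ _) h
  simp only [h2]
  exact Sys.tav_const 1

theorem Sys.pr_le_add (S : Sys) {n : ℕ} {E E1 E2 : (Fin n → S.X) → Prop}
    (h : ∀ x, E x → E1 x ∨ E2 x) : S.pr E ≤ S.pr E1 + S.pr E2 := by
  have h1 := Sys.pr_le_sum (S := S) (ι := Bool) E (fun t x => if t then E1 x else E2 x)
    (fun x hx => by
      rcases h x hx with h2 | h2
      · exact ⟨true, by simpa using h2⟩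
      · exact ⟨false, by simpa using h2⟩)
  simpa using h1

theorem tendsto_zero_of_le {f g : ℕ → ℝ} (h0 : ∀ N, 0 ≤ f N) (h : ∀ N, f N ≤ g N)
    (hg : Tendsto g U (𝓝 0)) : Tendsto f U (𝓝 0) :=
  tendsto_of_tendsto_of_tendsto_of_le_of_le tendsto_const_nhds hg h0 h

/-- removal of the levels of weight zero -/
theorem levels_aux {ε : ℝ} (k : ℕ) : ∀ (b : Fin k → ℝ) (q : Fin (k + 1) → ℝ),
    StrictMono b → (∀ i, 0 < b i) → (∀ i, b i ≤ 1) → (∀ i, NonAtom U S (b i)) →
    Monotone q → (∀ l, 0 ≤ q l) → (∀ l, q l ≤ 1) →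
    Tendsto (fun j => (S j).pr (fun x : Fin 2 → (S j).X =>
        ε < |(S j).R (x 0) (x 1) - q (lev b ((S j).R (x 0) (x 1)))|)) U (𝓝 0) →
    ∃ (k : ℕ) (b : Fin k → ℝ) (q : Fin (k + 1) → ℝ) (w : Fin (k + 1) → ℝ),
      StrictMono b ∧ (∀ i, 0 < b i) ∧ (∀ i, b i ≤ 1) ∧ (∀ i, NonAtom U S (b i)) ∧
      Monotone q ∧ (∀ l, 0 ≤ q l) ∧ (∀ l, q l ≤ 1) ∧ (∀ l, 0 < w l) ∧ ∑ l, w l = 1 ∧
      (∀ l, Tendsto (fun j => (S j).pr (fun x : Fin 2 → (S j).X =>
        lev b ((S j).R (x 0) (x 1)) = l)) U (𝓝 (w l))) ∧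
      Tendsto (fun j => (S j).pr (fun x : Fin 2 → (S j).X =>
        ε < |(S j).R (x 0) (x 1) - q (lev b ((S j).R (x 0) (x 1)))|)) U (𝓝 0) := by
  induction k with
  | zero =>
    intro b q hb hb0 hb1 hna hq hq0 hq1 hlim
    refine ⟨0, b, q, fun _ => 1, hb, hb0, hb1, hna, hq, hq0, hq1, fun _ => one_pos, by simp, ?_, hlim⟩
    intro l
    have h1 : ∀ j, (S j).pr (fun x : Fin 2 → (S j).X => lev b ((S j).R (x 0) (x 1)) = l) = 1 := by
      intro j
      have h2 := (S j).pr_sum_eq_one (fun x : Fin 2 → (S j).X => lev b ((S j).R (x 0) (x 1)))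
      rw [Fintype.sum_eq_single l (fun l' hl' => absurd (Subsingleton.elim (α := Fin 1) l' l) hl')]
        at h2
      exact h2
    simp only [h1]
    exact tendsto_const_nhds
  | succ k ih =>
    intro b q hb hb0 hb1 hna hq hq0 hq1 hlim
    have hex : ∀ l : Fin (k + 2), ∃ a, Tendsto (fun j => (S j).pr (fun x : Fin 2 → (S j).X =>
        lev b ((S j).R (x 0) (x 1)) = l)) U (𝓝 a) := fun l =>
      exists_ulim U (C := 1) fun N => by
        rw [abs_of_nonneg ((S N).pr_nonneg _)]
        exact (S N).pr_le_one _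
    choose w hw using hex
    by_cases hpos : ∀ l, 0 < w l
    · refine ⟨k + 1, b, q, w, hb, hb0, hb1, hna, hq, hq0, hq1, hpos, ?_, hw, hlim⟩
      have h1 : Tendsto (fun j => ∑ l, (S j).pr (fun x : Fin 2 → (S j).X =>
        lev b ((S j).R (x 0) (x 1)) = l)) U (𝓝 (∑ l, w l)) :=
        tendsto_finsetSum _ fun l _ => hw l
      simp only [Sys.pr_sum_eq_one] at h1
      exact (tendsto_nhds_unique tendsto_const_nhds h1).symm
    · push Not at hpos
      obtain ⟨l, hl⟩ := hpos
      have hl0 : w l = 0 := by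
        refine le_antisymm hl ?_
        exact ge_of_tendsto' (hw l) fun j => (S j).pr_nonneg _
      obtain ⟨i, hil⟩ : ∃ i : Fin (k + 1), l.val = i.val + 1 ∨ (l.val = 0 ∧ i.val = 0) := by
        by_cases h0 : l.val = 0
        · exact ⟨0, Or.inr ⟨h0, rfl⟩⟩
        · exact ⟨⟨l.val - 1, by have := l.2; omega⟩, Or.inl (by simp only; omega)⟩
      refine ih (fun j => b (i.succAbove j)) (fun j => q (l.succAbove j))
        (hb.comp (Fin.strictMono_succAbove i)) (fun _ => hb0 _) (fun _ => hb1 _) (fun _ => hna _)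
        (hq.comp (Fin.strictMono_succAbove l).monotone) (fun _ => hq0 _) (fun _ => hq1 _) ?_
      have h2 := hlim.add (hw l)
      rw [hl0, add_zero] at h2
      refine tendsto_zero_of_le (fun N => (S N).pr_nonneg _) (fun N => ?_) h2
      refine (S N).pr_le_add fun x hx => ?_
      by_cases h3 : lev b ((S N).R (x 0) (x 1)) = l
      · exact Or.inr h3
      · left
        rw [lev_remove hb i l hil q _ h3] at hx
        exact hx

/-- Choice of the levels: for every mesh there are boundaries which are not atoms, such that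
every level has positive limiting probability and the overlap is close to the value of its
level. -/
theorem exists_levels {U : Ultrafilter ℕ} {S : ℕ → Sys}
    (hGG : ∀ p : ℕ, AsympGG U S (fun x => x ^ p)) {ε : ℝ} (hε : 0 < ε) :
    ∃ (k : ℕ) (b : Fin k → ℝ) (q : Fin (k + 1) → ℝ) (w : Fin (k + 1) → ℝ),
      StrictMono b ∧ (∀ i, 0 < b i) ∧ (∀ i, b i ≤ 1) ∧ (∀ i, NonAtom U S (b i)) ∧
      Monotone q ∧ (∀ l, 0 ≤ q l) ∧ (∀ l, q l ≤ 1) ∧ (∀ l, 0 < w l) ∧ ∑ l, w l = 1 ∧
      (∀ l, Tendsto (fun j => (S j).pr (fun x : Fin 2 → (S j).X =>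
        lev b ((S j).R (x 0) (x 1)) = l)) U (𝓝 (w l))) ∧
      Tendsto (fun j => (S j).pr (fun x : Fin 2 → (S j).X =>
        ε < |(S j).R (x 0) (x 1) - q (lev b ((S j).R (x 0) (x 1)))|)) U (𝓝 0) := by
  obtain ⟨K, hK⟩ := exists_nat_gt (2 / ε)
  have hK0 : (0 : ℝ) < K := lt_trans (by positivity) hK
  set h : ℝ := 1 / K with hh
  have h0 : 0 < h := by positivity
  have h2 : 2 * h < ε := by
    rw [hh, mul_one_div, div_lt_iff₀ hK0]
    rw [div_lt_iff₀ hε] at hK
    linarith
  have hKh : (K : ℝ) * h = 1 := by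
    rw [hh]
    field_simp
  have hex : ∀ i : Fin K, ∃ c, (i.val : ℝ) * h < c ∧ c < ((i.val : ℝ) + 1) * h ∧ NonAtom U S c :=
    fun i => exists_nonAtom U S (by linarith only [h0])
  choose b hb1 hb2 hna using hex
  have hble : ∀ i, b i < 1 := by
    intro i
    have h3 : ((i.val : ℝ) + 1) * h ≤ K * h := by
      have h4 : (i.val : ℝ) + 1 ≤ K := by exact_mod_cast i.2
      exact mul_le_mul_of_nonneg_right h4 h0.le
    linarith only [hKh, h3, hb2, hb2 i]
  have hbpos : ∀ i, 0 < b i := fun i => lt_of_le_of_lt (by positivity) (hb1 i)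
  have hbm : StrictMono b := by
    intro i j hij
    have h3 : ((i.val : ℝ) + 1) * h ≤ (j.val : ℝ) * h := by
      have h4 : (i.val : ℝ) + 1 ≤ j.val := by exact_mod_cast hij
      exact mul_le_mul_of_nonneg_right h4 h0.le
    linarith only [h3, hb2 i, hb1 j]
  let q : Fin (K + 1) → ℝ := Fin.cons 0 b
  refine levels_aux K b q hbm hbpos (fun i => (hble i).le) hna ?_ ?_ ?_ ?_
  · intro l l' hll
    induction l using Fin.cases with
    | zero =>
      induction l' using Fin.cases with
      | zero => exact le_rfl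
      | succ j => exact (hbpos j).le
    | succ i =>
      induction l' using Fin.cases with
      | zero => exact absurd hll (by simp)
      | succ j => exact hbm.monotone (Fin.succ_le_succ_iff.mp hll)
  · intro l
    induction l using Fin.cases with
    | zero => exact le_rfl
    | succ j => exact (hbpos j).le
  · intro l
    induction l using Fin.cases with
    | zero => exact zero_le_one
    | succ j => exact (hble j).le
  · refine tendsto_zero_of_le (fun N => (S N).pr_nonneg _) (fun N => ?_) (positivity hGG hε)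
    have e1 : (S N).tav (n := 2) (fun _ x => if (S N).R (x 0) (x 1) < -ε then 1 else 0) =
        (S N).pr (n := 2) (fun x => (S N).R (x 0) (x 1) < -ε) :=
      Sys.tav_congr fun _ x => (ind_eq _).symm
    rw [e1]
    refine Sys.pr_mono (S N) fun x hx => ?_
    by_contra hcon
    push Not at hcon
    have hR := (Sys.R_mem (S := S N) (x 0) (x 1)).2
    generalize (S N).R (x 0) (x 1) = r at hx hcon hR
    apply absurd hx
    rw [not_lt]
    have hlk := (lev b r).2
    by_cases hl0 : (lev b r).val = 0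
    · have h3 : lev b r = 0 := Fin.ext hl0
      have h4 : q (lev b r) = 0 := by rw [h3]; rfl
      rw [h4, sub_zero, abs_le]
      refine ⟨by linarith, ?_⟩
      have hKpos : 0 < K := by exact_mod_cast hK0
      have h5 : ¬ b ⟨0, hKpos⟩ ≤ r := by
        rw [le_iff_lt_lev hbm, hl0]
        exact lt_irrefl _
      have h6 := hb2 ⟨0, hKpos⟩
      simp only [Nat.cast_zero, zero_add, one_mul] at h6
      linarith only [h0, h2, h6, not_le.mp h5]
    · obtain ⟨m, hm⟩ : ∃ m, (lev b r).val = m + 1 := ⟨(lev b r).val - 1, by omega⟩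
      have hmK : m < K := by omega
      have h3 : lev b r = Fin.succ ⟨m, hmK⟩ := Fin.ext hm
      have h4 : q (lev b r) = b ⟨m, hmK⟩ := by rw [h3]; rfl
      have h5 : b ⟨m, hmK⟩ ≤ r := by
        rw [le_iff_lt_lev hbm, hm]
        exact Nat.lt_succ_self m
      rw [h4, abs_le]
      refine ⟨by linarith, ?_⟩
      have h6 : r ≤ ((m : ℝ) + 2) * h := by
        by_cases hmK2 : m + 1 < K
        · have h7 : ¬ b ⟨m + 1, hmK2⟩ ≤ r := by
            rw [le_iff_lt_lev hbm, hm]
            exact lt_irrefl _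
          have h8 := hb2 ⟨m + 1, hmK2⟩
          simp only [Nat.cast_add, Nat.cast_one] at h8
          have h9 := not_le.mp h7
          linarith
        · have h7 : K = m + 1 := by omega
          have h8 : (K : ℝ) = m + 1 := by exact_mod_cast h7
          rw [h8] at hKh
          linarith
      have h7 := hb1 ⟨m, hmK⟩
      simp only at h7
      linarith

/-! ### averages over replicas indexed by a finite type -/

theorem Sys.avT_eq (S : Sys) {J : Type} [Fintype J] [DecidableEq J] {n : ℕ} (e : J ≃ Fin n)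
    (G : S.T → (J → S.X) → ℝ) :
    S.avT (fun ω x => G (S.π ω) x) = S.tav (n := n) (fun t y => G t (fun a => y (e a))) := by
  unfold Sys.avT Sys.tav Sys.av
  congr 1
  funext ω
  rw [← Equiv.sum_comp (Equiv.arrowCongr e.symm (Equiv.refl S.X))]
  refine Finset.sum_congr rfl fun y _ => ?_
  have h1 : (Equiv.arrowCongr e.symm (Equiv.refl S.X)) y = fun a => y (e a) := by
    funext a
    simp [Equiv.arrowCongr]
  rw [h1]
  congr 1
  exact Equiv.prod_comp e fun i => S.w ω (y i)

theorem Sys.avT_comp (S : Sys) {J J' : Type} [Fintype J] [DecidableEq J] [Fintype J']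
    [DecidableEq J'] (f : J → J') (hf : Function.Injective f) (G : S.T → (J → S.X) → ℝ) :
    S.avT (fun ω (x : J' → S.X) => G (S.π ω) (fun a => x (f a))) =
      S.avT (fun ω x => G (S.π ω) x) := by
  let e := Fintype.equivFin J
  let e' := Fintype.equivFin J'
  rw [S.avT_eq e G, S.avT_eq e' (fun t x => G t (fun a => x (f a)))]
  have h := Sys.tav_comp (S := S) (fun k => e' (f (e.symm k)))
    (e'.injective.comp (hf.comp e.symm.injective)) (fun t y => G t (fun a => y (e a)))
  rw [← h]
  simp only [Equiv.symm_apply_apply]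

section aseq

variable {k : ℕ} {δ : Type} [Fintype δ] [DecidableEq δ]

/-- The sequence of the averages. -/
noncomputable def aseq (S : ℕ → Sys) (b : Fin k → ℝ) (Φ : ∀ j, (S j).T → (δ → (S j).X) → ℝ)
    (ι : Type) [Fintype ι] [DecidableEq ι] (A : LM k (δ ⊕ ι) → ℝ) (j : ℕ) : ℝ :=
  (S j).avT (fun ω (x : δ ⊕ ι → (S j).X) => Φ j ((S j).π ω) (fun i => x (Sum.inl i)) *
    A ((S j).LMat b x))

variable {S : ℕ → Sys} {b : Fin k → ℝ} {Φ : ∀ j, (S j).T → (δ → (S j).X) → ℝ}

theorem exists_max {k : ℕ} {J : Type} [Finite J] (A : LM k J → ℝ) : ∃ M, 0 < M ∧ ∀ L, |A L| ≤ M := by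
  classical
  have : Fintype J := Fintype.ofFinite J
  refine ⟨1 + ∑ L, |A L|, by positivity, fun L => ?_⟩
  have := Finset.single_le_sum (f := fun L => |A L|) (fun _ _ => abs_nonneg _) (Finset.mem_univ L)
  linarith

theorem bdd_aseq (hΦm : ∀ j x, Measurable fun t => Φ j t x) (hΦ : ∀ j t x, |Φ j t x| ≤ 1)
    {ι : Type} [Fintype ι] {n : ℕ} (e : δ ⊕ ι ≃ Fin n) (A : LM k (δ ⊕ ι) → ℝ) {a : ℝ}
    (ha : ∀ L, |A L| ≤ a) (ψ : (j : ℕ) → (Fin n → (S j).X) → LM k (δ ⊕ ι)) (j : ℕ) :
    Sys.Bdd (S j) (fun t (y : Fin n → (S j).X) =>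
      Φ j t (fun i => y (e (Sum.inl i))) * A (ψ j y)) a where
  meas y := (hΦm j _).mul_const _
  bdd t y := by
    rw [abs_mul]
    calc |Φ j t (fun i => y (e (Sum.inl i)))| * |A (ψ j y)| ≤ 1 * |A (ψ j y)| :=
          mul_le_mul_of_nonneg_right (hΦ j t _) (abs_nonneg _)
      _ ≤ a := by rw [one_mul]; exact ha _

theorem aseq_eq {ι : Type} [Fintype ι] [DecidableEq ι] {n : ℕ} (e : δ ⊕ ι ≃ Fin n)
    (A : LM k (δ ⊕ ι) → ℝ) (j : ℕ) :
    aseq S b Φ ι A j = (S j).tav (n := n) (fun t y => Φ j t (fun i => y (e (Sum.inl i))) *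
      A ((S j).LMat b fun a => y (e a))) :=
  (S j).avT_eq e fun t x => Φ j t (fun i => x (Sum.inl i)) * A ((S j).LMat b x)

theorem aseq_bound (hΦm : ∀ j x, Measurable fun t => Φ j t x) (hΦ : ∀ j t x, |Φ j t x| ≤ 1)
    {ι : Type} [Fintype ι] [DecidableEq ι] {A : LM k (δ ⊕ ι) → ℝ} {a : ℝ}
    (ha : ∀ L, |A L| ≤ a) (j : ℕ) : |aseq S b Φ ι A j| ≤ a := by
  rw [aseq_eq (Fintype.equivFin (δ ⊕ ι))]
  have h1 := bdd_aseq hΦm hΦ (Fintype.equivFin (δ ⊕ ι)) A ha
    (fun j y => (S j).LMat b fun a => y ((Fintype.equivFin (δ ⊕ ι)) a)) j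
  have ha0 : 0 ≤ a := (abs_nonneg _).trans (ha fun _ _ => 0)
  have h2 := Sys.tav_abs_le (G := fun _ _ => a) (D := a) h1
    ⟨fun _ => measurable_const, fun _ _ => by rw [abs_of_nonneg ha0]⟩ (fun t x => h1.bdd t x)
  rwa [Sys.tav_const] at h2

theorem aseq_add (hΦm : ∀ j x, Measurable fun t => Φ j t x) (hΦ : ∀ j t x, |Φ j t x| ≤ 1)
    {ι : Type} [Fintype ι] [DecidableEq ι] (A B : LM k (δ ⊕ ι) → ℝ) (j : ℕ) :
    aseq S b Φ ι (A + B) j = aseq S b Φ ι A j + aseq S b Φ ι B j := by
  obtain ⟨a, -, ha⟩ := exists_max A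
  obtain ⟨a', -, ha'⟩ := exists_max B
  rw [aseq_eq (Fintype.equivFin (δ ⊕ ι)), aseq_eq (Fintype.equivFin (δ ⊕ ι)),
    aseq_eq (Fintype.equivFin (δ ⊕ ι)), ← Sys.tav_add
    (bdd_aseq hΦm hΦ (Fintype.equivFin (δ ⊕ ι)) A ha
      (fun j y => (S j).LMat b fun a => y ((Fintype.equivFin (δ ⊕ ι)) a)) j)
    (bdd_aseq hΦm hΦ (Fintype.equivFin (δ ⊕ ι)) B ha'
      (fun j y => (S j).LMat b fun a => y ((Fintype.equivFin (δ ⊕ ι)) a)) j)]
  refine Sys.tav_congr fun t y => ?_
  rw [Pi.add_apply, mul_add]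

theorem aseq_smul {ι : Type} [Fintype ι] [DecidableEq ι] (c : ℝ) (A : LM k (δ ⊕ ι) → ℝ) (j : ℕ) :
    aseq S b Φ ι (c • A) j = c * aseq S b Φ ι A j := by
  rw [aseq_eq (Fintype.equivFin (δ ⊕ ι)), aseq_eq (Fintype.equivFin (δ ⊕ ι)), ← Sys.tav_smul]
  refine Sys.tav_congr fun t y => ?_
  rw [Pi.smul_apply, smul_eq_mul]
  ring

theorem LMat_comp (S : Sys) (b : Fin k → ℝ) {J J' : Type} [DecidableEq J] [DecidableEq J']
    (f : J → J') (hf : Function.Injective f) (x : J' → S.X) :
    S.LMat b (fun a => x (f a)) = fun a c => S.LMat b x (f a) (f c) := by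
  funext a c
  unfold Sys.LMat
  by_cases h : a = c
  · rw [if_pos h, if_pos (congrArg f h)]
  · rw [if_neg h, if_neg fun h' => h (hf h')]

theorem aseq_reindex {ι ι' : Type} [Fintype ι] [DecidableEq ι] [Fintype ι'] [DecidableEq ι']
    (e : ι ≃ ι') (A : LM k (δ ⊕ ι') → ℝ) (j : ℕ) :
    aseq S b Φ ι (fun L => A fun a b => L (Sum.map id e.symm a) (Sum.map id e.symm b)) j =
      aseq S b Φ ι' A j := by
  have hinj : Function.Injective (Sum.map id e.symm : δ ⊕ ι' → δ ⊕ ι) :=
    Function.Injective.sumMap Function.injective_id e.symm.injective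
  have h := (S j).avT_comp (Sum.map id e.symm : δ ⊕ ι' → δ ⊕ ι) hinj
    (fun t x => Φ j t (fun i => x (Sum.inl i)) * A ((S j).LMat b x))
  unfold aseq
  rw [← h]
  congr 1
  funext ω x
  change _ = Φ j ((S j).π ω) (fun i => x (Sum.inl i)) *
    A ((S j).LMat b fun a => x (Sum.map id e.symm a))
  rw [LMat_comp (S j) b _ hinj]

/-- the matrices of levels which are not ultrametric -/
theorem not_ultra {k : ℕ} {b : Fin k → ℝ} (hb : StrictMono b) (S : Sys) {J : Type}
    [DecidableEq J] (x : J → S.X) (h : ¬ Ultra (S.LMat b x)) :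
    ∃ (a c d : J) (i : Fin k), a ≠ c ∧ c ≠ d ∧ a ≠ d ∧ b i ≤ S.R (x a) (x c) ∧
      b i ≤ S.R (x c) (x d) ∧ S.R (x a) (x d) < b i := by
  by_contra hcon
  push Not at hcon
  apply h
  refine ⟨fun a c => ?_, fun a => ?_, fun a c d => ?_⟩
  · unfold Sys.LMat
    by_cases h1 : a = c
    · rw [if_pos h1, if_pos h1.symm]
    · rw [if_neg h1, if_neg (fun h2 => h1 h2.symm), Sys.R_symm]
  · unfold Sys.LMat
    rw [if_pos rfl]
  · by_cases had : a = d
    · have h1 : S.LMat b x a d = Fin.last k := by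
        unfold Sys.LMat
        rw [if_pos had]
      rw [h1]
      exact Fin.le_last _
    · by_cases hac : a = c
      · subst hac
        exact min_le_right _ _
      · by_cases hcd : c = d
        · subst hcd
          exact min_le_left _ _
        · unfold Sys.LMat
          rw [if_neg hac, if_neg hcd, if_neg had]
          by_contra hlt
          rw [not_le, lt_min_iff] at hlt
          have h1 : (lev b (S.R (x a) (x d))).val < (lev b (S.R (x a) (x c))).val := hlt.1
          have h2 : (lev b (S.R (x a) (x d))).val < (lev b (S.R (x c) (x d))).val := hlt.2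
          have h3 := (lev b (S.R (x a) (x c))).2
          have h4 := hcon a c d ⟨(lev b (S.R (x a) (x d))).val, by omega⟩ hac hcd had
            (by rw [le_iff_lt_lev hb]; exact h1) (by rw [le_iff_lt_lev hb]; exact h2)
          rw [le_iff_lt_lev hb] at h4
          exact absurd h4 (lt_irrefl _)

theorem Sys.pr_triple (S : Sys) {n : ℕ} {a c d : Fin n} (hac : a ≠ c) (hcd : c ≠ d) (had : a ≠ d)
    (E : S.X → S.X → S.X → Prop) :
    S.pr (fun y : Fin n → S.X => E (y a) (y c) (y d)) =
      S.pr (fun y : Fin 3 → S.X => E (y 0) (y 1) (y 2)) := by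
  have h := Sys.tav_comp (S := S) (![a, c, d] : Fin 3 → Fin n) (by
    intro k l hkl
    fin_cases k <;> fin_cases l <;> simp_all) (fun _ x => ind (E (x 0) (x 1) (x 2)))
  exact h

theorem Sys.pr_pair (S : Sys) {n : ℕ} {a c : Fin n} (hac : a ≠ c) (E : S.X → S.X → Prop) :
    S.pr (fun y : Fin n → S.X => E (y a) (y c)) = S.pr (fun y : Fin 2 → S.X => E (y 0) (y 1)) :=
  Sys.tav_pair hac fun u v => ind (E u v)

/-- the limiting array is carried by the ultrametric matrices -/
theorem tendsto_not_ultra {U : Ultrafilter ℕ} (hGG : ∀ p : ℕ, AsympGG U S (fun x => x ^ p))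
    (hb : StrictMono b) (hna : ∀ i, NonAtom U S (b i)) {J : Type} [DecidableEq J] {n : ℕ}
    (e : J ≃ Fin n) :
    Tendsto (fun j => (S j).pr (fun y : Fin n → (S j).X =>
      ¬ Ultra ((S j).LMat b fun a => y (e a)))) U (𝓝 0) := by
  -- each elementary event
  have hel : ∀ (a c d : Fin n) (i : Fin k), Tendsto (fun j => (S j).pr (fun y : Fin n → (S j).X =>
      a ≠ c ∧ c ≠ d ∧ a ≠ d ∧ b i ≤ (S j).R (y a) (y c) ∧
      b i ≤ (S j).R (y c) (y d) ∧ (S j).R (y a) (y d) < b i)) U (𝓝 0) := by
    intro a c d i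
    by_cases hne : a ≠ c ∧ c ≠ d ∧ a ≠ d
    · obtain ⟨hac, hcd, had⟩ := hne
      refine tendsto_zero_of_not_ge _ (fun N => (S N).pr_nonneg _) fun p hp hcon => ?_
      obtain ⟨η, hη, h1⟩ := hna i (p / 3) (by linarith only [hp])
      have h2 := ultrametricity hGG hη
      have h3 := (tendsto_order.mp h2).2 (p / 3) (by linarith only [hp])
      obtain ⟨N, hN, hN1, hN2⟩ := (hcon.and (h1.and h3)).exists
      have h4 : (S N).pr (fun y : Fin n → (S N).X => a ≠ c ∧ c ≠ d ∧ a ≠ d ∧
          b i ≤ (S N).R (y a) (y c) ∧ b i ≤ (S N).R (y c) (y d) ∧ (S N).R (y a) (y d) < b i) ≤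
          (S N).pr (fun y : Fin n → (S N).X => (S N).R (y a) (y d) <
            min ((S N).R (y c) (y a)) ((S N).R (y c) (y d)) - η) +
          (S N).pr (fun y : Fin n → (S N).X => |(S N).R (y a) (y d) - b i| ≤ η) := by
        refine (S N).pr_le_add fun y hy => ?_
        obtain ⟨-, -, -, g1, g2, g3⟩ := hy
        by_cases g4 : |(S N).R (y a) (y d) - b i| ≤ η
        · exact Or.inr g4
        · left
          rw [abs_le, not_and_or, not_le, not_le] at g4
          have g5 : (S N).R (y a) (y d) - b i < -η := by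
            rcases g4 with g4 | g4
            · exact g4
            · linarith only [hη, g3, g4]
          rw [Sys.R_symm (y c) (y a)]
          have g6 := le_min g1 g2
          linarith
      have h5 : (S N).pr (fun y : Fin n → (S N).X => (S N).R (y a) (y d) <
            min ((S N).R (y c) (y a)) ((S N).R (y c) (y d)) - η) =
          (S N).tav (n := 3) (fun _ x => if (S N).R (x 1) (x 2) <
            min ((S N).R (x 0) (x 1)) ((S N).R (x 0) (x 2)) - η then 1 else 0) := by
        rw [(S N).pr_triple (a := c) (c := a) (d := d) hac.symm had hcd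
          (fun u v w => (S N).R v w < min ((S N).R u v) ((S N).R u w) - η)]
        exact Sys.tav_congr fun _ x => ind_eq _
      have h6 : (S N).pr (fun y : Fin n → (S N).X => |(S N).R (y a) (y d) - b i| ≤ η) =
          (S N).tav (n := 2) (fun _ x => if |(S N).R (x 0) (x 1) - b i| ≤ η then 1 else 0) := by
        rw [(S N).pr_pair had (fun u v => |(S N).R u v - b i| ≤ η)]
        exact Sys.tav_congr fun _ x => ind_eq _
      rw [h5, h6] at h4
      linarith only [hp, hN, hN1, hN2, h4]
    · have h1 : ∀ j, (S j).pr (fun y : Fin n → (S j).X => a ≠ c ∧ c ≠ d ∧ a ≠ d ∧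
          b i ≤ (S j).R (y a) (y c) ∧ b i ≤ (S j).R (y c) (y d) ∧
            (S j).R (y a) (y d) < b i) = 0 := by
        intro j
        have h2 : (S j).pr (fun y : Fin n → (S j).X => a ≠ c ∧ c ≠ d ∧ a ≠ d ∧
          b i ≤ (S j).R (y a) (y c) ∧ b i ≤ (S j).R (y c) (y d) ∧
            (S j).R (y a) (y d) < b i) = (S j).tav (n := n) (fun _ _ => 0) :=
          Sys.tav_congr fun _ x => ind_of_not fun h => hne ⟨h.1, h.2.1, h.2.2.1⟩
        rw [h2, Sys.tav_const]
      simp only [h1]
      exact tendsto_const_nhds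
  have hsum : Tendsto (fun j => ∑ t : Fin n × Fin n × Fin n × Fin k,
      (S j).pr (fun y : Fin n → (S j).X =>
      t.1 ≠ t.2.1 ∧ t.2.1 ≠ t.2.2.1 ∧ t.1 ≠ t.2.2.1 ∧ b t.2.2.2 ≤ (S j).R (y t.1) (y t.2.1) ∧
      b t.2.2.2 ≤ (S j).R (y t.2.1) (y t.2.2.1) ∧ (S j).R (y t.1) (y t.2.2.1) < b t.2.2.2)) U
      (𝓝 (∑ _t : Fin n × Fin n × Fin n × Fin k, (0 : ℝ))) :=
    tendsto_finsetSum _ fun t _ => hel t.1 t.2.1 t.2.2.1 t.2.2.2
  rw [Finset.sum_const_zero] at hsum
  refine tendsto_zero_of_le (fun N => (S N).pr_nonneg _) (fun N => ?_) hsum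
  refine Sys.pr_le_sum _ _ fun y hy => ?_
  obtain ⟨a, c, d, i, h1, h2, h3, h4, h5, h6⟩ := not_ultra hb (S N) (fun a => y (e a)) hy
  exact ⟨(e a, e c, e d, i), fun h => h1 (e.injective h), fun h => h2 (e.injective h),
    fun h => h3 (e.injective h), h4, h5, h6⟩

theorem aseq_supp {U : Ultrafilter ℕ} (hGG : ∀ p : ℕ, AsympGG U S (fun x => x ^ p))
    (hb : StrictMono b) (hna : ∀ i, NonAtom U S (b i))
    (hΦm : ∀ j x, Measurable fun t => Φ j t x) (hΦ : ∀ j t x, |Φ j t x| ≤ 1)
    {ι : Type} [Fintype ι] [DecidableEq ι] {A : LM k (δ ⊕ ι) → ℝ}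
    (hA : ∀ L, Ultra L → A L = 0) : Tendsto (aseq S b Φ ι A) U (𝓝 0) := by
  obtain ⟨M, hM, hAM⟩ := exists_max A
  set e := Fintype.equivFin (δ ⊕ ι) with he
  have h1 := (tendsto_not_ultra hGG hb hna e).const_mul M
  rw [mul_zero] at h1
  refine squeeze_zero_norm (fun j => ?_) h1
  rw [Real.norm_eq_abs, aseq_eq e]
  unfold Sys.pr
  rw [← Sys.tav_smul]
  refine Sys.tav_abs_le (D := M) (bdd_aseq hΦm hΦ e A hAM
      (fun j y => (S j).LMat b fun a => y (e a)) j)
    ⟨fun _ => measurable_const, fun t x => ?_⟩ fun t x => ?_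
  · rw [abs_mul, abs_of_pos hM]
    exact mul_le_of_le_one_right hM.le (abs_ind_le_one _)
  · by_cases hU : Ultra ((S j).LMat b fun a => x (e a))
    · rw [hA _ hU, mul_zero, abs_zero]
      exact mul_nonneg hM.le (ind_nonneg _)
    · rw [ind_of hU, mul_one, abs_mul]
      calc |Φ j t (fun i => x (e (Sum.inl i)))| * |A ((S j).LMat b fun a => x (e a))| ≤
            1 * |A ((S j).LMat b fun a => x (e a))| :=
            mul_le_mul_of_nonneg_right (hΦ j t _) (abs_nonneg _)
        _ ≤ M := by rw [one_mul]; exact hAM _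

/-- the Ghirlanda-Guerra identities for the levels -/
theorem AsympGG.level {U : Ultrafilter ℕ} (hGG : ∀ p : ℕ, AsympGG U S (fun x => x ^ p))
    (hb : StrictMono b) (hna : ∀ i, NonAtom U S (b i)) (l : Fin (k + 1)) :
    AsympGG U S (fun r => if lev b r = l then 1 else 0) := by
  -- the event `l ≤ lev`
  have hge : ∀ m : ℕ, AsympGG U S (fun r => if m ≤ (lev b r).val then 1 else 0) := by
    intro m
    cases m with
    | zero =>
      have h := hGG 0
      have h1 : (fun r : ℝ => r ^ 0) = fun r => if 0 ≤ (lev b r).val then 1 else 0 := by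
        funext r
        simp
      rwa [h1] at h
    | succ m =>
      by_cases hm : m < k
      · have h := AsympGG.indicator hGG (hna ⟨m, hm⟩)
        have h1 : (Set.Ici (b ⟨m, hm⟩)).indicator (1 : ℝ → ℝ) =
            fun r => if m + 1 ≤ (lev b r).val then 1 else 0 := by
          funext r
          have h2 : b ⟨m, hm⟩ ≤ r ↔ m + 1 ≤ (lev b r).val := le_iff_lt_lev hb ⟨m, hm⟩ r
          by_cases h3 : b ⟨m, hm⟩ ≤ r
          · rw [Set.indicator_of_mem (Set.mem_Ici.mpr h3), if_pos (h2.1 h3)]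
            rfl
          · rw [Set.indicator_of_notMem (fun h => h3 (Set.mem_Ici.mp h)),
              if_neg (fun h => h3 (h2.2 h))]
        rwa [h1] at h
      · have h := (hGG 0).smul 0
        have h1 : (fun r : ℝ => 0 * r ^ 0) = fun r => if m + 1 ≤ (lev b r).val then 1 else 0 := by
          funext r
          have h2 := (lev b r).2
          rw [if_neg (by omega), zero_mul]
        rwa [h1] at h
  have h := (hge l.val).sub (hge (l.val + 1))
  have h1 : (fun r => (if l.val ≤ (lev b r).val then (1 : ℝ) else 0) -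
      (if l.val + 1 ≤ (lev b r).val then 1 else 0)) = fun r => if lev b r = l then 1 else 0 := by
    funext r
    by_cases h2 : lev b r = l
    · rw [h2, if_pos le_rfl, if_neg (by omega), if_pos rfl, sub_zero]
    · rw [if_neg h2]
      have h3 : (lev b r).val ≠ l.val := fun h => h2 (Fin.ext h)
      by_cases h4 : l.val ≤ (lev b r).val
      · rw [if_pos h4, if_pos (by omega), sub_self]
      · rw [if_neg h4, if_neg (by omega), sub_self]
  rwa [h1] at h

theorem injective_map_some {ι : Type} :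
    Function.Injective (Sum.map id some : δ ⊕ ι → δ ⊕ Option ι) :=
  Function.Injective.sumMap Function.injective_id (Option.some_injective ι)

/-- the defect of the test function given by `A` -/
theorem ggDefect_aseq {ι : Type} [Fintype ι] [DecidableEq ι]
    (A : LM k (δ ⊕ ι) → ℝ) (i : δ ⊕ ι) (l : Fin (k + 1)) (j : ℕ) {n : ℕ} (e : δ ⊕ ι ≃ Fin n)
    (c : ℝ) :
    (S j).ggDefect (fun r => if lev b r = l then 1 else 0) (e i)
      (fun t (y : Fin n → (S j).X) => c * (Φ j t (fun i => y (e (Sum.inl i))) *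
        A ((S j).LMat b fun a => y (e a)))) =
    c * (n * aseq S b Φ (Option ι) (fun L =>
        A (fun a b => L (Sum.map id some a) (Sum.map id some b)) *
          if L (Sum.map id some i) (Sum.inr none) = l then 1 else 0) j -
      (aseq S b Φ ι A j * (S j).pr (fun x : Fin 2 → (S j).X =>
        lev b ((S j).R (x 0) (x 1)) = l) +
        (∑ m, aseq S b Φ ι (fun L => A L * if L i m = l then 1 else 0) j -
          aseq S b Φ ι (fun L => A L * if L i i = l then 1 else 0) j))) := by
  unfold Sys.ggDefect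
  -- first term
  have t1 : (S j).tav (fun t (x : Fin (n + 1) → (S j).X) =>
      c * (Φ j t (fun i => x (e (Sum.inl i)).castSucc) *
        A ((S j).LMat b fun a => x (e a).castSucc)) *
        (if lev b ((S j).R (x (e i).castSucc) (x (Fin.last n))) = l then 1 else 0)) =
      c * aseq S b Φ (Option ι) (fun L =>
        A (fun a b => L (Sum.map id some a) (Sum.map id some b)) *
          if L (Sum.map id some i) (Sum.inr none) = l then 1 else 0) j := by
    let f : Fin (n + 1) → δ ⊕ Option ι :=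
      Fin.snoc (α := fun _ => δ ⊕ Option ι) (fun m => Sum.map id some (e.symm m)) (Sum.inr none)
    have hf1 : ∀ m : Fin n, f m.castSucc = Sum.map id some (e.symm m) := fun m =>
      Fin.snoc_castSucc _ _ _
    have hf2 : f (Fin.last n) = Sum.inr none := Fin.snoc_last _ _
    have hns : ∀ a : δ ⊕ ι, (Sum.map id some a : δ ⊕ Option ι) ≠ Sum.inr none := by
      rintro (a | a) h
      · simp at h
      · simp at h
    have hf : Function.Injective f := by
      intro m m'
      induction m using Fin.lastCases with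
      | last =>
        induction m' using Fin.lastCases with
        | last => intro _; rfl
        | cast m' =>
          intro h
          rw [hf1, hf2] at h
          exact absurd h.symm (hns _)
      | cast m =>
        induction m' using Fin.lastCases with
        | last =>
          intro h
          rw [hf1, hf2] at h
          exact absurd h (hns _)
        | cast m' =>
          intro h
          rw [hf1, hf1] at h
          rw [e.symm.injective (injective_map_some h)]
    have h := (S j).avT_comp f hf (fun t x => c * (Φ j t (fun i => x (e (Sum.inl i)).castSucc) *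
        A ((S j).LMat b fun a => x (e a).castSucc)) *
        (if lev b ((S j).R (x (e i).castSucc) (x (Fin.last n))) = l then 1 else 0))
    have h' : (S j).tav (fun t (x : Fin (n + 1) → (S j).X) =>
      c * (Φ j t (fun i => x (e (Sum.inl i)).castSucc) *
        A ((S j).LMat b fun a => x (e a).castSucc)) *
        (if lev b ((S j).R (x (e i).castSucc) (x (Fin.last n))) = l then 1 else 0)) =
        (S j).avT (fun ω (x : Fin (n + 1) → (S j).X) =>
      c * (Φ j ((S j).π ω) (fun i => x (e (Sum.inl i)).castSucc) *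
        A ((S j).LMat b fun a => x (e a).castSucc)) *
        (if lev b ((S j).R (x (e i).castSucc) (x (Fin.last n))) = l then 1 else 0)) := rfl
    rw [h', ← h, ← aseq_smul]
    unfold aseq
    congr 1
    funext ω x
    simp only [hf1, hf2, Equiv.symm_apply_apply, Pi.smul_apply, smul_eq_mul, Sum.map_inl, id]
    have h3 : (S j).LMat b (fun a => x (Sum.map id some a)) =
        fun a c => (S j).LMat b x (Sum.map id some a) (Sum.map id some c) :=
      LMat_comp (S j) b _ injective_map_some x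
    have h4 : (S j).LMat b x (Sum.map id some i) (Sum.inr none) =
        lev b ((S j).R (x (Sum.map id some i)) (x (Sum.inr none))) := by
      unfold Sys.LMat
      rw [if_neg (hns i)]
    rw [h3, h4]
    ring
  -- second term
  have t2 : (S j).tav (fun t (y : Fin n → (S j).X) => c * (Φ j t (fun i => y (e (Sum.inl i))) *
        A ((S j).LMat b fun a => y (e a)))) = c * aseq S b Φ ι A j := by
    rw [Sys.tav_smul, aseq_eq e]
  have t2' : (S j).tav (fun _ (x : Fin 2 → (S j).X) =>
      if lev b ((S j).R (x 0) (x 1)) = l then 1 else 0) = (S j).pr (fun x : Fin 2 → (S j).X =>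
        lev b ((S j).R (x 0) (x 1)) = l) :=
    Sys.tav_congr fun _ x => (ind_eq _).symm
  -- third term
  have t3 : ∀ m : δ ⊕ ι, m ≠ i → (S j).tav (fun t (x : Fin n → (S j).X) =>
      c * (Φ j t (fun i => x (e (Sum.inl i))) * A ((S j).LMat b fun a => x (e a))) *
        (if lev b ((S j).R (x (e i)) (x (e m))) = l then 1 else 0)) =
      c * aseq S b Φ ι (fun L => A L * if L i m = l then 1 else 0) j := by
    intro m hm
    rw [aseq_eq e, ← Sys.tav_smul]
    refine Sys.tav_congr fun t x => ?_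
    have h4 : (S j).LMat b (fun a => x (e a)) i m = lev b ((S j).R (x (e i)) (x (e m))) := by
      unfold Sys.LMat
      rw [if_neg (fun h => hm h.symm)]
    rw [h4]
    ring
  have t4 : ∑ m ∈ Finset.univ.erase (e i), (S j).tav (fun t (x : Fin n → (S j).X) =>
      c * (Φ j t (fun i => x (e (Sum.inl i))) * A ((S j).LMat b fun a => x (e a))) *
        (if lev b ((S j).R (x (e i)) (x m)) = l then 1 else 0)) =
      c * (∑ m, aseq S b Φ ι (fun L => A L * if L i m = l then 1 else 0) j -
          aseq S b Φ ι (fun L => A L * if L i i = l then 1 else 0) j) := by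
    rw [← Finset.sum_erase_eq_sub (Finset.mem_univ i), Finset.mul_sum]
    symm
    refine Finset.sum_bij (fun m _ => e m) ?_ ?_ ?_ ?_
    · intro m hm
      rw [Finset.mem_erase] at hm ⊢
      exact ⟨fun h => hm.1 (e.injective h), Finset.mem_univ _⟩
    · intro m _ m' _ h
      exact e.injective h
    · intro m hm
      rw [Finset.mem_erase] at hm
      refine ⟨e.symm m, ?_, e.apply_symm_apply m⟩
      rw [Finset.mem_erase]
      refine ⟨fun h => hm.1 ?_, Finset.mem_univ _⟩
      rw [← h, e.apply_symm_apply]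
    · intro m hm
      exact (t3 m (Finset.ne_of_mem_erase hm)).symm
  rw [t1, t2, t2', t4]
  ring

/-- the functional: limit of the averages -/
noncomputable def aE (U : Ultrafilter ℕ) (S : ℕ → Sys) (b : Fin k → ℝ)
    (Φ : ∀ j, (S j).T → (δ → (S j).X) → ℝ) (ι : Type) [Fintype ι] (A : LM k (δ ⊕ ι) → ℝ) : ℝ :=
  letI := Classical.decEq ι
  limUnder (U : Filter ℕ) (aseq S b Φ ι A)

theorem tendsto_aE (U : Ultrafilter ℕ) (hΦm : ∀ j x, Measurable fun t => Φ j t x)
    (hΦ : ∀ j t x, |Φ j t x| ≤ 1) (ι : Type) [Fintype ι] [inst : DecidableEq ι]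
    (A : LM k (δ ⊕ ι) → ℝ) : Tendsto (aseq S b Φ ι A) U (𝓝 (aE U S b Φ ι A)) := by
  obtain ⟨a, -, ha⟩ := exists_max A
  have h1 := exists_ulim U fun N => aseq_bound (b := b) hΦm hΦ ha N
  have h0 : Classical.decEq ι = inst := Subsingleton.elim _ _
  have h2 : aE U S b Φ ι A = limUnder (U : Filter ℕ) (aseq S b Φ ι A) := by
    unfold aE
    rw [h0]
  rw [h2]
  exact tendsto_nhds_limUnder h1

/-- The limiting array, with test functions depending on the disorder and on the special
replicas. -/
theorem exists_arr {U : Ultrafilter ℕ} {S : ℕ → Sys}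
    (hGG : ∀ p : ℕ, AsympGG U S (fun x => x ^ p)) {k : ℕ} {b : Fin k → ℝ} (hb : StrictMono b)
    (hb0 : ∀ i, 0 < b i) (hb1 : ∀ i, b i ≤ 1) (hna : ∀ i, NonAtom U S (b i)) {w : Fin (k + 1) → ℝ}
    (hw : ∀ l, Tendsto (fun j => (S j).pr (fun x : Fin 2 → (S j).X =>
      lev b ((S j).R (x 0) (x 1)) = l)) U (𝓝 (w l)))
    {δ : Type} [Fintype δ] [DecidableEq δ] (Φ : ∀ j, (S j).T → (δ → (S j).X) → ℝ)
    (hΦm : ∀ j x, Measurable fun t => Φ j t x) (hΦ : ∀ j t x, |Φ j t x| ≤ 1) :
    ∃ 𝓐 : Arr k w δ, 𝓐.C = 1 ∧ (∀ (ι : Type) [Fintype ι] [DecidableEq ι]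
      (A : LM k (δ ⊕ ι) → ℝ), Tendsto (fun j => (S j).avT
        (fun ω (x : δ ⊕ ι → (S j).X) => Φ j ((S j).π ω) (fun i => x (Sum.inl i)) *
          A ((S j).LMat b x))) U (𝓝 (𝓐.E ι A))) := by
  classical
  have htd := fun (ι : Type) [Fintype ι] [DecidableEq ι] (A : LM k (δ ⊕ ι) → ℝ) =>
    tendsto_aE (S := S) (b := b) (Φ := Φ) U hΦm hΦ ι A
  refine ⟨{
    E := fun ι _ =>
      { toFun := aE U S b Φ ι
        map_add' := ?_
        map_smul' := ?_ }
    C := 1
    bound := ?_
    supp := ?_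
    reindex := ?_
    gg := ?_ }, rfl, fun ι _ _ A => htd ι A⟩
  · intro A B
    have h1 := htd ι (A + B)
    have h2 := (htd ι A).add (htd ι B)
    have h3 : (fun j => aseq S b Φ ι A j + aseq S b Φ ι B j) = aseq S b Φ ι (A + B) :=
      funext fun j => (aseq_add hΦm hΦ A B j).symm
    rw [h3] at h2
    exact tendsto_nhds_unique h1 h2
  · intro c A
    have h1 := htd ι (c • A)
    have h2 := (htd ι A).const_mul c
    have h3 : (fun j => c * aseq S b Φ ι A j) = aseq S b Φ ι (c • A) :=
      funext fun j => (aseq_smul c A j).symm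
    rw [h3] at h2
    exact tendsto_nhds_unique h1 h2
  · intro ι _ A a ha
    have h1 := (htd ι A).abs
    rw [one_mul]
    exact le_of_tendsto' h1 fun j => aseq_bound hΦm hΦ ha j
  · intro ι _ A hA
    exact tendsto_nhds_unique (htd ι A) (aseq_supp hGG hb hna hΦm hΦ hA)
  · intro ι ι' _ _ e A
    have h1 := htd ι (fun L => A fun a b => L (Sum.map id e.symm a) (Sum.map id e.symm b))
    have h2 := htd ι' A
    have h3 : aseq S b Φ ι (fun L => A fun a b => L (Sum.map id e.symm a) (Sum.map id e.symm b)) =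
        aseq S b Φ ι' A := funext fun j => aseq_reindex e A j
    rw [h3] at h1
    exact tendsto_nhds_unique h1 h2
  · intro ι _ A i l
    obtain ⟨M, hM, hAM⟩ := exists_max A
    set e := Fintype.equivFin (δ ⊕ ι) with he
    -- the limit of the defects
    have hgg := AsympGG.level hGG hb hna l (Fintype.card (δ ⊕ ι)) (e i)
    have hdef : Tendsto (fun j => (S j).ggDefect (fun r => if lev b r = l then 1 else 0) (e i)
      (fun t (y : Fin (Fintype.card (δ ⊕ ι)) → (S j).X) =>
        (1 / M) * (Φ j t (fun i => y (e (Sum.inl i))) *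
        A ((S j).LMat b fun a => y (e a))))) U (𝓝 0) := by
      rw [Metric.tendsto_nhds]
      intro ε hε
      filter_upwards [hgg (ε / 2) (by linarith)] with j hj
      rw [dist_zero_right, Real.norm_eq_abs]
      refine lt_of_le_of_lt (hj _ ⟨fun y => ?_, fun t y => ?_⟩) (by linarith)
      · exact ((hΦm j _).mul_const _).const_mul _
      · have h1 := (bdd_aseq hΦm hΦ e A hAM (fun j y => (S j).LMat b fun a => y (e a)) j).bdd t y
        rw [abs_mul, abs_of_pos (by positivity : 0 < 1 / M)]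
        calc 1 / M * |Φ j t (fun i => y (e (Sum.inl i))) * A ((S j).LMat b fun a => y (e a))| ≤
              1 / M * M := mul_le_mul_of_nonneg_left h1 (by positivity)
          _ = 1 := by field_simp
    simp only [ggDefect_aseq] at hdef
    have h2 := hdef.const_mul M
    rw [mul_zero] at h2
    have h3 : ∀ x : ℝ, M * (1 / M * x) = x := by
      intro x
      field_simp
    simp only [h3] at h2
    have h4 := ((htd (Option ι) (fun L => A (fun a b => L (Sum.map id some a) (Sum.map id some b)) *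
          if L (Sum.map id some i) (Sum.inr none) = l then 1 else 0)).const_mul
            ((Fintype.card (δ ⊕ ι) : ℕ) : ℝ)).sub
      (((htd ι A).mul (hw l)).add ((tendsto_finsetSum Finset.univ fun m _ =>
        htd ι (fun L => A L * if L i m = l then 1 else 0)).sub
          (htd ι (fun L => A L * if L i i = l then 1 else 0))))
    have h5 := tendsto_nhds_unique h2 h4
    have h6 : ((Fintype.card (δ ⊕ ι) : ℕ) : ℝ) = (Fintype.card δ : ℝ) + Fintype.card ι := by
      rw [Fintype.card_sum]
      push_cast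
      ring
    rw [h6] at h5
    simp only [LinearMap.coe_mk, AddHom.coe_mk]
    linarith

end aseq

end Vale.Agent.P157.Par
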