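import Vale.Agent.P157.ParCollapse

open MeasureTheory ProbabilityTheory Filter Topology Finset

namespace Vale.Agent.P157.Par

set_option linter.unusedSectionVars false

/-- The empty family. -/
def noA : Empty → ℝ → ℝ := fun i => i.elim

namespace Arr

variable {k : ℕ} {w : Fin (k + 1) → ℝ}

/-- The logarithm series: `-E log ⟨1 - v⟩ = ∑ E ⟨v⟩^n / n`. -/
noncomputable def Lg (𝓐 : Arr k w Empty) (c : Fin (k + 1) → ℝ) (v : ℝ → ℝ) : ℝ :=
  ∑' n : ℕ, 1 / ((n : ℝ) + 1) * 𝓐.T c (fun _ => 1) noA v (Fin (n + 1))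

lemma abs_one_le {X : ℝ} (hX : 1 ≤ X) (L : LM k Empty) : |(fun _ : LM k Empty => (1 : ℝ)) L| ≤ X := by
  simpa using hX

lemma T_empty_le (𝓐 : Arr k w Empty) (c : Fin (k + 1) → ℝ) {v : ℝ → ℝ} {a : ℝ}
    (hv : ∀ x, |v x| ≤ a) (n : ℕ) :
    |𝓐.T c (fun _ => 1) noA v (Fin n)| ≤ 𝓐.C * a ^ n := by
  have h := 𝓐.T_le c (χ := fun _ => 1) (X := 1) (fun _ => by simp) (A := noA) (C := 1)
    (fun i => i.elim) hv n
  simpa using h

lemma Lg_summable (𝓐 : Arr k w Empty) (c : Fin (k + 1) → ℝ) {v : ℝ → ℝ} {a : ℝ}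
    (ha0 : 0 ≤ a) (ha : a < 1) (hv : ∀ x, |v x| ≤ a) :
    Summable fun n : ℕ => 1 / ((n : ℝ) + 1) * 𝓐.T c (fun _ => 1) noA v (Fin (n + 1)) := by
  have h1 : Summable fun n : ℕ => a ^ n := summable_geometric_of_lt_one ha0 ha
  refine Summable.of_norm_bounded (h1.mul_left 𝓐.C) fun n => ?_
  rw [norm_mul, Real.norm_eq_abs, Real.norm_eq_abs, abs_of_nonneg (by positivity)]
  have h2 := 𝓐.T_empty_le c hv (n + 1)
  have h3 : 1 / ((n : ℝ) + 1) ≤ 1 := by
    rw [div_le_one (by positivity)]; linarith [Nat.cast_nonneg (α := ℝ) n]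
  have hC := 𝓐.C_nonneg
  calc 1 / ((n : ℝ) + 1) * |𝓐.T c (fun _ => 1) noA v (Fin (n + 1))| ≤
      1 * (𝓐.C * a ^ (n + 1)) := mul_le_mul h3 h2 (abs_nonneg _) zero_le_one
    _ = 𝓐.C * a ^ n * a := by ring
    _ ≤ 𝓐.C * a ^ n * 1 := by gcongr
    _ = 𝓐.C * a ^ n := mul_one _

lemma Lg_continuousOn (𝓐 : Arr k w Empty) (c : Fin (k + 1) → ℝ) (l : Fin (k + 1))
    {S : Set ℝ} {a : ℝ} {v : ℝ → ℝ → ℝ}
    (hv : ContinuousOn (fun p : ℝ × ℝ => v p.1 p.2) (S ×ˢ Set.univ))
    (ha0 : 0 ≤ a) (ha : a < 1) (bv : ∀ t ∈ S, ∀ x, |v t x| ≤ a) :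
    ContinuousOn (fun s => 𝓐.Lg (Function.update c l s) (v s)) S := by
  have h1 : Summable fun n : ℕ => a ^ n := summable_geometric_of_lt_one ha0 ha
  unfold Lg
  apply continuousOn_tsum (u := fun n : ℕ => 𝓐.C * a ^ n)
  · intro n
    apply ContinuousOn.mul continuousOn_const
    exact 𝓐.T_continuousOn c l (fun _ => 1) (C := a) (A := fun i _ => noA i) (v := v)
      (fun i => i.elim) hv (fun i => i.elim) bv (n + 1)
  · exact h1.mul_left _
  · intro n s hs
    rw [norm_mul, Real.norm_eq_abs, Real.norm_eq_abs, abs_of_nonneg (by positivity)]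
    have h2 := 𝓐.T_empty_le (Function.update c l s) (bv s hs) (n + 1)
    have h3 : 1 / ((n : ℝ) + 1) ≤ 1 := by
      rw [div_le_one (by positivity)]; linarith [Nat.cast_nonneg (α := ℝ) n]
    have hC := 𝓐.C_nonneg
    calc 1 / ((n : ℝ) + 1) * |𝓐.T (Function.update c l s) (fun _ => 1) noA (v s) (Fin (n + 1))| ≤
        1 * (𝓐.C * a ^ (n + 1)) := mul_le_mul h3 h2 (abs_nonneg _) zero_le_one
      _ = 𝓐.C * a ^ n * a := by ring
      _ ≤ 𝓐.C * a ^ n * 1 := by gcongr
      _ = 𝓐.C * a ^ n := mul_one _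

/-- The derivative of the logarithm series. -/
theorem Lg_hasDerivAt (𝓐 : Arr k w Empty) {c : Fin (k + 1) → ℝ}
    (hc : ∀ l, 0 ≤ c l) (l : Fin (k + 1)) {σ C a : ℝ} {v vt vx vxx : ℝ → ℝ → ℝ}
    (hv : Nice (Set.Ioo 0 σ) C v vt vx vxx) (ha0 : 0 ≤ a) (ha : a < 1)
    (hva : ∀ t ∈ Set.Ioo 0 σ, ∀ x, |v t x| ≤ a) {t : ℝ} (ht : t ∈ Set.Ioo 0 σ) :
    HasDerivAt (fun s => 𝓐.Lg (Function.update c l s) (v s))
      (𝓐.mark.Q 0 (Function.update c l t) (fun _ => 1) (ext (LL vt vxx t) noA) (v t) +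
        1 / 2 * 𝓐.mark.mark.Q 1 (Function.update c l t)
          (fun L => lift (lift fun _ => 1) L * lk l (some none) none L)
          (ext (vx t) (ext (vx t) noA)) (v t)) t := by
  set b := max a (1 / 2) with hb
  have hb0 : 0 < b := lt_of_lt_of_le (by norm_num) (le_max_right _ _)
  have hb1 : b < 1 := max_lt ha (by norm_num)
  set C' := max 1 (2 * |C|) with hC'
  have hC1 : 1 ≤ C' := le_max_left _ _
  have hCC : |C| ≤ C' := (by linarith [abs_nonneg C] : |C| ≤ 2 * |C|).trans (le_max_right _ _)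
  have hCC0 : C ≤ C' := (le_abs_self C).trans hCC
  have hLL : ∀ t ∈ Set.Ioo 0 σ, ∀ x, |LL vt vxx t x| ≤ C' := by
    intro t ht' x
    unfold LL
    have h1 := hv.bt t ht' x
    have h2 := hv.b2 t ht' x
    have h3 := abs_add_le (vt t x) (1 / 2 * vxx t x)
    rw [abs_mul, abs_of_pos (by norm_num : (0:ℝ) < 1 / 2)] at h3
    have h4 : 2 * |C| ≤ C' := le_max_right _ _
    have h5 := le_abs_self C
    linarith [abs_nonneg C]
  have hsum := summable_dT_bound 0 hb0.le hb1
    (𝓐.C * 1 * C' ^ (Fintype.card Empty + 2) * (Fintype.card Empty + 1) ^ 2 / b ^ 2)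
  have hsum' := (summable_nat_add_iff 1).2 hsum
  have key : HasDerivAt (fun s => 𝓐.Lg (Function.update c l s) (v s))
      (∑' n : ℕ, 1 / ((n : ℝ) + 1) * 𝓐.dT l (Function.update c l t) (fun _ => 1) noA noA noA
        (v t) (LL vt vxx t) (vx t) (n + 1)) t := by
    apply hasDerivAt_tsum_of_isPreconnected hsum' isOpen_Ioo
      isPreconnected_Ioo (g := fun (n : ℕ) s => 1 / ((n : ℝ) + 1) *
        𝓐.T (Function.update c l s) (fun _ => 1) noA (v s) (Fin (n + 1)))
      (g' := fun (n : ℕ) t => 1 / ((n : ℝ) + 1) * 𝓐.dT l (Function.update c l t) (fun _ => 1) noA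
        noA noA (v t) (LL vt vxx t) (vx t) (n + 1)) (y₀ := t) _ _ ht _ ht
    · intro n s hs
      have h1 := 𝓐.T_hasDerivAt hc l (fun _ => 1) (A := fun i _ => noA i)
        (At := fun i _ => noA i) (Ax := fun i _ => noA i) (Axx := fun i _ => noA i)
        (fun i => i.elim) hv hs (n + 1)
      have h2 : (fun i : Empty => LL (fun _ => noA i) (fun _ => noA i) s) = noA :=
        funext fun i => i.elim
      rw [h2] at h1
      exact h1.const_mul _
    · intro n s hs
      rw [norm_mul, Real.norm_eq_abs, Real.norm_eq_abs, abs_of_nonneg (by positivity)]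
      have h1 := 𝓐.dT_le l (Function.update c l s) (χ := fun _ => 1) (X := 1)
        (fun _ => by simp) (A := noA) (LA := noA) (Ax := noA) hC1
        (fun i => i.elim) (fun i => i.elim) (fun i => i.elim)
        (fun x => (hva s hs x).trans (le_max_left _ _)) (fun x => hLL s hs x)
        (fun x => (hv.b1 s hs x).trans hCC0) hb0 hb1.le (n + 1)
      have h3 : 1 / ((n : ℝ) + 1) ≤ 1 := by
        rw [div_le_one (by positivity)]; linarith [Nat.cast_nonneg (α := ℝ) n]
      have h4 := mul_le_mul h3 h1 (abs_nonneg _) zero_le_one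
      refine h4.trans (le_of_eq ?_)
      rw [← hb, one_mul]
      simp
    · exact 𝓐.Lg_summable _ ha0 ha (hva t ht)
  refine key.congr_deriv ?_
  have bv : BM (v t) := ⟨hv.m0 t ht, C, hv.b0 t ht⟩
  have bvx : BM (vx t) := ⟨hv.m1 t ht, C, hv.b1 t ht⟩
  have bLv : BM (LL vt vxx t) :=
    (⟨hv.mt t ht, C, hv.bt t ht⟩ : BM (vt t)).add
      ((BM.const (1 / 2)).mul ⟨hv.m2 t ht, C, hv.b2 t ht⟩)
  set c' := Function.update c l t with hc'
  have bn : ∀ i : Empty, BM (noA i) := fun i => i.elim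
  have q1 := 𝓐.mark.Q_summable 0 c' (fun _ => 1) (BM_ext bn bLv) ha0 ha (hva t ht)
  have q2 := 𝓐.mark.mark.Q_summable 1 c'
    (fun L => lift (lift fun _ => 1) L * lk l (some none) none L)
    (BM_ext (BM_ext bn bvx) bvx) ha0 ha (hva t ht)
  have q3 := tsum_shift 0 _ q2
  have hterm : ∀ n : ℕ, 1 / ((n : ℝ) + 1) * 𝓐.dT l c' (fun _ => 1) noA
        noA noA (v t) (LL vt vxx t) (vx t) (n + 1) =
      ((n + 0).choose 0 : ℝ) * 𝓐.mark.T c' (fun _ => 1) (ext (LL vt vxx t) noA) (v t) (Fin n) +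
      1 / 2 * (((n + 0).choose 0 : ℝ) * (n * 𝓐.mark.mark.T c'
        (fun L => lift (lift fun _ => 1) L * lk l (some none) none L)
        (ext (vx t) (ext (vx t) noA)) (v t) (Fin (n - 1)))) := by
    intro n
    unfold dT
    have hn : ((n : ℝ) + 1) ≠ 0 := by positivity
    have h1 : (lift fun _ : LM k Empty => (1 : ℝ)) = fun _ => 1 := rfl
    simp only [Finset.univ_eq_empty, Finset.sum_empty, mul_zero, zero_add, add_zero,
      Nat.add_sub_cancel, Nat.choose_zero_right, Nat.cast_one, one_mul, h1]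
    rw [show n + 1 - 2 = n - 1 from by omega]
    push_cast
    have e3 : 𝓐.mark.T c' (fun _ => 1) (ext (LL vt vxx t) noA) (v t) (Fin (n + 1 - 1)) =
        𝓐.mark.T c' (fun _ => 1) (ext (LL vt vxx t) noA) (v t) (Fin n) := rfl
    rw [e3]
    field_simp
  simp_rw [hterm]
  rw [q1.tsum_add (q3.1.mul_left _), tsum_mul_left, q3.2]
  unfold Q
  simp

/-- Collapse of the level `l` for the logarithm. -/
theorem Lg_collapse (𝓐 : Arr k w Empty)
    {c : Fin (k + 1) → ℝ} (hc : ∀ l, 0 ≤ c l) {l : Fin (k + 1)}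
    (hcl : ∀ l', l < l' → c l' = 0) (hm : up w l < 1)
    {a : ℝ} (ha : 0 < a) {W W' W'' : ℝ → ℝ} (hW : CB2 W W' W'') (hWa : ∀ x, a ≤ W x)
    (hW1 : ∀ x, W x ≤ 1) :
    𝓐.Lg c (fun x => 1 - W x) =
      𝓐.Lg (Function.update c l 0) (fun x => 1 - flowW (1 - up w l) (c l) W 0 x) := by
  have hm0 : 0 < 1 - up w l := by linarith
  rcases (hc l).eq_or_lt with h0 | hσ
  · have e1 : Function.update c l 0 = c := by rw [h0, Function.update_eq_self]
    have e2 : ∀ x, flowW (1 - up w l) (c l) W 0 x = W x := by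
      intro x
      rw [← h0]
      exact flowW_end hm0 ha hWa x
    simp only [e1, e2]
  set m := 1 - up w l with hmdef
  set σ := c l with hσdef
  obtain ⟨C0, Wt, Wx, Wxx, fW, pW, -⟩ := flow_exists hm0 hσ ha hW hWa hW1
  have hWm : Measurable W := hW.cont.measurable
  have hmem : ∀ t x, a ≤ flowW m σ W t x ∧ flowW m σ W t x ≤ 1 := fun t x =>
    flowW_mem hm0 ha hWm hWa hW1 x
  have hb : ∀ t x, |1 - flowW m σ W t x| ≤ 1 - a := by
    intro t x
    obtain ⟨h1, h2⟩ := hmem t x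
    rw [abs_of_nonneg (by linarith)]
    linarith
  have ha1 : a ≤ 1 := (hWa 0).trans (hW1 0)
  set G : ℝ → ℝ := fun t => 𝓐.Lg (Function.update c l t) (fun x => 1 - flowW m σ W t x) with hG
  have hderiv : ∀ t ∈ Set.Ioo 0 σ, HasDerivAt G 0 t := by
    intro t ht'
    have hv := nice_one_sub fW.nice
    have h1 := 𝓐.Lg_hasDerivAt hc l hv (by linarith : 0 ≤ 1 - a) (by linarith)
      (fun t _ x => hb t x) ht'
    refine h1.congr_deriv ?_
    have hct : ∀ l', 0 ≤ Function.update c l t l' := by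
      intro l'
      by_cases h : l' = l
      · subst h; rw [Function.update_self]; exact ht'.1.le
      · rw [Function.update_of_ne h]; exact hc l'
    have hclt : ∀ l', l < l' → Function.update c l t l' = 0 := by
      intro l' hl'
      rw [Function.update_of_ne hl'.ne']
      exact hcl l' hl'
    have bW : BM (flowW m σ W t) := ⟨fW.nice.m0 t ht', C0, fW.nice.b0 t ht'⟩
    have bWx : BM (Wx t) := ⟨fW.nice.m1 t ht', C0, fW.nice.b1 t ht'⟩
    have hWne : ∀ x, flowW m σ W t x ≠ 0 := fun x => (ha.trans_le (hmem t x).1).ne'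
    have hu : up w l = 1 - m := by rw [hmdef]; ring
    have hinv : BM fun x => (flowW m σ W t x)⁻¹ := by
      refine ⟨bW.meas.inv, a⁻¹, fun x => ?_⟩
      rw [abs_of_pos (inv_pos.2 (ha.trans_le (hmem t x).1))]
      exact inv_anti₀ ha (hmem t x).1
    have bR : BM fun x => -(Wx t x * (flowW m σ W t x)⁻¹) := (bWx.mul hinv).neg
    have bn : ∀ i : Empty, BM (noA i) := fun i => i.elim
    have s1 := 𝓐.mark.Q_stab (e := 0) (by simp) hct hclt (lift fun _ => 1)
      (A := ext (fun x => -Wx t x) noA) (v := fun x => 1 - flowW m σ W t x)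
      (BM_ext bn bWx.neg) (measurable_const.sub bW.meas) (by linarith : 0 ≤ 1 - a)
      (by linarith) (fun x => hb t x) none (G := fun x => -Wx t x) bWx.neg bR
    have x1 : (fun x => -(Wx t x * (flowW m σ W t x)⁻¹) * (1 - (1 - flowW m σ W t x))) =
        fun x => -Wx t x := by
      funext x
      have := hWne x
      field_simp
      ring
    rw [x1, ext_update_none, ext_update_none, Fintype.sum_option, 𝓐.mark.Q_lk_self] at s1
    have x2 : (fun x => -Wx t x * -(Wx t x * (flowW m σ W t x)⁻¹)) =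
        fun x => Wx t x ^ 2 / flowW m σ W t x := by
      funext x; ring
    rw [x2] at s1
    simp only [Finset.univ_eq_empty, Finset.sum_empty, add_zero] at s1
    have s2 : 𝓐.mark.Q 0 (Function.update c l t) (fun _ => 1)
        (ext (LL (fun t x => -Wt t x) (fun t x => -Wxx t x) t) noA)
        (fun x => 1 - flowW m σ W t x) = -(1 / 2 * up w l) *
        𝓐.mark.Q 0 (Function.update c l t) (fun _ => 1)
        (ext (fun x => Wx t x ^ 2 / flowW m σ W t x) noA)
        (fun x => 1 - flowW m σ W t x) := by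
      have h := 𝓐.mark.Q_update_smul 0 (Function.update c l t) (fun _ => 1)
        (ext (fun x => Wx t x ^ 2 / flowW m σ W t x) noA) (fun x => 1 - flowW m σ W t x) none
        (fun x => Wx t x ^ 2 / flowW m σ W t x) (-(1 / 2 * up w l))
      rw [ext_update_none, ext_update_none] at h
      rw [← h]
      congr 2
      funext x
      have := pW t ht' x
      unfold LL at this ⊢
      beta_reduce
      rw [hu]
      linear_combination -this
    rw [s2]
    have e0 : (lift fun _ : LM k Empty => (1 : ℝ)) = fun _ => 1 := rfl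
    rw [e0] at s1 ⊢
    norm_num at s1 ⊢
    rw [s1]
    ring
  have hcont : ContinuousOn G (Set.Icc 0 σ) := by
    apply 𝓐.Lg_continuousOn c l (a := 1 - a) (v := fun t x => 1 - flowW m σ W t x)
    · exact continuousOn_const.sub fW.cont
    · linarith
    · linarith
    · intro t _ x
      exact hb t x
  obtain ⟨t, ht', hslope⟩ := exists_hasDerivAt_eq_slope G (fun _ => 0) hσ hcont hderiv
  have hfin : G σ = G 0 := by
    have hne : σ - 0 ≠ 0 := by linarith
    have := hslope.symm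
    rw [div_eq_zero_iff] at this
    rcases this with h1 | h1
    · linarith
    · exact absurd h1 hne
  have hGσ : G σ = 𝓐.Lg c (fun x => 1 - W x) := by
    simp only [hG]
    have e1 : Function.update c l σ = c := by rw [hσdef, Function.update_eq_self]
    have e2 : ∀ x, flowW m σ W σ x = W x := fun x => flowW_end hm0 ha hWa x
    simp only [e1, e2]
  rw [← hGσ, hfin]

end Arr

end Vale.Agent.P157.Par
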