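import Vale.Agent.P157.ParKer

open MeasureTheory ProbabilityTheory Filter Topology Finset

namespace Vale.Agent.P157.Par

set_option linter.unusedSectionVars false

open Vale.Agent.P367.GT (gM)

/-! ### Stopped paths -/

lemma cascade_congr (m : ℕ → ℝ) {q q' : ℕ → ℝ} {k : ℕ} (h : ∀ l ≤ k, q l = q' l) :
    ∀ F, cascade m q k F = cascade m q' k F := by
  induction k with
  | zero => intro F; rfl
  | succ k ih =>
    intro F
    rw [cascade, cascade, h (k + 1) le_rfl, h k (by omega)]
    exact ih (fun l hl => h l (by omega)) _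

lemma patternPart_congr (f : ℝ → ℝ) {k : ℕ} (m : ℕ → ℝ) {q q' : ℕ → ℝ} (h : ∀ l ≤ k, q l = q' l) :
    patternPart f k m q = patternPart f k m q' := by
  unfold patternPart
  rw [cascade_congr m h, h k le_rfl, h 0 (Nat.zero_le k)]

lemma abel (m x : ℕ → ℝ) (k : ℕ) :
    ∑ l ∈ Finset.range (k + 1), (m (l + 1) - m l) * x l =
      m (k + 1) * x k - m 0 * x 0 - ∑ l ∈ Finset.range k, m (l + 1) * (x (l + 1) - x l) := by
  induction k with
  | zero => simp; ring
  | succ k ih =>
    rw [Finset.sum_range_succ, ih, Finset.sum_range_succ (n := k)]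
    ring

section

variable {C c₀ a : ℝ} {f f1 f2 f3 : ℝ → ℝ} (hf : Pot C c₀ a f f1 f2 f3) (hfm : Measurable f)

/-- The increment for one more pattern. -/
theorem dM_lim : ∃ D : ℝ, 0 ≤ D ∧
    ∀ (U : Ultrafilter ℕ) (N M P : ℕ → ℕ) (s : ℕ → ℝ) (u : ∀ j, Fin (P j) → ℝ)
    (k : ℕ) (b : Fin k → ℝ) (w : Fin (k + 1) → ℝ) (q : ℕ → ℝ) (ε : ℝ),
      Mesh U (fun j => pS f hfm C hf.cb3.b0 (N j) (M j) (P j) (s j) (u j)) b w q ε → ∀ η > 0,
      ∀ᶠ j in (U : Filter ℕ),
        |(pS f hfm C hf.cb3.b0 (N j) (M j) (P j) (s j) (u j)).dM f -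
          patternPart f k (mOf w) q| ≤ D * ε + η := by
  obtain ⟨W', W'', hW⟩ := hf.cb2W
  obtain ⟨C1, hC1, hC1'⟩ := exists_SB hW
  set α := max (1 - a) (1 / 2) with hα
  have hα1 : α < 1 := max_lt (by linarith [hf.a0]) (by norm_num)
  have hα0 : 0 < α := lt_of_lt_of_le (by norm_num) (le_max_right _ _)
  refine ⟨Dl C1 α, tsum_nonneg fun n => by positivity, ?_⟩
  intro U N M P s u k b w q ε hm η hη
  have hker := kerClose_phi (q := q) hm.eps hm.off
  have h1 := trans_log hm.lim (m := mOf w) (v := incr (stop k q)) (incr_stop_nonneg hm.path)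
    (fun l hl _ => mOf_pos hm.lim.wpos hl) (fun l => up_eq_mOf hm.lim.wsum l)
    (sub_nonneg.2 hm.le1) hm.eps hker hC1 hf.a0 (le_max_left (1 - a) (1 / 2)) hα0 hα1
    hC1' hf.Wa hf.W1 η hη
  have h2 : patternPart f k (mOf w) q = Real.log c₀ +
      ∫ z, Real.log (lvW (mOf w) (incr (stop k q)) k
        (topW (1 - q k) (fun x => Real.exp (f x) / c₀)) 0
        (√(incr (stop k q) 0) * z)) ∂(gaussianReal 0 1) := by
    rw [patternPart_congr f (mOf w) (q' := stop k q) (fun l hl => (stop_le hl).symm)]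
    have h3 := patternPart_eq (m := mOf w) (q := stop k q) (k := k) (f := f)
      (fun l hl _ => mOf_pos hm.lim.wpos hl) hf.c0 hf.a0 hf.cb2W hf.Wa hf.W1
      (by rw [stop_le le_rfl]; exact hm.le1)
    rw [h3, stop_le le_rfl, ← topW_eq]
  filter_upwards [h1] with j hj
  -- the two forms of the increment
  set S := pS f hfm C hf.cb3.b0 (N j) (M j) (P j) (s j) (u j) with hS
  have h3 : S.dM f = Real.log c₀ + ∫ z : S.Ω × (Fin S.d → ℝ), Real.log
        (∑ x, S.w z.1 x * (Real.exp (f (lin (fun x i => S.φ x i) z.2 x)) / c₀))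
          ∂(S.P.prod (gM (Fin S.d))) := by
    have h4 : ∀ z : S.Ω × (Fin S.d → ℝ), Real.log
        (∑ x, S.w z.1 x * Real.exp (f (∑ i, z.2 i * S.φ x i))) = Real.log c₀ + Real.log
        (∑ x, S.w z.1 x * (Real.exp (f (lin (fun x i => S.φ x i) z.2 x)) / c₀)) := by
      intro z
      have h5 : ∑ x, S.w z.1 x * Real.exp (f (∑ i, z.2 i * S.φ x i)) = c₀ *
          ∑ x, S.w z.1 x * (Real.exp (f (lin (fun x i => S.φ x i) z.2 x)) / c₀) := by
        rw [Finset.mul_sum]
        refine Finset.sum_congr rfl fun x _ => ?_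
        have h6 : lin (fun x i => S.φ x i) z.2 x = ∑ i, z.2 i * S.φ x i := by
          unfold lin
          exact Finset.sum_congr rfl fun i _ => mul_comm _ _
        have hc := hf.c0.ne'
        rw [h6]
        field_simp
      have h7 : 0 < ∑ x, S.w z.1 x * (Real.exp (f (lin (fun x i => S.φ x i) z.2 x)) / c₀) := by
        have h8 : a * ∑ x, S.w z.1 x ≤
            ∑ x, S.w z.1 x * (Real.exp (f (lin (fun x i => S.φ x i) z.2 x)) / c₀) := by
          rw [Finset.mul_sum]
          refine Finset.sum_le_sum fun x _ => ?_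
          rw [mul_comm a]
          exact mul_le_mul_of_nonneg_left (hf.Wa _) (S.w0 _ _)
        rw [S.w1, mul_one] at h8
        exact hf.a0.trans_le h8
      rw [h5, Real.log_mul hf.c0.ne' h7.ne']
    unfold Sys.dM
    simp only [h4]
    have h9 : Integrable (fun z : S.Ω × (Fin S.d → ℝ) => Real.log
        (∑ x, S.w z.1 x * (Real.exp (f (lin (fun x i => S.φ x i) z.2 x)) / c₀)))
        (S.P.prod (gM (Fin S.d))) := by
      have hmem : ∀ z : S.Ω × (Fin S.d → ℝ),
          a ≤ ∑ x, S.w z.1 x * (Real.exp (f (lin (fun x i => S.φ x i) z.2 x)) / c₀) ∧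
          ∑ x, S.w z.1 x * (Real.exp (f (lin (fun x i => S.φ x i) z.2 x)) / c₀) ≤ 1 := by
        intro z
        constructor
        · calc a = ∑ x, S.w z.1 x * a := by rw [← Finset.sum_mul, S.w1, one_mul]
            _ ≤ _ := Finset.sum_le_sum fun x _ =>
              mul_le_mul_of_nonneg_left (hf.Wa _) (S.w0 _ _)
        · calc _ ≤ ∑ x, S.w z.1 x * 1 := Finset.sum_le_sum fun x _ =>
              mul_le_mul_of_nonneg_left (hf.W1 _) (S.w0 _ _)
            _ = 1 := by rw [← Finset.sum_mul, S.w1, one_mul]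
      refine Integrable.of_bound (C := -Real.log a) ?_ (Eventually.of_forall fun z => ?_)
      · apply Measurable.aestronglyMeasurable
        apply Real.measurable_log.comp
        apply Finset.measurable_sum
        intro x _
        refine ((S.hw x).comp measurable_fst).mul ?_
        refine ((Real.measurable_exp.comp (hfm.comp ?_)).div_const _)
        unfold lin
        fun_prop
      · rw [Real.norm_eq_abs, abs_le]
        obtain ⟨h10, h11⟩ := hmem z
        have h12 := Real.log_le_log hf.a0 h10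
        have h13 := Real.log_nonpos (hf.a0.le.trans h10) h11
        constructor
        · linarith
        · linarith
    rw [integral_add (integrable_const _) h9]
    simp
  rw [h2, h3]
  have e1 : ∀ X Y Z : ℝ, X + Y - (X + Z) = Y - Z := fun X Y Z => by ring
  rw [e1]
  exact hj

end

end Vale.Agent.P157.Par
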