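import Vale.Agent.P157.ParRhoDefs
import Vale.Agent.P157.ParClose

/-!
Values of the truncated cascades of the two cavity terms.
-/

open MeasureTheory ProbabilityTheory Filter Topology

namespace Vale.Agent.P157.Par

/-! ### The truncation -/

lemma spv_tanh_deriv (y : ℝ) : HasDerivAt Real.tanh (1 - Real.tanh y ^ 2) y := by
  have h1 : Real.tanh = fun y => Real.sinh y / Real.cosh y := funext Real.tanh_eq_sinh_div_cosh
  rw [h1]
  have h2 := (Real.hasDerivAt_sinh y).fun_div (Real.hasDerivAt_cosh y) (Real.cosh_pos y).ne'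
  refine h2.congr_deriv ?_
  have := Real.cosh_pos y
  field_simp

lemma spv_tanh_sq_le (y : ℝ) : Real.tanh y ^ 2 ≤ 1 := by
  have h := Real.abs_tanh_lt_one y
  rw [← sq_abs]
  nlinarith only [h, abs_nonneg (Real.tanh y)]

lemma spv_abs_tanh_le (y : ℝ) : |Real.tanh y| ≤ |y| := by
  have h1 : LipschitzWith 1 Real.tanh := by
    refine lipschitzWith_of_nnnorm_deriv_le (fun x => (spv_tanh_deriv x).differentiableAt)
      fun x => ?_
    rw [(spv_tanh_deriv x).deriv, ← NNReal.coe_le_coe, coe_nnnorm, Real.norm_eq_abs,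
      NNReal.coe_one, abs_le]
    constructor <;> linarith only [spv_tanh_sq_le x, sq_nonneg (Real.tanh x)]
  have h2 := h1.dist_le_mul y 0
  rw [Real.dist_eq, Real.dist_eq, Real.tanh_zero, sub_zero, sub_zero, NNReal.coe_one,
    one_mul] at h2
  exact h2

lemma spv_sub_tanh_le {y : ℝ} (hy : 0 ≤ y) : |y - Real.tanh y| ≤ y ^ 3 / 3 := by
  have h0 : 0 ≤ y - Real.tanh y := by
    have := (abs_le.1 (spv_abs_tanh_le y)).2
    rw [abs_of_nonneg hy] at this
    linarith
  rw [abs_of_nonneg h0]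
  have hd : ∀ t : ℝ, HasDerivAt (fun t => t ^ 3 / 3 - (t - Real.tanh t))
      (t ^ 2 - Real.tanh t ^ 2) t := by
    intro t
    have h1 := ((hasDerivAt_pow 3 t).div_const 3).sub ((hasDerivAt_id t).sub (spv_tanh_deriv t))
    refine h1.congr_deriv ?_
    push_cast
    ring
  have hmono : Monotone fun t : ℝ => t ^ 3 / 3 - (t - Real.tanh t) := by
    refine monotone_of_deriv_nonneg (fun t => (hd t).differentiableAt) fun t => ?_
    rw [(hd t).deriv]
    have := sq_le_sq.2 (spv_abs_tanh_le t)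
    linarith
  have h3 := hmono hy
  simp only [Real.tanh_zero] at h3
  norm_num at h3
  linarith only [h3]

lemma spv_abs_sub_tanh_le (y : ℝ) : |y - Real.tanh y| ≤ |y| ^ 3 / 3 := by
  rcases le_total 0 y with hy | hy
  · rw [abs_of_nonneg hy]
    exact spv_sub_tanh_le hy
  · have h1 := spv_sub_tanh_le (y := -y) (by linarith)
    rw [Real.tanh_neg, abs_sub_comm] at h1
    rw [abs_of_nonpos hy]
    have e : -Real.tanh y - -y = y - Real.tanh y := by ring
    rwa [e] at h1

lemma spv_cube_le (x : ℝ) : |x| ^ 3 ≤ 12 * Real.cosh x := by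
  have h1 := Real.pow_div_factorial_le_exp |x| (abs_nonneg x) 3
  have h2 : Real.exp |x| ≤ 2 * Real.cosh x := by
    rw [← Real.cosh_abs x, Real.cosh_eq]
    linarith [Real.exp_pos (-|x|)]
  have h3 : ((Nat.factorial 3 : ℕ) : ℝ) = 6 := by norm_num [Nat.factorial]
  rw [h3] at h1
  linarith

lemma spv_trn_sub {T : ℝ} (hT : 0 < T) (x : ℝ) : |x - trn T x| ≤ 4 / T ^ 2 * Real.cosh x := by
  have h1 := spv_abs_sub_tanh_le (x / T)
  have e : x - trn T x = T * (x / T - Real.tanh (x / T)) := by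
    unfold trn
    field_simp
  rw [e, abs_mul, abs_of_pos hT]
  rw [abs_div, abs_of_pos hT] at h1
  calc T * |x / T - Real.tanh (x / T)| ≤ T * ((|x| / T) ^ 3 / 3) :=
        mul_le_mul_of_nonneg_left h1 hT.le
    _ = |x| ^ 3 / (3 * T ^ 2) := by field_simp
    _ ≤ 12 * Real.cosh x / (3 * T ^ 2) := by
        gcongr
        exact spv_cube_le x
    _ = 4 / T ^ 2 * Real.cosh x := by field_simp; norm_num

lemma spv_trn_deriv {T : ℝ} (hT : 0 < T) (x : ℝ) :
    HasDerivAt (trn T) (1 - Real.tanh (x / T) ^ 2) x := by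
  have h1 : HasDerivAt (fun x : ℝ => x / T) (1 / T) x := (hasDerivAt_id x).div_const T
  have h2 := ((spv_tanh_deriv (x / T)).comp x h1).const_mul T
  have h3 : HasDerivAt (trn T) (T * ((1 - Real.tanh (x / T) ^ 2) * (1 / T))) x := h2
  refine h3.congr_deriv ?_
  field_simp

lemma spv_trn_cb2 {T : ℝ} (hT : 0 < T) : CB2 (trn T) (fun x => 1 - Real.tanh (x / T) ^ 2)
    (fun x => -(2 * Real.tanh (x / T) * ((1 - Real.tanh (x / T) ^ 2) / T))) := by
  have hc : Continuous Real.tanh :=
    continuous_iff_continuousAt.mpr fun x => (spv_tanh_deriv x).continuousAt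
  refine ⟨spv_trn_deriv hT, fun x => ?_, by fun_prop, ⟨T, fun x => ?_⟩, ⟨1, fun x => ?_⟩,
    ⟨2 / T, fun x => ?_⟩⟩
  · have h1 : HasDerivAt (fun x : ℝ => x / T) (1 / T) x := (hasDerivAt_id x).div_const T
    have h2' := (spv_tanh_deriv (x / T)).comp x h1
    have h2 : HasDerivAt (fun x : ℝ => Real.tanh (x / T))
        ((1 - Real.tanh (x / T) ^ 2) * (1 / T)) x := h2'
    have h3 := (h2.fun_pow 2).const_sub 1
    refine h3.congr_deriv ?_
    push_cast
    ring
  · unfold trn
    rw [abs_mul, abs_of_pos hT]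
    nlinarith [Real.abs_tanh_lt_one (x / T)]
  · rw [abs_le]
    constructor <;> linarith only [spv_tanh_sq_le (x / T), sq_nonneg (Real.tanh (x / T))]
  · rw [abs_neg, abs_mul, abs_mul, abs_div, abs_of_pos hT]
    have h1 : |1 - Real.tanh (x / T) ^ 2| ≤ 1 := by
      rw [abs_le]
      constructor <;> nlinarith [spv_tanh_sq_le (x / T), sq_nonneg (Real.tanh (x / T))]
    have h2 := (Real.abs_tanh_lt_one (x / T)).le
    have h3 : |(2 : ℝ)| = 2 := by norm_num
    rw [h3]
    calc 2 * |Real.tanh (x / T)| * (|1 - Real.tanh (x / T) ^ 2| / T) ≤ 2 * 1 * (1 / T) := by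
          gcongr
      _ = 2 / T := by ring

lemma spv_trn_abs_le {T : ℝ} (hT : 0 < T) (x : ℝ) : |trn T x| ≤ T := by
  unfold trn
  rw [abs_mul, abs_of_pos hT]
  nlinarith only [hT, Real.abs_tanh_lt_one (x / T)]

lemma spv_trn_lip {T : ℝ} (hT : 0 < T) : LipschitzWith 1 (trn T) := by
  refine lipschitzWith_of_nnnorm_deriv_le (fun x => (spv_trn_deriv hT x).differentiableAt)
    fun x => ?_
  rw [(spv_trn_deriv hT x).deriv, ← NNReal.coe_le_coe, coe_nnnorm, Real.norm_eq_abs,
    NNReal.coe_one, abs_le]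
  constructor <;> linarith only [spv_tanh_sq_le (x / T), sq_nonneg (Real.tanh (x / T))]

/-! ### Comparison -/

/-- The class of outer functions. -/
structure SpvG (G : ℝ → ℝ) : Prop where
  lip : LipschitzWith 1 G
  abs_le : ∀ y, |G y| ≤ |y|
  outer : ∀ T, ∃ F' F'', Outer (-T) T (fun u => Real.exp (G u) / Real.exp T) F' F''

lemma spv_logcosh : SpvG fun y => Real.log (Real.cosh y) where
  lip := by
    have hd : ∀ y, HasDerivAt (fun y => Real.log (Real.cosh y)) (Real.tanh y) y := by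
      intro y
      have h1 := (Real.hasDerivAt_cosh y).log (Real.cosh_pos y).ne'
      rwa [← Real.tanh_eq_sinh_div_cosh] at h1
    refine lipschitzWith_of_nnnorm_deriv_le (fun x => (hd x).differentiableAt) fun x => ?_
    rw [(hd x).deriv, ← NNReal.coe_le_coe, coe_nnnorm, Real.norm_eq_abs, NNReal.coe_one]
    exact (Real.abs_tanh_lt_one x).le
  abs_le y := by
    rw [abs_of_nonneg (Real.log_nonneg (Real.one_le_cosh y))]
    rw [← Real.log_exp |y|]
    refine Real.log_le_log (Real.cosh_pos y) ?_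
    rw [← Real.cosh_abs, Real.cosh_eq]
    have : Real.exp (-|y|) ≤ Real.exp |y| := Real.exp_le_exp.2 (by linarith [abs_nonneg y])
    linarith
  outer T := by
    have e : (fun u => Real.exp (Real.log (Real.cosh u)) / Real.exp T) =
        fun u => Real.cosh u / Real.exp T := by
      funext u
      rw [Real.exp_log (Real.cosh_pos u)]
    rw [e]
    refine ⟨fun u => Real.sinh u / Real.exp T, fun u => Real.cosh u / Real.exp T,
      fun u _ => (Real.hasDerivAt_cosh u).div_const _,
      fun u _ => (Real.hasDerivAt_sinh u).div_const _, ?_, ?_, ?_, ?_⟩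
    · exact (Real.continuous_cosh.div_const _).continuousOn
    · exact (Real.continuous_cosh.div_const _).measurable
    · exact (Real.continuous_sinh.div_const _).measurable
    · exact (Real.continuous_cosh.div_const _).measurable

lemma spv_idG : SpvG fun y => y where
  lip := LipschitzWith.id
  abs_le y := le_rfl
  outer T := by
    refine ⟨fun u => Real.exp u / Real.exp T, fun u => Real.exp u / Real.exp T,
      fun u _ => (Real.hasDerivAt_exp u).div_const _,
      fun u _ => (Real.hasDerivAt_exp u).div_const _, ?_, ?_, ?_, ?_⟩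
    · exact (Real.continuous_exp.div_const _).continuousOn
    · exact (Real.continuous_exp.div_const _).measurable
    · exact (Real.continuous_exp.div_const _).measurable
    · exact (Real.continuous_exp.div_const _).measurable

section

variable {G : ℝ → ℝ} {T : ℝ}

lemma spv_W (hG : SpvG G) (hT : 0 < T) :
    (∃ W' W'', CB2 (fun x => Real.exp (G (trn T x)) / Real.exp T) W' W'') ∧
    (∀ x, Real.exp (-(2 * T)) ≤ Real.exp (G (trn T x)) / Real.exp T) ∧
    ∀ x, Real.exp (G (trn T x)) / Real.exp T ≤ 1 := by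
  obtain ⟨F', F'', hO⟩ := hG.outer T
  refine ⟨⟨_, _, (spv_trn_cb2 hT).outer (fun x => abs_le.1 (spv_trn_abs_le hT x)) hO⟩,
    fun x => ?_, fun x => ?_⟩
  · rw [← Real.exp_sub, Real.exp_le_exp]
    have h1 := (abs_le.1 ((hG.abs_le (trn T x)).trans (spv_trn_abs_le hT x))).1
    linarith
  · rw [← Real.exp_sub, Real.exp_le_one_iff]
    have h1 := (abs_le.1 ((hG.abs_le (trn T x)).trans (spv_trn_abs_le hT x))).2
    linarith

lemma spv_comp_lip (hG : SpvG G) (hT : 0 < T) : LipschitzWith 1 fun x => G (trn T x) := by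
  have h := hG.lip.comp (spv_trn_lip hT)
  rw [one_mul] at h
  exact h

lemma spv_log_topW (hG : SpvG G) (hT : 0 < T) (τ x : ℝ) :
    Real.log (topW τ (fun x => Real.exp (G (trn T x)) / Real.exp T) x) =
      gstep 1 τ (fun x => G (trn T x)) x + -T := by
  obtain ⟨⟨W', W'', hW⟩, h1, h2⟩ := spv_W hG hT
  rw [topW_eq, ← flowW_log one_pos (Real.exp_pos _) hW.cont.measurable h1 h2,
    ← val_gstep_add_const one_pos (spv_comp_lip hG hT)]
  congr 1
  funext y
  rw [← Real.exp_sub, Real.log_exp]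
  ring

lemma spv_lvW (hG : SpvG G) (hT : 0 < T) {k : ℕ} {m r : ℕ → ℝ} {τ : ℝ}
    (hm : ∀ l, 1 ≤ l → l ≤ k → 0 < m l ∧ m l ≤ 1) (x : ℝ) :
    T + Real.log (lvW m (incr r) k
      (topW τ fun x => Real.exp (G (trn T x)) / Real.exp T) 0 x) =
      cascade m r k (gstep 1 τ (fun x => G (trn T x))) x := by
  have hm' : ∀ l, 1 ≤ l → l ≤ k → 0 < m l := fun l h1 h2 => (hm l h1 h2).1
  obtain ⟨hW, h1, h2⟩ := spv_W hG hT
  obtain ⟨hV, h3, h4⟩ := topW_spec τ (Real.exp_pos _) hW h1 h2
  rw [← cascade_log hm' (Real.exp_pos _) hV h3 h4]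
  have e : (fun x => Real.log (topW τ (fun x => Real.exp (G (trn T x)) / Real.exp T) x)) =
      fun x => gstep 1 τ (fun x => G (trn T x)) x + -T := funext (spv_log_topW hG hT τ)
  rw [e, cascade_add_const hm' (val_gstep_lip one_pos (spv_comp_lip hG hT))]
  ring

end

lemma spv_close : ∃ C : ℝ → ℝ, ∀ (R : ℝ) (G : ℝ → ℝ) (T : ℝ) (k : ℕ) (m r : ℕ → ℝ) (τ : ℝ),
    SpvG G → 0 < T → (∀ l, 1 ≤ l → l ≤ k → 0 < m l ∧ m l ≤ 1) → 0 ≤ r 0 →
    (∀ l < k, r l ≤ r (l + 1)) → 0 ≤ τ → r k + τ ≤ R → ∀ x,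
    |T + Real.log (lvW m (incr r) k
      (topW τ fun x => Real.exp (G (trn T x)) / Real.exp T) 0 x) -
      cascade m r k (gstep 1 τ G) x| ≤ C R / T ^ 2 * Real.cosh x := by
  obtain ⟨C, hC⟩ := cascade_close
  refine ⟨fun R => 4 * (|C R| * |C R|), fun R G T k m r τ hG hT hm hr0 hr hτ hR x => ?_⟩
  have hmono : ∀ j ≤ k, r 0 ≤ r j := by
    intro j
    induction j with
    | zero => intro _; exact le_rfl
    | succ j ih => intro hj; exact (ih (by omega)).trans (hr j (by omega))
  have hk := hmono k le_rfl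
  rw [spv_lvW hG hT hm]
  have h1 : ∀ x, |G (trn T x) - G x| ≤ 4 / T ^ 2 * Real.cosh x := by
    intro x
    have h2 := hG.lip.dist_le_mul (trn T x) x
    rw [Real.dist_eq, Real.dist_eq, NNReal.coe_one, one_mul] at h2
    refine h2.trans ?_
    rw [abs_sub_comm]
    exact spv_trn_sub hT x
  -- the top step
  have h2 : ∀ x, |gstep 1 τ (fun x => G (trn T x)) x - gstep 1 τ G x| ≤
      4 / T ^ 2 * |C R| * Real.cosh x := by
    intro x
    have h3 := hC R 1 (fun _ => 1) (fun n => if n = 0 then 0 else τ) (fun x => G (trn T x)) G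
      (4 / T ^ 2) (fun _ _ _ => ⟨one_pos, le_rfl⟩) (fun l hl => by
        have : l = 0 := by omega
        subst this
        simpa using hτ) (by simp; linarith) (spv_comp_lip hG hT) hG.lip (by positivity) h1 x
    simp only [cascade, zero_add, one_ne_zero, if_false, if_true, sub_zero] at h3
    refine h3.trans ?_
    have hc := Real.cosh_pos x
    gcongr
    exact le_abs_self _
  have h4 := hC R k m r (gstep 1 τ (fun x => G (trn T x))) (gstep 1 τ G) (4 / T ^ 2 * |C R|)
    hm hr (by linarith) (clo_gstep_lip (spv_comp_lip hG hT) one_pos le_rfl τ)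
    (clo_gstep_lip hG.lip one_pos le_rfl τ) (by positivity) h2 x
  refine h4.trans ?_
  have hc := Real.cosh_pos x
  calc 4 / T ^ 2 * |C R| * C R * Real.cosh x ≤ 4 / T ^ 2 * |C R| * |C R| * Real.cosh x := by
        gcongr
        exact le_abs_self _
    _ = _ := by ring

/-- Integrated version. -/
lemma spv_int_close : ∃ C : ℝ → ℝ, ∀ (R : ℝ) (G : ℝ → ℝ) (T : ℝ) (k : ℕ) (m r : ℕ → ℝ) (τ : ℝ),
    SpvG G → 0 < T → (∀ l, 1 ≤ l → l ≤ k → 0 < m l ∧ m l ≤ 1) → 0 ≤ r 0 →
    (∀ l < k, r l ≤ r (l + 1)) → 0 ≤ τ → r k + τ ≤ R →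
    |T + ∫ z, Real.log (lvW m (incr r) k
      (topW τ fun x => Real.exp (G (trn T x)) / Real.exp T) 0
        (√(incr r 0) * z)) ∂(gaussianReal 0 1) -
      ∫ z, cascade m r k (gstep 1 τ G) (√(r 0) * z) ∂(gaussianReal 0 1)| ≤ C R / T ^ 2 := by
  obtain ⟨C, hC⟩ := spv_close
  refine ⟨fun R => |C R| * Real.exp (R / 2), fun R G T k m r τ hG hT hm hr0 hr hτ hR => ?_⟩
  have hm' : ∀ l, 1 ≤ l → l ≤ k → 0 < m l := fun l h1 h2 => (hm l h1 h2).1
  have hmono : ∀ j ≤ k, r 0 ≤ r j := by
    intro j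
    induction j with
    | zero => intro _; exact le_rfl
    | succ j ih => intro hj; exact (ih (by omega)).trans (hr j (by omega))
  have hk := hmono k le_rfl
  obtain ⟨hW, h1, h2⟩ := spv_W hG hT
  obtain ⟨hV, h3, h4⟩ := topW_spec τ (Real.exp_pos _) hW h1 h2
  obtain ⟨⟨U', U'', hU⟩, h5, h6⟩ := lvW_spec (v := incr r) hm' (Real.exp_pos _) hV h3 h4 0
    (Nat.zero_le k)
  set V := lvW m (incr r) k (topW τ fun x => Real.exp (G (trn T x)) / Real.exp T) 0 with hVdef
  have e0 : incr r 0 = r 0 := rfl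
  rw [e0]
  have hint1 : Integrable (fun z => Real.log (V (√(r 0) * z))) (gaussianReal 0 1) := by
    refine Integrable.mono' (integrable_const (2 * T)) ?_
      (Filter.Eventually.of_forall fun z => ?_)
    · exact ((Real.measurable_log.comp hU.cont.measurable).comp
        (by fun_prop)).aestronglyMeasurable
    · rw [Real.norm_eq_abs]
      have h7 := Real.log_le_log (Real.exp_pos _) (h5 (√(r 0) * z))
      have h8 := Real.log_nonpos ((Real.exp_pos _).le.trans (h5 (√(r 0) * z))) (h6 (√(r 0) * z))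
      rw [Real.log_exp] at h7
      rw [abs_of_nonpos h8]
      linarith
  have hintT : Integrable (fun z => T + Real.log (V (√(r 0) * z))) (gaussianReal 0 1) :=
    (integrable_const T).add hint1
  -- the error term
  have hcosh : Integrable (fun z => Real.cosh (√(r 0) * z)) (gaussianReal 0 1) := by
    have e : (fun z : ℝ => Real.cosh (√(r 0) * z)) = fun z =>
        1 / 2 * (Real.exp (√(r 0) * z) + Real.exp (-√(r 0) * z)) := by
      funext z
      rw [Real.cosh_eq, show -(√(r 0) * z) = -√(r 0) * z by ring]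
      ring
    rw [e]
    exact ((integrable_exp_mul_gaussianReal _).add (integrable_exp_mul_gaussianReal _)).const_mul _
  have hcosh2 : ∫ z, Real.cosh (√(r 0) * z) ∂(gaussianReal 0 1) = Real.exp (r 0 / 2) := by
    have e : (fun z : ℝ => Real.cosh (√(r 0) * z)) = fun z =>
        1 / 2 * (Real.exp (√(r 0) * z) + Real.exp (-√(r 0) * z)) := by
      funext z
      rw [Real.cosh_eq, show -(√(r 0) * z) = -√(r 0) * z by ring]
      ring
    rw [e, integral_const_mul, integral_add (integrable_exp_mul_gaussianReal _)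
      (integrable_exp_mul_gaussianReal _), clo_int_exp, clo_int_exp, neg_sq, Real.sq_sqrt hr0]
    ring
  have hbd : ∀ z, |T + Real.log (V (√(r 0) * z)) - cascade m r k (gstep 1 τ G) (√(r 0) * z)| ≤
      |C R| / T ^ 2 * Real.cosh (√(r 0) * z) := by
    intro z
    refine (hC R G T k m r τ hG hT hm hr0 hr hτ hR (√(r 0) * z)).trans ?_
    have hc := Real.cosh_pos (√(r 0) * z)
    gcongr
    exact le_abs_self _
  have hlip : ∀ (j : ℕ) (F : ℝ → ℝ), j ≤ k → LipschitzWith 1 F →
      LipschitzWith 1 (cascade m r j F) := by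
    intro j
    induction j with
    | zero => intro F _ hF; exact hF
    | succ j ih =>
      intro F hj hF
      obtain ⟨hm0, hm1⟩ := hm (j + 1) (by omega) hj
      exact ih _ (by omega) (clo_gstep_lip hF hm0 hm1 _)
  have hK := hlip k _ le_rfl (clo_gstep_lip hG.lip one_pos le_rfl τ)
  have hint2 : Integrable (fun z => T + Real.log (V (√(r 0) * z)) -
      cascade m r k (gstep 1 τ G) (√(r 0) * z)) (gaussianReal 0 1) := by
    refine Integrable.mono' (hcosh.const_mul (|C R| / T ^ 2)) ?_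
      (Filter.Eventually.of_forall fun z => ?_)
    · have hKc := hK.continuous
      exact (((Real.measurable_log.comp hU.cont.measurable).comp
        (by fun_prop : Measurable fun z : ℝ => √(r 0) * z)).const_add T |>.sub
        (hKc.measurable.comp (by fun_prop))).aestronglyMeasurable
    · rw [Real.norm_eq_abs]
      exact hbd z
  have hint3 : Integrable (fun z => cascade m r k (gstep 1 τ G) (√(r 0) * z))
      (gaussianReal 0 1) := by
    have h7 := hintT.sub hint2
    refine h7.congr (Filter.Eventually.of_forall fun z => ?_)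
    simp only [Pi.sub_apply]
    ring
  have e1 : T + ∫ z, Real.log (V (√(r 0) * z)) ∂(gaussianReal 0 1) -
      ∫ z, cascade m r k (gstep 1 τ G) (√(r 0) * z) ∂(gaussianReal 0 1) =
      ∫ z, (T + Real.log (V (√(r 0) * z)) - cascade m r k (gstep 1 τ G) (√(r 0) * z))
        ∂(gaussianReal 0 1) := by
    rw [integral_sub hintT hint3, integral_add (integrable_const _) hint1,
      integral_const]
    simp only [probReal_univ, one_smul]
  rw [e1]
  have h9 : ‖∫ z, (T + Real.log (V (√(r 0) * z)) - cascade m r k (gstep 1 τ G) (√(r 0) * z))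
        ∂(gaussianReal 0 1)‖ ≤ ∫ z, |C R| / T ^ 2 * Real.cosh (√(r 0) * z) ∂(gaussianReal 0 1) :=
    norm_integral_le_of_norm_le (hcosh.const_mul _) (Filter.Eventually.of_forall fun z => by
      rw [Real.norm_eq_abs]; exact hbd z)
  rw [Real.norm_eq_abs, integral_const_mul, hcosh2] at h9
  refine h9.trans ?_
  have h10 : Real.exp (r 0 / 2) ≤ Real.exp (R / 2) := Real.exp_le_exp.2 (by linarith)
  calc |C R| / T ^ 2 * Real.exp (r 0 / 2) ≤ |C R| / T ^ 2 * Real.exp (R / 2) := by gcongr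
    _ = _ := by ring

lemma spv_choose (c : ℝ) {ε : ℝ} (hε : 0 < ε) : ∃ T₀ : ℝ, ∀ T ≥ T₀, 0 < T ∧ c / T ^ 2 ≤ ε := by
  refine ⟨max 1 (c / ε), fun T hT => ?_⟩
  have h1 : 1 ≤ T := (le_max_left _ _).trans hT
  have h2 : c / ε ≤ T := (le_max_right _ _).trans hT
  have h3 : 0 < T := by linarith
  refine ⟨h3, ?_⟩
  rw [div_le_iff₀ (by positivity)]
  rw [div_le_iff₀ hε] at h2
  nlinarith [mul_pos hε h3]

/-- Evaluation of the first cavity term. -/
theorem spin_val_cosh (R : ℝ) : ∀ ε > 0, ∃ T₀ : ℝ, ∀ T ≥ T₀, ∀ (k : ℕ) (m r : ℕ → ℝ) (τ : ℝ),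
    (∀ l, 1 ≤ l → l ≤ k → 0 < m l ∧ m l ≤ 1) → 0 ≤ r 0 → (∀ l < k, r l ≤ r (l + 1)) → 0 ≤ τ →
    r k + τ ≤ R →
    ∫ z, cascade m r k (fun x => Real.log (Real.cosh x)) (√(r 0) * z) ∂(gaussianReal 0 1) + τ / 2 ≤
      T + ∫ z, Real.log (lvW m (incr r) k
        (topW τ fun x => Real.exp (Real.log (Real.cosh (trn T x))) / Real.exp T) 0
          (√(incr r 0) * z)) ∂(gaussianReal 0 1) + ε := by
  intro ε hε
  obtain ⟨C, hC⟩ := spv_int_close
  obtain ⟨T₀, hT₀⟩ := spv_choose (C R) hε
  refine ⟨T₀, fun T hT k m r τ hm hr0 hr hτ hR => ?_⟩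
  obtain ⟨hT0, hT1⟩ := hT₀ T hT
  have h1 := (abs_le.1 (hC R _ T k m r τ spv_logcosh hT0 hm hr0 hr hτ hR)).1
  have hm' : ∀ l, 1 ≤ l → l ≤ k → 0 < m l := fun l h1 h2 => (hm l h1 h2).1
  have e1 : gstep 1 τ (fun x => Real.log (Real.cosh x)) =
      fun x => Real.log (Real.cosh x) + τ / 2 := funext (gstep_one_logcosh hτ)
  have hlip : ∀ (j : ℕ) (F : ℝ → ℝ), j ≤ k → LipschitzWith 1 F →
      LipschitzWith 1 (cascade m r j F) := by
    intro j
    induction j with
    | zero => intro F _ hF; exact hF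
    | succ j ih =>
      intro F hj hF
      obtain ⟨hm0, hm1⟩ := hm (j + 1) (by omega) hj
      exact ih _ (by omega) (clo_gstep_lip hF hm0 hm1 _)
  have hK := hlip k _ le_rfl spv_logcosh.lip
  have hint : Integrable (fun z => cascade m r k (fun x => Real.log (Real.cosh x))
      (√(r 0) * z)) (gaussianReal 0 1) := by
    refine Integrable.mono' ((integrable_const
      (|cascade m r k (fun x => Real.log (Real.cosh x)) 0|)).add
      ((clo_integrable_exp_abs 1).const_mul √(r 0))) ?_ (Filter.Eventually.of_forall fun z => ?_)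
    · exact (hK.continuous.measurable.comp (by fun_prop)).aestronglyMeasurable
    · rw [Real.norm_eq_abs]
      have h2 := clo_lip hK 0 (√(r 0) * z)
      rw [zero_add, clo_abs_sqrt_mul] at h2
      have h3 : |z| ≤ Real.exp (1 * |z|) := by
        rw [one_mul]
        linarith [Real.add_one_le_exp |z|]
      have h4 : √(r 0) * |z| ≤ √(r 0) * Real.exp (1 * |z|) := by gcongr
      have h5 := abs_sub_abs_le_abs_sub
        (cascade m r k (fun x => Real.log (Real.cosh x)) (√(r 0) * z))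
        (cascade m r k (fun x => Real.log (Real.cosh x)) 0)
      simp only [Pi.add_apply]
      linarith
  have e2 : ∫ z, cascade m r k (gstep 1 τ fun x => Real.log (Real.cosh x)) (√(r 0) * z)
      ∂(gaussianReal 0 1) = ∫ z, cascade m r k (fun x => Real.log (Real.cosh x)) (√(r 0) * z)
      ∂(gaussianReal 0 1) + τ / 2 := by
    rw [e1]
    have e3 : ∀ z, cascade m r k (fun x => Real.log (Real.cosh x) + τ / 2) (√(r 0) * z) =
        cascade m r k (fun x => Real.log (Real.cosh x)) (√(r 0) * z) + τ / 2 :=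
      fun z => cascade_add_const hm' spv_logcosh.lip _ _
    simp only [e3]
    rw [integral_add hint (integrable_const _), integral_const]
    simp only [probReal_univ, one_smul]
  rw [e2] at h1
  linarith

/-- Evaluation of the second cavity term. -/
theorem spin_val_id (R : ℝ) : ∀ ε > 0, ∃ T₀ : ℝ, ∀ T ≥ T₀, ∀ (k : ℕ) (m r : ℕ → ℝ) (τ : ℝ),
    (∀ l, 1 ≤ l → l ≤ k → 0 < m l ∧ m l ≤ 1) → 0 ≤ r 0 → (∀ l < k, r l ≤ r (l + 1)) → 0 ≤ τ →
    r k + τ ≤ R →
    T + ∫ z, Real.log (lvW m (incr r) k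
        (topW τ fun x => Real.exp (trn T x) / Real.exp T) 0
          (√(incr r 0) * z)) ∂(gaussianReal 0 1) ≤
      1 / 2 * ∑ l ∈ Finset.range k, m (l + 1) * (r (l + 1) - r l) + τ / 2 + ε := by
  intro ε hε
  obtain ⟨C, hC⟩ := spv_int_close
  obtain ⟨T₀, hT₀⟩ := spv_choose (C R) hε
  refine ⟨T₀, fun T hT k m r τ hm hr0 hr hτ hR => ?_⟩
  obtain ⟨hT0, hT1⟩ := hT₀ T hT
  have h1 := (abs_le.1 (hC R _ T k m r τ spv_idG hT0 hm hr0 hr hτ hR)).2
  have hm' : ∀ l, 1 ≤ l → l ≤ k → 0 < m l := fun l h1 h2 => (hm l h1 h2).1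
  have e1 : gstep 1 τ (fun x => x) = fun x => x + τ / 2 := funext (gstep_one_id hτ)
  have e2 : ∫ z, cascade m r k (gstep 1 τ fun x => x) (√(r 0) * z) ∂(gaussianReal 0 1) =
      1 / 2 * ∑ l ∈ Finset.range k, m (l + 1) * (r (l + 1) - r l) + τ / 2 := by
    rw [e1]
    have e3 : ∀ z, cascade m r k (fun x => x + τ / 2) (√(r 0) * z) =
        √(r 0) * z + (1 / 2 * ∑ l ∈ Finset.range k, m (l + 1) * (r (l + 1) - r l) + τ / 2) := by
      intro z
      rw [cascade_add_const hm' spv_idG.lip, cascade_id hm' hr]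
      ring
    simp only [e3]
    have hi : Integrable (fun z : ℝ => √(r 0) * z) (gaussianReal 0 1) := by
      refine clo_integrable (C := √(r 0)) (a := 1) (by fun_prop) fun z => ?_
      rw [clo_abs_sqrt_mul]
      gcongr
      linarith [Real.add_one_le_exp (1 * |z|)]
    rw [integral_add hi (integrable_const _), integral_const_mul, integral_id_gaussianReal,
      integral_const]
    simp
  rw [e2] at h1
  linarith only [hT1, h1]

end Vale.Agent.P157.Par
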