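import Vale.Agent.P157.ParLower1
import Vale.Agent.P157.ParDnLow
import Vale.Agent.P157.ParSpinVal
import Vale.Agent.P157.ParExpm

open MeasureTheory ProbabilityTheory Filter Topology Finset

namespace Vale.Agent.P157.Par

set_option linter.unusedSectionVars false

open Vale.Agent.P367.GT (gM)

/-- Transfer of the logarithm of the average of a truncated exponential. -/
theorem trn_lim {G : ℝ → ℝ} (hG : SpvG G) {T : ℝ} (hT : 0 < T) : ∃ D : ℝ, 0 ≤ D ∧
    ∀ (U : Ultrafilter ℕ) (S : ℕ → Sys) (k : ℕ) (b : Fin k → ℝ) (w : Fin (k + 1) → ℝ),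
      LimData U S b w → ∀ (v : ℕ → ℝ), (∀ l, 0 ≤ v l) → ∀ (τ ε B : ℝ), 0 ≤ τ → 0 ≤ ε →
      ∀ (K : ℕ → Type) [∀ j, Fintype (K j)] [∀ j, DecidableEq (K j)]
        (κ : ∀ j, (S j).T → (S j).X → K j → ℝ), KerClose U S b (cut v k) τ ε B κ →
      ∀ η > 0, ∀ᶠ j in (U : Filter ℕ),
        |(∫ z : (S j).Ω × (K j → ℝ), Real.log (∑ x, (S j).w z.1 x *
            Real.exp (G (trn T (lin (κ j ((S j).π z.1)) z.2 x)))) ∂((S j).P.prod (gM (K j)))) -
          (T + ∫ z, Real.log (lvW (mOf w) v k
            (topW τ fun x => Real.exp (G (trn T x)) / Real.exp T) 0 (√(v 0) * z))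
              ∂(gaussianReal 0 1))| ≤ D * ε + η := by
  obtain ⟨⟨W', W'', hW⟩, hWa, hW1⟩ := spv_W hG hT
  obtain ⟨C1, hC1, hC1'⟩ := exists_SB hW
  set a := Real.exp (-(2 * T)) with ha
  have ha0 : 0 < a := Real.exp_pos _
  set α := max (1 - a) (1 / 2) with hα
  have hα1 : α < 1 := max_lt (by linarith) (by norm_num)
  have hα0 : 0 < α := lt_of_lt_of_le (by norm_num) (le_max_right _ _)
  refine ⟨Dl C1 α, tsum_nonneg fun n => by positivity, ?_⟩
  intro U S k b w hL v hv τ ε B hτ hε K _ _ κ hκ η hη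
  have h1 := trans_log hL (m := mOf w) hv (fun l hl _ => mOf_pos hL.wpos hl)
    (fun l => up_eq_mOf hL.wsum l) hτ hε hκ hC1 ha0 (le_max_left (1 - a) (1 / 2)) hα0 hα1
    hC1' hWa hW1 η hη
  filter_upwards [h1] with j hj
  have h3 : (∫ z : (S j).Ω × (K j → ℝ), Real.log (∑ x, (S j).w z.1 x *
      Real.exp (G (trn T (lin (κ j ((S j).π z.1)) z.2 x)))) ∂((S j).P.prod (gM (K j)))) =
      T + ∫ z : (S j).Ω × (K j → ℝ), Real.log (∑ x, (S j).w z.1 x *
      (Real.exp (G (trn T (lin (κ j ((S j).π z.1)) z.2 x))) / Real.exp T))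
        ∂((S j).P.prod (gM (K j))) := by
    have hmem : ∀ z : (S j).Ω × (K j → ℝ),
        a ≤ ∑ x, (S j).w z.1 x *
          (Real.exp (G (trn T (lin (κ j ((S j).π z.1)) z.2 x))) / Real.exp T) ∧
        ∑ x, (S j).w z.1 x *
          (Real.exp (G (trn T (lin (κ j ((S j).π z.1)) z.2 x))) / Real.exp T) ≤ 1 := by
      intro z
      constructor
      · calc a = ∑ x, (S j).w z.1 x * a := by rw [← Finset.sum_mul, (S j).w1, one_mul]
          _ ≤ _ := Finset.sum_le_sum fun x _ =>
            mul_le_mul_of_nonneg_left (hWa _) ((S j).w0 _ _)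
      · calc _ ≤ ∑ x, (S j).w z.1 x * 1 := Finset.sum_le_sum fun x _ =>
            mul_le_mul_of_nonneg_left (hW1 _) ((S j).w0 _ _)
          _ = 1 := by rw [← Finset.sum_mul, (S j).w1, one_mul]
    have h4 : ∀ z : (S j).Ω × (K j → ℝ), Real.log (∑ x, (S j).w z.1 x *
        Real.exp (G (trn T (lin (κ j ((S j).π z.1)) z.2 x)))) = T + Real.log
        (∑ x, (S j).w z.1 x *
          (Real.exp (G (trn T (lin (κ j ((S j).π z.1)) z.2 x))) / Real.exp T)) := by
      intro z
      have h5 : ∑ x, (S j).w z.1 x *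
          Real.exp (G (trn T (lin (κ j ((S j).π z.1)) z.2 x))) = Real.exp T *
          ∑ x, (S j).w z.1 x *
          (Real.exp (G (trn T (lin (κ j ((S j).π z.1)) z.2 x))) / Real.exp T) := by
        rw [Finset.mul_sum]
        refine Finset.sum_congr rfl fun x _ => ?_
        have hc := (Real.exp_pos T).ne'
        field_simp
      rw [h5, Real.log_mul (Real.exp_pos T).ne' (ha0.trans_le (hmem z).1).ne', Real.log_exp]
    simp only [h4]
    have h9 : Integrable (fun z : (S j).Ω × (K j → ℝ) => Real.log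
        (∑ x, (S j).w z.1 x *
          (Real.exp (G (trn T (lin (κ j ((S j).π z.1)) z.2 x))) / Real.exp T)))
        ((S j).P.prod (gM (K j))) := by
      refine Integrable.of_bound (C := -Real.log a) ?_ (Eventually.of_forall fun z => ?_)
      · apply Measurable.aestronglyMeasurable
        apply Real.measurable_log.comp
        apply Finset.measurable_sum
        intro x _
        refine (((S j).hw x).comp measurable_fst).mul ?_
        exact hW.cont.measurable.comp (measurable_field (S j) (hκ.meas j) x)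
      · rw [Real.norm_eq_abs, abs_le]
        obtain ⟨h10, h11⟩ := hmem z
        have h12 := Real.log_le_log ha0 h10
        have h13 := Real.log_nonpos (ha0.le.trans h10) h11
        constructor
        · linarith only [h12]
        · linarith
    rw [integral_add (integrable_const _) h9]
    simp
  rw [h3]
  have e1 : ∀ X Y Z : ℝ, X + Y - (X + Z) = Y - Z := fun X Y Z => by ring
  rw [e1]
  exact hj

end Vale.Agent.P157.Par
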