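import Vale.Agent.P157.ParLower2
import Vale.Agent.P157.ParBconc

open MeasureTheory ProbabilityTheory Filter Topology Finset

namespace Vale.Agent.P157.Par

set_option linter.unusedSectionVars false

open Vale.Agent.P367.GT (gM)

lemma final_arith {X1 Y1 X2 Y2 dM Ψ DN p ε α tB tE DA iT casc ao rk xk Sg Dc Di Dm e0 e1 : ℝ}
    (hε : 0 < ε) (hα : 0 < α) (hDA : 0 ≤ DA) (hDc : 0 ≤ Dc) (hDi : 0 ≤ Di)
    (he1 : e1 = ε / (24 * (Dc + Di + 1))) (he0 : e0 ≤ ε / (12 * (α * Dm + 1)))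
    (hDm : 0 ≤ Dm)
    (h1 : |X1 - Y1| ≤ Dc * (e1 / 2) + ε / 12) (h2 : |X2 - Y2| ≤ Di * e1 + ε / 12)
    (h3 : |dM - Ψ| ≤ Dm * e0 + ε / (12 * (α + 1))) (h4 : DN + α * dM ≤ p + ε / 12)
    (h5 : tB ≤ ε / (24 * (DA + 1)) ∧ tE ≤ ε / (24 * (DA + 1)))
    (v1 : casc + (ao - rk) / 2 ≤ Y1 + ε / 12)
    (v2 : Y2 ≤ 1 / 2 * Sg + (ao - xk) / 2 + ε / 12)
    (v3 : X1 - X2 - DA * (tB + tE + iT) ≤ DN) (v4 : DA * iT ≤ ε / 12) :
    α * Ψ + (casc - rk / 2) + 1 / 2 * (xk - Sg) ≤ p + ε := by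
  have a1 := (abs_le.1 h1).1
  have a2 := (abs_le.1 h2).2
  have a3 := (abs_le.1 h3).1
  have b1 : (Dc + Di) * e1 ≤ ε / 24 := by
    rw [he1, show (Dc + Di) * (ε / (24 * (Dc + Di + 1))) =
      ((Dc + Di) / (Dc + Di + 1)) * (ε / 24) by field_simp]
    apply mul_le_of_le_one_left (by positivity)
    rw [div_le_one (by positivity)]
    linarith
  have b2 : α * (Dm * e0) ≤ ε / 12 := by
    have h6 : α * Dm * e0 ≤ α * Dm * (ε / (12 * (α * Dm + 1))) :=
      mul_le_mul_of_nonneg_left he0 (by positivity)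
    have h7 : α * Dm * (ε / (12 * (α * Dm + 1))) ≤ ε / 12 := by
      rw [show α * Dm * (ε / (12 * (α * Dm + 1))) = (α * Dm / (α * Dm + 1)) * (ε / 12) by
        field_simp]
      apply mul_le_of_le_one_left (by positivity)
      rw [div_le_one (by positivity)]
      linarith
    linarith only [h6, h7]
  have b3 : α * (ε / (12 * (α + 1))) ≤ ε / 12 := by
    rw [show α * (ε / (12 * (α + 1))) = (α / (α + 1)) * (ε / 12) by field_simp]
    apply mul_le_of_le_one_left (by positivity)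
    rw [div_le_one (by positivity)]
    linarith
  have b4 : DA * (ε / (24 * (DA + 1))) ≤ ε / 24 := by
    rw [show DA * (ε / (24 * (DA + 1))) = (DA / (DA + 1)) * (ε / 24) by field_simp]
    apply mul_le_of_le_one_left (by positivity)
    rw [div_le_one (by positivity)]
    linarith
  have b5 := mul_le_mul_of_nonneg_left h5.1 hDA
  have b6 := mul_le_mul_of_nonneg_left h5.2 hDA
  have b7 : α * Ψ ≤ α * dM + α * (Dm * e0) + α * (ε / (12 * (α + 1))) := by
    have : Ψ ≤ dM + Dm * e0 + ε / (12 * (α + 1)) := by linarith only [a3]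
    have h8 := mul_le_mul_of_nonneg_left this hα.le
    linarith only [h8]
  have b8 : Dc * (e1 / 2) + Di * e1 ≤ ε / 24 := by
    have h9 : 0 ≤ e1 := by rw [he1]; positivity
    have h10 : Dc * (e1 / 2) ≤ Dc * e1 := mul_le_mul_of_nonneg_left (by linarith only [h9]) hDc
    linarith only [b1, h10]
  linarith only [hε, h4, v1, v2, v3, v4, a1, a2, b2, b3, b4, b5, b6, b7, b8]

section

variable {C c₀ a : ℝ} {f f1 f2 f3 : ℝ → ℝ} (hf : Pot C c₀ a f f1 f2 f3) (hfm : Measurable f)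
  {α : ℝ} (hα : 0 < α) {U : Ultrafilter ℕ} {N M P : ℕ → ℕ} {s : ℕ → ℝ} {u : ∀ j, Fin (P j) → ℝ}
  (hs : SeqOK f hfm C hf.cb3.b0 α U N M P s u)

include hα hs

/-- The drift is asymptotically constant. -/
theorem drift_const : ∀ η > 0, ∃ b : ℝ, ∀ᶠ j in (U : Filter ℕ),
      (pS f hfm C hf.cb3.b0 (N j) (M j + 1) (P j) (s j) (u j)).tav (n := 1) (fun t x =>
        |cavB (1 / ((N j : ℝ) + 2)) f1 f2 (fun a => cubeS (t a) (x 0)) - b|) ≤ η ∧
      (pS f hfm C hf.cb3.b0 (N j) (M j + 1) (P j) (s j) (u j)).tav (n := 1) (fun t x =>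
        |Real.exp (cavB (1 / ((N j : ℝ) + 2)) f1 f2 (fun a => cubeS (t a) (x 0)) - b) - 1|) ≤
          η := by
  refine cavB_conc hf.cb3 hfm hf.cf1 hf.cf2 hα hs.hMN fun g g' g'' hg η hη => ?_
  obtain ⟨D, hD, hD'⟩ := rhoC_one hf hfm hα hg
  obtain ⟨k, b, w, q, hm⟩ := exists_mesh' hs.hgg (ε := η / (2 * (D + 1))) (by positivity)
  refine ⟨α * ov (fun x => Real.exp (f x) / c₀) g k w q, ?_⟩
  filter_upwards [hD' U N M P s u hs k b w q _ hm (η / 2) (by positivity)] with j hj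
  refine hj.trans ?_
  have h3 : D * (η / (2 * (D + 1))) ≤ η / 2 := by
    rw [show D * (η / (2 * (D + 1))) = (D / (D + 1)) * (η / 2) by field_simp]
    apply mul_le_of_le_one_left (by positivity)
    rw [div_le_one (by positivity)]
    linarith
  linarith

/-- The value of the two increments. -/
theorem lower_ineq {p : ℝ} (hfin : ∀ ε > 0, ∀ᶠ j in (U : Filter ℕ),
      cubeDN f f1 f2 hfm C hf.cb3.b0 (N j) (M j + 1) (P j) (s j) (u j) +
        α * (pS f hfm C hf.cb3.b0 (N j) (M j) (P j) (s j) (u j)).dM f ≤ p + ε) :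
    ∀ ε > 0, ∃ (k : ℕ) (b : Fin k → ℝ) (w : Fin (k + 1) → ℝ) (q : ℕ → ℝ) (ε₀ : ℝ),
      Mesh U (fun j => pS f hfm C hf.cb3.b0 (N j) (M j) (P j) (s j) (u j)) b w q ε₀ ∧
      parisi α f k (mOf w) q (rr α (fun x => Real.exp (f x) / c₀) f1 k w q) ≤ p + ε := by
  intro ε hε
  obtain ⟨A, hA⟩ := hs.hb
  have hC0 : 0 ≤ C := (abs_nonneg _).trans (hf.cb3.b0 0)
  obtain ⟨g', g'', hg⟩ := hf.cf1
  obtain ⟨p', p'', hp⟩ := hg.sq_fn
  -- the constants
  obtain ⟨DA, hDA, hDA'⟩ := cubeDN_trunc (A * C ^ 2)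
  obtain ⟨T1, hT1⟩ := spin_val_cosh (α * C ^ 2) (ε / 12) (by positivity)
  obtain ⟨T2, hT2⟩ := spin_val_id (α * C ^ 2) (ε / 12) (by positivity)
  obtain ⟨T3, hT3⟩ := spv_choose DA (ε := ε / 12) (by positivity)
  set T := max (max T1 T2) (max T3 1) with hT
  have hTT1 : T1 ≤ T := (le_max_left _ _).trans (le_max_left _ _)
  have hTT2 : T2 ≤ T := (le_max_right _ _).trans (le_max_left _ _)
  have hTT3 : T3 ≤ T := (le_max_left _ _).trans (le_max_right _ _)
  have hT1' : 1 ≤ T := (le_max_right _ _).trans (le_max_right _ _)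
  have hT0 : 0 < T := by linarith
  obtain ⟨b₀, hb₀⟩ := drift_const hf hfm hα hs (ε / (24 * (DA + 1))) (by positivity)
  obtain ⟨Dc, hDc, hDc'⟩ := trn_lim spv_logcosh hT0
  obtain ⟨Di, hDi, hDi'⟩ := trn_lim spv_idG hT0
  obtain ⟨Dm, hDm, hDm'⟩ := dM_lim hf hfm
  obtain ⟨Dk, hDk, hDk'⟩ := kerClose_ker1 hf hfm hα
  -- the tolerance of the kernels
  set e1 := ε / (24 * (Dc + Di + 1)) with he1
  have he1' : 0 < e1 := by positivity
  set e0 := min (e1 ^ 2 / (8 * (Dk + 1))) (min (e1 / (4 * (α * C ^ 2 + 1)))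
    (ε / (12 * (α * Dm + 1)))) with he0
  have he0' : 0 < e0 := by
    refine lt_min (by positivity) (lt_min (by positivity) (by positivity))
  obtain ⟨k, b, w, q, hm⟩ := exists_mesh' hs.hgg he0'
  refine ⟨k, b, w, q, e0, hm, ?_⟩
  set r := rr α (fun x => Real.exp (f x) / c₀) f1 k w q with hr
  set o := ov (fun x => Real.exp (f x) / c₀) (fun y => f1 y ^ 2) k w q with ho
  have hrpath : Path k r := rr_path hf hα hm.lim.wpos q
  have hro : r k ≤ α * o := rr_le_ov hf hα hm.lim.wpos q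
  have hoC : α * o ≤ α * C ^ 2 := by
    apply mul_le_mul_of_nonneg_left _ hα.le
    exact le_of_abs_le (ov_abs_le hf.a0 hf.cb2W hf.Wa hf.W1 hm.lim.wpos q hp (fun y => by
      rw [abs_pow]
      exact pow_le_pow_left₀ (abs_nonneg _) (hf.cb3.b1 y) 2))
  have hr0 : ∀ l ≤ k, 0 ≤ r l := fun l hl => rr_nonneg hf hα hm.lim.wpos q hl
  have hq0 : ∀ l ≤ k, 0 ≤ q l := fun l hl =>
    hm.path.1.trans (path_mono hm.path.2 0 l (Nat.zero_le _) hl)
  have hqmono := path_mono hm.path.2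
  have hrmono := path_mono hrpath.2
  have hxpath : Path k (fun l => r l * q l) :=
    ⟨mul_nonneg (hr0 0 (Nat.zero_le _)) (hq0 0 (Nat.zero_le _)), fun l hl =>
      mul_le_mul (hrpath.2 l hl) (hm.path.2 l hl) (hq0 l hl.le) (hr0 (l + 1) hl)⟩
  have hxk : r k * q k ≤ r k := mul_le_of_le_one_right (hr0 k le_rfl) hm.le1
  have hmm : ∀ l, 1 ≤ l → l ≤ k → 0 < mOf w l ∧ mOf w l ≤ 1 := fun l hl _ =>
    ⟨mOf_pos hm.lim.wpos hl, mOf_le_one hm.lim.wpos hm.lim.wsum l⟩
  -- the kernels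
  have hDk1 : Dk * e0 < (e1 / 2) ^ 2 := by
    have h1 : Dk * e0 ≤ Dk * (e1 ^ 2 / (8 * (Dk + 1))) :=
      mul_le_mul_of_nonneg_left (min_le_left _ _) hDk
    have h2 : Dk * (e1 ^ 2 / (8 * (Dk + 1))) ≤ e1 ^ 2 / 8 := by
      rw [show Dk * (e1 ^ 2 / (8 * (Dk + 1))) = (Dk / (Dk + 1)) * (e1 ^ 2 / 8) by field_simp]
      apply mul_le_of_le_one_left (by positivity)
      rw [div_le_one (by positivity)]
      linarith
    have h3 : 0 < e1 ^ 2 := by positivity
    have h4 : (e1 / 2) ^ 2 = e1 ^ 2 / 4 := by ring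
    rw [h4]
    linarith only [h1, h2, h3]
  obtain ⟨B1, hk1⟩ := hDk' U N M P s u hs k b w q e0 hm (e1 / 2) (by positivity) hDk1
  have hαC : 0 ≤ α * C ^ 2 := by positivity
  have hlt : e1 / 2 + α * C ^ 2 * e0 < e1 := by
    have h1 : α * C ^ 2 * e0 ≤ α * C ^ 2 * (e1 / (4 * (α * C ^ 2 + 1))) :=
      mul_le_mul_of_nonneg_left ((min_le_right _ _).trans (min_le_left _ _)) hαC
    have h2 : α * C ^ 2 * (e1 / (4 * (α * C ^ 2 + 1))) ≤ e1 / 4 := by
      rw [show α * C ^ 2 * (e1 / (4 * (α * C ^ 2 + 1))) =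
        (α * C ^ 2 / (α * C ^ 2 + 1)) * (e1 / 4) by field_simp]
      apply mul_le_of_le_one_left (by positivity)
      rw [div_le_one (by positivity)]
      linarith
    linarith only [he1', h1, h2]
  obtain ⟨B2, hk2⟩ := kerClose_ker2 hf hfm hα hs hm hk1 hlt
  have hL1 := limData_succ hf hfm hs.hgg hs.hgg1 hm.lim
  -- the four limits
  have l1 := hDc' U _ k b w hL1 _ (incr_stop_nonneg hrpath) _ _ B1 (sub_nonneg.2 hro)
    (by positivity) _ _ hk1 (ε / 12) (by positivity)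
  have l2 := hDi' U _ k b w hL1 _ (incr_stop_nonneg hxpath) _ _ B2
    (sub_nonneg.2 (hxk.trans hro)) he1'.le _ _ hk2 (ε / 12) (by positivity)
  have l3 := hDm' U N M P s u k b w q e0 hm (ε / (12 * (α + 1))) (by positivity)
  have l4 := hfin (ε / 12) (by positivity)
  obtain ⟨j, h1, h2, h3, h4, h5⟩ := (l1.and (l2.and (l3.and (l4.and hb₀)))).exists
  -- the values
  have v1 := hT1 T hTT1 k (mOf w) (stop k r) (α * o - r k) hmm
    (by rw [stop_le (Nat.zero_le k)]; exact hr0 0 (Nat.zero_le k))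
    (fun l hl => by
      rw [stop_le hl.le, stop_le (show l + 1 ≤ k from hl)]
      exact hrpath.2 l hl) (sub_nonneg.2 hro)
    (by rw [stop_le le_rfl]; linarith only [hoC])
  have v2 := hT2 T hTT2 k (mOf w) (stop k fun l => r l * q l) (α * o - r k * q k) hmm
    (by rw [stop_le (Nat.zero_le k)]; exact hxpath.1)
    (fun l hl => by
      rw [stop_le hl.le, stop_le (show l + 1 ≤ k from hl)]
      exact hxpath.2 l hl) (sub_nonneg.2 (hxk.trans hro))
    (by rw [stop_le le_rfl]; linarith only [hoC])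
  have v3 := hDA' f f1 f2 f3 C hf.cb3 hfm (N j) (M j + 1) (P j) (s j) (u j) (by
    have := mul_le_mul_of_nonneg_right (hA j) (sq_nonneg C)
    refine le_trans (le_of_eq ?_) this
    push_cast
    ring) b₀ T hT1'
  have v4 : DA * (1 / T ^ 2) ≤ ε / 12 := by
    rw [mul_one_div]
    exact (hT3 T hTT3).2
  -- the functional
  have e2 := abel (mOf w) (fun l => r l * q l) k
  have e3 := exponents_mOf hm.lim.wpos hm.lim.wsum
  rw [e3.1, e3.2.1, zero_mul, sub_zero, one_mul] at e2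
  have e4 : ∑ l ∈ Finset.range (k + 1), (mOf w (l + 1) - mOf w l) * r l * q l =
      ∑ l ∈ Finset.range (k + 1), (mOf w (l + 1) - mOf w l) * (r l * q l) :=
    Finset.sum_congr rfl fun l _ => by ring
  have e5 : ∫ z, cascade (mOf w) (stop k r) k (fun x => Real.log (Real.cosh x))
      (√(stop k r 0) * z) ∂(gaussianReal 0 1) =
      ∫ z, cascade (mOf w) r k (fun x => Real.log (Real.cosh x))
      (√(r 0) * z) ∂(gaussianReal 0 1) := by
    rw [cascade_congr (mOf w) (q := stop k r) (q' := r) (fun l hl => stop_le hl),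
      stop_le (Nat.zero_le k)]
  have e6 : ∑ l ∈ Finset.range k, mOf w (l + 1) * (stop k (fun l => r l * q l) (l + 1) -
      stop k (fun l => r l * q l) l) =
      ∑ l ∈ Finset.range k, mOf w (l + 1) * (r (l + 1) * q (l + 1) - r l * q l) := by
    refine Finset.sum_congr rfl fun l hl => ?_
    rw [Finset.mem_range] at hl
    rw [stop_le hl.le, stop_le (show l + 1 ≤ k from hl)]
  rw [e5] at v1
  rw [e6] at v2
  unfold parisi spinPart
  rw [e4, e2]
  exact final_arith hε hα hDA hDc hDi he1 ((min_le_right _ _).trans (min_le_right _ _)) hDm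
    h1 h2 h3 h4 h5 v1 v2 v3 v4

end

end Vale.Agent.P157.Par
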