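import Vale.Agent.P157.ParRhoDefs

open MeasureTheory ProbabilityTheory Filter Topology Finset

namespace Vale.Agent.P157.Par

set_option linter.unusedSectionVars false

open Vale.Agent.P367.GT (gM)

/-! ### Exponents -/

section Exponents

variable {k : ℕ} {w : Fin (k + 1) → ℝ}

lemma mOf_zero : mOf w 0 = 0 := by simp [mOf]

lemma mOf_top : mOf w (k + 1) = ∑ l, w l := by
  unfold mOf
  exact Finset.sum_congr rfl fun l _ => by rw [if_pos l.2]

lemma mOf_succ {l : ℕ} (hl : l < k + 1) : mOf w (l + 1) - mOf w l = w ⟨l, hl⟩ := by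
  unfold mOf
  rw [← Finset.sum_sub_distrib, Finset.sum_eq_single (⟨l, hl⟩ : Fin (k + 1))]
  · simp
  · intro b _ hb
    have : (b : ℕ) ≠ l := fun h => hb (Fin.ext h)
    by_cases h : (b : ℕ) < l
    · rw [if_pos (by omega), if_pos h, sub_self]
    · rw [if_neg (by omega), if_neg h, sub_self]
  · intro h
    exact absurd (Finset.mem_univ _) h

lemma up_eq_mOf (hw : ∑ l, w l = 1) (l : Fin (k + 1)) : Arr.up w l = 1 - mOf w l := by
  unfold Arr.up mOf
  rw [← hw, eq_sub_iff_add_eq, ← Finset.sum_add_distrib]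
  refine Finset.sum_congr rfl fun l' _ => ?_
  by_cases h : l ≤ l'
  · rw [if_pos h, if_neg (by rw [not_lt]; exact h), add_zero]
  · rw [if_neg h, if_pos (by rw [← not_le]; exact h), zero_add]

lemma exponents_mOf (hw0 : ∀ l, 0 < w l) (hw : ∑ l, w l = 1) : Exponents k (mOf w) := by
  refine ⟨mOf_zero, by rw [mOf_top, hw], fun l hl => ?_⟩
  have h := mOf_succ (w := w) (l := l) (by omega)
  have := hw0 ⟨l, by omega⟩
  linarith

lemma mOf_pos (hw0 : ∀ l, 0 < w l) {l : ℕ} (h1 : 1 ≤ l) : 0 < mOf w l := by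
  unfold mOf
  refine Finset.sum_pos' (fun l' _ => ?_) ⟨0, Finset.mem_univ _, ?_⟩
  · split_ifs
    · exact (hw0 l').le
    · exact le_rfl
  · rw [if_pos (by simp only [Fin.val_zero]; omega)]
    exact hw0 0

lemma mOf_le_one (hw0 : ∀ l, 0 < w l) (hw : ∑ l, w l = 1) (l : ℕ) : mOf w l ≤ 1 := by
  rw [← hw]
  unfold mOf
  refine Finset.sum_le_sum fun l' _ => ?_
  split_ifs
  · exact le_rfl
  · exact (hw0 l').le

end Exponents

/-! ### Increments -/

lemma path_mono {k : ℕ} {q : ℕ → ℝ} (hq : ∀ l < k, q l ≤ q (l + 1)) :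
    ∀ a b, a ≤ b → b ≤ k → q a ≤ q b := by
  intro a b hab hb
  induction b, hab using Nat.le_induction with
  | base => exact le_rfl
  | succ b hab ih => exact (ih (by omega)).trans (hq b (by omega))

/-- The path stopped at the level `k`. -/
def stop (k : ℕ) (q : ℕ → ℝ) (l : ℕ) : ℝ := q (min l k)

lemma stop_le {k : ℕ} {q : ℕ → ℝ} {l : ℕ} (hl : l ≤ k) : stop k q l = q l := by
  unfold stop
  rw [min_eq_left hl]

lemma incr_stop_nonneg {k : ℕ} {q : ℕ → ℝ} (hq : Path k q) (l : ℕ) : 0 ≤ incr (stop k q) l := by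
  cases l with
  | zero => simpa [incr_zero_def, stop] using hq.1
  | succ l =>
    simp only [incr_succ_def, sub_nonneg, stop]
    exact path_mono hq.2 _ _ (by omega) (by omega)

lemma incr_stop {k : ℕ} {q : ℕ → ℝ} {l : ℕ} (hl : l ≤ k) : incr (stop k q) l = incr q l := by
  cases l with
  | zero => simp [incr_zero_def, stop]
  | succ l => simp only [incr_succ_def, stop_le hl, stop_le (show l ≤ k by omega)]

lemma sum_incr (q : ℕ → ℝ) (l : ℕ) : ∑ i ∈ Finset.range (l + 1), incr q i = q l := by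
  induction l with
  | zero => simp [incr_zero_def]
  | succ l ih => rw [Finset.sum_range_succ, ih]; simp [incr_succ_def]

lemma cumul_cut {k : ℕ} (v : ℕ → ℝ) (l : Fin (k + 1)) :
    cumul (cut v k) l = ∑ i ∈ Finset.range ((l : ℕ) + 1), v i := by
  unfold cumul cut
  rw [← Finset.sum_filter, Finset.sum_congr rfl (g := fun l' : Fin (k + 1) => v l') (fun l' _ => by
    rw [if_pos (by omega)])]
  refine Finset.sum_bij (fun (a : Fin (k + 1)) _ => (a : ℕ)) (fun a ha => ?_) (fun a _ b _ h => ?_)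
    (fun b hb => ?_) (fun a _ => rfl)
  · simp only [Finset.mem_filter, Finset.mem_univ, true_and] at ha
    rw [Finset.mem_range]
    have : (a : ℕ) ≤ l := ha
    omega
  · exact Fin.ext h
  · rw [Finset.mem_range] at hb
    refine ⟨⟨b, by omega⟩, ?_, rfl⟩
    simp only [Finset.mem_filter, Finset.mem_univ, true_and]
    exact Fin.le_iff_val_le_val.2 (by simpa using Nat.lt_succ_iff.1 hb)

lemma cumul_incr {k : ℕ} {q : ℕ → ℝ} (l : Fin (k + 1)) :
    cumul (cut (incr (stop k q)) k) l = q l := by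
  rw [cumul_cut, sum_incr, stop_le (by omega)]

lemma cut_congr {k : ℕ} {v v' : ℕ → ℝ} (h : ∀ l ≤ k, v l = v' l) :
    (cut v k : Fin (k + 1) → ℝ) = cut v' k := by
  funext i
  unfold cut
  split_ifs
  · exact h _ (by omega)
  · rfl

/-! ### Levels of a small mesh -/

/-- Levels on which the overlap is almost constant. -/
theorem exists_mesh {U : Ultrafilter ℕ} {S : ℕ → Sys}
    (hGG : ∀ p : ℕ, AsympGG U S (fun x => x ^ p)) {ε : ℝ} (hε : 0 < ε) :
    ∃ (k : ℕ) (b : Fin k → ℝ) (w : Fin (k + 1) → ℝ) (q : ℕ → ℝ), LimData U S b w ∧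
      Path k q ∧ q k ≤ 1 ∧ ∀ᶠ j in (U : Filter ℕ), (S j).tav (n := 2) (fun _ x =>
        |(S j).R (x 0) (x 1) - q (lev b ((S j).R (x 0) (x 1)))|) ≤ ε := by
  obtain ⟨k, b, q, w, h1, h2, h3, h4, h5, h6, h7, h8, h9, h10, h11⟩ :=
    exists_levels hGG (ε := ε / 2) (by positivity)
  have hqn : ∀ l : Fin (k + 1), q ⟨min (l : ℕ) k, by omega⟩ = q l := fun l => by
    congr 1
    ext
    simp only
    omega
  refine ⟨k, b, w, fun l => q ⟨min l k, by omega⟩, ⟨hGG, h1, h2, h3, h4, h10, h8, h9⟩,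
    ⟨h6 _, fun l hl => ?_⟩, h7 _, ?_⟩
  · apply h5
    rw [Fin.le_iff_val_le_val]
    simp only
    omega
  · filter_upwards [(tendsto_order.1 h11).2 (ε / 4) (by positivity)] with j hj
    simp only [hqn]
    have hR : ∀ x y, |(S j).R x y| ≤ 1 := fun x y => by
      have := Sys.R_mem (S := S j) x y
      rw [abs_le]; exact this
    have hb : ∀ x : Fin 2 → (S j).X,
        |(S j).R (x 0) (x 1) - q (lev b ((S j).R (x 0) (x 1)))| ≤ 2 := by
      intro x
      have := abs_sub ((S j).R (x 0) (x 1)) (q (lev b ((S j).R (x 0) (x 1))))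
      have h12 := hR (x 0) (x 1)
      have h13 : |q (lev b ((S j).R (x 0) (x 1)))| ≤ 1 := by
        rw [abs_of_nonneg (h6 _)]; exact h7 _
      linarith
    have hle : ∀ x : Fin 2 → (S j).X, |(S j).R (x 0) (x 1) - q (lev b ((S j).R (x 0) (x 1)))| ≤
        ε / 2 + 2 * (if ε / 2 < |(S j).R (x 0) (x 1) - q (lev b ((S j).R (x 0) (x 1)))| then 1
          else 0) := by
      intro x
      by_cases h : ε / 2 < |(S j).R (x 0) (x 1) - q (lev b ((S j).R (x 0) (x 1)))|
      · rw [if_pos h]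
        linarith [hb x]
      · rw [if_neg h]
        linarith [not_lt.1 h]
    have hB1 : Sys.Bdd (S j) (n := 2) (fun _ x =>
        |(S j).R (x 0) (x 1) - q (lev b ((S j).R (x 0) (x 1)))|) 2 :=
      ⟨fun x => measurable_const, fun t x => by rw [abs_abs]; exact hb x⟩
    have hB2 : Sys.Bdd (S j) (n := 2) (fun _ x => 2 *
        (if ε / 2 < |(S j).R (x 0) (x 1) - q (lev b ((S j).R (x 0) (x 1)))| then (1 : ℝ)
          else 0)) 2 :=
      ⟨fun x => measurable_const, fun t x => by split_ifs <;> norm_num⟩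
    have hB3 : Sys.Bdd (S j) (n := 2) (fun _ _ => ε / 2) (ε / 2) :=
      ⟨fun x => measurable_const, fun t x => by rw [abs_of_pos (by positivity)]⟩
    have hB4 : Sys.Bdd (S j) (n := 2) (fun _ x => ε / 2 + 2 *
        (if ε / 2 < |(S j).R (x 0) (x 1) - q (lev b ((S j).R (x 0) (x 1)))| then (1 : ℝ)
          else 0)) (ε / 2 + 2) :=
      ⟨fun x => measurable_const, fun t x =>
        (abs_add_le _ _).trans (add_le_add (hB3.bdd t x) (hB2.bdd t x))⟩
    have h12 := Sys.tav_mono hB1 hB4 (fun t x => hle x)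
    rw [Sys.tav_add hB3 hB2, Sys.tav_const, Sys.tav_smul] at h12
    have h13 : (S j).pr (fun x : Fin 2 → (S j).X =>
        ε / 2 < |(S j).R (x 0) (x 1) - q (lev b ((S j).R (x 0) (x 1)))|) =
      (S j).tav (n := 2) (fun _ x =>
        (if ε / 2 < |(S j).R (x 0) (x 1) - q (lev b ((S j).R (x 0) (x 1)))| then (1 : ℝ)
          else 0)) := by
      unfold Sys.pr
      congr 1
    rw [h13] at hj
    linarith

/-- The kernel of the configurations. -/
lemma kerClose_phi {U : Ultrafilter ℕ} {S : ℕ → Sys} {k : ℕ} {b : Fin k → ℝ} {q : ℕ → ℝ}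
    {ε : ℝ} (hε : 0 ≤ ε)
    (h : ∀ᶠ j in (U : Filter ℕ), (S j).tav (n := 2) (fun _ x =>
        |(S j).R (x 0) (x 1) - q (lev b ((S j).R (x 0) (x 1)))|) ≤ ε) :
    KerClose U S b (cut (incr (stop k q)) k) (1 - q k) ε 1
      (fun j _ x i => (S j).φ x i) := by
  have hR : ∀ j (x y : (S j).X), gram (fun x i => (S j).φ x i) (fun x i => (S j).φ x i) x y =
      (S j).R x y := by
    intro j x y
    unfold gram Sys.R
    rw [PiLp.inner_apply]
    exact Finset.sum_congr rfl fun i _ => by simp [mul_comm]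
  have hR1 : ∀ j (x : (S j).X), (S j).R x x = 1 := fun j x => by
    unfold Sys.R
    rw [real_inner_self_eq_norm_sq, (S j).hφ, one_pow]
  refine ⟨fun j x c => measurable_const, fun j t x => ?_, ?_, ?_⟩
  · have h1 := hR j x x
    rw [hR1] at h1
    unfold gram at h1
    refine le_of_eq (Eq.trans (Finset.sum_congr rfl fun i _ => ?_) h1)
    ring
  · filter_upwards [h] with j hj
    simp only [hR, cumul_incr]
    exact hj
  · refine Eventually.of_forall fun j => ?_
    simp only [hR, hR1, cumul_incr]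
    have h1 : |(1 : ℝ) - (q ((Fin.last k : Fin (k + 1)) : ℕ) + (1 - q k))| = 0 := by
      rw [Fin.val_last]
      simp
    simp only [h1]
    rw [Sys.tav_const]
    exact hε

end Vale.Agent.P157.Par
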