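import Vale.Agent.P157.ParLevels

open MeasureTheory ProbabilityTheory Filter Topology Finset

namespace Vale.Agent.P157.Par

set_option linter.unusedSectionVars false

open Vale.Agent.P367.GT (gM)

variable {k : ℕ} {J K : Type} [Fintype J] [DecidableEq J] [Fintype K] [DecidableEq K]

/-- The Gaussian family `U` with an independent noise of variance `τ` for every index. -/
noncomputable def noisy (τ : ℝ) (U : J → K → ℝ) : J → K ⊕ J → ℝ :=
  fun a => Sum.elim (U a) fun b => if b = a then √τ else 0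

lemma gram_noisy {τ : ℝ} (hτ : 0 ≤ τ) (U : J → K → ℝ) (a b : J) :
    gram (noisy τ U) (noisy τ U) a b = gram U U a b + if a = b then τ else 0 := by
  unfold gram noisy
  rw [Fintype.sum_sum_type]
  congr 1
  simp only [Sum.elim_inr, ite_mul, mul_ite, zero_mul, mul_zero]
  by_cases h : a = b
  · subst h
    simp [Real.mul_self_sqrt hτ]
  · rw [if_neg h]
    apply Finset.sum_eq_zero
    intro c _
    by_cases h1 : c = a
    · subst h1
      rw [if_pos rfl, if_neg h]
    · simp [h1]

/-- The noise can be integrated out. -/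
lemma gE_noisy (τ : ℝ) (U : J → K → ℝ) {f : J → ℝ → ℝ} (hf : ∀ a, BM (f a)) :
    gE (noisy τ U) f = gE U fun a => heat τ (f a) := by
  obtain ⟨C, hC0, hC⟩ := exists_bound hf
  have mp := measurePreserving_sumPiEquivProdPi (X := fun _ : K ⊕ J => ℝ)
    (fun _ : K ⊕ J => gaussianReal 0 1)
  have e1 : ∀ ξ : K ⊕ J → ℝ, ∏ a, f a (lin (noisy τ U) ξ a) =
      (fun p : (K → ℝ) × (J → ℝ) => ∏ a, f a (lin U p.1 a + √τ * p.2 a))
        (MeasurableEquiv.sumPiEquivProdPi (fun _ : K ⊕ J => ℝ) ξ) := by
    intro ξ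
    apply Finset.prod_congr rfl
    intro a _
    congr 1
    unfold lin noisy
    rw [Fintype.sum_sum_type]
    simp only [Sum.elim_inl, Sum.elim_inr, ite_mul, zero_mul, Finset.sum_ite_eq',
      Finset.mem_univ, if_true]
    rfl
  unfold gE
  simp_rw [e1]
  rw [mp.integral_comp' (g := fun p : (K → ℝ) × (J → ℝ) =>
    ∏ a, f a (lin U p.1 a + √τ * p.2 a))]
  have hmeas : Measurable fun p : (K → ℝ) × (J → ℝ) =>
      ∏ a, f a (lin U p.1 a + √τ * p.2 a) := by
    apply Finset.measurable_prod
    intro a _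
    apply (hf a).meas.comp
    unfold lin
    fun_prop
  have hint : Integrable (fun p : (K → ℝ) × (J → ℝ) =>
      ∏ a, f a (lin U p.1 a + √τ * p.2 a)) ((gM K).prod (gM J)) :=
    Integrable.of_bound hmeas.aestronglyMeasurable (C ^ (univ : Finset J).card)
      (Eventually.of_forall fun p => by
        rw [Real.norm_eq_abs]
        exact abs_prod_le fun a _ => hC a _)
  have h2 := integral_prod _ hint
  refine Eq.trans h2 ?_
  congr 1
  funext ξ
  exact integral_fintype_prod_eq_prod (𝕜 := ℝ) (μ := fun _ : J => gaussianReal 0 1)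
    (fun a z => f a (lin U ξ a + √τ * z))

/-- The Gram matrix of the tree field with noise. -/
lemma gram_noisy_UL {c : Fin (k + 1) → ℝ} (hc : ∀ l, 0 ≤ c l) {τ : ℝ} (hτ : 0 ≤ τ)
    {L : LM k J} (hL : Ultra L) (a b : J) :
    gram (noisy τ (UL c L)) (noisy τ (UL c L)) a b =
      (∑ l, if l ≤ L a b then c l else 0) + if a = b then τ else 0 := by
  rw [gram_noisy hτ, gram_UL hc hL]

end Vale.Agent.P157.Par
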