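import Vale.Agent.P157.ParTrans6
import Vale.Agent.P157.ParCube
import Vale.Agent.P157.ParVal

open MeasureTheory ProbabilityTheory Filter Topology

namespace Vale.Agent.P157.Par

open Vale.Agent.P367.GT (gM)

/-- The perturbed perceptron on the cube, with `M` patterns. -/
noncomputable abbrev pS (f : ℝ → ℝ) (hf : Measurable f) (C : ℝ) (hC : ∀ x, |f x| ≤ C)
    (N M P : ℕ) (s : ℝ) (u : Fin P → ℝ) : Sys := (cubeBase f hf C hC N M).sys P s u

/-- The additive functional of `n` replicas: `δ ∑_a ∏_i h(S_a(x_i))`. -/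
noncomputable def addF {M N : ℕ} (δ : ℝ) (h : ℝ → ℝ) {n : ℕ} (t : Fin M → Fin (N + 1) → ℝ)
    (x : Fin n → Fin (N + 1) → Bool) : ℝ :=
  δ * ∑ a, ∏ i, h (cubeS (t a) (x i))

/-- The kernel of the new spin. -/
noncomputable def ker1 {M N : ℕ} (δ : ℝ) (f1 : ℝ → ℝ) (t : Fin M → Fin (N + 1) → ℝ)
    (x : Fin (N + 1) → Bool) : Fin M → ℝ := fun a => √δ * f1 (cubeS (t a) x)

/-- The kernel of the rescaling. -/
noncomputable def ker2 {M N : ℕ} (δ : ℝ) (f1 : ℝ → ℝ) (t : Fin M → Fin (N + 1) → ℝ)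
    (x : Fin (N + 1) → Bool) : Fin M × Fin (N + 1) → ℝ :=
  fun p => √δ * f1 (cubeS (t p.1) x) * cubeφ N x p.2

/-- The exponents of the weights `w`. -/
noncomputable def mOf {k : ℕ} (w : Fin (k + 1) → ℝ) (l : ℕ) : ℝ :=
  ∑ l' : Fin (k + 1), if (l' : ℕ) < l then w l' else 0

/-- The bounded truncation of the identity. -/
noncomputable def trn (T : ℝ) (x : ℝ) : ℝ := T * Real.tanh (x / T)

/-- Smooth potentials: `W = e^f / c₀` takes its values in `[a, 1]`. -/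
structure Pot (C c₀ a : ℝ) (f f1 f2 f3 : ℝ → ℝ) : Prop where
  cb3 : CB3 C f f1 f2 f3
  cf1 : ∃ g' g'', CB2 f1 g' g''
  cf2 : ∃ g' g'', CB2 f2 g' g''
  c0 : 0 < c₀
  a0 : 0 < a
  Wa : ∀ x, a ≤ Real.exp (f x) / c₀
  W1 : ∀ x, Real.exp (f x) / c₀ ≤ 1

end Vale.Agent.P157.Par
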