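import Vale.Agent.P157.ParMesh
import Vale.Agent.P157.ParAdd

open MeasureTheory ProbabilityTheory Filter Topology Finset

namespace Vale.Agent.P157.Par

set_option linter.unusedSectionVars false

open Vale.Agent.P367.GT (gM)

lemma exists_SB {g g' g'' : ℝ → ℝ} (h : CB2 g g' g'') : ∃ C, 1 ≤ C ∧ SB C g g' g'' := by
  obtain ⟨A, hA⟩ := h.b0
  obtain ⟨B, hB⟩ := h.b1
  obtain ⟨D, hD⟩ := h.b2
  refine ⟨max 1 (max A (max B D)), le_max_left _ _, h.d1, h.d2, h.c2, fun x => ?_, fun x => ?_,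
    fun x => ?_⟩
  · exact (hA x).trans ((le_max_left _ _).trans (le_max_right _ _))
  · exact (hB x).trans ((le_max_left _ _).trans ((le_max_right _ _).trans (le_max_right _ _)))
  · exact (hD x).trans ((le_max_right _ _).trans ((le_max_right _ _).trans (le_max_right _ _)))

lemma SB.mono {C C' : ℝ} (hC : C ≤ C') {g g' g'' : ℝ → ℝ} (h : SB C g g' g'') :
    SB C' g g' g'' :=
  ⟨h.1, h.2.1, h.2.2.1, fun x => (h.2.2.2.1 x).trans hC, fun x => (h.2.2.2.2.1 x).trans hC,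
    fun x => (h.2.2.2.2.2 x).trans hC⟩

/-- The weight of a potential is regular. -/
lemma Pot.cb2W {C c₀ a : ℝ} {f f1 f2 f3 : ℝ → ℝ} (hf : Pot C c₀ a f f1 f2 f3) :
    ∃ W' W'', CB2 (fun x => Real.exp (f x) / c₀) W' W'' := by
  have hf0 : CB2 f f1 f2 := ⟨hf.cb3.d1, hf.cb3.d2,
    continuous_iff_continuousAt.2 fun x => (hf.cb3.d3 x).continuousAt, ⟨C, hf.cb3.b0⟩,
    ⟨C, hf.cb3.b1⟩, ⟨C, hf.cb3.b2⟩⟩
  have hC0 : 0 ≤ C := (abs_nonneg _).trans (hf.cb3.b0 0)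
  have hec : ∀ x, |Real.exp (f x)| ≤ Real.exp C := fun x => by
    rw [abs_of_pos (Real.exp_pos _)]
    exact Real.exp_le_exp.2 (le_of_abs_le (hf.cb3.b0 x))
  have he : CB2 (fun x => Real.exp (f x)) (fun x => Real.exp (f x) * f1 x)
      (fun x => Real.exp (f x) * f1 x * f1 x + Real.exp (f x) * f2 x) := by
    refine ⟨fun x => (hf.cb3.d1 x).exp, fun x => ((hf.cb3.d1 x).exp.mul (hf.cb3.d2 x)), ?_,
      ⟨Real.exp C, hec⟩, ⟨Real.exp C * C, fun x => ?_⟩,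
      ⟨Real.exp C * C * C + Real.exp C * C, fun x => ?_⟩⟩
    · exact (((Real.continuous_exp.comp hf0.cont).mul hf0.cont1).mul hf0.cont1).add
        ((Real.continuous_exp.comp hf0.cont).mul hf0.c2)
    · rw [abs_mul]
      exact mul_le_mul (hec x) (hf.cb3.b1 x) (abs_nonneg _) (Real.exp_pos _).le
    · refine (abs_add_le _ _).trans (add_le_add ?_ ?_)
      · rw [abs_mul, abs_mul]
        exact mul_le_mul (mul_le_mul (hec x) (hf.cb3.b1 x) (abs_nonneg _) (Real.exp_pos _).le)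
          (hf.cb3.b1 x) (abs_nonneg _) (by positivity)
      · rw [abs_mul]
        exact mul_le_mul (hec x) (hf.cb3.b2 x) (abs_nonneg _) (Real.exp_pos _).le
  obtain ⟨p', p'', hp⟩ := CB2.const_fn (1 / c₀)
  have h1 := he.mul hp
  have h2 : (fun x => Real.exp (f x) / c₀) = fun x => Real.exp (f x) * (1 / c₀) := by
    funext x; ring
  rw [h2]
  exact ⟨_, _, h1⟩

lemma abs_sub_le_congr {A A' B B' c : ℝ} (h : |A - B| ≤ c) (h1 : A = A') (h2 : B = B') :
    |A' - B'| ≤ c := by rw [← h1, ← h2]; exact h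

lemma tri1 {A B w δ : ℝ} (h1 : |B - w| < δ / 2) (h2 : |A - B| ≤ δ / 3) : |A - w| < δ := by
  have h3 := abs_sub_le A B w
  have h4 := abs_nonneg (B - w)
  linarith

lemma tri2 {A B δ : ℝ} (h1 : B ≤ δ / 2) (h2 : |A - B| ≤ δ / 2) : A ≤ δ := by
  have := (abs_le.1 h2).2
  linarith

lemma Sys.tav_mul_const (S : Sys) {n : ℕ} (F : S.T → (Fin n → S.X) → ℝ) (c : ℝ) :
    S.tav (fun t x => F t x * c) = S.tav F * c := by
  have h1 := Sys.tav_smul (S := S) c F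
  rw [mul_comm (S.tav F) c, ← h1]
  exact Sys.tav_congr fun t x => mul_comm _ _

lemma Sys.avT_fin (S : Sys) {n : ℕ} (F : S.T → (Fin n → S.X) → ℝ) :
    S.avT (fun ω (x : Fin n → S.X) => F (S.π ω) x) = S.tav F :=
  S.avT_eq (Equiv.refl (Fin n)) F

/-- The value of a pair of replicas at a level. -/
noncomputable def pv (W h : ℝ → ℝ) (k : ℕ) (w : Fin (k + 1) → ℝ) (q : ℕ → ℝ) (l : ℕ) : ℝ :=
  Arr.pairVal (mOf w) (incr (stop k q)) k (topW (1 - q k) W) (toph (1 - q k) W h) l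

/-- The value of one replica. -/
noncomputable def ov (W h : ℝ → ℝ) (k : ℕ) (w : Fin (k + 1) → ℝ) (q : ℕ → ℝ) : ℝ :=
  ∫ z, lvh (mOf w) (incr (stop k q))
    (lvW (mOf w) (incr (stop k q)) k (topW (1 - q k) W)) k (toph (1 - q k) W h) 0
      (√(incr (stop k q) 0) * z) ∂(gaussianReal 0 1)

section

variable {C c₀ a : ℝ} {f f1 f2 f3 : ℝ → ℝ} (hf : Pot C c₀ a f f1 f2 f3) (hfm : Measurable f)

/-- Adding a pattern: two replicas. -/
theorem add_two {h h' h'' : ℝ → ℝ} (hh : CB2 h h' h'') : ∃ D : ℝ, 0 ≤ D ∧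
    ∀ (U : Ultrafilter ℕ) (N M P : ℕ → ℕ) (s : ℕ → ℝ) (u : ∀ j, Fin (P j) → ℝ) (k : ℕ)
      (b : Fin k → ℝ) (w : Fin (k + 1) → ℝ) (q : ℕ → ℝ) (ε : ℝ), 0 ≤ ε →
      LimData U (fun j => pS f hfm C hf.cb3.b0 (N j) (M j) (P j) (s j) (u j)) b w →
      Path k q → q k ≤ 1 →
      (∀ᶠ j in (U : Filter ℕ),
        (pS f hfm C hf.cb3.b0 (N j) (M j) (P j) (s j) (u j)).tav (n := 2) (fun _ x =>
        |(pS f hfm C hf.cb3.b0 (N j) (M j) (P j) (s j) (u j)).R (x 0) (x 1) -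
          q (lev b ((pS f hfm C hf.cb3.b0 (N j) (M j) (P j) (s j) (u j)).R (x 0) (x 1)))|) ≤ ε) →
      ∀ Φ : ∀ j, (Fin (M j) → Fin (N j + 1) → ℝ) → (Fin 2 → Fin (N j + 1) → Bool) → ℝ,
      (∀ j x, Measurable fun t => Φ j t x) → (∀ j t x, |Φ j t x| ≤ 1) → ∀ η > 0,
      ∀ᶠ j in (U : Filter ℕ),
        |(pS f hfm C hf.cb3.b0 (N j) (M j + 1) (P j) (s j) (u j)).tav (n := 2)
          (fun t x => Φ j (fun a => t a.succ) x * ∏ i, h (cubeS (t 0) (x i))) -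
        (pS f hfm C hf.cb3.b0 (N j) (M j) (P j) (s j) (u j)).tav (n := 2)
          (fun t x => Φ j t x * pv (fun x => Real.exp (f x) / c₀) h k w q
            (lev b ((pS f hfm C hf.cb3.b0 (N j) (M j) (P j) (s j) (u j)).R (x 0) (x 1))))| ≤
          D * ε + η := by
  obtain ⟨W', W'', hW⟩ := hf.cb2W
  obtain ⟨C1, hC1, hC1'⟩ := exists_SB hW
  obtain ⟨C2, hC2, hC2'⟩ := exists_SB (hh.mul hW)
  set Cm := max C1 C2 with hCm
  set α := max (1 - a) (1 / 2) with hα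
  have hα1 : α < 1 := max_lt (by linarith [hf.a0]) (by norm_num)
  have hα0 : 0 < α := lt_of_lt_of_le (by norm_num) (le_max_right _ _)
  refine ⟨Dr Cm α 2 1, tsum_nonneg fun n => by positivity, ?_⟩
  intro U N M P s u k b w q ε hε hL hq hq1 hoff Φ hΦm hΦ η hη
  have hker := kerClose_phi (q := q) hε hoff
  have h1 := trans_two hL (m := mOf w) (v := incr (stop k q)) (incr_stop_nonneg hq)
    (fun l hl _ => mOf_pos hL.wpos hl) (fun l => up_eq_mOf hL.wsum l) (sub_nonneg.2 hq1) hε hker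
    (hC1.trans (le_max_left C1 C2)) hf.a0 (le_max_left (1 - a) (1 / 2)) hα0 hα1
    (hC1'.mono (le_max_left C1 C2)) hf.Wa hf.W1 hh (hC2'.mono (le_max_right C1 C2)) (Φ := Φ)
    hΦm hΦ η hη
  filter_upwards [h1] with j hj
  have h2 := tav_add hfm C hf.cb3.b0 (N j) (M j) (P j) (s j) (u j) (n := 2) (Φ := Φ j) (hΦm j)
    (h := h) hh.cont.measurable (W := fun x => Real.exp (f x) / c₀) hf.c0 (fun x => rfl)
  rw [h2]
  rw [(pS f hfm C hf.cb3.b0 (N j) (M j) (P j) (s j) (u j)).avT_eq (Equiv.refl (Fin 2))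
    (fun t x => Φ j t x * Arr.pairVal (mOf w) (incr (stop k q)) k
      (topW (1 - q k) (fun x => Real.exp (f x) / c₀))
      (toph (1 - q k) (fun x => Real.exp (f x) / c₀) h)
      (lev b ((pS f hfm C hf.cb3.b0 (N j) (M j) (P j) (s j) (u j)).R (x 0) (x 1))))] at hj
  exact hj

/-- Adding a pattern: one replica. -/
theorem add_one {h h' h'' : ℝ → ℝ} (hh : CB2 h h' h'') : ∃ D : ℝ, 0 ≤ D ∧
    ∀ (U : Ultrafilter ℕ) (N M P : ℕ → ℕ) (s : ℕ → ℝ) (u : ∀ j, Fin (P j) → ℝ) (k : ℕ)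
      (b : Fin k → ℝ) (w : Fin (k + 1) → ℝ) (q : ℕ → ℝ) (ε : ℝ), 0 ≤ ε →
      LimData U (fun j => pS f hfm C hf.cb3.b0 (N j) (M j) (P j) (s j) (u j)) b w →
      Path k q → q k ≤ 1 →
      (∀ᶠ j in (U : Filter ℕ),
        (pS f hfm C hf.cb3.b0 (N j) (M j) (P j) (s j) (u j)).tav (n := 2) (fun _ x =>
        |(pS f hfm C hf.cb3.b0 (N j) (M j) (P j) (s j) (u j)).R (x 0) (x 1) -
          q (lev b ((pS f hfm C hf.cb3.b0 (N j) (M j) (P j) (s j) (u j)).R (x 0) (x 1)))|) ≤ ε) →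
      ∀ Φ : ∀ j, (Fin (M j) → Fin (N j + 1) → ℝ) → (Fin 1 → Fin (N j + 1) → Bool) → ℝ,
      (∀ j x, Measurable fun t => Φ j t x) → (∀ j t x, |Φ j t x| ≤ 1) → ∀ η > 0,
      ∀ᶠ j in (U : Filter ℕ),
        |(pS f hfm C hf.cb3.b0 (N j) (M j + 1) (P j) (s j) (u j)).tav (n := 1)
          (fun t x => Φ j (fun a => t a.succ) x * ∏ i, h (cubeS (t 0) (x i))) -
        (pS f hfm C hf.cb3.b0 (N j) (M j) (P j) (s j) (u j)).tav (n := 1)
          (fun t x => Φ j t x * ov (fun x => Real.exp (f x) / c₀) h k w q)| ≤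
          D * ε + η := by
  obtain ⟨W', W'', hW⟩ := hf.cb2W
  obtain ⟨C1, hC1, hC1'⟩ := exists_SB hW
  obtain ⟨C2, hC2, hC2'⟩ := exists_SB (hh.mul hW)
  set Cm := max C1 C2 with hCm
  set α := max (1 - a) (1 / 2) with hα
  have hα1 : α < 1 := max_lt (by linarith [hf.a0]) (by norm_num)
  have hα0 : 0 < α := lt_of_lt_of_le (by norm_num) (le_max_right _ _)
  refine ⟨Dr Cm α 1 0, tsum_nonneg fun n => by positivity, ?_⟩
  intro U N M P s u k b w q ε hε hL hq hq1 hoff Φ hΦm hΦ η hη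
  have hker := kerClose_phi (q := q) hε hoff
  have h1 := trans_one hL (m := mOf w) (v := incr (stop k q)) (incr_stop_nonneg hq)
    (fun l hl _ => mOf_pos hL.wpos hl) (fun l => up_eq_mOf hL.wsum l) (sub_nonneg.2 hq1) hε hker
    (hC1.trans (le_max_left C1 C2)) hf.a0 (le_max_left (1 - a) (1 / 2)) hα0 hα1
    (hC1'.mono (le_max_left C1 C2)) hf.Wa hf.W1 hh (hC2'.mono (le_max_right C1 C2)) (Φ := Φ)
    hΦm hΦ η hη
  filter_upwards [h1] with j hj
  have h2 := tav_add hfm C hf.cb3.b0 (N j) (M j) (P j) (s j) (u j) (n := 1) (Φ := Φ j) (hΦm j)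
    (h := h) hh.cont.measurable (W := fun x => Real.exp (f x) / c₀) hf.c0 (fun x => rfl)
  have h3 : (pS f hfm C hf.cb3.b0 (N j) (M j) (P j) (s j) (u j)).tav (n := 1)
      (fun t x => Φ j t x * ov (fun x => Real.exp (f x) / c₀) h k w q) =
      (pS f hfm C hf.cb3.b0 (N j) (M j) (P j) (s j) (u j)).avT
        (fun ω (x : Fin 1 → Fin (N j + 1) → Bool) => Φ j
          ((pS f hfm C hf.cb3.b0 (N j) (M j) (P j) (s j) (u j)).π ω) x) *
        ov (fun x => Real.exp (f x) / c₀) h k w q := by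
    have h4 := (pS f hfm C hf.cb3.b0 (N j) (M j) (P j) (s j) (u j)).avT_fin (Φ j)
    refine ((pS f hfm C hf.cb3.b0 (N j) (M j) (P j) (s j) (u j)).tav_mul_const (Φ j) _).trans ?_
    exact congrArg (· * ov (fun x => Real.exp (f x) / c₀) h k w q) h4.symm
  exact abs_sub_le_congr hj h2.symm h3.symm

include hf in
lemma pv_one {k : ℕ} {w : Fin (k + 1) → ℝ} (hw : ∀ l, 0 < w l) (q : ℕ → ℝ) {l : ℕ}
    (hl : l ≤ k) : pv (fun x => Real.exp (f x) / c₀) (fun _ => 1) k w q l = 1 := by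
  have hspec := topW_spec (1 - q k) hf.a0 hf.cb2W hf.Wa hf.W1
  have h1 : toph (1 - q k) (fun x => Real.exp (f x) / c₀) (fun _ => 1) = fun _ => 1 := by
    funext x
    have h2 : topW (1 - q k) (fun x => Real.exp (f x) / c₀) x ≠ 0 :=
      (lt_of_lt_of_le hf.a0 (hspec.2.1 x)).ne'
    unfold toph
    unfold topW at h2
    simp only [one_mul]
    exact div_self h2
  unfold pv
  rw [h1]
  exact pairVal_one (fun l hl _ => mOf_pos hw hl) hf.a0 hspec.1 hspec.2.1 hspec.2.2 hl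

/-- The law of two replicas does not change when a pattern is added. -/
theorem same_two {U : Ultrafilter ℕ} {N M P : ℕ → ℕ} {s : ℕ → ℝ} {u : ∀ j, Fin (P j) → ℝ}
    (hGG : ∀ p : ℕ, AsympGG U (fun j => pS f hfm C hf.cb3.b0 (N j) (M j) (P j) (s j) (u j))
      (fun x => x ^ p))
    {Φ : ∀ j, (Fin (M j) → Fin (N j + 1) → ℝ) → (Fin 2 → Fin (N j + 1) → Bool) → ℝ}
    (hΦm : ∀ j x, Measurable fun t => Φ j t x) (hΦ : ∀ j t x, |Φ j t x| ≤ 1) :
    ∀ η > 0, ∀ᶠ j in (U : Filter ℕ),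
      |(pS f hfm C hf.cb3.b0 (N j) (M j + 1) (P j) (s j) (u j)).tav (n := 2)
          (fun t x => Φ j (fun a => t a.succ) x) -
        (pS f hfm C hf.cb3.b0 (N j) (M j) (P j) (s j) (u j)).tav (n := 2) (Φ j)| ≤ η := by
  intro η hη
  obtain ⟨p', p'', hp⟩ := CB2.const_fn 1
  obtain ⟨D, hD, hD'⟩ := add_two hf hfm hp
  obtain ⟨k, b, w, q, hL, hq, hq1, hoff⟩ := exists_mesh hGG (ε := η / (2 * (D + 1)))
    (by positivity)
  filter_upwards [hD' U N M P s u k b w q (η / (2 * (D + 1))) (by positivity) hL hq hq1 hoff Φ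
    hΦm hΦ (η / 2) (by positivity)] with j hj
  have h1 : (fun (t : Fin (M j + 1) → Fin (N j + 1) → ℝ) (x : Fin 2 → Fin (N j + 1) → Bool) =>
      Φ j (fun a => t a.succ) x * ∏ _i : Fin 2, (1 : ℝ)) =
      fun t x => Φ j (fun a => t a.succ) x := by
    funext t x
    simp
  have h2 : (fun (t : Fin (M j) → Fin (N j + 1) → ℝ) (x : Fin 2 → Fin (N j + 1) → Bool) =>
      Φ j t x * pv (fun x => Real.exp (f x) / c₀) (fun _ => 1) k w q
            (lev b ((pS f hfm C hf.cb3.b0 (N j) (M j) (P j) (s j) (u j)).R (x 0) (x 1)))) =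
      Φ j := by
    funext t x
    rw [pv_one hf hL.wpos q (by omega), mul_one]
  have h5 := congrArg (Sys.tav (pS f hfm C hf.cb3.b0 (N j) (M j + 1) (P j) (s j) (u j))
    (n := 2)) h1
  have h6 := congrArg (Sys.tav (pS f hfm C hf.cb3.b0 (N j) (M j) (P j) (s j) (u j))
    (n := 2)) h2
  refine (abs_sub_le_congr hj h5 h6).trans ?_
  have h3 : D * (η / (2 * (D + 1))) ≤ η / 2 := by
    rw [show D * (η / (2 * (D + 1))) = (D / (D + 1)) * (η / 2) by field_simp]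
    apply mul_le_of_le_one_left (by positivity)
    rw [div_le_one (by positivity)]
    linarith
  linarith

/-- The law of one replica does not change when a pattern is added. -/
theorem same_one {U : Ultrafilter ℕ} {N M P : ℕ → ℕ} {s : ℕ → ℝ} {u : ∀ j, Fin (P j) → ℝ}
    (hGG : ∀ p : ℕ, AsympGG U (fun j => pS f hfm C hf.cb3.b0 (N j) (M j) (P j) (s j) (u j))
      (fun x => x ^ p))
    {Φ : ∀ j, (Fin (M j) → Fin (N j + 1) → ℝ) → (Fin 1 → Fin (N j + 1) → Bool) → ℝ}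
    (hΦm : ∀ j x, Measurable fun t => Φ j t x) (hΦ : ∀ j t x, |Φ j t x| ≤ 1) :
    ∀ η > 0, ∀ᶠ j in (U : Filter ℕ),
      |(pS f hfm C hf.cb3.b0 (N j) (M j + 1) (P j) (s j) (u j)).tav (n := 1)
          (fun t x => Φ j (fun a => t a.succ) x) -
        (pS f hfm C hf.cb3.b0 (N j) (M j) (P j) (s j) (u j)).tav (n := 1) (Φ j)| ≤ η := by
  intro η hη
  have h1 := same_two hf hfm hGG (Φ := fun j t x => Φ j t (fun _ : Fin 1 => x 0))
    (fun j x => hΦm j _) (fun j t x => hΦ j _ _) η hη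
  filter_upwards [h1] with j hj
  have e1 := Sys.tav_comp (S := pS f hfm C hf.cb3.b0 (N j) (M j + 1) (P j) (s j) (u j))
    (fun _ : Fin 1 => (0 : Fin 2)) (fun _ _ _ => Subsingleton.elim _ _)
    (fun t x => Φ j (fun a => t a.succ) x)
  have e2 := Sys.tav_comp (S := pS f hfm C hf.cb3.b0 (N j) (M j) (P j) (s j) (u j))
    (fun _ : Fin 1 => (0 : Fin 2)) (fun _ _ _ => Subsingleton.elim _ _)
    (fun t x => Φ j t x)
  rw [← e1, ← e2]
  exact hj

/-- The limiting data of the system with one more pattern. -/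
theorem limData_succ {U : Ultrafilter ℕ} {N M P : ℕ → ℕ} {s : ℕ → ℝ} {u : ∀ j, Fin (P j) → ℝ}
    (hGG : ∀ p : ℕ, AsympGG U (fun j => pS f hfm C hf.cb3.b0 (N j) (M j) (P j) (s j) (u j))
      (fun x => x ^ p))
    (hGG1 : ∀ p : ℕ, AsympGG U
      (fun j => pS f hfm C hf.cb3.b0 (N j) (M j + 1) (P j) (s j) (u j)) (fun x => x ^ p))
    {k : ℕ} {b : Fin k → ℝ} {w : Fin (k + 1) → ℝ}
    (hL : LimData U (fun j => pS f hfm C hf.cb3.b0 (N j) (M j) (P j) (s j) (u j)) b w) :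
    LimData U (fun j => pS f hfm C hf.cb3.b0 (N j) (M j + 1) (P j) (s j) (u j)) b w := by
  refine ⟨hGG1, hL.mono, hL.b0, hL.b1, fun i δ hδ => ?_, fun l => ?_, hL.wpos, hL.wsum⟩
  · obtain ⟨η, hη, h1⟩ := hL.na i (δ / 2) (by positivity)
    refine ⟨η, hη, ?_⟩
    have h2 := same_two hf hfm hGG (Φ := fun j _ x =>
      if |(pS f hfm C hf.cb3.b0 (N j) (M j) (P j) (s j) (u j)).R (x 0) (x 1) - b i| ≤ η
        then 1 else 0) (fun j x => measurable_const)
      (fun j t x => by split_ifs <;> simp) (δ / 2) (by positivity)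
    filter_upwards [h1, h2] with j h1 h2
    exact tri2 h1 h2
  · rw [Metric.tendsto_nhds]
    intro δ hδ
    have h1 := (Metric.tendsto_nhds.1 (hL.lim l)) (δ / 2) (by positivity)
    have h2 := same_two hf hfm hGG (Φ := fun j _ x => ind
      (lev b ((pS f hfm C hf.cb3.b0 (N j) (M j) (P j) (s j) (u j)).R (x 0) (x 1)) = l))
      (fun j x => measurable_const) (fun j t x => abs_ind_le_one _) (δ / 3) (by positivity)
    filter_upwards [h1, h2] with j h1 h2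
    rw [Real.dist_eq] at h1 ⊢
    exact tri1 h1 h2

end

end Vale.Agent.P157.Par
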