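import Mathlib

/-! Selection of the parameters: the deterministic part. -/

open MeasureTheory Filter Topology

namespace Vale.Agent.P157.Par

/-- A step function is integrable on bounded intervals. -/
lemma floor_intervalIntegrable (g : ℕ → ℝ) (a b : ℝ) :
    IntervalIntegrable (fun t : ℝ => g ⌊t⌋₊) volume a b := by
  rw [intervalIntegrable_iff]
  refine Measure.integrableOn_of_bounded (M := ∑ k ∈ Finset.range (⌊max a b⌋₊ + 1), |g k|)
    (by rw [Set.uIoc, Real.volume_Ioc]; exact ENNReal.ofReal_ne_top)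
    ((measurable_from_nat (f := g)).comp Nat.measurable_floor).aestronglyMeasurable ?_
  refine (ae_restrict_iff' measurableSet_uIoc).2 (Filter.Eventually.of_forall fun t ht => ?_)
  rw [Real.norm_eq_abs]
  have h1 : ⌊t⌋₊ ≤ ⌊max a b⌋₊ := Nat.floor_le_floor ht.2
  exact Finset.single_le_sum (f := fun k => |g k|) (fun k _ => abs_nonneg _)
    (Finset.mem_range.2 (by omega))

lemma floor_intervalIntegrable_add (g : ℕ → ℝ) (y a b : ℝ) :
    IntervalIntegrable (fun t : ℝ => g ⌊y + t⌋₊) volume a b := by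
  have h := (floor_intervalIntegrable g (y + a) (y + b)).comp_add_left y
  simpa using h

lemma abs_sub_le_of_step {g : ℕ → ℝ} {C : ℝ} (hg : ∀ m, |g (m + 1) - g m| ≤ C) (m n : ℕ) :
    |g m - g n| ≤ C * |(m : ℝ) - n| := by
  have key : ∀ (n k : ℕ), |g (n + k) - g n| ≤ C * k := by
    intro n k
    induction k with
    | zero => simp
    | succ k ih =>
      have h1 := hg (n + k)
      have h2 := abs_sub_le (g (n + k + 1)) (g (n + k)) (g n)
      push_cast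
      rw [← add_assoc]
      linarith
  rcases le_total n m with h | h
  · obtain ⟨k, rfl⟩ := Nat.exists_eq_add_of_le h
    have h1 := key n k
    have h2 : |((n + k : ℕ) : ℝ) - n| = k := by push_cast; simp
    rw [h2]; exact h1
  · obtain ⟨k, rfl⟩ := Nat.exists_eq_add_of_le h
    have h1 := key m k
    have h2 : |(m : ℝ) - ((m + k : ℕ) : ℝ)| = k := by
      push_cast; rw [sub_add_cancel_left, abs_neg]; simp
    rw [h2, abs_sub_comm]; exact h1

lemma abs_floor_sub_le (t t' : ℝ) : |((⌊t⌋₊ : ℕ) : ℝ) - (⌊t'⌋₊ : ℕ)| ≤ |t - t'| + 1 := by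
  have h : ∀ t t' : ℝ, ((⌊t⌋₊ : ℕ) : ℝ) - (⌊t'⌋₊ : ℕ) ≤ |t - t'| + 1 := by
    intro t t'
    have h1 := le_abs_self (t - t')
    have h2 := Nat.lt_floor_add_one t'
    have h3 : (0 : ℝ) ≤ ((⌊t'⌋₊ : ℕ) : ℝ) := Nat.cast_nonneg _
    have h4 := abs_nonneg (t - t')
    rcases le_total 0 t with ht | ht
    · have h5 := Nat.floor_le ht
      linarith
    · rw [Nat.floor_of_nonpos ht, Nat.cast_zero]
      linarith
  refine abs_le.2 ⟨?_, h t t'⟩
  have := h t' t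
  rw [abs_sub_comm] at this
  linarith

lemma abs_floor_step {g : ℕ → ℝ} {C : ℝ} (hC : 0 ≤ C) (hg : ∀ m, |g (m + 1) - g m| ≤ C)
    (t t' : ℝ) : |g ⌊t⌋₊ - g ⌊t'⌋₊| ≤ C * (|t - t'| + 1) :=
  (abs_sub_le_of_step hg _ _).trans (mul_le_mul_of_nonneg_left (abs_floor_sub_le t t') hC)

/-- A short integral of a step function. -/
lemma short_integral {g : ℕ → ℝ} {C : ℝ} (hC : 0 ≤ C) (hg : ∀ m, |g (m + 1) - g m| ≤ C)
    {a b y r : ℝ} (hab : a ≤ b) (hr : ∀ t ∈ Set.Icc a b, |t - y| ≤ r) :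
    |(∫ t in a..b, g ⌊t⌋₊) - (b - a) * g ⌊y⌋₊| ≤ (b - a) * (C * (r + 1)) := by
  have h1 : (∫ t in a..b, g ⌊t⌋₊) - (b - a) * g ⌊y⌋₊ = ∫ t in a..b, (g ⌊t⌋₊ - g ⌊y⌋₊) := by
    rw [intervalIntegral.integral_sub (floor_intervalIntegrable g a b)
      intervalIntegrable_const, intervalIntegral.integral_const, smul_eq_mul]
  rw [h1]
  have h2 := intervalIntegral.norm_integral_le_of_norm_le_const (a := a) (b := b)
    (f := fun t => g ⌊t⌋₊ - g ⌊y⌋₊) (C := C * (r + 1)) (fun t ht => by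
      rw [Set.uIoc_of_le hab] at ht
      rw [Real.norm_eq_abs]
      refine (abs_floor_step hC hg t y).trans (mul_le_mul_of_nonneg_left ?_ hC)
      have := hr t ⟨ht.1.le, ht.2⟩
      linarith)
  rw [Real.norm_eq_abs, abs_of_nonneg (sub_nonneg.2 hab)] at h2
  linarith

/-- Shifting the window by `α` costs `α` times the window average of the unit increments. -/
lemma window_shift {g : ℕ → ℝ} {C : ℝ} (hC : 0 ≤ C) (hg : ∀ m, |g (m + 1) - g m| ≤ C)
    {α x L : ℝ} (hα : 0 < α) :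
    α * (∫ θ in (0 : ℝ)..L, (g ⌊x + α + θ⌋₊ - g (⌊x + α + θ⌋₊ - 1))) -
        2 * α * C * (2 * α + 3) ≤
      ∫ θ in (0 : ℝ)..L, (g ⌊x + α + θ⌋₊ - g ⌊x + θ⌋₊) := by
  have e1 : ∫ θ in (0 : ℝ)..L, (g ⌊x + α + θ⌋₊ - g ⌊x + θ⌋₊) =
      (∫ t in (x + L)..(x + L + α), g ⌊t⌋₊) - ∫ t in x..(x + α), g ⌊t⌋₊ := by
    rw [intervalIntegral.integral_sub (floor_intervalIntegrable_add g _ _ _)
      (floor_intervalIntegrable_add g _ _ _)]
    rw [intervalIntegral.integral_comp_add_left (fun t => g ⌊t⌋₊),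
      intervalIntegral.integral_comp_add_left (fun t => g ⌊t⌋₊)]
    have h1 := intervalIntegral.integral_add_adjacent_intervals
      (floor_intervalIntegrable g (x + 0) (x + α)) (floor_intervalIntegrable g (x + α) (x + L + α))
    have h2 := intervalIntegral.integral_add_adjacent_intervals
      (floor_intervalIntegrable g (x + 0) (x + L)) (floor_intervalIntegrable g (x + L) (x + L + α))
    have h3 : x + α + L = x + L + α := by ring
    simp only [add_zero] at h1 h2 ⊢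
    rw [h3]
    linarith
  have e2 : ∫ θ in (0 : ℝ)..L, (g ⌊x + α + θ⌋₊ - g (⌊x + α + θ⌋₊ - 1)) =
      (∫ t in (x + α + L - 1)..(x + α + L), g ⌊t⌋₊) - ∫ t in (x + α - 1)..(x + α), g ⌊t⌋₊ := by
    have h0 : ∀ θ : ℝ, g (⌊x + α + θ⌋₊ - 1) = g ⌊(x + α - 1) + θ⌋₊ := by
      intro θ
      rw [← Nat.floor_sub_one]
      congr 2
      ring
    simp only [h0]
    rw [intervalIntegral.integral_sub (floor_intervalIntegrable_add g _ _ _)
      (floor_intervalIntegrable_add g _ _ _)]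
    rw [intervalIntegral.integral_comp_add_left (fun t => g ⌊t⌋₊),
      intervalIntegral.integral_comp_add_left (fun t => g ⌊t⌋₊)]
    have h1 := intervalIntegral.integral_add_adjacent_intervals
      (floor_intervalIntegrable g (x + α - 1) (x + α))
      (floor_intervalIntegrable g (x + α) (x + α + L))
    have h2 := intervalIntegral.integral_add_adjacent_intervals
      (floor_intervalIntegrable g (x + α - 1) (x + α + L - 1))
      (floor_intervalIntegrable g (x + α + L - 1) (x + α + L))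
    have h3 : x + α - 1 + L = x + α + L - 1 := by ring
    simp only [add_zero]
    rw [h3]
    linarith
  rw [e1, e2]
  have b1 := short_integral hC hg (a := x + L) (b := x + L + α) (y := x + L) (r := α)
    (by linarith) (fun t ht => by
      rw [abs_of_nonneg (by linarith [ht.1])]; linarith [ht.2])
  have b2 := short_integral hC hg (a := x) (b := x + α) (y := x) (r := α)
    (by linarith) (fun t ht => by
      rw [abs_of_nonneg (by linarith [ht.1])]; linarith [ht.2])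
  have b3 := short_integral hC hg (a := x + α + L - 1) (b := x + α + L) (y := x + L)
    (r := α + 1) (by linarith) (fun t ht => by
      rw [abs_le]; constructor <;> linarith [ht.1, ht.2])
  have b4 := short_integral hC hg (a := x + α - 1) (b := x + α) (y := x)
    (r := α + 1) (by linarith) (fun t ht => by
      rw [abs_le]; constructor <;> linarith [ht.1, ht.2])
  have s1 : x + L + α - (x + L) = α := by ring
  have s2 : x + α - x = α := by ring
  have s3 : x + α + L - (x + α + L - 1) = 1 := by ring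
  have s4 : x + α - (x + α - 1) = 1 := by ring
  rw [s1] at b1
  rw [s2] at b2
  rw [s3] at b3
  rw [s4] at b4
  rw [abs_le] at b1 b2 b3 b4
  have b5 : (∫ t in (x + α + L - 1)..(x + α + L), g ⌊t⌋₊) -
      (∫ t in (x + α - 1)..(x + α), g ⌊t⌋₊) ≤
      g ⌊x + L⌋₊ - g ⌊x⌋₊ + 2 * (C * (α + 1 + 1)) := by
    linarith [b3.2, b4.1]
  have b6 := mul_le_mul_of_nonneg_left b5 hα.le
  have b7 : α * (g ⌊x + L⌋₊ - g ⌊x⌋₊) - 2 * (α * (C * (α + 1))) ≤
      (∫ t in (x + L)..(x + L + α), g ⌊t⌋₊) - ∫ t in x..(x + α), g ⌊t⌋₊ := by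
    have := b1.1
    have := b2.2
    linarith only [b1, b2]
  linarith only [b1, b2, b6]

/-- If a sequence is close to `(N + 1) m (N + 1)` and `m` is frequently less than `p + ε`, then
its increments are frequently at most `p + ε`. -/
lemma frequently_increment_le {A m κ : ℕ → ℝ} {p : ℝ}
    (hA : ∀ N, |A N - ((N : ℝ) + 1) * m (N + 1)| ≤ κ N)
    (hκ : Tendsto (fun N : ℕ => κ N / ((N : ℝ) + 1)) atTop (𝓝 0))
    (hp : ∀ ε > 0, ∃ᶠ N in atTop, m N < p + ε) {ε : ℝ} (hε : 0 < ε) (N₀ : ℕ) :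
    ∃ N, N₀ ≤ N ∧ A (N + 1) - A N ≤ p + ε := by
  by_contra hcon
  push Not at hcon
  have h1 : ∀ k : ℕ, A N₀ + k * (p + ε) ≤ A (N₀ + k) := by
    intro k
    induction k with
    | zero => simp
    | succ k ih =>
      have := hcon (N₀ + k) (by omega)
      push_cast
      rw [← add_assoc]
      linarith
  -- lower bound for `m`
  have h2 : ∀ k : ℕ, (A N₀ + k * (p + ε) - κ (N₀ + k)) / (((N₀ + k : ℕ) : ℝ) + 1) ≤
      m (N₀ + k + 1) := by
    intro k
    have hpos : (0 : ℝ) < ((N₀ + k : ℕ) : ℝ) + 1 := by positivity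
    rw [div_le_iff₀ hpos]
    have h3 := (abs_le.1 (hA (N₀ + k))).2
    have h4 := h1 k
    linarith
  have h3 : Tendsto (fun k : ℕ => (A N₀ + k * (p + ε) - κ (N₀ + k)) /
      (((N₀ + k : ℕ) : ℝ) + 1)) atTop (𝓝 (p + ε)) := by
    have t1 : Tendsto (fun k : ℕ => (A N₀ - (N₀ + 1) * (p + ε)) * (1 / (((N₀ + k : ℕ) : ℝ) + 1)))
        atTop (𝓝 ((A N₀ - (N₀ + 1) * (p + ε)) * 0)) := by
      refine Tendsto.const_mul _ ?_
      have := tendsto_one_div_add_atTop_nhds_zero_nat (𝕜 := ℝ)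
      exact this.comp (tendsto_add_atTop_nat N₀ |>.congr fun k => by ring)
    have t2 : Tendsto (fun k : ℕ => κ (N₀ + k) / (((N₀ + k : ℕ) : ℝ) + 1)) atTop (𝓝 0) :=
      hκ.comp (tendsto_add_atTop_nat N₀ |>.congr fun k => by ring)
    have t3 := (t1.sub t2).add_const (p + ε)
    rw [mul_zero, sub_zero, zero_add] at t3
    refine t3.congr fun k => ?_
    have hpos : (((N₀ + k : ℕ) : ℝ) + 1) ≠ 0 := by positivity
    field_simp
    push_cast
    ring
  have h4 : ∀ᶠ k : ℕ in atTop, p + ε / 2 < m (N₀ + k + 1) := by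
    filter_upwards [h3.eventually (lt_mem_nhds (show p + ε / 2 < p + ε by linarith))] with k hk
    exact hk.trans_le (h2 k)
  obtain ⟨k₀, hk₀⟩ := eventually_atTop.1 h4
  obtain ⟨N, hN, hmN⟩ := (frequently_atTop.1 (hp (ε / 2) (by linarith))) (N₀ + k₀ + 1)
  have := hk₀ (N - N₀ - 1) (by omega)
  have e : N₀ + (N - N₀ - 1) + 1 = N := by omega
  rw [e] at this
  linarith only [hmN, this]

/-- The window average. -/
noncomputable def wav (L : ℝ) (g : ℕ → ℝ) (x : ℝ) : ℝ :=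
  1 / L * ∫ θ in (0 : ℝ)..L, g ⌊x + θ⌋₊

lemma wav_close {g : ℕ → ℝ} {C : ℝ} (hC : 0 ≤ C) (hg : ∀ m, |g (m + 1) - g m| ≤ C)
    {x L : ℝ} (hL : 1 ≤ L) : |wav L g x - g ⌊x⌋₊| ≤ C * (L + 1) := by
  have hL0 : 0 < L := by linarith
  have h := short_integral hC hg (a := x) (b := x + L) (y := x) (r := L) (by linarith)
    (fun t ht => by rw [abs_of_nonneg (by linarith [ht.1])]; linarith [ht.2])
  unfold wav
  rw [intervalIntegral.integral_comp_add_left (fun t => g ⌊t⌋₊), add_zero]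
  have s1 : x + L - x = L := by ring
  rw [s1] at h
  have e : 1 / L * (∫ t in x..(x + L), g ⌊t⌋₊) - g ⌊x⌋₊ =
      1 / L * ((∫ t in x..(x + L), g ⌊t⌋₊) - L * g ⌊x⌋₊) := by
    field_simp
  rw [e, abs_mul, abs_of_pos (by positivity : 0 < 1 / L)]
  calc 1 / L * |(∫ t in x..(x + L), g ⌊t⌋₊) - L * g ⌊x⌋₊|
      ≤ 1 / L * (L * (C * (L + 1))) := mul_le_mul_of_nonneg_left h (by positivity)
    _ = C * (L + 1) := by field_simp

/-- The deterministic selection lemma: for a window length `L` large enough, the window averages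
of spin increments plus `α` times pattern increments are frequently at most `p + ε`. -/
theorem window_selection {a c : ℕ → ℕ → ℝ} {C α p : ℝ} {m κ : ℕ → ℝ} (hC : 0 ≤ C) (hα : 0 < α)
    (ha : ∀ N M, |a N (M + 1) - a N M| ≤ C)
    (hc : ∀ N M, c N M ≤ a (N + 1) M - a N M)
    (hm : ∀ N : ℕ, |a N ⌊α * ((N + 1 : ℕ) : ℝ)⌋₊ - ((N : ℝ) + 1) * m (N + 1)| ≤ κ N)
    (hκ : Tendsto (fun N : ℕ => κ N / ((N : ℝ) + 1)) atTop (𝓝 0))
    (hp : ∀ ε > 0, ∃ᶠ N in atTop, m N < p + ε) {ε : ℝ} (hε : 0 < ε) :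
    ∃ L : ℝ, 1 ≤ L ∧ ∀ N₀ : ℕ, ∃ N, N₀ ≤ N ∧
      1 / L * (∫ θ in (0 : ℝ)..L, (c N ⌊α * ((N + 2 : ℕ) : ℝ) + θ⌋₊ +
        α * (a N ⌊α * ((N + 2 : ℕ) : ℝ) + θ⌋₊ - a N (⌊α * ((N + 2 : ℕ) : ℝ) + θ⌋₊ - 1)))) ≤
      p + ε := by
  set K : ℝ := 2 * α * C * (2 * α + 3) with hK
  have hK0 : 0 ≤ K := by positivity
  obtain ⟨L, hL1, hL2⟩ : ∃ L : ℝ, 1 ≤ L ∧ K / L ≤ ε / 2 := by
    refine ⟨max 1 (2 * K / ε), le_max_left _ _, ?_⟩
    have h1 : (0 : ℝ) < max 1 (2 * K / ε) := lt_of_lt_of_le one_pos (le_max_left _ _)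
    rw [div_le_iff₀ h1]
    have h2 : 2 * K / ε ≤ max 1 (2 * K / ε) := le_max_right _ _
    have h3 := mul_le_mul_of_nonneg_left h2 (show 0 ≤ ε / 2 by linarith)
    have h4 : ε / 2 * (2 * K / ε) = K := by field_simp
    linarith only [h3, h4]
  have hL0 : 0 < L := by linarith
  refine ⟨L, hL1, fun N₀ => ?_⟩
  obtain ⟨N, hN, hinc⟩ := frequently_increment_le
    (A := fun N => wav L (a N) (α * ((N + 1 : ℕ) : ℝ))) (m := m)
    (κ := fun N => κ N + C * (L + 1)) (p := p) (fun N => by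
      have h1 := wav_close hC (ha N) (x := α * ((N + 1 : ℕ) : ℝ)) hL1
      have h2 := hm N
      have h3 := abs_sub_le (wav L (a N) (α * ((N + 1 : ℕ) : ℝ)))
        (a N ⌊α * ((N + 1 : ℕ) : ℝ)⌋₊) (((N : ℝ) + 1) * m (N + 1))
      linarith) (by
      have t1 : Tendsto (fun N : ℕ => C * (L + 1) * (1 / ((N : ℝ) + 1))) atTop
          (𝓝 (C * (L + 1) * 0)) := tendsto_one_div_add_atTop_nhds_zero_nat.const_mul _
      have t2 := hκ.add t1
      rw [mul_zero, add_zero] at t2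
      refine t2.congr fun N => ?_
      have : ((N : ℝ) + 1) ≠ 0 := by positivity
      field_simp) hp (show 0 < ε / 2 by linarith) N₀
  refine ⟨N, hN, ?_⟩
  set x : ℝ := α * ((N + 1 : ℕ) : ℝ) with hx
  have hx' : α * ((N + 2 : ℕ) : ℝ) = x + α := by rw [hx]; push_cast; ring
  have hx'' : α * ((N + 1 + 1 : ℕ) : ℝ) = x + α := by rw [hx]; push_cast; ring
  simp only [hx''] at hinc
  rw [hx']
  have hw := window_shift hC (ha N) (x := x) (L := L) hα
  -- splitting of the increment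
  have i1 : ∀ (N : ℕ) (y : ℝ), IntervalIntegrable (fun t : ℝ => a N ⌊y + t⌋₊) volume 0 L :=
    fun N y => floor_intervalIntegrable_add (a N) y 0 L
  have i2 : IntervalIntegrable (fun t : ℝ => c N ⌊x + α + t⌋₊) volume 0 L :=
    floor_intervalIntegrable_add (c N) _ 0 L
  have i3 : IntervalIntegrable (fun t : ℝ => a N ⌊x + α + t⌋₊ - a N (⌊x + α + t⌋₊ - 1))
      volume 0 L :=
    floor_intervalIntegrable_add (fun k => a N k - a N (k - 1)) _ 0 L
  have s1 : (∫ θ in (0 : ℝ)..L, c N ⌊x + α + θ⌋₊) ≤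
      (∫ θ in (0 : ℝ)..L, a (N + 1) ⌊x + α + θ⌋₊) - ∫ θ in (0 : ℝ)..L, a N ⌊x + α + θ⌋₊ := by
    rw [← intervalIntegral.integral_sub (i1 _ _) (i1 _ _)]
    exact intervalIntegral.integral_mono_on hL0.le i2 ((i1 _ _).sub (i1 _ _))
      fun t _ => hc N _
  have s2 : (∫ θ in (0 : ℝ)..L, (a N ⌊x + α + θ⌋₊ - a N ⌊x + θ⌋₊)) =
      (∫ θ in (0 : ℝ)..L, a N ⌊x + α + θ⌋₊) - ∫ θ in (0 : ℝ)..L, a N ⌊x + θ⌋₊ :=
    intervalIntegral.integral_sub (i1 _ _) (i1 _ _)
  rw [intervalIntegral.integral_add i2 (i3.const_mul α), intervalIntegral.integral_const_mul]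
  rw [s2] at hw
  have h5 : 1 / L * ((∫ θ in (0 : ℝ)..L, c N ⌊x + α + θ⌋₊) +
      α * ∫ θ in (0 : ℝ)..L, (a N ⌊x + α + θ⌋₊ - a N (⌊x + α + θ⌋₊ - 1))) ≤
      1 / L * (((∫ θ in (0 : ℝ)..L, a (N + 1) ⌊x + α + θ⌋₊) -
        ∫ θ in (0 : ℝ)..L, a N ⌊x + θ⌋₊) + K) := by
    refine mul_le_mul_of_nonneg_left ?_ (by positivity)
    linarith
  refine h5.trans ?_
  have h6 : 1 / L * (((∫ θ in (0 : ℝ)..L, a (N + 1) ⌊x + α + θ⌋₊) -
        ∫ θ in (0 : ℝ)..L, a N ⌊x + θ⌋₊) + K) =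
      (wav L (a (N + 1)) (x + α) - wav L (a N) x) + K / L := by
    unfold wav
    ring
  rw [h6]
  linarith

/-- The deterministic selection lemma, with a single number `M` of patterns. -/
theorem window_selection' {a c : ℕ → ℕ → ℝ} {C α p : ℝ} {m κ : ℕ → ℝ} (hC : 0 ≤ C) (hα : 0 < α)
    (ha : ∀ N M, |a N (M + 1) - a N M| ≤ C)
    (hc : ∀ N M, c N M ≤ a (N + 1) M - a N M)
    (hm : ∀ N : ℕ, |a N ⌊α * ((N + 1 : ℕ) : ℝ)⌋₊ - ((N : ℝ) + 1) * m (N + 1)| ≤ κ N)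
    (hκ : Tendsto (fun N : ℕ => κ N / ((N : ℝ) + 1)) atTop (𝓝 0))
    (hp : ∀ ε > 0, ∃ᶠ N in atTop, m N < p + ε) {ε : ℝ} (hε : 0 < ε) :
    ∃ L : ℝ, 1 ≤ L ∧ ∀ N₀ : ℕ, ∃ N M : ℕ, N₀ ≤ N ∧ α * ((N : ℝ) + 2) - 1 ≤ M ∧
      (M : ℝ) ≤ α * ((N : ℝ) + 2) + L ∧
      c N M + α * (a N M - a N (M - 1)) ≤ p + 2 * ε := by
  obtain ⟨L, hL, h⟩ := window_selection hC hα ha hc hm hκ hp hε
  have hL0 : 0 < L := by linarith
  refine ⟨L, hL, fun N₀ => ?_⟩
  obtain ⟨N, hN, hint⟩ := h N₀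
  by_contra hcon
  push Not at hcon
  have hlow : ∀ θ ∈ Set.Icc (0 : ℝ) L, p + 2 * ε ≤ c N ⌊α * ((N + 2 : ℕ) : ℝ) + θ⌋₊ +
      α * (a N ⌊α * ((N + 2 : ℕ) : ℝ) + θ⌋₊ -
        a N (⌊α * ((N + 2 : ℕ) : ℝ) + θ⌋₊ - 1)) := by
    intro θ hθ
    have hpos : 0 ≤ α * ((N + 2 : ℕ) : ℝ) + θ := add_nonneg (by positivity) hθ.1
    have h1 := Nat.floor_le hpos
    have h2 := Nat.lt_floor_add_one (α * ((N + 2 : ℕ) : ℝ) + θ)
    push_cast at h1 h2 ⊢
    refine (hcon N _ hN ?_ ?_).le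
    · linarith [hθ.1]
    · linarith [hθ.2]
  have hi : IntervalIntegrable (fun θ : ℝ => c N ⌊α * ((N + 2 : ℕ) : ℝ) + θ⌋₊ +
      α * (a N ⌊α * ((N + 2 : ℕ) : ℝ) + θ⌋₊ -
        a N (⌊α * ((N + 2 : ℕ) : ℝ) + θ⌋₊ - 1))) volume 0 L :=
    floor_intervalIntegrable_add (fun k => c N k + α * (a N k - a N (k - 1))) _ 0 L
  have h3 := intervalIntegral.integral_mono_on hL0.le
    (intervalIntegrable_const (c := p + 2 * ε)) hi hlow
  rw [intervalIntegral.integral_const, smul_eq_mul, sub_zero] at h3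
  have h4 := mul_le_mul_of_nonneg_left h3 (show 0 ≤ 1 / L by positivity)
  have h5 : 1 / L * (L * (p + 2 * ε)) = p + 2 * ε := by field_simp
  linarith only [hε, hint, h4, h5]

end Vale.Agent.P157.Par
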