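import Vale.Agent.P157.ParCubeDefs

/-! A lower bound for the cavity form of the spin increment. -/

open MeasureTheory ProbabilityTheory Filter Topology

namespace Vale.Agent.P157.Par

open Vale.Agent.P367.GT (gM)

set_option linter.unusedSectionVars false

section Abstract

variable {X : Type} [Fintype X] [Nonempty X]

lemma logw_pos {w : X → ℝ} (hw : ∀ x, 0 ≤ w x) (hw1 : ∑ x, w x = 1) (E : X → ℝ) :
    0 < ∑ x, w x * Real.exp (E x) := by
  obtain ⟨x, -, hx⟩ : ∃ x ∈ Finset.univ, 0 < w x := by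
    by_contra hcon
    push Not at hcon
    have : ∑ x, w x ≤ 0 := Finset.sum_nonpos fun x hx => hcon x hx
    linarith
  exact lt_of_lt_of_le (mul_pos hx (Real.exp_pos (E x)))
    (Finset.single_le_sum (f := fun x => w x * Real.exp (E x))
      (fun y _ => mul_nonneg (hw y) (Real.exp_pos _).le) (Finset.mem_univ x))

lemma logw_bound {w : X → ℝ} (hw : ∀ x, 0 ≤ w x) (hw1 : ∑ x, w x = 1) (E : X → ℝ) :
    |Real.log (∑ x, w x * Real.exp (E x))| ≤ ∑ x, |E x| := by
  set M := ∑ y, |E y| with hM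
  have hEy : ∀ y, |E y| ≤ M := fun y => Finset.single_le_sum (f := fun y => |E y|)
    (fun y _ => abs_nonneg _) (Finset.mem_univ y)
  have h1 : Real.exp (-M) ≤ ∑ y, w y * Real.exp (E y) := by
    rw [← one_mul (Real.exp (-M)), ← hw1, Finset.sum_mul]
    refine Finset.sum_le_sum fun y _ => mul_le_mul_of_nonneg_left (Real.exp_le_exp.2 ?_) (hw y)
    linarith [neg_abs_le (E y), hEy y]
  have h2 : ∑ y, w y * Real.exp (E y) ≤ Real.exp M := by
    rw [← one_mul (Real.exp M), ← hw1, Finset.sum_mul]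
    refine Finset.sum_le_sum fun y _ => mul_le_mul_of_nonneg_left (Real.exp_le_exp.2 ?_) (hw y)
    linarith [le_abs_self (E y), hEy y]
  have l1 := Real.log_le_log (Real.exp_pos _) h1
  have l2 := Real.log_le_log (logw_pos hw hw1 E) h2
  rw [Real.log_exp] at l1 l2
  rw [abs_le]
  constructor <;> linarith

variable {Ω Λ : Type} [MeasurableSpace Ω] [MeasurableSpace Λ] {P : Measure Ω}
  [IsProbabilityMeasure P] {ρ : Measure Λ} [IsProbabilityMeasure ρ]

lemma integrable_logw {w : Ω → X → ℝ} (hwm : ∀ x, Measurable fun ω => w ω x)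
    (hw : ∀ ω x, 0 ≤ w ω x) (hw1 : ∀ ω, ∑ x, w ω x = 1) {E : Ω → X → ℝ}
    (hE : ∀ x, Integrable (fun ω => E ω x) P) :
    Integrable (fun ω => Real.log (∑ x, w ω x * Real.exp (E ω x))) P := by
  refine Integrable.mono' (g := fun ω => ∑ x, |E ω x|)
    (integrable_finsetSum _ fun y _ => (hE y).abs) ?_
    (Filter.Eventually.of_forall fun ω => logw_bound (hw ω) (hw1 ω) (E ω))
  refine (Real.measurable_log.comp_aemeasurable ?_).aestronglyMeasurable
  exact Finset.aemeasurable_fun_sum _ fun y _ => ((hwm y).aemeasurable).mul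
    (Real.measurable_exp.comp_aemeasurable (hE y).aestronglyMeasurable.aemeasurable)

lemma sel_log_cosh_nonneg (y : ℝ) : 0 ≤ Real.log (Real.cosh y) :=
  Real.log_nonneg (Real.one_le_cosh y)

lemma sel_cosh_le_exp_abs (y : ℝ) : Real.cosh y ≤ Real.exp |y| := by
  rw [Real.cosh_eq]
  have h1 : Real.exp y ≤ Real.exp |y| := Real.exp_le_exp.2 (le_abs_self y)
  have h2 : Real.exp (-y) ≤ Real.exp |y| := Real.exp_le_exp.2 (neg_le_abs y)
  linarith

lemma sel_log_cosh_le (y : ℝ) : Real.log (Real.cosh y) ≤ |y| := by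
  have h := Real.log_le_log (Real.cosh_pos y) (sel_cosh_le_exp_abs y)
  rwa [Real.log_exp] at h

/-- The cosine hyperbolic only increases the free energy. -/
lemma cav_first {w : Ω → X → ℝ} (hwm : ∀ x, Measurable fun ω => w ω x)
    (hw : ∀ ω x, 0 ≤ w ω x) (hw1 : ∀ ω, ∑ x, w ω x = 1) {B : Ω → X → ℝ}
    (hB : ∀ x, Integrable (fun ω => B ω x) P) {Y : Ω × Λ → X → ℝ}
    (hY : ∀ x, Integrable (fun z => Y z x) (P.prod ρ)) :
    ∫ ω, Real.log (∑ x, w ω x * Real.exp (B ω x)) ∂P ≤
      ∫ z : Ω × Λ, Real.log (∑ x, w z.1 x * (Real.exp (B z.1 x) * Real.cosh (Y z x)))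
        ∂(P.prod ρ) := by
  have e1 : ∫ ω, Real.log (∑ x, w ω x * Real.exp (B ω x)) ∂P =
      ∫ z : Ω × Λ, Real.log (∑ x, w z.1 x * Real.exp (B z.1 x)) ∂(P.prod ρ) := by
    rw [integral_fun_fst (fun ω => Real.log (∑ x, w ω x * Real.exp (B ω x)))]
    simp
  have e2 : ∀ z : Ω × Λ, ∑ x, w z.1 x * (Real.exp (B z.1 x) * Real.cosh (Y z x)) =
      ∑ x, w z.1 x * Real.exp (B z.1 x + Real.log (Real.cosh (Y z x))) := fun z =>
    Finset.sum_congr rfl fun x _ => by
      rw [Real.exp_add, Real.exp_log (Real.cosh_pos _)]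
  have hB' : ∀ x, Integrable (fun z : Ω × Λ => B z.1 x) (P.prod ρ) := fun x =>
    (hB x).comp_fst ρ
  have hL : ∀ x, Integrable (fun z : Ω × Λ => Real.log (Real.cosh (Y z x))) (P.prod ρ) := by
    intro x
    refine Integrable.mono' (hY x).abs ?_ (Filter.Eventually.of_forall fun z => ?_)
    · exact (Real.measurable_log.comp_aemeasurable (Real.measurable_cosh.comp_aemeasurable
        (hY x).aestronglyMeasurable.aemeasurable)).aestronglyMeasurable
    · rw [Real.norm_eq_abs, abs_of_nonneg (sel_log_cosh_nonneg _)]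
      exact sel_log_cosh_le _
  rw [e1]
  simp only [e2]
  refine integral_mono (integrable_logw (fun x => (hwm x).comp measurable_fst)
    (fun z x => hw z.1 x) (fun z => hw1 z.1) hB')
    (integrable_logw (fun x => (hwm x).comp measurable_fst)
    (fun z x => hw z.1 x) (fun z => hw1 z.1) fun x => (hB' x).add (hL x)) fun z => ?_
  refine Real.log_le_log (logw_pos (hw z.1) (hw1 z.1) _) ?_
  refine Finset.sum_le_sum fun x _ => mul_le_mul_of_nonneg_left (Real.exp_le_exp.2 ?_) (hw _ _)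
  linarith [sel_log_cosh_nonneg (Y z x)]

/-- An independent field with bounded exponential moments increases the free energy by at
most `K`. -/
lemma cav_second {w : Ω → X → ℝ} (hwm : ∀ x, Measurable fun ω => w ω x)
    (hw : ∀ ω x, 0 ≤ w ω x) (hw1 : ∀ ω, ∑ x, w ω x = 1) {B : Ω → X → ℝ}
    (hB : ∀ x, Integrable (fun ω => B ω x) P) {Y : Ω × Λ → X → ℝ}
    (hY : ∀ x, Integrable (fun z => Y z x) (P.prod ρ)) {K : ℝ}
    (hYω : ∀ ω x, Integrable (fun l => Y (ω, l) x) ρ)
    (hE : ∀ ω x, Integrable (fun l => Real.exp (Y (ω, l) x)) ρ)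
    (hK : ∀ ω x, ∫ l, Real.exp (Y (ω, l) x) ∂ρ ≤ 1 + K) :
    ∫ z : Ω × Λ, Real.log (∑ x, w z.1 x * Real.exp (B z.1 x + Y z x)) ∂(P.prod ρ) ≤
      ∫ ω, Real.log (∑ x, w ω x * Real.exp (B ω x)) ∂P + K := by
  have hB' : ∀ x, Integrable (fun z : Ω × Λ => B z.1 x) (P.prod ρ) := fun x =>
    (hB x).comp_fst ρ
  have hI : Integrable (fun z : Ω × Λ => Real.log (∑ x, w z.1 x * Real.exp (B z.1 x + Y z x)))
      (P.prod ρ) := integrable_logw (fun x => (hwm x).comp measurable_fst)
    (fun z x => hw z.1 x) (fun z => hw1 z.1) fun x => (hB' x).add (hY x)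
  rw [integral_prod _ hI]
  have hJ : Integrable (fun ω => Real.log (∑ x, w ω x * Real.exp (B ω x))) P :=
    integrable_logw hwm hw hw1 hB
  have e1 : ∫ ω, Real.log (∑ x, w ω x * Real.exp (B ω x)) ∂P + K =
      ∫ ω, (Real.log (∑ x, w ω x * Real.exp (B ω x)) + K) ∂P := by
    rw [integral_add hJ (integrable_const _)]
    simp
  rw [e1]
  refine integral_mono hI.integral_prod_left (hJ.add (integrable_const _)) fun ω => ?_
  -- fixed `ω`
  simp only
  set Z := ∑ x, w ω x * Real.exp (B ω x) with hZ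
  have hZ0 : 0 < Z := logw_pos (hw ω) (hw1 ω) _
  have pt : ∀ l, Real.log (∑ x, w ω x * Real.exp (B ω x + Y (ω, l) x)) ≤
      Real.log Z + (∑ x, w ω x * Real.exp (B ω x) / Z * Real.exp (Y (ω, l) x) - 1) := by
    intro l
    set T := ∑ x, w ω x * Real.exp (B ω x + Y (ω, l) x) with hT
    have hT0 : 0 < T := logw_pos (hw ω) (hw1 ω) _
    have h1 := Real.log_le_sub_one_of_pos (show 0 < T / Z by positivity)
    rw [Real.log_div hT0.ne' hZ0.ne'] at h1
    have h2 : T / Z = ∑ x, w ω x * Real.exp (B ω x) / Z * Real.exp (Y (ω, l) x) := by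
      rw [hT, Finset.sum_div]
      exact Finset.sum_congr rfl fun x _ => by rw [Real.exp_add]; ring
    linarith
  have hi1 : Integrable (fun l => Real.log (∑ x, w ω x * Real.exp (B ω x + Y (ω, l) x))) ρ :=
    integrable_logw (w := fun _ => w ω) (fun x => measurable_const) (fun _ => hw ω)
      (fun _ => hw1 ω) fun x => (integrable_const _).add (hYω ω x)
  have hi3 : Integrable (fun l => ∑ x, w ω x * Real.exp (B ω x) / Z * Real.exp (Y (ω, l) x))
      ρ := integrable_finsetSum _ fun x _ => (hE ω x).const_mul _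
  have hi4 : Integrable (fun l => ∑ x, w ω x * Real.exp (B ω x) / Z *
      Real.exp (Y (ω, l) x) - 1) ρ := hi3.sub (integrable_const _)
  have hi2 : Integrable (fun l => Real.log Z +
      (∑ x, w ω x * Real.exp (B ω x) / Z * Real.exp (Y (ω, l) x) - 1)) ρ :=
    (integrable_const _).add hi4
  refine (integral_mono hi1 hi2 pt).trans ?_
  have e2 : ∫ l, (Real.log Z + (∑ x, w ω x * Real.exp (B ω x) / Z *
      Real.exp (Y (ω, l) x) - 1)) ∂ρ = Real.log Z + (∑ x, w ω x * Real.exp (B ω x) / Z *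
      ∫ l, Real.exp (Y (ω, l) x) ∂ρ - 1) := by
    rw [integral_add (integrable_const _) hi4, integral_sub hi3 (integrable_const _),
      integral_finsetSum _ fun x _ => (hE ω x).const_mul _]
    simp only [integral_const_mul, integral_const, probReal_univ, one_smul]
  rw [e2]
  have h3 : ∑ x, w ω x * Real.exp (B ω x) / Z * ∫ l, Real.exp (Y (ω, l) x) ∂ρ ≤
      ∑ x, w ω x * Real.exp (B ω x) / Z * (1 + K) :=
    Finset.sum_le_sum fun x _ => mul_le_mul_of_nonneg_left (hK ω x)
      (div_nonneg (mul_nonneg (hw _ _) (Real.exp_pos _).le) hZ0.le)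
  have h4 : ∑ x, w ω x * Real.exp (B ω x) / Z * (1 + K) = 1 + K := by
    rw [← Finset.sum_mul, ← Finset.sum_div, ← hZ, div_self hZ0.ne', one_mul]
  linarith

end Abstract

/-- Exponential moments of a Gaussian linear form. -/
lemma exp_lin_gM {ι : Type} [Fintype ι] (v : ι → ℝ) :
    Integrable (fun h : ι → ℝ => Real.exp (∑ i, v i * h i)) (gM ι) ∧
      ∫ h, Real.exp (∑ i, v i * h i) ∂(gM ι) = Real.exp ((∑ i, v i ^ 2) / 2) := by
  have e : (fun h : ι → ℝ => Real.exp (∑ i, v i * h i)) =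
      fun h => ∏ i, (fun (i : ι) (y : ℝ) => Real.exp (v i * y)) i (h i) := by
    funext h
    rw [Real.exp_sum]
  rw [e]
  refine ⟨Integrable.fintype_prod (f := fun (i : ι) (y : ℝ) => Real.exp (v i * y))
    fun i => integrable_exp_mul_gaussianReal (v i), ?_⟩
  have h1 := integral_fintype_prod_eq_prod (𝕜 := ℝ) (μ := fun _ : ι => gaussianReal 0 1)
    (fun (i : ι) (y : ℝ) => Real.exp (v i * y))
  have h2 : ∀ i, ∫ y, Real.exp (v i * y) ∂(gaussianReal 0 1) = Real.exp (v i ^ 2 / 2) := by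
    intro i
    have h3 := mgf_gaussianReal (p := gaussianReal 0 1) (X := fun y => y) (μ := 0) (v := 1)
      (by simp) (v i)
    rw [mgf] at h3
    rw [h3]
    simp
  rw [h1]
  simp only [h2]
  rw [← Real.exp_sum, Finset.sum_div]

/-- Exponential moments of a family of Gaussian linear forms. -/
lemma exp_lin_pi {M d : ℕ} (v : Fin M → Fin d → ℝ) :
    Integrable (fun h : Fin M → Fin d → ℝ => Real.exp (∑ a, ∑ i, v a i * h a i))
      (Measure.pi fun _ => gM (Fin d)) ∧
      ∫ h : Fin M → Fin d → ℝ, Real.exp (∑ a, ∑ i, v a i * h a i)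
        ∂(Measure.pi fun _ => gM (Fin d)) = Real.exp ((∑ a, ∑ i, v a i ^ 2) / 2) := by
  have e : (fun h : Fin M → Fin d → ℝ => Real.exp (∑ a, ∑ i, v a i * h a i)) =
      fun h => ∏ a, (fun (a : Fin M) (y : Fin d → ℝ) => Real.exp (∑ i, v a i * y i)) a (h a) := by
    funext h
    rw [Real.exp_sum]
  rw [e]
  refine ⟨Integrable.fintype_prod
    (f := fun (a : Fin M) (y : Fin d → ℝ) => Real.exp (∑ i, v a i * y i))
    fun a => (exp_lin_gM (v a)).1, ?_⟩
  have h1 := integral_fintype_prod_eq_prod (𝕜 := ℝ) (μ := fun _ : Fin M => gM (Fin d))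
    (fun (a : Fin M) (y : Fin d → ℝ) => Real.exp (∑ i, v a i * y i))
  rw [h1]
  simp only [(exp_lin_gM _).2]
  rw [← Real.exp_sum, Finset.sum_div]

section Cube

lemma sel_integrable_coord {ι : Type} [Fintype ι] (e : ι) :
    Integrable (fun J : ι → ℝ => J e) (gM ι) :=
  integrable_comp_eval (μ := fun _ : ι => gaussianReal 0 1) (i := e) (f := fun x => x)
    ((memLp_id_gaussianReal 1).integrable le_rfl)

variable {N M : ℕ}

lemma sel_measurable_cubeS (x : Fin (N + 1) → Bool) :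
    Measurable fun g : Fin (N + 1) → ℝ => cubeS g x := by
  unfold cubeS
  fun_prop

lemma sel_integrable_cubeS_one (x : Fin (N + 1) → Bool) :
    Integrable (fun g : Fin (N + 1) → ℝ => cubeS g x) (gM (Fin (N + 1))) := by
  unfold cubeS
  exact integrable_finsetSum _ fun i _ =>
    (sel_integrable_coord (ι := Fin (N + 1)) i).mul_const _

lemma sel_integrable_cubeS (x : Fin (N + 1) → Bool) (a : Fin M) :
    Integrable (fun g : Fin M → Fin (N + 1) → ℝ => cubeS (g a) x)
      (Measure.pi fun _ => gM (Fin (N + 1))) :=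
  integrable_comp_eval (μ := fun _ : Fin M => gM (Fin (N + 1))) (i := a)
    (f := fun g => cubeS g x) (sel_integrable_cubeS_one x)

lemma cavY_eq (δ : ℝ) (f1 : ℝ → ℝ) (S : Fin M → ℝ) (h : Fin M → Fin (N + 1) → ℝ)
    (x : Fin (N + 1) → Bool) :
    cavY δ f1 S (fun a => cubeS (h a) x) =
      ∑ a, ∑ i, (√δ * f1 (S a) * cubeφ N x i) * h a i := by
  unfold cavY cubeS
  refine Finset.sum_congr rfl fun a _ => ?_
  rw [Finset.mul_sum]
  exact Finset.sum_congr rfl fun i _ => by ring

lemma sum_cubeφ_sq (x : Fin (N + 1) → Bool) : ∑ i, cubeφ N x i ^ 2 = 1 := by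
  simp only [cubeφ_sq]
  rw [Finset.sum_const, Finset.card_univ, Fintype.card_fin, nsmul_eq_mul]
  push_cast
  field_simp

/-- The cavity form of the spin increment is bounded below. -/
theorem cubeDN_ge {f f1 f2 f3 : ℝ → ℝ} {C : ℝ} (hf : CB3 C f f1 f2 f3) (hfm : Measurable f)
    (N M P : ℕ) (s : ℝ) (u : Fin P → ℝ) :
    -(Real.exp (M * (1 / ((N : ℝ) + 2)) * C ^ 2 / 2) - 1) ≤
      cubeDN f f1 f2 hfm C hf.b0 N M P s u := by
  set δ : ℝ := 1 / ((N : ℝ) + 2) with hδ
  have hδ0 : 0 ≤ δ := by positivity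
  have hC0 : 0 ≤ C := (abs_nonneg _).trans (hf.b0 0)
  have hf1c : Continuous f1 := continuous_iff_continuousAt.2 fun x => (hf.d2 x).continuousAt
  have hf2c : Continuous f2 := continuous_iff_continuousAt.2 fun x => (hf.d3 x).continuousAt
  have hf1m := hf1c.measurable
  have hf2m := hf2c.measurable
  set S := (cubeBase f hfm C hf.b0 N M).sys P s u with hS
  let PP : Measure ((Fin M → Fin (N + 1) → ℝ) × (GI P (N + 1) → ℝ)) :=
    (Measure.pi fun _ : Fin M => gM (Fin (N + 1))).prod (gM (GI P (N + 1)))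
  let w : ((Fin M → Fin (N + 1) → ℝ) × (GI P (N + 1) → ℝ)) → (Fin (N + 1) → Bool) → ℝ :=
    fun ω x => S.w ω x
  have hwm : ∀ x, Measurable fun ω => w ω x := fun x => S.hw x
  have hw0 : ∀ ω x, 0 ≤ w ω x := fun ω x => S.w0 ω x
  have hw1 : ∀ ω, ∑ x, w ω x = 1 := fun ω => S.w1 ω
  have hS1 : ∀ (x : Fin (N + 1) → Bool) (a : Fin M), Integrable
      (fun ω : (Fin M → Fin (N + 1) → ℝ) × (GI P (N + 1) → ℝ) => cubeS (ω.1 a) x) PP :=
    fun x a => (sel_integrable_cubeS x a).comp_fst _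
  have hSm : ∀ (x : Fin (N + 1) → Bool) (a : Fin M), Measurable
      (fun ω : (Fin M → Fin (N + 1) → ℝ) × (GI P (N + 1) → ℝ) => cubeS (ω.1 a) x) :=
    fun x a => (sel_measurable_cubeS x).comp ((measurable_pi_apply a).comp measurable_fst)
  have hB : ∀ x, Integrable (fun ω : (Fin M → Fin (N + 1) → ℝ) × (GI P (N + 1) → ℝ) =>
      cavB δ f1 f2 fun a => cubeS (ω.1 a) x) PP := by
    intro x
    unfold cavB
    refine integrable_finsetSum _ fun a _ => ?_
    refine Integrable.const_mul ?_ _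
    refine Integrable.sub ?_ ?_
    · exact Integrable.mono' (g := fun _ => C) (integrable_const _)
        (hf2m.comp (hSm x a)).aestronglyMeasurable
        (Filter.Eventually.of_forall fun ω => by rw [Real.norm_eq_abs]; exact hf.b2 _)
    · refine Integrable.mono' (g := fun ω => |cubeS (ω.1 a) x| * C) ((hS1 x a).abs.mul_const C)
        ((hSm x a).mul (hf1m.comp (hSm x a))).aestronglyMeasurable
        (Filter.Eventually.of_forall fun ω => ?_)
      rw [Real.norm_eq_abs, abs_mul]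
      exact mul_le_mul_of_nonneg_left (hf.b1 _) (abs_nonneg _)
  -- first term
  have hY1 : ∀ x, Integrable (fun z : ((Fin M → Fin (N + 1) → ℝ) × (GI P (N + 1) → ℝ)) ×
      (Fin M → ℝ) => cavY δ f1 (fun a => cubeS (z.1.1 a) x) z.2) (PP.prod (gM (Fin M))) := by
    intro x
    unfold cavY
    refine integrable_finsetSum _ fun a _ => ?_
    have hi : Integrable (fun z : ((Fin M → Fin (N + 1) → ℝ) × (GI P (N + 1) → ℝ)) ×
        (Fin M → ℝ) => z.2 a) (PP.prod (gM (Fin M))) :=
      (sel_integrable_coord (ι := Fin M) a).comp_snd _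
    refine Integrable.mono' (g := fun z => √δ * C * |z.2 a|) (hi.abs.const_mul _)
      (((measurable_const.mul (hf1m.comp ((hSm x a).comp measurable_fst))).mul
        ((measurable_pi_apply a).comp measurable_snd)).aestronglyMeasurable)
      (Filter.Eventually.of_forall fun z => ?_)
    rw [Real.norm_eq_abs, abs_mul, abs_mul, abs_of_nonneg (Real.sqrt_nonneg _)]
    exact mul_le_mul_of_nonneg_right (mul_le_mul_of_nonneg_left (hf.b1 _)
      (Real.sqrt_nonneg _)) (abs_nonneg _)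
  have h1 := cav_first (P := PP) (ρ := gM (Fin M)) hwm hw0 hw1
    (B := fun ω x => cavB δ f1 f2 fun a => cubeS (ω.1 a) x) hB
    (Y := fun z x => cavY δ f1 (fun a => cubeS (z.1.1 a) x) z.2) hY1
  -- second term
  have hi2 : ∀ (x : Fin (N + 1) → Bool) (a : Fin M), Integrable
      (fun z : ((Fin M → Fin (N + 1) → ℝ) × (GI P (N + 1) → ℝ)) ×
        (Fin M → Fin (N + 1) → ℝ) => cubeS (z.2 a) x)
      (PP.prod (Measure.pi fun _ : Fin M => gM (Fin (N + 1)))) :=
    fun x a => (sel_integrable_cubeS x a).comp_snd _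
  have hY2 : ∀ x, Integrable (fun z : ((Fin M → Fin (N + 1) → ℝ) × (GI P (N + 1) → ℝ)) ×
      (Fin M → Fin (N + 1) → ℝ) =>
        cavY δ f1 (fun a => cubeS (z.1.1 a) x) (fun a => cubeS (z.2 a) x))
      (PP.prod (Measure.pi fun _ : Fin M => gM (Fin (N + 1)))) := by
    intro x
    unfold cavY
    refine integrable_finsetSum _ fun a _ => ?_
    refine Integrable.mono' (g := fun z => √δ * C * |cubeS (z.2 a) x|)
      ((hi2 x a).abs.const_mul _)
      (((measurable_const.mul (hf1m.comp ((hSm x a).comp measurable_fst))).mul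
        ((sel_measurable_cubeS x).comp
          ((measurable_pi_apply a).comp measurable_snd))).aestronglyMeasurable)
      (Filter.Eventually.of_forall fun z => ?_)
    rw [Real.norm_eq_abs, abs_mul, abs_mul, abs_of_nonneg (Real.sqrt_nonneg _)]
    exact mul_le_mul_of_nonneg_right (mul_le_mul_of_nonneg_left (hf.b1 _)
      (Real.sqrt_nonneg _)) (abs_nonneg _)
  have h2 := cav_second (P := PP) (ρ := Measure.pi fun _ : Fin M => gM (Fin (N + 1)))
    hwm hw0 hw1 (B := fun ω x => cavB δ f1 f2 fun a => cubeS (ω.1 a) x) hB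
    (Y := fun z x => cavY δ f1 (fun a => cubeS (z.1.1 a) x) (fun a => cubeS (z.2 a) x)) hY2
    (K := Real.exp (M * δ * C ^ 2 / 2) - 1) (fun ω x => by
      simp only [cavY_eq]
      exact integrable_finsetSum _ fun a _ => integrable_finsetSum _ fun i _ =>
        (integrable_comp_eval (μ := fun _ : Fin M => gM (Fin (N + 1))) (i := a)
          (f := fun g => g i) (sel_integrable_coord (ι := Fin (N + 1)) i)).const_mul _)
    (fun ω x => by
      simp only [cavY_eq]
      exact (exp_lin_pi _).1)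
    (fun ω x => by
      simp only [cavY_eq]
      rw [(exp_lin_pi _).2]
      have e : ∑ a : Fin M, ∑ i, (√δ * f1 (cubeS (ω.1 a) x) * cubeφ N x i) ^ 2 =
          ∑ a : Fin M, δ * f1 (cubeS (ω.1 a) x) ^ 2 := by
        refine Finset.sum_congr rfl fun a _ => ?_
        have : ∀ i, (√δ * f1 (cubeS (ω.1 a) x) * cubeφ N x i) ^ 2 =
            δ * f1 (cubeS (ω.1 a) x) ^ 2 * cubeφ N x i ^ 2 := fun i => by
          rw [mul_pow, mul_pow, Real.sq_sqrt hδ0]
        simp only [this]
        rw [← Finset.mul_sum, sum_cubeφ_sq, mul_one]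
      rw [e]
      have e2 : ∑ a : Fin M, δ * f1 (cubeS (ω.1 a) x) ^ 2 ≤ ∑ _a : Fin M, δ * C ^ 2 :=
        Finset.sum_le_sum fun a _ => mul_le_mul_of_nonneg_left
          (sq_le_sq' (by linarith [(abs_le.1 (hf.b1 (cubeS (ω.1 a) x))).1])
            (abs_le.1 (hf.b1 (cubeS (ω.1 a) x))).2) hδ0
      rw [Finset.sum_const, Finset.card_univ, Fintype.card_fin, nsmul_eq_mul] at e2
      have e3 := Real.exp_le_exp.2 (show (∑ a : Fin M, δ * f1 (cubeS (ω.1 a) x) ^ 2) / 2 ≤
        M * δ * C ^ 2 / 2 by linarith)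
      linarith)
  have h3 : cubeDN f f1 f2 hfm C hf.b0 N M P s u =
      (∫ z : ((Fin M → Fin (N + 1) → ℝ) × (GI P (N + 1) → ℝ)) × (Fin M → ℝ),
        Real.log (∑ x, w z.1 x * (Real.exp (cavB δ f1 f2 fun a => cubeS (z.1.1 a) x) *
          Real.cosh (cavY δ f1 (fun a => cubeS (z.1.1 a) x) z.2))) ∂(PP.prod (gM (Fin M)))) -
      ∫ z : ((Fin M → Fin (N + 1) → ℝ) × (GI P (N + 1) → ℝ)) × (Fin M → Fin (N + 1) → ℝ),
        Real.log (∑ x, w z.1 x * Real.exp ((cavB δ f1 f2 fun a => cubeS (z.1.1 a) x) +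
          cavY δ f1 (fun a => cubeS (z.1.1 a) x) fun a => cubeS (z.2 a) x))
        ∂(PP.prod (Measure.pi fun _ : Fin M => gM (Fin (N + 1)))) := rfl
  rw [h3]
  linarith

end Cube

end Vale.Agent.P157.Par
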