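import Vale.Agent.P157.ParSp1
import Vale.Agent.P157.ParSp2

/-! The derivative of the spin part along a segment of paths. -/

open MeasureTheory ProbabilityTheory Filter Topology Set

namespace Vale.Agent.P157.Par

theorem sp4_exp_nonneg {k : ℕ} {m : ℕ → ℝ} (hm : Exponents k m) :
    ∀ l ≤ k + 1, 0 ≤ m l := by
  intro l
  induction l with
  | zero => intro _; rw [hm.1]
  | succ l ih =>
    intro hl
    exact (ih (by omega)).trans (hm.2.2 l (by omega)).le

theorem sp4_exp_pos {k : ℕ} {m : ℕ → ℝ} (hm : Exponents k m) {l : ℕ} (hl : l ≤ k) :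
    0 < m (l + 1) :=
  (sp4_exp_nonneg hm l (by omega)).trans_lt (hm.2.2 l hl)

section chn

theorem sp4_chn_const_mul (m r : ℕ → ℝ) (c : ℝ) : ∀ (l : ℕ) (F g : ℝ → ℝ),
    chn m r l F (fun y => c * g y) = c * chn m r l F g := by
  intro l
  induction l with
  | zero =>
    intro F g
    rw [chn_zero_def, chn_zero_def, integral_const_mul]
  | succ l ih =>
    intro F g
    rw [chn_succ_def, chn_succ_def, ← ih]
    congr 1
    funext x
    exact tlt_const_mul _ _ c F g x

theorem sp4_chn_zero (m r : ℕ → ℝ) (l : ℕ) (F : ℝ → ℝ) :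
    chn m r l F (fun _ => 0) = 0 := by
  have h := sp4_chn_const_mul m r 0 l F (fun _ => 0)
  simpa using h

theorem sp4_chn_add {m r : ℕ → ℝ} : ∀ (l : ℕ), (∀ j < l, 0 < m (j + 1)) →
    ∀ {L B : ℝ} {F M D : ℝ → ℝ}, Sm L B F M D → ∀ {g g' : ℝ → ℝ}, Continuous g → ∀ {K : ℝ},
    (∀ x, |g x| ≤ K) → Continuous g' → ∀ {K' : ℝ}, (∀ x, |g' x| ≤ K') →
    chn m r l F (fun y => g y + g' y) = chn m r l F g + chn m r l F g' := by
  intro l
  induction l with
  | zero =>
    intro _ L B F M D _ g g' hg K hK hg' K' hK'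
    rw [chn_zero_def, chn_zero_def, chn_zero_def, integral_add]
    · exact Integrable.of_bound (by fun_prop) K (Eventually.of_forall fun z => hK _)
    · exact Integrable.of_bound (by fun_prop) K' (Eventually.of_forall fun z => hK' _)
  | succ l ih =>
    intro hm L B F M D h g g' hg K hK hg' K' hK'
    rw [chn_succ_def, chn_succ_def, chn_succ_def]
    have h1 : tlt (m (l + 1)) (r (l + 1) - r l) F (fun y => g y + g' y) =
        fun x => tlt (m (l + 1)) (r (l + 1) - r l) F g x +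
          tlt (m (l + 1)) (r (l + 1) - r l) F g' x := by
      funext x
      exact h.tlt_add hg hK hg' hK' _ _ x
    rw [h1]
    exact ih (fun j hj => hm j (by omega)) (h.step (hm l (by omega)) _)
      (h.tlt_cont hg hK _ _) (fun x => h.abs_tlt_le hg hK _ _ x)
      (h.tlt_cont hg' hK' _ _) (fun x => h.abs_tlt_le hg' hK' _ _ x)

theorem sp4_chn_const {m r : ℕ → ℝ} (c : ℝ) : ∀ (l : ℕ), (∀ j < l, 0 < m (j + 1)) →
    ∀ {L B : ℝ} {F M D : ℝ → ℝ}, Sm L B F M D → chn m r l F (fun _ => c) = c := by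
  intro l
  induction l with
  | zero =>
    intro _ L B F M D _
    rw [chn_zero_def]
    simp
  | succ l ih =>
    intro hm L B F M D h
    rw [chn_succ_def]
    have h1 : tlt (m (l + 1)) (r (l + 1) - r l) F (fun _ => c) = fun _ => c := by
      funext x
      exact h.tlt_const _ _ c x
    rw [h1]
    exact ih (fun j hj => hm j (by omega)) (h.step (hm l (by omega)) _)

end chn

section fam

variable {a b : ℝ} {u u1 u2 us : ℝ → ℝ → ℝ}

theorem sp4_slice {S : Set ℝ} {g : ℝ → ℝ → ℝ}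
    (hg : ContinuousOn (fun p : ℝ × ℝ => g p.1 p.2) (S ×ˢ Set.univ)) {s : ℝ} (hs : s ∈ S) :
    Continuous (g s) := by
  rw [← continuousOn_univ]
  exact hg.comp (f := fun x : ℝ => ((s, x) : ℝ × ℝ)) (by fun_prop) fun x _ => ⟨hs, mem_univ x⟩

theorem sp4_sm (h : Fam a b u u1 u2 us) : ∃ L B : ℝ, ∀ s ∈ Set.Icc a b,
    Sm L B (u s) (u1 s) (u2 s) := by
  obtain ⟨L, hL⟩ := h.b1
  obtain ⟨B, hB⟩ := h.b2
  refine ⟨L, B, fun s hs => ⟨h.d1 s hs, h.d2 s hs, ?_, hL s hs, hB s hs⟩⟩
  exact sp4_slice h.c2 hs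

theorem sp4_tlt_bound (h : Fam a b u u1 u2 us) {g : ℝ → ℝ → ℝ}
    (hg : ContinuousOn (fun p : ℝ × ℝ => g p.1 p.2) (Set.Icc a b ×ˢ Set.univ)) {K : ℝ}
    (hK : ∀ s ∈ Set.Icc a b, ∀ x, |g s x| ≤ K) (m v₀ d : ℝ) :
    ∀ s ∈ Set.Icc a b, ∀ x, |tlt m (v₀ + s * d) (u s) (g s) x| ≤ K := by
  obtain ⟨L, B, hS⟩ := sp4_sm h
  intro s hs x
  exact (hS s hs).abs_tlt_le (sp4_slice hg hs) (hK s hs) _ _ x

end fam

section path

variable {m r η : ℕ → ℝ} {a : ℝ}

theorem sp4_incr (r η : ℕ → ℝ) (l : ℕ) (s : ℝ) :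
    (r (l + 1) + s * η (l + 1)) - (r l + s * η l) =
      (r (l + 1) - r l) + s * (η (l + 1) - η l) := by ring

theorem sp4_chn_cont : ∀ (l : ℕ), (∀ j < l, 0 < m (j + 1)) →
    (∀ j < l, ∀ s ∈ Set.Ioo 0 a, 0 < (r (j + 1) - r j) + s * (η (j + 1) - η j)) →
    ∀ {u u1 u2 us : ℝ → ℝ → ℝ}, Fam 0 a u u1 u2 us → ∀ {g : ℝ → ℝ → ℝ},
    ContinuousOn (fun p : ℝ × ℝ => g p.1 p.2) (Set.Icc 0 a ×ˢ Set.univ) → ∀ {K : ℝ},
    (∀ s ∈ Set.Icc 0 a, ∀ x, |g s x| ≤ K) →
    ContinuousOn (fun s => chn m (fun l => r l + s * η l) l (u s) (g s)) (Set.Icc 0 a) := by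
  intro l
  induction l with
  | zero =>
    intro _ _ u u1 u2 us h g hg K hK
    simp only [chn_zero_def]
    exact h.bottom_cont hg hK (r 0) (η 0)
  | succ l ih =>
    intro hm hv u u1 u2 us h g hg K hK
    simp only [chn_succ_def, sp4_incr]
    exact ih (fun j hj => hm j (by omega)) (fun j hj => hv j (by omega))
      (h.step (hm l (by omega)) (hv l (by omega)))
      (h.tlt_cont hg hK _ _ _) (sp4_tlt_bound h hg hK _ _ _)

theorem sp4_Rc_cont : ∀ (l : ℕ), (∀ j < l, 0 < m (j + 1)) →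
    (∀ j < l, ∀ s ∈ Set.Ioo 0 a, 0 < (r (j + 1) - r j) + s * (η (j + 1) - η j)) →
    ∀ {u u1 u2 us : ℝ → ℝ → ℝ}, Fam 0 a u u1 u2 us → ∀ {g : ℝ → ℝ → ℝ},
    ContinuousOn (fun p : ℝ × ℝ => g p.1 p.2) (Set.Icc 0 a ×ˢ Set.univ) → ∀ {K : ℝ},
    (∀ s ∈ Set.Icc 0 a, ∀ x, |g s x| ≤ K) → ∀ j ≤ l,
    ContinuousOn (fun s => Rc m (fun l => r l + s * η l) l (u s) (g s) j) (Set.Icc 0 a) := by
  intro l
  induction l with
  | zero =>
    intro hm hv u u1 u2 us h g hg K hK j hj
    obtain rfl : j = 0 := by omega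
    simp only [Rc_self]
    refine sp4_chn_cont 0 hm hv h (hg.pow 2) (K := K ^ 2) fun s hs x => ?_
    rw [abs_pow]
    exact pow_le_pow_left₀ (abs_nonneg _) (hK s hs x) 2
  | succ l ih =>
    intro hm hv u u1 u2 us h g hg K hK j hj
    rcases Nat.lt_or_ge l j with hlj | hlj
    · obtain rfl : j = l + 1 := by omega
      simp only [Rc_self]
      refine sp4_chn_cont (l + 1) hm hv h (hg.pow 2) (K := K ^ 2) fun s hs x => ?_
      rw [abs_pow]
      exact pow_le_pow_left₀ (abs_nonneg _) (hK s hs x) 2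
    · simp only [Rc_succ_le _ _ _ _ _ hlj, sp4_incr]
      exact ih (fun j hj => hm j (by omega)) (fun j hj => hv j (by omega))
        (h.step (hm l (by omega)) (hv l (by omega)))
        (h.tlt_cont hg hK _ _ _) (sp4_tlt_bound h hg hK _ _ _) j hlj

theorem sp4_casc_cont : ∀ (l : ℕ), (∀ j < l, 0 < m (j + 1)) →
    (∀ j < l, ∀ s ∈ Set.Ioo 0 a, 0 < (r (j + 1) - r j) + s * (η (j + 1) - η j)) →
    (∀ s ∈ Set.Ioo 0 a, 0 < r 0 + s * η 0) →
    ∀ {u u1 u2 us : ℝ → ℝ → ℝ}, Fam 0 a u u1 u2 us →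
    ContinuousOn (fun s => ∫ z, cascade m (fun l => r l + s * η l) l (u s)
      (√(r 0 + s * η 0) * z) ∂(gaussianReal 0 1)) (Set.Icc 0 a) := by
  intro l
  induction l with
  | zero =>
    intro _ _ h0 u u1 u2 us h
    exact (h.bottom h0).1
  | succ l ih =>
    intro hm hv h0 u u1 u2 us h
    simp only [cascade_succ_def, sp4_incr]
    exact ih (fun j hj => hm j (by omega)) (fun j hj => hv j (by omega)) h0
      (h.step (hm l (by omega)) (hv l (by omega)))

theorem sp4_casc_deriv (hm0 : m 0 = 0) : ∀ (l : ℕ), (∀ j < l, 0 < m (j + 1)) →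
    (∀ j < l, ∀ s ∈ Set.Ioo 0 a, 0 < (r (j + 1) - r j) + s * (η (j + 1) - η j)) →
    (∀ s ∈ Set.Ioo 0 a, 0 < r 0 + s * η 0) →
    ∀ {u u1 u2 us : ℝ → ℝ → ℝ}, Fam 0 a u u1 u2 us → ∀ s ∈ Set.Ioo 0 a,
    HasDerivAt (fun s => ∫ z, cascade m (fun l => r l + s * η l) l (u s)
      (√(r 0 + s * η 0) * z) ∂(gaussianReal 0 1))
      (chn m (fun l => r l + s * η l) l (u s) (us s) + 1 / 2 *
        (η l * chn m (fun l => r l + s * η l) l (u s) (fun y => u2 s y + m l * u1 s y ^ 2) -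
          ∑ j ∈ Finset.range l, (m (j + 1) - m j) * η j *
            Rc m (fun l => r l + s * η l) l (u s) (u1 s) j)) s := by
  intro l
  induction l with
  | zero =>
    intro _ _ h0 u u1 u2 us h s hs
    have hsI : s ∈ Set.Icc 0 a := Ioo_subset_Icc_self hs
    have h1 := (h.bottom h0).2 s hs
    obtain ⟨B2, hB2⟩ := h.b2
    obtain ⟨Bs, hBs⟩ := h.bs
    have hc2 : Continuous (u2 s) := sp4_slice h.c2 hsI
    have hcs : Continuous (us s) := sp4_slice h.cs hs
    have e1 : ∫ z, (us s (√(r 0 + s * η 0) * z) + η 0 / 2 * u2 s (√(r 0 + s * η 0) * z))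
          ∂(gaussianReal 0 1) =
        ∫ z, us s (√(r 0 + s * η 0) * z) ∂(gaussianReal 0 1) +
          η 0 / 2 * ∫ z, u2 s (√(r 0 + s * η 0) * z) ∂(gaussianReal 0 1) := by
      rw [integral_add, integral_const_mul]
      · exact Integrable.of_bound (by fun_prop) Bs (Eventually.of_forall fun z => hBs s hs _)
      · refine Integrable.const_mul ?_ _
        exact Integrable.of_bound (by fun_prop) B2 (Eventually.of_forall fun z => hB2 s hsI _)
    rw [e1] at h1
    refine h1.congr_deriv ?_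
    rw [chn_zero_def, chn_zero_def, Finset.range_zero, Finset.sum_empty, hm0]
    simp only [zero_mul, add_zero, sub_zero]
    ring
  | succ l ih =>
    intro hm hv h0 u u1 u2 us h s hs
    have hsI : s ∈ Set.Icc 0 a := Ioo_subset_Icc_self hs
    have hml : 0 < m (l + 1) := hm l (by omega)
    have hstep := h.step hml (hv l (by omega))
    have h1 := ih (fun j hj => hm j (by omega)) (fun j hj => hv j (by omega)) h0 hstep s hs
    obtain ⟨B1, hB1⟩ := h.b1
    obtain ⟨B2, hB2⟩ := h.b2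
    obtain ⟨Bs, hBs⟩ := h.bs
    obtain ⟨L, B, hS⟩ := sp4_sm h
    obtain ⟨L', B', hS'⟩ := sp4_sm hstep
    have hSs := hS s hsI
    have hSs' := hS' s hsI
    have hc1 : Continuous (u1 s) := sp4_slice h.c1 hsI
    have hc2 : Continuous (u2 s) := sp4_slice h.c2 hsI
    have hcs : Continuous (us s) := sp4_slice h.cs hs
    set ρ : ℕ → ℝ := fun l => r l + s * η l with hρ
    set v : ℝ := (r (l + 1) - r l) + s * (η (l + 1) - η l) with hv'
    have hinc : ρ (l + 1) - ρ l = v := sp4_incr r η l s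
    -- the observable at the level l + 1
    set G : ℝ → ℝ := fun y => u2 s y + m (l + 1) * u1 s y ^ 2 with hG
    have hGc : Continuous G := by fun_prop
    have hGb : ∀ x, |G x| ≤ B2 + m (l + 1) * B1 ^ 2 := by
      intro x
      refine (abs_add_le _ _).trans (add_le_add (hB2 s hsI x) ?_)
      rw [abs_mul, abs_of_pos hml, abs_pow]
      exact mul_le_mul_of_nonneg_left (pow_le_pow_left₀ (abs_nonneg _) (hB1 s hsI x) 2) hml.le
    have hm' : ∀ j < l + 1, 0 < m (j + 1) := hm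
    have hm'' : ∀ j < l, 0 < m (j + 1) := fun j hj => hm j (by omega)
    -- first term
    have t1 : chn m ρ l (gstep (m (l + 1)) v (u s)) (tlt (m (l + 1)) v (u s)
        (fun y => us s y + (η (l + 1) - η l) / 2 * (u2 s y + m (l + 1) * u1 s y ^ 2))) =
        chn m ρ (l + 1) (u s) (us s) + (η (l + 1) - η l) / 2 * chn m ρ (l + 1) (u s) G := by
      have hcG : Continuous (fun y => (η (l + 1) - η l) / 2 * G y) := continuous_const.mul hGc
      have hbG : ∀ x, |(fun y => (η (l + 1) - η l) / 2 * G y) x| ≤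
          |(η (l + 1) - η l) / 2| * (B2 + m (l + 1) * B1 ^ 2) := by
        intro x
        simp only [abs_mul]
        exact mul_le_mul_of_nonneg_left (hGb x) (abs_nonneg _)
      have e := sp4_chn_add (r := ρ) (l + 1) hm' hSs hcs (hBs s hs) hcG hbG
      rw [sp4_chn_const_mul, chn_succ_def, hinc] at e
      exact e
    -- second term
    have t2 : chn m ρ l (gstep (m (l + 1)) v (u s)) (fun y =>
        (tlt (m (l + 1)) v (u s) (fun y => u2 s y + m (l + 1) * u1 s y ^ 2) y -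
          m (l + 1) * tlt (m (l + 1)) v (u s) (u1 s) y ^ 2) +
        m l * tlt (m (l + 1)) v (u s) (u1 s) y ^ 2) =
        chn m ρ (l + 1) (u s) G - (m (l + 1) - m l) * Rc m ρ (l + 1) (u s) (u1 s) l := by
      have hT1c : Continuous (tlt (m (l + 1)) v (u s) (u1 s)) := hSs.tlt_cont hc1 (hB1 s hsI) _ _
      have hT1b : ∀ x, |tlt (m (l + 1)) v (u s) (u1 s) x| ≤ B1 := fun x =>
        hSs.abs_tlt_le hc1 (hB1 s hsI) _ _ x
      have hTGc : Continuous (tlt (m (l + 1)) v (u s) G) := hSs.tlt_cont hGc hGb _ _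
      have hTGb : ∀ x, |tlt (m (l + 1)) v (u s) G x| ≤ B2 + m (l + 1) * B1 ^ 2 := fun x =>
        hSs.abs_tlt_le hGc hGb _ _ x
      have e : (fun y =>
        (tlt (m (l + 1)) v (u s) (fun y => u2 s y + m (l + 1) * u1 s y ^ 2) y -
          m (l + 1) * tlt (m (l + 1)) v (u s) (u1 s) y ^ 2) +
        m l * tlt (m (l + 1)) v (u s) (u1 s) y ^ 2) = fun y => tlt (m (l + 1)) v (u s) G y +
          (-(m (l + 1) - m l)) * tlt (m (l + 1)) v (u s) (u1 s) y ^ 2 := by
        funext y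
        ring
      have hcT : Continuous (fun y => (-(m (l + 1) - m l)) *
          tlt (m (l + 1)) v (u s) (u1 s) y ^ 2) := continuous_const.mul (hT1c.pow 2)
      have hbT : ∀ x, |(fun y => (-(m (l + 1) - m l)) *
          tlt (m (l + 1)) v (u s) (u1 s) y ^ 2) x| ≤ |-(m (l + 1) - m l)| * B1 ^ 2 := by
        intro x
        simp only [abs_mul, abs_pow]
        exact mul_le_mul_of_nonneg_left
          (pow_le_pow_left₀ (abs_nonneg _) (hT1b x) 2) (abs_nonneg _)
      have e2 := sp4_chn_add (r := ρ) l hm'' hSs' hTGc hTGb hcT hbT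
      rw [sp4_chn_const_mul] at e2
      rw [e, e2, chn_succ_def, hinc, Rc_succ_le _ _ _ _ _ le_rfl, hinc, Rc_self]
      ring
    have t3 : ∀ j ∈ Finset.range l, (m (j + 1) - m j) * η j *
        Rc m ρ l (gstep (m (l + 1)) v (u s)) (tlt (m (l + 1)) v (u s) (u1 s)) j =
        (m (j + 1) - m j) * η j * Rc m ρ (l + 1) (u s) (u1 s) j := by
      intro j hj
      have hjl : j ≤ l := (Finset.mem_range.1 hj).le
      rw [Rc_succ_le _ _ _ _ _ hjl, hinc]
    have hfun : (fun s => ∫ z, cascade m (fun l => r l + s * η l) (l + 1) (u s)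
        (√(r 0 + s * η 0) * z) ∂(gaussianReal 0 1)) =
        fun s => ∫ z, cascade m (fun l => r l + s * η l) l
          (gstep (m (l + 1)) ((r (l + 1) - r l) + s * (η (l + 1) - η l)) (u s))
          (√(r 0 + s * η 0) * z) ∂(gaussianReal 0 1) := by
      funext s
      simp only [cascade_succ_def, sp4_incr]
    rw [hfun]
    refine h1.congr_deriv ?_
    rw [Finset.sum_range_succ]
    rw [t1, t2, Finset.sum_congr rfl t3]
    ring

theorem sp4_fam (a : ℝ) : Fam 0 a (fun _ x => Real.log (Real.cosh x)) (fun _ => Real.tanh)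
    (fun _ x => 1 - Real.tanh x ^ 2) (fun _ _ => 0) := by
  have hSm := ec_logcosh.sm
  have hc0 := hSm.cont
  have hc1 := hSm.cont1
  have hc2 := hSm.cD
  refine ⟨fun _ _ => hSm.d1, fun _ _ => hSm.d2, fun s _ x => hasDerivAt_const s _,
    (hc0.comp continuous_snd).continuousOn, (hc1.comp continuous_snd).continuousOn,
    (hc2.comp continuous_snd).continuousOn, continuousOn_const,
    ⟨1, fun _ _ => hSm.bM⟩, ⟨1, fun _ _ => hSm.bD⟩, ⟨0, fun _ _ _ => by simp⟩⟩

theorem spin_deriv {k : ℕ} {m r η : ℕ → ℝ} (hm : Exponents k m) {a : ℝ} (ha : 0 < a)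
    (hs : ∀ s ∈ Set.Ico 0 a, SPath k (fun l => r l + s * η l))
    (hp : Path k (fun l => r l + a * η l)) :
    ContinuousOn (fun s => spinPart k m (fun l => r l + s * η l)) (Set.Icc 0 a) ∧
    (∀ s ∈ Set.Ioo 0 a, HasDerivAt (fun s => spinPart k m (fun l => r l + s * η l))
      (-(1 / 2) * ∑ l ∈ Finset.range (k + 1), (m (l + 1) - m l) * η l *
        spR k m (fun l => r l + s * η l) l) s) ∧
    ∀ j ≤ k, ContinuousOn (fun s => spR k m (fun l => r l + s * η l) j) (Set.Icc 0 a) := by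
  have _ := ha
  have _ := hp
  have hpos : ∀ j < k, 0 < m (j + 1) := fun j hj => sp4_exp_pos hm hj.le
  have hv : ∀ j < k, ∀ s ∈ Set.Ioo 0 a, 0 < (r (j + 1) - r j) + s * (η (j + 1) - η j) := by
    intro j hj s hsI
    have h := (hs s (Ioo_subset_Ico_self hsI)).2 j hj
    rw [← sp4_incr]
    exact sub_pos.2 h
  have h0 : ∀ s ∈ Set.Ioo 0 a, 0 < r 0 + s * η 0 := fun s hsI =>
    (hs s (Ioo_subset_Ico_self hsI)).1
  have hF := sp4_fam a
  have hSm := ec_logcosh.sm
  have hT : Continuous Real.tanh := hSm.cont1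
  refine ⟨?_, ?_, ?_⟩
  · have h1 := sp4_casc_cont k hpos hv h0 hF
    have h2 : ContinuousOn (fun s => (r k + s * η k) / 2) (Set.Icc 0 a) := by fun_prop
    exact h1.sub h2
  · intro s hsI
    have h1 := sp4_casc_deriv hm.1 k hpos hv h0 hF s hsI
    have h2 : HasDerivAt (fun s => (r k + s * η k) / 2) (η k / 2) s := by
      have h3 : HasDerivAt (fun s : ℝ => s) 1 s := hasDerivAt_id s
      have h4 := ((h3.mul_const (η k)).const_add (r k)).div_const 2
      simpa using h4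
    have h3 := h1.sub h2
    refine h3.congr_deriv ?_
    set ρ : ℕ → ℝ := fun l => r l + s * η l with hρ
    have e1 : chn m ρ k (fun x => Real.log (Real.cosh x))
        (fun y => 1 - Real.tanh y ^ 2 + m k * Real.tanh y ^ 2) =
        1 - (1 - m k) * spR k m ρ k := by
      have hcT : Continuous (fun y => (-(1 - m k)) * Real.tanh y ^ 2) :=
        continuous_const.mul (hT.pow 2)
      have hbT : ∀ x, |(fun y => (-(1 - m k)) * Real.tanh y ^ 2) x| ≤ |-(1 - m k)| * 1 ^ 2 := by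
        intro x
        simp only [abs_mul, abs_pow]
        exact mul_le_mul_of_nonneg_left
          (pow_le_pow_left₀ (abs_nonneg _) (hSm.bM x) 2) (abs_nonneg _)
      have e2 := sp4_chn_add (r := ρ) k hpos hSm (g := fun _ => 1) continuous_const
        (K := 1) (fun _ => by simp) hcT hbT
      rw [sp4_chn_const_mul, sp4_chn_const 1 k hpos hSm] at e2
      have e3 : (fun y => 1 - Real.tanh y ^ 2 + m k * Real.tanh y ^ 2) =
          fun y => 1 + (-(1 - m k)) * Real.tanh y ^ 2 := by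
        funext y
        ring
      rw [e3, e2, spR, Rc_self]
      ring
    rw [Finset.sum_range_succ, hm.2.1]
    rw [e1, sp4_chn_zero]
    simp only [spR]
    ring
  · intro j hj
    have hg : ContinuousOn (fun p : ℝ × ℝ => (fun _ : ℝ => Real.tanh) p.1 p.2)
        (Set.Icc 0 a ×ˢ Set.univ) := (hT.comp continuous_snd).continuousOn
    exact sp4_Rc_cont k hpos hv hF hg (K := 1) (fun _ _ => hSm.bM) j hj

end path

end Vale.Agent.P157.Par
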