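import Vale.Agent.P157.ParArr2

open MeasureTheory ProbabilityTheory Filter Topology Finset

namespace Vale.Agent.P157.Par

set_option linter.unusedSectionVars false

open Vale.Agent.P367.GT (gM stein_pi)

/-- Bounded measurable functions. -/
structure BM (f : ℝ → ℝ) : Prop where
  meas : Measurable f
  bdd : ∃ C, ∀ x, |f x| ≤ C

lemma BM.const (c : ℝ) : BM fun _ => c := ⟨measurable_const, |c|, fun _ => le_rfl⟩

lemma BM.mul {f g : ℝ → ℝ} (hf : BM f) (hg : BM g) : BM fun x => f x * g x := by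
  obtain ⟨C, hC⟩ := hf.bdd
  obtain ⟨D, hD⟩ := hg.bdd
  refine ⟨hf.meas.mul hg.meas, C * D, fun x => ?_⟩
  rw [abs_mul]
  exact mul_le_mul (hC x) (hD x) (abs_nonneg _) ((abs_nonneg _).trans (hC x))

lemma BM.add {f g : ℝ → ℝ} (hf : BM f) (hg : BM g) : BM fun x => f x + g x := by
  obtain ⟨C, hC⟩ := hf.bdd
  obtain ⟨D, hD⟩ := hg.bdd
  exact ⟨hf.meas.add hg.meas, C + D, fun x => (abs_add_le _ _).trans (add_le_add (hC x) (hD x))⟩

lemma BM.neg {f : ℝ → ℝ} (hf : BM f) : BM fun x => -f x := by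
  obtain ⟨C, hC⟩ := hf.bdd
  exact ⟨hf.meas.neg, C, fun x => by rw [abs_neg]; exact hC x⟩

lemma BM.sub {f g : ℝ → ℝ} (hf : BM f) (hg : BM g) : BM fun x => f x - g x := by
  have := hf.add hg.neg
  simpa [sub_eq_add_neg] using this

section

variable {J K : Type} [Fintype J] [DecidableEq J] [Fintype K] [DecidableEq K]

lemma BM.update {f : J → ℝ → ℝ} (hf : ∀ a, BM (f a)) {a : J} {g : ℝ → ℝ} (hg : BM g) :
    ∀ b, BM (Function.update f a g b) := by
  intro b
  by_cases hb : b = a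
  · subst hb; simpa using hg
  · simpa [Function.update_of_ne hb] using hf b

lemma exists_bound {f : J → ℝ → ℝ} (hf : ∀ a, BM (f a)) : ∃ C, 0 ≤ C ∧ ∀ a x, |f a x| ≤ C := by
  choose C hC using fun a => (hf a).bdd
  refine ⟨∑ a, |C a|, Finset.sum_nonneg fun _ _ => abs_nonneg _, fun a x => ?_⟩
  exact ((hC a x).trans (le_abs_self _)).trans
    (Finset.single_le_sum (f := fun a => |C a|) (fun _ _ => abs_nonneg _) (Finset.mem_univ a))

lemma gE_integrable (U : J → K → ℝ) {f : J → ℝ → ℝ} (hf : ∀ a, BM (f a)) :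
    Integrable (fun ξ : K → ℝ => ∏ a, f a (lin U ξ a)) (gM K) := by
  obtain ⟨C, -, hC⟩ := exists_bound hf
  exact integrable_prod_lin (fun a => (hf a).meas) hC _

lemma gE_update_add (U : J → K → ℝ) {f : J → ℝ → ℝ} (hf : ∀ a, BM (f a)) (a : J)
    {g h : ℝ → ℝ} (hg : BM g) (hh : BM h) :
    gE U (Function.update f a fun x => g x + h x) =
      gE U (Function.update f a g) + gE U (Function.update f a h) := by
  unfold gE
  rw [← integral_add (gE_integrable U (BM.update hf hg)) (gE_integrable U (BM.update hf hh))]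
  congr 1
  funext ξ
  rw [prod_update, prod_update, prod_update]
  ring

lemma gE_update_smul (U : J → K → ℝ) (f : J → ℝ → ℝ) (a : J) (g : ℝ → ℝ) (c : ℝ) :
    gE U (Function.update f a fun x => c * g x) = c * gE U (Function.update f a g) := by
  unfold gE
  rw [← integral_const_mul]
  congr 1
  funext ξ
  rw [prod_update, prod_update]
  ring

end

lemma fam_update {δ ι : Type} [DecidableEq δ] [DecidableEq ι] (A : δ → ℝ → ℝ) (v g : ℝ → ℝ)
    (i : δ) : (fam (Function.update A i g) v : δ ⊕ ι → ℝ → ℝ) =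
      Function.update (fam A v) (Sum.inl i) g := by
  funext x
  rcases x with j | j
  · by_cases h : j = i
    · subst h; simp [fam]
    · rw [Function.update_of_ne (by simpa using h)]
      simp [fam, Function.update_of_ne h]
  · rw [Function.update_of_ne (by simp)]
    rfl

lemma ext_update {δ : Type} [DecidableEq δ] (g G : ℝ → ℝ) (A : δ → ℝ → ℝ) (i : δ) :
    ext g (Function.update A i G) = Function.update (ext g A) (some i) G := by
  funext x
  rcases x with _ | j
  · rw [Function.update_of_ne (by simp)]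
    rfl
  · by_cases h : j = i
    · subst h; simp [ext]
    · rw [Function.update_of_ne (by simpa using h)]
      simp [ext, Function.update_of_ne h]

lemma ext_eq_update {δ : Type} [DecidableEq δ] (g G : ℝ → ℝ) (A : δ → ℝ → ℝ) :
    ext g A = Function.update (ext G A) none g := by
  funext x
  rcases x with _ | j
  · simp [ext]
  · rw [Function.update_of_ne (by simp)]
    rfl

namespace Arr

variable {k : ℕ} {w : Fin (k + 1) → ℝ} {δ : Type} [Fintype δ] [DecidableEq δ]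

lemma BM_fam {ι : Type} {A : δ → ℝ → ℝ} {v : ℝ → ℝ} (hA : ∀ i, BM (A i)) (hv : BM v) :
    ∀ a : δ ⊕ ι, BM (fam A v a) := by
  rintro (i | j)
  · exact hA i
  · exact hv

lemma BM_ext {A : δ → ℝ → ℝ} {g : ℝ → ℝ} (hA : ∀ i, BM (A i)) (hg : BM g) :
    ∀ a : Option δ, BM (ext g A a) := by
  rintro (_ | i)
  · exact hg
  · exact hA i

lemma T_update_add (𝓐 : Arr k w δ) (c : Fin (k + 1) → ℝ) (χ : LM k δ → ℝ)
    {A : δ → ℝ → ℝ} {v : ℝ → ℝ} (hA : ∀ i, BM (A i)) (hv : BM v) (i : δ) {g h : ℝ → ℝ}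
    (hg : BM g) (hh : BM h) (ι : Type) [Fintype ι] [DecidableEq ι] :
    𝓐.T c χ (Function.update A i fun x => g x + h x) v ι =
      𝓐.T c χ (Function.update A i g) v ι + 𝓐.T c χ (Function.update A i h) v ι := by
  unfold T
  rw [← map_add]
  congr 1
  funext L
  rw [Pi.add_apply, fam_update, fam_update, fam_update,
    gE_update_add _ (BM_fam hA hv) _ hg hh]
  ring

lemma T_update_smul (𝓐 : Arr k w δ) (c : Fin (k + 1) → ℝ) (χ : LM k δ → ℝ)
    (A : δ → ℝ → ℝ) (v : ℝ → ℝ) (i : δ) (g : ℝ → ℝ) (r : ℝ)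
    (ι : Type) [Fintype ι] [DecidableEq ι] :
    𝓐.T c χ (Function.update A i fun x => r * g x) v ι =
      r * 𝓐.T c χ (Function.update A i g) v ι := by
  unfold T
  rw [← smul_eq_mul, ← map_smul]
  congr 1
  funext L
  rw [Pi.smul_apply, fam_update, fam_update, gE_update_smul, smul_eq_mul]
  ring

/-- The identity for `n` other replicas. -/
lemma T_gg_fin (𝓐 : Arr k w δ) {c : Fin (k + 1) → ℝ} (hc : ∀ l, 0 ≤ c l) (χ : LM k δ → ℝ)
    {A : δ → ℝ → ℝ} {v : ℝ → ℝ} (hA : ∀ i, Measurable (A i)) (hv : Measurable v)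
    (l : Fin (k + 1)) (i : δ) (n : ℕ) :
    ((Fintype.card δ : ℝ) + n) *
      𝓐.mark.T c (fun L => lift χ L * lk l (some i) none L) (ext (fun _ => 1) A) v (Fin n) =
      (up w l - 1) * 𝓐.T c χ A v (Fin n) +
        ∑ j, 𝓐.T c (fun L => χ L * lk l i j L) A v (Fin n) +
        n * 𝓐.mark.T c (fun L => lift χ L * lk l (some i) none L) (ext v A) v (Fin (n - 1)) := by
  have h := 𝓐.T_gg hc χ hA hv l i (Fin n)
  have h2 : ∑ j : Fin n, 𝓐.E (Fin n) (fun L => χ (res L) * gE (UL c L) (fam A v) *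
      if l ≤ L (Sum.inl i) (Sum.inr j) then 1 else 0) =
      n * 𝓐.mark.T c (fun L => lift χ L * lk l (some i) none L) (ext v A) v (Fin (n - 1)) := by
    rcases n with _ | n
    · simp
    · have h3 : ∀ j : Fin (n + 1), 𝓐.E (Fin (n + 1)) (fun L => χ (res L) *
          gE (UL c L) (fam A v) * if l ≤ L (Sum.inl i) (Sum.inr j) then 1 else 0) =
          𝓐.mark.T c (fun L => lift χ L * lk l (some i) none L) (ext v A) v (Fin n) := by
        intro j
        have h4 := 𝓐.E_mark hc (fun L => lift χ L * lk l (some i) none L) hA hv hv n j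
        rw [← h4]
        congr 1
        funext L
        have h5 : (Function.update (fam A v) (Sum.inr j) v : δ ⊕ Fin (n + 1) → ℝ → ℝ) =
            fam A v := by
          apply Function.update_eq_self_iff.2
          rfl
        rw [h5, mul_right_comm]
        rfl
      simp_rw [h3]
      rw [Finset.sum_const, Finset.card_univ, Fintype.card_fin, nsmul_eq_mul]
      rfl
  rw [h2] at h
  rw [Fintype.card_fin] at h
  rw [h]
  ring

/-- Resummation over the other replicas, `card δ = e + 1`. -/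
noncomputable def Q (𝓐 : Arr k w δ) (e : ℕ) (c : Fin (k + 1) → ℝ) (χ : LM k δ → ℝ)
    (A : δ → ℝ → ℝ) (v : ℝ → ℝ) : ℝ :=
  ∑' n : ℕ, ((n + e).choose e : ℝ) * 𝓐.T c χ A v (Fin n)

lemma C_nonneg (𝓐 : Arr k w δ) : 0 ≤ 𝓐.C := by
  have h := 𝓐.bound Empty (fun _ => 0) 1 (fun _ => by simp)
  rw [mul_one] at h
  exact (abs_nonneg _).trans h

lemma exists_abs_bound (χ : LM k δ → ℝ) : ∃ X, 0 ≤ X ∧ ∀ L, |χ L| ≤ X := by
  refine ⟨∑ L, |χ L|, Finset.sum_nonneg fun _ _ => abs_nonneg _, fun L => ?_⟩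
  exact Finset.single_le_sum (f := fun L => |χ L|) (fun _ _ => abs_nonneg _) (Finset.mem_univ L)

lemma T_geom (𝓐 : Arr k w δ) (c : Fin (k + 1) → ℝ) (χ : LM k δ → ℝ) {A : δ → ℝ → ℝ}
    {v : ℝ → ℝ} (hA : ∀ i, BM (A i)) {a : ℝ} (hv : ∀ x, |v x| ≤ a) :
    ∃ M, 0 ≤ M ∧ ∀ n : ℕ, |𝓐.T c χ A v (Fin n)| ≤ M * a ^ n := by
  obtain ⟨X, hX0, hX⟩ := exists_abs_bound χ
  obtain ⟨B, hB0, hB⟩ := exists_bound hA
  refine ⟨𝓐.C * (X * B ^ Fintype.card δ), by have := 𝓐.C_nonneg; positivity, fun n => ?_⟩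
  have h := 𝓐.T_bound (c := c) hX (B := fun _ => B) hB hv (Fin n)
  rw [Finset.prod_const, Finset.card_univ, Fintype.card_fin] at h
  refine h.trans (le_of_eq ?_)
  ring

lemma Q_summable (𝓐 : Arr k w δ) (e : ℕ) (c : Fin (k + 1) → ℝ) (χ : LM k δ → ℝ)
    {A : δ → ℝ → ℝ} {v : ℝ → ℝ} (hA : ∀ i, BM (A i)) {a : ℝ} (ha0 : 0 ≤ a) (ha : a < 1)
    (hv : ∀ x, |v x| ≤ a) :
    Summable fun n : ℕ => ((n + e).choose e : ℝ) * 𝓐.T c χ A v (Fin n) := by
  obtain ⟨M, hM0, hM⟩ := 𝓐.T_geom c χ hA hv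
  have h1 : Summable fun n : ℕ => ((n + e).choose e : ℝ) * a ^ n :=
    summable_choose_mul_geometric_of_norm_lt_one e (by rwa [Real.norm_eq_abs, abs_of_nonneg ha0])
  refine Summable.of_norm_bounded (h1.mul_left M) fun n => ?_
  rw [norm_mul, Real.norm_eq_abs, Real.norm_eq_abs, abs_of_nonneg (by positivity)]
  calc _ ≤ ((n + e).choose e : ℝ) * (M * a ^ n) :=
        mul_le_mul_of_nonneg_left (hM n) (by positivity)
    _ = _ := by ring

lemma choose_id1 (n e : ℕ) : ((n + e).choose e : ℝ) * ((e + 1 : ℕ) + n) =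
    (e + 1 : ℕ) * ((n + (e + 1)).choose (e + 1) : ℝ) := by
  have h := Nat.add_one_mul_choose_eq (n + e) e
  have h2 : ((n + e + 1 : ℕ) : ℝ) * ((n + e).choose e : ℝ) =
      ((n + e + 1).choose (e + 1) : ℝ) * ((e + 1 : ℕ) : ℝ) := by exact_mod_cast h
  rw [show n + (e + 1) = n + e + 1 from rfl]
  push_cast at h2 ⊢
  linarith

lemma choose_id2 (n e : ℕ) : ((n + 1 + e).choose e : ℝ) * ((n + 1 : ℕ) : ℝ) =
    (e + 1 : ℕ) * ((n + (e + 1)).choose (e + 1) : ℝ) := by
  have h := Nat.choose_succ_right_eq (n + 1 + e) e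
  have h2 : n + 1 + e - e = n + 1 := by omega
  rw [h2] at h
  have h3 : n + (e + 1) = n + 1 + e := by omega
  rw [h3]
  have h4 : ((n + 1 + e).choose (e + 1) : ℝ) * ((e + 1 : ℕ) : ℝ) =
      ((n + 1 + e).choose e : ℝ) * ((n + 1 : ℕ) : ℝ) := by exact_mod_cast h
  linarith

/-- The resummed identity. -/
theorem Q_gg (𝓐 : Arr k w δ) {e : ℕ} (he : Fintype.card δ = e + 1) {c : Fin (k + 1) → ℝ}
    (hc : ∀ l, 0 ≤ c l) (χ : LM k δ → ℝ) {A : δ → ℝ → ℝ} {v : ℝ → ℝ} (hA : ∀ i, BM (A i))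
    (hvm : Measurable v) {a : ℝ} (ha0 : 0 ≤ a) (ha : a < 1) (hv : ∀ x, |v x| ≤ a)
    (l : Fin (k + 1)) (i : δ) :
    ((e + 1 : ℕ) : ℝ) *
      𝓐.mark.Q (e + 1) c (fun L => lift χ L * lk l (some i) none L) (ext (fun _ => 1) A) v =
      (up w l - 1) * 𝓐.Q e c χ A v + ∑ j, 𝓐.Q e c (fun L => χ L * lk l i j L) A v +
      ((e + 1 : ℕ) : ℝ) *
        𝓐.mark.Q (e + 1) c (fun L => lift χ L * lk l (some i) none L) (ext v A) v := by
  have hvb : BM v := ⟨hvm, a, hv⟩
  set P1 : ℕ → ℝ := fun n =>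
    𝓐.mark.T c (fun L => lift χ L * lk l (some i) none L) (ext (fun _ => 1) A) v (Fin n) with hP1
  set Pv : ℕ → ℝ := fun n =>
    𝓐.mark.T c (fun L => lift χ L * lk l (some i) none L) (ext v A) v (Fin n) with hPv
  have s1 := 𝓐.mark.Q_summable (e + 1) c (fun L => lift χ L * lk l (some i) none L)
    (BM_ext hA (BM.const 1)) ha0 ha hv
  have s2 := 𝓐.mark.Q_summable (e + 1) c (fun L => lift χ L * lk l (some i) none L)
    (BM_ext hA hvb) ha0 ha hv
  have s3 := 𝓐.Q_summable e c χ hA ha0 ha hv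
  have s4 := fun j => 𝓐.Q_summable e c (fun L => χ L * lk l i j L) hA ha0 ha hv
  have hterm : ∀ n : ℕ, ((e + 1 : ℕ) : ℝ) * (((n + (e + 1)).choose (e + 1) : ℝ) * P1 n) =
      (up w l - 1) * (((n + e).choose e : ℝ) * 𝓐.T c χ A v (Fin n)) +
      ∑ j, ((n + e).choose e : ℝ) * 𝓐.T c (fun L => χ L * lk l i j L) A v (Fin n) +
      ((n + e).choose e : ℝ) * n * Pv (n - 1) := by
    intro n
    have h := 𝓐.T_gg_fin hc χ (fun i => (hA i).meas) hvm l i n
    rw [he] at h
    rw [← mul_assoc, ← choose_id1 n e, mul_assoc, h, ← Finset.mul_sum]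
    ring
  have hshift : ∀ n : ℕ, ((n + 1 + e).choose e : ℝ) * (n + 1 : ℕ) * Pv (n + 1 - 1) =
      ((e + 1 : ℕ) : ℝ) * (((n + (e + 1)).choose (e + 1) : ℝ) * Pv n) := by
    intro n
    rw [choose_id2, Nat.add_sub_cancel]
    ring
  have s5 : Summable fun n : ℕ => ((n + e).choose e : ℝ) * n * Pv (n - 1) := by
    rw [← summable_nat_add_iff 1]
    refine (s2.mul_left ((e + 1 : ℕ) : ℝ)).congr fun n => ?_
    rw [hshift n]
  have e5 : ∑' n : ℕ, ((n + e).choose e : ℝ) * n * Pv (n - 1) =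
      ((e + 1 : ℕ) : ℝ) * 𝓐.mark.Q (e + 1) c (fun L => lift χ L * lk l (some i) none L)
        (ext v A) v := by
    rw [s5.tsum_eq_zero_add]
    simp only [Nat.cast_zero, mul_zero, zero_mul, zero_add]
    rw [Q, ← tsum_mul_left]
    apply tsum_congr
    intro n
    exact hshift n
  calc ((e + 1 : ℕ) : ℝ) *
      𝓐.mark.Q (e + 1) c (fun L => lift χ L * lk l (some i) none L) (ext (fun _ => 1) A) v
      = ∑' n : ℕ, ((e + 1 : ℕ) : ℝ) * (((n + (e + 1)).choose (e + 1) : ℝ) * P1 n) := by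
        rw [Q, ← tsum_mul_left]
    _ = ∑' n : ℕ, ((up w l - 1) * (((n + e).choose e : ℝ) * 𝓐.T c χ A v (Fin n)) +
      ∑ j, ((n + e).choose e : ℝ) * 𝓐.T c (fun L => χ L * lk l i j L) A v (Fin n) +
      ((n + e).choose e : ℝ) * n * Pv (n - 1)) := tsum_congr hterm
    _ = _ := by
        rw [((s3.mul_left (up w l - 1)).add (summable_sum fun j _ => s4 j)).tsum_add s5,
          (s3.mul_left (up w l - 1)).tsum_add (summable_sum fun j _ => s4 j), tsum_mul_left,
          Summable.tsum_finsetSum fun j _ => s4 j, e5]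
        rfl

lemma Q_update_add (𝓐 : Arr k w δ) (e : ℕ) (c : Fin (k + 1) → ℝ) (χ : LM k δ → ℝ)
    {A : δ → ℝ → ℝ} {v : ℝ → ℝ} (hA : ∀ i, BM (A i)) (hvm : Measurable v) {a : ℝ}
    (ha0 : 0 ≤ a) (ha : a < 1) (hv : ∀ x, |v x| ≤ a) (i : δ) {g h : ℝ → ℝ}
    (hg : BM g) (hh : BM h) :
    𝓐.Q e c χ (Function.update A i fun x => g x + h x) v =
      𝓐.Q e c χ (Function.update A i g) v + 𝓐.Q e c χ (Function.update A i h) v := by
  unfold Q
  rw [← (𝓐.Q_summable e c χ (BM.update hA hg) ha0 ha hv).tsum_add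
    (𝓐.Q_summable e c χ (BM.update hA hh) ha0 ha hv)]
  apply tsum_congr
  intro n
  rw [𝓐.T_update_add c χ hA ⟨hvm, a, hv⟩ i hg hh]
  ring

lemma Q_update_smul (𝓐 : Arr k w δ) (e : ℕ) (c : Fin (k + 1) → ℝ) (χ : LM k δ → ℝ)
    (A : δ → ℝ → ℝ) (v : ℝ → ℝ) (i : δ) (g : ℝ → ℝ) (r : ℝ) :
    𝓐.Q e c χ (Function.update A i fun x => r * g x) v =
      r * 𝓐.Q e c χ (Function.update A i g) v := by
  unfold Q
  rw [← tsum_mul_left]
  apply tsum_congr
  intro n
  rw [𝓐.T_update_smul c χ A v i g]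
  ring

/-- On a link, a function can be moved from the new index to the old one. -/
lemma T_move (𝓐 : Arr k w δ) {c : Fin (k + 1) → ℝ} {l : Fin (k + 1)}
    (hcl : ∀ l', l < l' → c l' = 0) (χ : LM k δ → ℝ) (A : δ → ℝ → ℝ) (v : ℝ → ℝ) {i j : δ}
    (hij : i ≠ j) (g : ℝ → ℝ) (ι : Type) [Fintype ι] [DecidableEq ι] :
    𝓐.T c (fun L => χ L * lk l i j L) (Function.update A j g) v ι =
      𝓐.T c (fun L => χ L * lk l i j L)
        (Function.update (Function.update A i fun x => A i x * g x) j fun _ => 1) v ι := by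
  unfold T
  apply 𝓐.congr_ultra
  intro L hL
  by_cases h : l ≤ L (Sum.inl i) (Sum.inl j)
  · congr 1
    rw [fam_update, fam_update, fam_update]
    exact gE_move (by simpa using hij) (UL_eq_of_link hcl hL h) (fam A v) g
  · have : lk l i j (res L) = 0 := by
      unfold lk res
      rw [if_neg h]
    simp [this]

lemma Q_move (𝓐 : Arr k w δ) (e : ℕ) {c : Fin (k + 1) → ℝ} {l : Fin (k + 1)}
    (hcl : ∀ l', l < l' → c l' = 0) (χ : LM k δ → ℝ) (A : δ → ℝ → ℝ) (v : ℝ → ℝ) {i j : δ}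
    (hij : i ≠ j) (g : ℝ → ℝ) :
    𝓐.Q e c (fun L => χ L * lk l i j L) (Function.update A j g) v =
      𝓐.Q e c (fun L => χ L * lk l i j L)
        (Function.update (Function.update A i fun x => A i x * g x) j fun _ => 1) v := by
  unfold Q
  apply tsum_congr
  intro n
  rw [𝓐.T_move hcl χ A v hij g]

/-- Stability: the resummed Ghirlanda-Guerra identity in its final form. -/
theorem Q_stab (𝓐 : Arr k w δ) {e : ℕ} (he : Fintype.card δ = e + 1) {c : Fin (k + 1) → ℝ}
    (hc : ∀ l, 0 ≤ c l) {l : Fin (k + 1)} (hcl : ∀ l', l < l' → c l' = 0) (χ : LM k δ → ℝ)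
    {A : δ → ℝ → ℝ} {v : ℝ → ℝ} (hA : ∀ i, BM (A i))
    (hvm : Measurable v) {a : ℝ} (ha0 : 0 ≤ a) (ha : a < 1) (hv : ∀ x, |v x| ≤ a) (i : δ)
    {G H : ℝ → ℝ} (hG : BM G) (hH : BM H) :
    ((e + 1 : ℕ) : ℝ) *
      𝓐.mark.Q (e + 1) c (fun L => lift χ L * lk l (some i) none L)
        (ext (fun x => H x * (1 - v x)) (Function.update A i G)) v =
      (up w l - 1) * 𝓐.Q e c χ (Function.update A i fun x => G x * H x) v +
      ∑ j, 𝓐.Q e c (fun L => χ L * lk l i j L)
        (Function.update A i fun x => G x * H x) v := by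
  have hvb : BM v := ⟨hvm, a, hv⟩
  have hGH := hG.mul hH
  have hAG : ∀ j, BM (Function.update A i G j) := BM.update hA hG
  have hAGH : ∀ j, BM (Function.update A i (fun x => G x * H x) j) := BM.update hA hGH
  have h1 := 𝓐.Q_gg he hc χ hAGH hvm ha0 ha hv l i
  have hne : (some i : Option δ) ≠ none := by simp
  -- move everything to the index `i`
  have m1 : ∀ g : ℝ → ℝ, 𝓐.mark.Q (e + 1) c (fun L => lift χ L * lk l (some i) none L)
      (ext g (Function.update A i G)) v =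
      𝓐.mark.Q (e + 1) c (fun L => lift χ L * lk l (some i) none L)
      (ext (fun _ => 1) (Function.update A i fun x => G x * g x)) v := by
    intro g
    rw [ext_eq_update g (fun _ => 1), 𝓐.mark.Q_move (e + 1) hcl _ _ _ hne]
    congr 1
    rw [ext_eq_update (fun _ => 1) (fun _ => 1) (Function.update A i fun x => G x * g x)]
    congr 1
    rw [ext_update, ext_update, Function.update_idem]
    congr 1
    funext x
    simp
  have m2 : 𝓐.mark.Q (e + 1) c (fun L => lift χ L * lk l (some i) none L)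
      (ext v (Function.update A i fun x => G x * H x)) v =
      𝓐.mark.Q (e + 1) c (fun L => lift χ L * lk l (some i) none L)
      (ext (fun _ => 1) (Function.update A i fun x => G x * H x * v x)) v := by
    rw [ext_eq_update v (fun _ => 1), 𝓐.mark.Q_move (e + 1) hcl _ _ _ hne]
    congr 1
    rw [ext_eq_update (fun _ => 1) (fun _ => 1) (Function.update A i fun x => G x * H x * v x)]
    congr 1
    rw [ext_update, ext_update, Function.update_idem]
    congr 1
    funext x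
    simp
  have m3 : 𝓐.mark.Q (e + 1) c (fun L => lift χ L * lk l (some i) none L)
      (ext (fun _ => 1) (Function.update A i fun x => G x * (H x * (1 - v x)))) v =
      𝓐.mark.Q (e + 1) c (fun L => lift χ L * lk l (some i) none L)
        (ext (fun _ => 1) (Function.update A i fun x => G x * H x)) v -
      𝓐.mark.Q (e + 1) c (fun L => lift χ L * lk l (some i) none L)
        (ext (fun _ => 1) (Function.update A i fun x => G x * H x * v x)) v := by
    have hb1 : BM fun x => G x * H x := hGH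
    have hb2 : BM fun x => -1 * (G x * H x * v x) := (BM.const (-1)).mul (hGH.mul hvb)
    have h2 : (fun x => G x * (H x * (1 - v x))) =
        fun x => (G x * H x) + (-1 * (G x * H x * v x)) := by
      funext x; ring
    rw [h2, ext_update, 𝓐.mark.Q_update_add (e + 1) c _ (BM_ext hA (BM.const 1)) hvm ha0 ha hv
      (some i) hb1 hb2, 𝓐.mark.Q_update_smul, ext_update, ext_update]
    ring
  rw [m1, m3]
  rw [m2] at h1
  linarith

end Arr

end Vale.Agent.P157.Par
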