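import Mathlib

open MeasureTheory ProbabilityTheory Filter Topology
open scoped RealInnerProductSpace

namespace Vale.Agent.P157.Par

/-- A random Gibbs measure `w` on a finite configuration space `X` whose points carry unit feature
vectors `φ`. The disorder is `Ω`; the test functions may depend on the disorder only through the
map `π : Ω → T` (the rest of the disorder is the one of the perturbation). -/
structure Sys where
  Ω : Type
  mΩ : MeasurableSpace Ω
  P : Measure Ω
  hP : IsProbabilityMeasure P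
  T : Type
  mT : MeasurableSpace T
  π : Ω → T
  hπ : Measurable π
  X : Type
  fX : Fintype X
  w : Ω → X → ℝ
  hw : ∀ x, Measurable fun ω => w ω x
  w0 : ∀ ω x, 0 ≤ w ω x
  w1 : ∀ ω, ∑ x, w ω x = 1
  d : ℕ
  φ : X → EuclideanSpace ℝ (Fin d)
  hφ : ∀ x, ‖φ x‖ = 1

attribute [instance] Sys.mΩ Sys.hP Sys.mT Sys.fX

/-- The overlap. -/
noncomputable def Sys.R (S : Sys) (x y : S.X) : ℝ := ⟪S.φ x, S.φ y⟫

/-- Average over the disorder of the average over `n` replicas. -/
noncomputable def Sys.av (S : Sys) {n : ℕ} (F : S.Ω → (Fin n → S.X) → ℝ) : ℝ :=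
  ∫ ω, ∑ x : Fin n → S.X, (∏ i, S.w ω (x i)) * F ω x ∂S.P

/-- The average of a test function, which depends on the disorder only through `π`. -/
noncomputable def Sys.tav (S : Sys) {n : ℕ} (F : S.T → (Fin n → S.X) → ℝ) : ℝ :=
  S.av fun ω => F (S.π ω)

/-- Test functions of `n` replicas, bounded by one. -/
structure Sys.Test (S : Sys) {n : ℕ} (F : S.T → (Fin n → S.X) → ℝ) : Prop where
  meas : ∀ x, Measurable fun t => F t x
  bdd : ∀ t x, |F t x| ≤ 1

/-- The defect in the Ghirlanda-Guerra identity for the function `ψ` of the overlap, the replica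
`i` and the test function `F`. -/
noncomputable def Sys.ggDefect (S : Sys) (ψ : ℝ → ℝ) {n : ℕ} (i : Fin n)
    (F : S.T → (Fin n → S.X) → ℝ) : ℝ :=
  n * S.tav (fun t (x : Fin (n + 1) → S.X) =>
      F t (fun j => x j.castSucc) * ψ (S.R (x i.castSucc) (x (Fin.last n)))) -
    (S.tav F * S.tav (fun _ (x : Fin 2 → S.X) => ψ (S.R (x 0) (x 1))) +
      ∑ j ∈ Finset.univ.erase i, S.tav (fun t x => F t x * ψ (S.R (x i) (x j))))

/-- The Ghirlanda-Guerra identities hold asymptotically for the function `ψ`, along the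
ultrafilter `U`, uniformly over the test functions. -/
def AsympGG (U : Ultrafilter ℕ) (S : ℕ → Sys) (ψ : ℝ → ℝ) : Prop :=
  ∀ (n : ℕ) (i : Fin n), ∀ ε > 0, ∀ᶠ N in (U : Filter ℕ),
    ∀ F : (S N).T → (Fin n → (S N).X) → ℝ, (S N).Test F → |(S N).ggDefect ψ i F| ≤ ε

end Vale.Agent.P157.Par
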