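import Vale.Agent.P157.ParLim
import Vale.Agent.P157.ParNoise

open MeasureTheory ProbabilityTheory Filter Topology Finset

namespace Vale.Agent.P157.Par

set_option linter.unusedSectionVars false

open Vale.Agent.P367.GT (gM)

namespace Sys

variable (S : Sys) {J : Type} [Fintype J] [DecidableEq J]

/-- The product weight of a family of replicas. -/
lemma sum_prod_w (ω : S.Ω) : ∑ x : J → S.X, ∏ a, S.w ω (x a) = 1 := by
  classical
  rw [← Fintype.piFinset_univ, ← Finset.prod_univ_sum]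
  simp [S.w1]

lemma prod_wT_nonneg (ω : S.Ω) (x : J → S.X) : 0 ≤ ∏ a, S.w ω (x a) :=
  Finset.prod_nonneg fun _ _ => S.w0 _ _

lemma prod_wT_le_one (ω : S.Ω) (x : J → S.X) : ∏ a, S.w ω (x a) ≤ 1 :=
  Finset.prod_le_one (fun _ _ => S.w0 _ _) fun _ _ => w_le_one ω _

lemma avT_integrable {G : S.Ω → (J → S.X) → ℝ} (hm : ∀ x, Measurable fun ω => G ω x) {C : ℝ}
    (hC : ∀ ω x, |G ω x| ≤ C) :
    Integrable (fun ω => ∑ x : J → S.X, (∏ a, S.w ω (x a)) * G ω x) S.P := by
  apply integrable_finsetSum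
  intro x _
  have hmm : Measurable fun ω => (∏ a, S.w ω (x a)) * G ω x :=
    (Finset.measurable_prod _ fun a _ => S.hw _).mul (hm x)
  apply Integrable.of_bound hmm.aestronglyMeasurable C
  filter_upwards with ω
  rw [Real.norm_eq_abs, abs_mul, abs_of_nonneg (S.prod_wT_nonneg ω x)]
  exact (mul_le_of_le_one_left (abs_nonneg _) (S.prod_wT_le_one ω x)).trans (hC ω x)

lemma avT_sub {G H : S.Ω → (J → S.X) → ℝ} (hm : ∀ x, Measurable fun ω => G ω x) {C : ℝ}
    (hC : ∀ ω x, |G ω x| ≤ C) (hm' : ∀ x, Measurable fun ω => H ω x) {C' : ℝ}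
    (hC' : ∀ ω x, |H ω x| ≤ C') :
    S.avT (fun ω x => G ω x - H ω x) = S.avT G - S.avT H := by
  unfold avT
  rw [← integral_sub (S.avT_integrable hm hC) (S.avT_integrable hm' hC')]
  congr 1
  funext ω
  rw [← Finset.sum_sub_distrib]
  exact Finset.sum_congr rfl fun x _ => by ring

lemma avT_add {G H : S.Ω → (J → S.X) → ℝ} (hm : ∀ x, Measurable fun ω => G ω x) {C : ℝ}
    (hC : ∀ ω x, |G ω x| ≤ C) (hm' : ∀ x, Measurable fun ω => H ω x) {C' : ℝ}
    (hC' : ∀ ω x, |H ω x| ≤ C') :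
    S.avT (fun ω x => G ω x + H ω x) = S.avT G + S.avT H := by
  unfold avT
  rw [← integral_add (S.avT_integrable hm hC) (S.avT_integrable hm' hC')]
  congr 1
  funext ω
  rw [← Finset.sum_add_distrib]
  exact Finset.sum_congr rfl fun x _ => by ring

lemma avT_sum {I : Type*} (s : Finset I) {G : I → S.Ω → (J → S.X) → ℝ}
    (hm : ∀ i x, Measurable fun ω => G i ω x) {C : ℝ} (hC : ∀ i ω x, |G i ω x| ≤ C) :
    S.avT (fun ω x => ∑ i ∈ s, G i ω x) = ∑ i ∈ s, S.avT (G i) := by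
  unfold avT
  rw [← integral_finsetSum _ fun i _ => S.avT_integrable (hm i) (hC i)]
  congr 1
  funext ω
  rw [Finset.sum_comm]
  exact Finset.sum_congr rfl fun x _ => by rw [Finset.mul_sum]

lemma avT_const_mul (c : ℝ) (G : S.Ω → (J → S.X) → ℝ) :
    S.avT (fun ω x => c * G ω x) = c * S.avT G := by
  unfold avT
  rw [← integral_const_mul]
  congr 1
  funext ω
  rw [Finset.mul_sum]
  exact Finset.sum_congr rfl fun x _ => by ring

lemma avT_mono {G H : S.Ω → (J → S.X) → ℝ} (hm : ∀ x, Measurable fun ω => G ω x) {C : ℝ}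
    (hC : ∀ ω x, |G ω x| ≤ C) (hm' : ∀ x, Measurable fun ω => H ω x) {C' : ℝ}
    (hC' : ∀ ω x, |H ω x| ≤ C') (h : ∀ ω x, G ω x ≤ H ω x) : S.avT G ≤ S.avT H := by
  unfold avT
  apply integral_mono (S.avT_integrable hm hC) (S.avT_integrable hm' hC')
  intro ω
  exact Finset.sum_le_sum fun x _ => mul_le_mul_of_nonneg_left (h ω x) (S.prod_wT_nonneg ω x)

lemma avT_const (c : ℝ) : S.avT (fun _ (_ : J → S.X) => c) = c := by
  unfold avT
  simp_rw [← Finset.sum_mul, S.sum_prod_w, one_mul]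
  simp

lemma abs_avT_le {G H : S.Ω → (J → S.X) → ℝ} (hm : ∀ x, Measurable fun ω => G ω x) {C : ℝ}
    (hC : ∀ ω x, |G ω x| ≤ C) (hm' : ∀ x, Measurable fun ω => H ω x) {C' : ℝ}
    (hC' : ∀ ω x, |H ω x| ≤ C') (h : ∀ ω x, |G ω x| ≤ H ω x) : |S.avT G| ≤ S.avT H := by
  rw [abs_le]
  constructor
  · have h1 := S.avT_mono (G := fun ω x => (-1) * H ω x) (H := G)
      (fun x => (hm' x).const_mul (-1)) (C := C') (fun ω x => by simpa using hC' ω x) hm hC
      (fun ω x => by have := neg_le_of_abs_le (h ω x); linarith)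
    rw [S.avT_const_mul] at h1
    linarith
  · exact S.avT_mono hm hC hm' hC' fun ω x => le_of_abs_le (h ω x)

lemma abs_avT_le_const {G : S.Ω → (J → S.X) → ℝ} (hm : ∀ x, Measurable fun ω => G ω x) {C : ℝ}
    (hC : ∀ ω x, |G ω x| ≤ C) : |S.avT G| ≤ C := by
  have h := S.abs_avT_le (H := fun _ _ => C) hm hC (fun x => measurable_const) (C' := |C|)
    (fun _ _ => le_rfl) hC
  rwa [S.avT_const] at h

end Sys

/-! ### The moment identity -/

section Moments

variable (S : Sys) {K : Type} [Fintype K] [DecidableEq K] {κ : S.T → S.X → K → ℝ}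
  (hκ : ∀ x c, Measurable fun t => κ t x c)

include hκ

lemma measurable_field (x : S.X) :
    Measurable fun z : S.Ω × (K → ℝ) => lin (κ (S.π z.1)) z.2 x := by
  unfold lin
  apply Finset.measurable_sum
  intro c _
  exact ((hκ x c).comp (S.hπ.comp measurable_fst)).mul ((measurable_pi_apply c).comp measurable_snd)

/-- Average over a Gaussian field which is independent of the system. -/
theorem moment {J : Type} [Fintype J] [DecidableEq J] {F : S.T → (J → S.X) → ℝ}
    (hF : ∀ x, Measurable fun t => F t x) {B : ℝ} (hB : ∀ t x, |F t x| ≤ B) {f : J → ℝ → ℝ}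
    (hf : ∀ a, BM (f a)) :
    ∫ z : S.Ω × (K → ℝ), ∑ x : J → S.X, (∏ a, S.w z.1 (x a)) *
      (F (S.π z.1) x * ∏ a, f a (lin (κ (S.π z.1)) z.2 (x a))) ∂(S.P.prod (gM K)) =
      S.avT (fun ω x => F (S.π ω) x * gE (fun a => κ (S.π ω) (x a)) f) := by
  obtain ⟨C, hC0, hC⟩ := exists_bound hf
  have hmeas : ∀ x : J → S.X, Measurable fun z : S.Ω × (K → ℝ) =>
      (∏ a, S.w z.1 (x a)) * (F (S.π z.1) x * ∏ a, f a (lin (κ (S.π z.1)) z.2 (x a))) := by
    intro x
    refine (Finset.measurable_prod _ fun a _ => (S.hw _).comp measurable_fst).mul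
      (((hF x).comp (S.hπ.comp measurable_fst)).mul (Finset.measurable_prod _ fun a _ => ?_))
    exact (hf a).meas.comp (measurable_field S hκ (x a))
  have hB0 : 0 ≤ |B| := abs_nonneg B
  have hbound : ∀ (x : J → S.X) (z : S.Ω × (K → ℝ)), ‖(∏ a, S.w z.1 (x a)) *
      (F (S.π z.1) x * ∏ a, f a (lin (κ (S.π z.1)) z.2 (x a)))‖ ≤
      1 * (|B| * C ^ (univ : Finset J).card) := by
    intro x z
    rw [Real.norm_eq_abs, abs_mul, abs_mul]
    have h1 : |∏ a, S.w z.1 (x a)| ≤ 1 := by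
      rw [abs_of_nonneg (S.prod_wT_nonneg _ _)]; exact S.prod_wT_le_one _ _
    have h2 := (hB (S.π z.1) x).trans (le_abs_self B)
    have h3 : |∏ a, f a (lin (κ (S.π z.1)) z.2 (x a))| ≤ C ^ (univ : Finset J).card :=
      abs_prod_le fun a _ => hC a _
    gcongr
  have hint : ∀ x : J → S.X, Integrable (fun z : S.Ω × (K → ℝ) =>
      (∏ a, S.w z.1 (x a)) * (F (S.π z.1) x * ∏ a, f a (lin (κ (S.π z.1)) z.2 (x a))))
      (S.P.prod (gM K)) := fun x =>
    Integrable.of_bound (hmeas x).aestronglyMeasurable _ (Eventually.of_forall (hbound x))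
  rw [integral_prod _ (integrable_finsetSum _ fun x _ => hint x)]
  unfold Sys.avT
  congr 1
  funext ω
  have hintω : ∀ x : J → S.X, Integrable (fun ξ : K → ℝ =>
      (∏ a, S.w ω (x a)) * (F (S.π ω) x * ∏ a, f a (lin (κ (S.π ω)) ξ (x a)))) (gM K) := fun x =>
    Integrable.of_bound ((hmeas x).comp measurable_prodMk_left).aestronglyMeasurable _
      (Eventually.of_forall fun ξ => hbound x (ω, ξ))
  rw [integral_finsetSum _ fun x _ => hintω x]
  apply Finset.sum_congr rfl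
  intro x _
  rw [integral_const_mul, integral_const_mul]
  rfl

end Moments

/-! ### Algebra of products of sums -/

lemma prod_sum_pow {X δ : Type} [Fintype X] [Fintype δ] [DecidableEq δ] (n : ℕ)
    (Φ : (δ → X) → ℝ) (p : δ → X → ℝ) (q : X → ℝ) :
    (∑ x : δ → X, Φ x * ∏ i, p i (x i)) * (∑ y, q y) ^ n =
      ∑ x : δ ⊕ Fin n → X, Φ (fun i => x (Sum.inl i)) *
        ((∏ i, p i (x (Sum.inl i))) * ∏ j, q (x (Sum.inr j))) := by
  classical
  have h1 : (∑ y, q y) ^ n = ∑ y : Fin n → X, ∏ j, q (y j) := by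
    have h := Finset.prod_univ_sum (fun _ : Fin n => (Finset.univ : Finset X)) (fun _ y => q y)
    rw [Fintype.piFinset_univ] at h
    rw [← h]
    simp
  rw [h1, Finset.sum_mul_sum, ← Fintype.sum_prod_type' (f := fun (x : δ → X) (y : Fin n → X) =>
    Φ x * (∏ i, p i (x i)) * ∏ j, q (y j)),
    ← (Equiv.sumArrowEquivProdArrow δ (Fin n) X).sum_comp]
  apply Finset.sum_congr rfl
  intro x _
  rw [mul_assoc]
  rfl

/-! ### Comparison with the tree field -/

lemma prod_bound {δ : Type} (n : ℕ) [Fintype δ] [DecidableEq δ]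
    (C α : ℝ) (a b : δ ⊕ Fin n) :
    ∏ x : δ ⊕ Fin n, (Sum.elim (fun _ => C) (fun _ => α) x) *
      ((if x = a then C / α else 1) * (if x = b then C / α else 1)) =
      C ^ Fintype.card δ * α ^ n * (C / α) ^ 2 := by
  rw [Finset.prod_mul_distrib, Finset.prod_mul_distrib, Fintype.prod_sum_type]
  simp only [Sum.elim_inl, Sum.elim_inr, Finset.prod_const, Finset.card_univ, Fintype.card_fin,
    Finset.prod_ite_eq', Finset.mem_univ, if_true]
  ring

/-- Comparison of the field of the system with the tree field, for a fixed configuration of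
replicas. -/
lemma gE_cmp {k : ℕ} {δ : Type} [Fintype δ] [DecidableEq δ] {n : ℕ} {K : Type} [Fintype K]
    [DecidableEq K] (V : δ ⊕ Fin n → K → ℝ) {c : Fin (k + 1) → ℝ} (hc : ∀ l, 0 ≤ c l) {τ : ℝ}
    (hτ : 0 ≤ τ) {L : LM k (δ ⊕ Fin n)} (hL : Ultra L) {A A' A'' : δ → ℝ → ℝ} {v v' v'' : ℝ → ℝ}
    {C α : ℝ} (hC : 1 ≤ C) (hα0 : 0 < α) (hα1 : α ≤ 1)
    (hA : ∀ i, (∀ x, HasDerivAt (A i) (A' i x) x) ∧ (∀ x, HasDerivAt (A' i) (A'' i x) x) ∧
      Continuous (A'' i) ∧ (∀ x, |A i x| ≤ C) ∧ (∀ x, |A' i x| ≤ C) ∧ ∀ x, |A'' i x| ≤ C)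
    (hv : (∀ x, HasDerivAt v (v' x) x) ∧ (∀ x, HasDerivAt v' (v'' x) x) ∧
      Continuous v'' ∧ (∀ x, |v x| ≤ α) ∧ (∀ x, |v' x| ≤ C) ∧ ∀ x, |v'' x| ≤ C) :
    |gE V (fam A v) - gE (noisy τ (UL c L)) (fam A v)| ≤
      C ^ (Fintype.card δ + 2) / α ^ 2 * α ^ n * (1 / 2 * ∑ a, ∑ b,
        |gram V V a b - ((∑ l, if l ≤ L a b then c l else 0) + if a = b then τ else 0)|) := by
  classical
  have hαC : α ≤ C := hα1.trans hC
  have hC0 : 0 < C := by linarith
  have hCα : 1 ≤ C / α := by rw [le_div_iff₀ hα0]; linarith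
  set F : δ ⊕ Fin n → ℝ → ℝ := fam A v with hF
  set F' : δ ⊕ Fin n → ℝ → ℝ := fam A' v' with hF'
  set F'' : δ ⊕ Fin n → ℝ → ℝ := fam A'' v'' with hF''
  have b0 : ∀ a x, |F a x| ≤ C := by
    rintro (i | j) x
    · exact (hA i).2.2.2.1 x
    · exact (hv.2.2.2.1 x).trans hαC
  have b1 : ∀ a x, |F' a x| ≤ C := by
    rintro (i | j) x
    · exact (hA i).2.2.2.2.1 x
    · exact hv.2.2.2.2.1 x
  have b2 : ∀ a x, |F'' a x| ≤ C := by
    rintro (i | j) x
    · exact (hA i).2.2.2.2.2 x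
    · exact hv.2.2.2.2.2 x
  have d1 : ∀ a x, HasDerivAt (F a) (F' a x) x := by
    rintro (i | j) x
    · exact (hA i).1 x
    · exact hv.1 x
  have d2 : ∀ a x, HasDerivAt (F' a) (F'' a x) x := by
    rintro (i | j) x
    · exact (hA i).2.1 x
    · exact hv.2.1 x
  have m2 : ∀ a, Measurable (F'' a) := by
    rintro (i | j)
    · exact (hA i).2.2.1.measurable
    · exact hv.2.2.1.measurable
  have hel : ∀ x : δ ⊕ Fin n, α ≤ Sum.elim (fun _ => C) (fun _ => α) x := by
    rintro (i | j)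
    · exact hαC
    · exact le_rfl
  have hb0' : ∀ (x : δ ⊕ Fin n) y, |F x y| ≤ Sum.elim (fun _ => C) (fun _ => α) x := by
    rintro (i | j) y
    · exact (hA i).2.2.2.1 y
    · exact hv.2.2.2.1 y
  have hM : ∀ a b, ∀ W : δ ⊕ Fin n → K ⊕ ((Fin (k + 1) × (δ ⊕ Fin n → Bool)) ⊕ (δ ⊕ Fin n)) → ℝ,
      |gE W (D2 F F' F'' a b)| ≤ C ^ Fintype.card δ * α ^ n * (C / α) ^ 2 := by
    intro a b W
    rw [← prod_bound n C α a b]
    apply abs_gE_le
    intro x y
    have h0 := hel x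
    have hpos : 0 < Sum.elim (fun _ : δ => C) (fun _ : Fin n => α) x := hα0.trans_le h0
    unfold D2
    by_cases hab : a = b
    · subst hab
      simp only [if_true]
      by_cases hx : x = a
      · subst hx
        simp only [if_true, Function.update_self]
        calc |F'' x y| ≤ C := b2 x y
          _ = α * (C / α) := by field_simp
          _ ≤ Sum.elim (fun _ : δ => C) (fun _ : Fin n => α) x * (C / α * (C / α)) := by
            apply mul_le_mul h0 _ (by positivity) hpos.le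
            nlinarith only [hCα]
      · simp only [if_neg hx, mul_one, Function.update_of_ne hx]
        exact hb0' x y
    · simp only [if_neg hab]
      by_cases hxb : x = b
      · subst hxb
        have hxa : x ≠ a := fun h => hab h.symm
        simp only [if_true, if_neg hxa, one_mul, Function.update_self]
        calc |F' x y| ≤ C := b1 x y
          _ = α * (C / α) := by field_simp
          _ ≤ Sum.elim (fun _ : δ => C) (fun _ : Fin n => α) x * (C / α) :=
            mul_le_mul_of_nonneg_right h0 (by positivity)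
      · by_cases hxa : x = a
        · subst hxa
          simp only [if_true, if_neg hxb, mul_one, Function.update_of_ne hxb,
            Function.update_self]
          calc |F' x y| ≤ C := b1 x y
            _ = α * (C / α) := by field_simp
            _ ≤ Sum.elim (fun _ : δ => C) (fun _ : Fin n => α) x * (C / α) :=
              mul_le_mul_of_nonneg_right h0 (by positivity)
        · simp only [if_neg hxa, if_neg hxb, mul_one, Function.update_of_ne hxb,
            Function.update_of_ne hxa]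
          exact hb0' x y
  have hM' : ∀ a b, ∀ W : δ ⊕ Fin n → ((Fin (k + 1) × (δ ⊕ Fin n → Bool)) ⊕ (δ ⊕ Fin n)) ⊕ K → ℝ,
      |gE W (D2 F F' F'' a b)| ≤ C ^ Fintype.card δ * α ^ n * (C / α) ^ 2 := by
    intro a b W
    have e : K ⊕ ((Fin (k + 1) × (δ ⊕ Fin n → Bool)) ⊕ (δ ⊕ Fin n)) ≃
      ((Fin (k + 1) × (δ ⊕ Fin n → Bool)) ⊕ (δ ⊕ Fin n)) ⊕ K := Equiv.sumComm _ _
    have h := hM a b (fun x p => W x (e p))
    rwa [gE_reindex_right W e (D2 F F' F'' a b)] at h
  have hcmp := gE_compare (noisy τ (UL c L)) V b0 b1 b2 d1 d2 m2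
    (M := fun _ _ => C ^ Fintype.card δ * α ^ n * (C / α) ^ 2) hM'
  refine hcmp.trans (le_of_eq ?_)
  simp_rw [gram_noisy_UL hc hτ hL, ← Finset.sum_mul]
  rw [pow_add, div_pow]
  field_simp

end Vale.Agent.P157.Par
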