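import Vale.Agent.P157.ParTrans1

open MeasureTheory ProbabilityTheory Filter Topology Finset

namespace Vale.Agent.P157.Par

set_option linter.unusedSectionVars false

open Vale.Agent.P367.GT (gM)

/-- Limits of sums. -/
lemma sum_lim {U : Filter ℕ} {x : ℕ → ℕ → ℝ} {y B D : ℕ → ℝ} {ε : ℝ} (hε : 0 ≤ ε)
    (hB : Summable B) (hD : Summable D) (hx : ∀ j n, |x j n| ≤ B n) (hy : ∀ n, |y n| ≤ B n)
    (hD0 : ∀ n, 0 ≤ D n)
    (h : ∀ n, ∀ η > 0, ∀ᶠ j in U, |x j n - y n| ≤ D n * ε + η) :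
    ∀ η > 0, ∀ᶠ j in U, |∑' n, x j n - ∑' n, y n| ≤ (∑' n, D n) * ε + η := by
  intro η hη
  have hxs : ∀ j, Summable (x j) := fun j =>
    Summable.of_norm_bounded hB fun n => by rw [Real.norm_eq_abs]; exact hx j n
  have hys : Summable y := Summable.of_norm_bounded hB fun n => by
    rw [Real.norm_eq_abs]; exact hy n
  have ht := tendsto_sum_nat_add B
  obtain ⟨n₀, hn₀⟩ := ((tendsto_order.1 ht).2 (η / 4) (by positivity)).exists
  have hBt : Summable fun i => B (i + n₀) := (summable_nat_add_iff n₀).2 hB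
  have hfin : ∀ᶠ j in U, ∀ n ∈ Finset.range n₀, |x j n - y n| ≤ D n * ε + η / (2 * (n₀ + 1)) := by
    rw [Filter.eventually_all_finset]
    intro n _
    exact h n _ (by positivity)
  filter_upwards [hfin] with j hj
  rw [← (hxs j).sum_add_tsum_nat_add n₀, ← hys.sum_add_tsum_nat_add n₀]
  have e1 : |∑' i, x j (i + n₀)| ≤ ∑' i, B (i + n₀) := by
    rw [← Real.norm_eq_abs]
    exact tsum_of_norm_bounded hBt.hasSum fun i => by rw [Real.norm_eq_abs]; exact hx j _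
  have e2 : |∑' i, y (i + n₀)| ≤ ∑' i, B (i + n₀) := by
    rw [← Real.norm_eq_abs]
    exact tsum_of_norm_bounded hBt.hasSum fun i => by rw [Real.norm_eq_abs]; exact hy _
  have e3 : |∑ n ∈ Finset.range n₀, x j n - ∑ n ∈ Finset.range n₀, y n| ≤
      (∑' n, D n) * ε + η / 2 := by
    rw [← Finset.sum_sub_distrib]
    refine (Finset.abs_sum_le_sum_abs _ _).trans ((Finset.sum_le_sum hj).trans ?_)
    rw [Finset.sum_add_distrib, ← Finset.sum_mul, Finset.sum_const, Finset.card_range,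
      nsmul_eq_mul]
    have h1 : ∑ n ∈ Finset.range n₀, D n ≤ ∑' n, D n := hD.sum_le_tsum _ fun n _ => hD0 n
    have h2 : (n₀ : ℝ) * (η / (2 * (n₀ + 1))) ≤ η / 2 := by
      have h3 : (0 : ℝ) < n₀ + 1 := by positivity
      rw [show (n₀ : ℝ) * (η / (2 * (n₀ + 1))) = (n₀ / (n₀ + 1)) * (η / 2) by field_simp]
      apply mul_le_of_le_one_left (by positivity)
      rw [div_le_one h3]
      linarith
    have h4 := mul_le_mul_of_nonneg_right h1 hε
    linarith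
  have e4 : (∑ n ∈ Finset.range n₀, x j n + ∑' i, x j (i + n₀)) -
      (∑ n ∈ Finset.range n₀, y n + ∑' i, y (i + n₀)) =
      (∑ n ∈ Finset.range n₀, x j n - ∑ n ∈ Finset.range n₀, y n) + ∑' i, x j (i + n₀) -
        ∑' i, y (i + n₀) := by ring
  rw [e4]
  have e5 := abs_sub ((∑ n ∈ Finset.range n₀, x j n - ∑ n ∈ Finset.range n₀, y n) +
    ∑' i, x j (i + n₀)) (∑' i, y (i + n₀))
  have e6 := abs_add_le (∑ n ∈ Finset.range n₀, x j n - ∑ n ∈ Finset.range n₀, y n)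
    (∑' i, x j (i + n₀))
  linarith

/-- The standing assumptions on the limit of the systems. -/
structure LimData (U : Ultrafilter ℕ) (S : ℕ → Sys) {k : ℕ} (b : Fin k → ℝ)
    (w : Fin (k + 1) → ℝ) : Prop where
  gg : ∀ p : ℕ, AsympGG U S (fun x => x ^ p)
  mono : StrictMono b
  b0 : ∀ i, 0 < b i
  b1 : ∀ i, b i ≤ 1
  na : ∀ i, NonAtom U S (b i)
  lim : ∀ l, Tendsto (fun j => (S j).pr (fun x : Fin 2 → (S j).X =>
      lev b ((S j).R (x 0) (x 1)) = l)) U (𝓝 (w l))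
  wpos : ∀ l, 0 < w l
  wsum : ∑ l, w l = 1

/-- The value at the level `l` of the covariance with increments `c`. -/
noncomputable def cumul {k : ℕ} (c : Fin (k + 1) → ℝ) (l : Fin (k + 1)) : ℝ :=
  ∑ l', if l' ≤ l then c l' else 0

lemma cumul_last {k : ℕ} (c : Fin (k + 1) → ℝ) : cumul c (Fin.last k) = ∑ l, c l := by
  unfold cumul
  exact Finset.sum_congr rfl fun l _ => by rw [if_pos (Fin.le_last l)]

lemma abs_cumul_le {k : ℕ} {c : Fin (k + 1) → ℝ} (hc : ∀ l, 0 ≤ c l) (l : Fin (k + 1)) :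
    |cumul c l| ≤ ∑ l, c l := by
  unfold cumul
  rw [abs_of_nonneg (Finset.sum_nonneg fun l' _ => by split_ifs <;> simp [hc])]
  exact Finset.sum_le_sum fun l' _ => by split_ifs <;> simp [hc]

/-- A kernel, given by vectors depending on the disorder and on the configuration, which is close
to the value of its level. -/
structure KerClose (U : Ultrafilter ℕ) (S : ℕ → Sys) {k : ℕ} (b : Fin k → ℝ)
    (c : Fin (k + 1) → ℝ) (τ ε B : ℝ) {K : ℕ → Type} [∀ j, Fintype (K j)]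
    (κ : ∀ j, (S j).T → (S j).X → K j → ℝ) : Prop where
  meas : ∀ j x c, Measurable fun t => κ j t x c
  bdd : ∀ j t x, ∑ i, κ j t x i ^ 2 ≤ B
  off : ∀ᶠ j in (U : Filter ℕ), (S j).tav (n := 2) (fun t x =>
    |gram (κ j t) (κ j t) (x 0) (x 1) - cumul c (lev b ((S j).R (x 0) (x 1)))|) ≤ ε
  diag : ∀ᶠ j in (U : Filter ℕ), (S j).tav (n := 1) (fun t x =>
    |gram (κ j t) (κ j t) (x 0) (x 0) - (cumul c (Fin.last k) + τ)|) ≤ ε

lemma abs_gram_le {X K : Type} [Fintype K] {κ : X → K → ℝ} {B : ℝ}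
    (hB : ∀ x, ∑ i, κ x i ^ 2 ≤ B) (x y : X) : |gram κ κ x y| ≤ B := by
  have hB0 : 0 ≤ B := (Finset.sum_nonneg fun i _ => sq_nonneg _).trans (hB x)
  have h1 : gram κ κ x y ^ 2 ≤ B ^ 2 := by
    have h2 := Finset.sum_mul_sq_le_sq_mul_sq Finset.univ (κ x) (κ y)
    calc gram κ κ x y ^ 2 ≤ (∑ i, κ x i ^ 2) * ∑ i, κ y i ^ 2 := h2
      _ ≤ B * B := mul_le_mul (hB x) (hB y) (Finset.sum_nonneg fun i _ => sq_nonneg _) hB0
      _ = B ^ 2 := by ring
  exact abs_le_of_sq_le_sq h1 hB0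

/-- The smoothness and bounds used for the observables. -/
def SB (C : ℝ) (A A' A'' : ℝ → ℝ) : Prop :=
  (∀ x, HasDerivAt A (A' x) x) ∧ (∀ x, HasDerivAt A' (A'' x) x) ∧
      Continuous A'' ∧ (∀ x, |A x| ≤ C) ∧ (∀ x, |A' x| ≤ C) ∧ ∀ x, |A'' x| ≤ C

section Average

variable (S : Sys) {k : ℕ} {b : Fin k → ℝ} {c : Fin (k + 1) → ℝ} (hc : ∀ l, 0 ≤ c l) {τ : ℝ}
  (hτ : 0 ≤ τ) {K : Type} [Fintype K] [DecidableEq K] {κ : S.T → S.X → K → ℝ}
  (hκ : ∀ x c, Measurable fun t => κ t x c) {B : ℝ} (hB : ∀ t x, ∑ i, κ t x i ^ 2 ≤ B)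
  {δ : Type} [Fintype δ] [DecidableEq δ]

include hκ in
lemma measurable_gram (x y : S.X) : Measurable fun t => gram (κ t) (κ t) x y := by
  unfold gram
  exact Finset.measurable_sum _ fun c _ => (hκ x c).mul (hκ y c)

include hκ in
lemma measurable_gE {J : Type} [Fintype J] [DecidableEq J] (x : J → S.X) {f : J → ℝ → ℝ}
    (hf : ∀ a, BM (f a)) : Measurable fun t => gE (fun a => κ t (x a)) f := by
  unfold gE
  have h : StronglyMeasurable fun p : S.T × (K → ℝ) => ∏ a, f a (lin (fun a => κ p.1 (x a)) p.2 a) := by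
    apply Measurable.stronglyMeasurable
    apply Finset.measurable_prod
    intro a _
    apply (hf a).meas.comp
    unfold lin
    apply Finset.measurable_sum
    intro c _
    exact ((hκ (x a) c).comp measurable_fst).mul ((measurable_pi_apply c).comp measurable_snd)
  exact (h.integral_prod_right' (ν := gM K)).measurable

include hc hτ hκ hB in
/-- The comparison, averaged over the system. -/
lemma avT_cmp {n : ℕ} {Φ : S.T → (δ → S.X) → ℝ} (hΦm : ∀ x, Measurable fun t => Φ t x)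
    (hΦ : ∀ t x, |Φ t x| ≤ 1) {A A' A'' : δ → ℝ → ℝ} {v v' v'' : ℝ → ℝ}
    {C α : ℝ} (hC : 1 ≤ C) (hα0 : 0 < α) (hα1 : α ≤ 1) (hA : ∀ i, SB C (A i) (A' i) (A'' i))
    (hv : (∀ x, HasDerivAt v (v' x) x) ∧ (∀ x, HasDerivAt v' (v'' x) x) ∧
      Continuous v'' ∧ (∀ x, |v x| ≤ α) ∧ (∀ x, |v' x| ≤ C) ∧ ∀ x, |v'' x| ≤ C) {E : ℝ}
    (hoff : S.tav (n := 2) (fun t x =>
      |gram (κ t) (κ t) (x 0) (x 1) - cumul c (lev b (S.R (x 0) (x 1)))|) ≤ E)
    (hdiag : S.tav (n := 1) (fun t x =>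
      |gram (κ t) (κ t) (x 0) (x 0) - (cumul c (Fin.last k) + τ)|) ≤ E) :
    |S.avT (fun ω (x : δ ⊕ Fin n → S.X) => Φ (S.π ω) (fun i => x (Sum.inl i)) *
        gE (fun a => κ (S.π ω) (x a)) (fam A v)) -
      S.avT (fun ω (x : δ ⊕ Fin n → S.X) => Φ (S.π ω) (fun i => x (Sum.inl i)) *
        gE (noisy τ (UL c (S.LMat b x))) (fam A v))| ≤
      C ^ (Fintype.card δ + 2) / α ^ 2 * α ^ n * (1 / 2 * ((Fintype.card δ + n) ^ 2 * E)) +
        2 * C ^ Fintype.card δ * S.avT (fun _ (x : δ ⊕ Fin n → S.X) =>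
          ind (¬ Ultra (S.LMat b x))) := by
  have hC0 : 0 < C := by linarith
  set M := C ^ (Fintype.card δ + 2) / α ^ 2 * α ^ n with hM
  have hM0 : 0 ≤ M := by positivity
  have hbm : ∀ a : δ ⊕ Fin n, BM (fam A v a) := by
    rintro (i | j)
    · exact ⟨(continuous_iff_continuousAt.2 fun x => ((hA i).1 x).continuousAt).measurable, C,
        (hA i).2.2.2.1⟩
    · exact ⟨(continuous_iff_continuousAt.2 fun x => (hv.1 x).continuousAt).measurable, α,
        hv.2.2.2.1⟩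
  have hgb : ∀ {K' : Type} [Fintype K'] [DecidableEq K'] (V : δ ⊕ Fin n → K' → ℝ),
      |gE V (fam A v)| ≤ C ^ Fintype.card δ := by
    intro K' _ _ V
    have h := abs_gE_le (U := V) (f := fam A v) (C := Sum.elim (fun _ => C) (fun _ => 1)) (by
      rintro (i | j) x
      · exact (hA i).2.2.2.1 x
      · exact (hv.2.2.2.1 x).trans hα1)
    rw [Fintype.prod_sum_type] at h
    simpa using h
  have hcomp : ∀ {t : S.T} {x : δ → S.X} {g : ℝ} {G : ℝ}, |g| ≤ G → |Φ t x * g| ≤ G := by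
    intro t x g G hg
    rw [abs_mul]
    exact (mul_le_of_le_one_left (abs_nonneg _) (hΦ t x)).trans hg
  have hΦm' : ∀ x : δ ⊕ Fin n → S.X, Measurable fun ω => Φ (S.π ω) (fun i => x (Sum.inl i)) :=
    fun x => (hΦm _).comp S.hπ
  have hm1 : ∀ x : δ ⊕ Fin n → S.X, Measurable fun ω => Φ (S.π ω) (fun i => x (Sum.inl i)) *
      gE (fun a => κ (S.π ω) (x a)) (fam A v) := fun x =>
    (hΦm' x).mul ((measurable_gE S hκ x hbm).comp S.hπ)
  have hm2 : ∀ x : δ ⊕ Fin n → S.X, Measurable fun ω => Φ (S.π ω) (fun i => x (Sum.inl i)) *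
      gE (noisy τ (UL c (S.LMat b x))) (fam A v) := fun x => (hΦm' x).mul measurable_const
  rw [← S.avT_sub hm1 (fun ω x => hcomp (hgb _)) hm2 (fun ω x => hcomp (hgb _))]
  -- the pointwise bound
  set Δ : (δ ⊕ Fin n) → (δ ⊕ Fin n) → S.T → (δ ⊕ Fin n → S.X) → ℝ := fun a a' t x =>
    |gram (κ t) (κ t) (x a) (x a') - (cumul c (S.LMat b x a a') + if a = a' then τ else 0)| with hΔ
  have hB0 : ∀ t x y, |gram (κ t) (κ t) x y| ≤ B := fun t => abs_gram_le (hB t)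
  have hΔb : ∀ a a' t x, |Δ a a' t x| ≤ B + (∑ l, c l + τ) := by
    intro a a' t x
    simp only [hΔ, abs_abs]
    refine (abs_sub _ _).trans (add_le_add (hB0 t _ _) ((abs_add_le _ _).trans
      (add_le_add (abs_cumul_le hc _) ?_)))
    split_ifs
    · rw [abs_of_nonneg hτ]
    · rw [abs_zero]; exact hτ
  have hΔm : ∀ a a' x, Measurable fun t => Δ a a' t x := by
    intro a a' x
    simp only [hΔ]
    exact ((measurable_gram S hκ _ _).sub_const _).abs
  have hpt : ∀ ω (x : δ ⊕ Fin n → S.X), |Φ (S.π ω) (fun i => x (Sum.inl i)) *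
      gE (fun a => κ (S.π ω) (x a)) (fam A v) - Φ (S.π ω) (fun i => x (Sum.inl i)) *
      gE (noisy τ (UL c (S.LMat b x))) (fam A v)| ≤
      (M * (1 / 2)) * (∑ p : (δ ⊕ Fin n) × (δ ⊕ Fin n), Δ p.1 p.2 (S.π ω) x) +
        (2 * C ^ Fintype.card δ) * ind (¬ Ultra (S.LMat b x)) := by
    intro ω x
    rw [← mul_sub]
    apply hcomp
    have hΔ0 : 0 ≤ ∑ p : (δ ⊕ Fin n) × (δ ⊕ Fin n), Δ p.1 p.2 (S.π ω) x :=
      Finset.sum_nonneg fun p _ => abs_nonneg _
    by_cases hL : Ultra (S.LMat b x)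
    · have h := gE_cmp (fun a => κ (S.π ω) (x a)) hc hτ hL hC hα0 hα1 hA hv
      rw [ind_of_not (not_not.2 hL), mul_zero, add_zero]
      refine h.trans (le_of_eq ?_)
      rw [Fintype.sum_prod_type, ← hM, ← mul_assoc]
      rfl
    · rw [ind_of hL, mul_one]
      have h1 := hgb (fun a => κ (S.π ω) (x a))
      have h2 := hgb (noisy τ (UL c (S.LMat b x)))
      have h3 := abs_sub (gE (fun a => κ (S.π ω) (x a)) (fam A v))
        (gE (noisy τ (UL c (S.LMat b x))) (fam A v))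
      have h4 : 0 ≤ (M * (1 / 2)) * (∑ p : (δ ⊕ Fin n) × (δ ⊕ Fin n), Δ p.1 p.2 (S.π ω) x) := by
        positivity
      linarith
  have hmS : ∀ x : δ ⊕ Fin n → S.X, Measurable fun ω =>
      ∑ p : (δ ⊕ Fin n) × (δ ⊕ Fin n), Δ p.1 p.2 (S.π ω) x := fun x =>
    Finset.measurable_sum _ fun p _ => (hΔm _ _ x).comp S.hπ
  have hbS : ∀ ω (x : δ ⊕ Fin n → S.X), |∑ p : (δ ⊕ Fin n) × (δ ⊕ Fin n), Δ p.1 p.2 (S.π ω) x| ≤
      ∑ _p : (δ ⊕ Fin n) × (δ ⊕ Fin n), (B + (∑ l, c l + τ)) := fun ω x =>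
    (Finset.abs_sum_le_sum_abs _ _).trans (Finset.sum_le_sum fun p _ => hΔb _ _ _ _)
  have hindb : ∀ (_ω : S.Ω) (x : δ ⊕ Fin n → S.X),
      |(2 * C ^ Fintype.card δ) * ind (¬ Ultra (S.LMat b x))| ≤ 2 * C ^ Fintype.card δ := by
    intro ω x
    rw [abs_mul, abs_of_nonneg (by positivity : 0 ≤ 2 * C ^ Fintype.card δ)]
    exact mul_le_of_le_one_right (by positivity) (abs_ind_le_one _)
  have hb1 : ∀ ω (x : δ ⊕ Fin n → S.X),
      |(M * (1 / 2)) * (∑ p : (δ ⊕ Fin n) × (δ ⊕ Fin n), Δ p.1 p.2 (S.π ω) x)| ≤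
      (M * (1 / 2)) * ∑ _p : (δ ⊕ Fin n) × (δ ⊕ Fin n), (B + (∑ l, c l + τ)) := by
    intro ω x
    rw [abs_mul, abs_of_nonneg (by positivity : 0 ≤ M * (1 / 2))]
    exact mul_le_mul_of_nonneg_left (hbS ω x) (by positivity)
  have key := S.abs_avT_le (G := fun ω (x : δ ⊕ Fin n → S.X) =>
      Φ (S.π ω) (fun i => x (Sum.inl i)) *
      gE (fun a => κ (S.π ω) (x a)) (fam A v) - Φ (S.π ω) (fun i => x (Sum.inl i)) *
      gE (noisy τ (UL c (S.LMat b x))) (fam A v))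
    (H := fun ω x => (M * (1 / 2)) * (∑ p : (δ ⊕ Fin n) × (δ ⊕ Fin n), Δ p.1 p.2 (S.π ω) x) +
        (2 * C ^ Fintype.card δ) * ind (¬ Ultra (S.LMat b x)))
    (fun x => (hm1 x).sub (hm2 x)) (C := C ^ Fintype.card δ + C ^ Fintype.card δ)
    (fun ω x => (abs_sub _ _).trans (add_le_add (hcomp (hgb _)) (hcomp (hgb _))))
    (fun x => ((hmS x).const_mul _).add measurable_const)
    (fun ω x => (abs_add_le _ _).trans (add_le_add (hb1 ω x) (hindb ω x))) hpt
  have key2 := S.avT_sum (C := B + (∑ l, c l + τ)) (Finset.univ : Finset ((δ ⊕ Fin n) × (δ ⊕ Fin n)))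
      (G := fun p ω (x : δ ⊕ Fin n → S.X) => Δ p.1 p.2 (S.π ω) x)
      (fun p x => (hΔm _ _ x).comp S.hπ) (fun p ω x => hΔb _ _ _ _)
  rw [S.avT_add (G := fun ω (x : δ ⊕ Fin n → S.X) =>
      (M * (1 / 2)) * (∑ p : (δ ⊕ Fin n) × (δ ⊕ Fin n), Δ p.1 p.2 (S.π ω) x))
    (H := fun _ (x : δ ⊕ Fin n → S.X) => (2 * C ^ Fintype.card δ) * ind (¬ Ultra (S.LMat b x)))
    (fun x => (hmS x).const_mul _) hb1 (fun x => measurable_const) hindb,
    S.avT_const_mul, S.avT_const_mul, key2] at key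
  refine key.trans (add_le_add ?_ (le_of_eq (by ring)))
  -- the averages of the increments
  have hΔav : ∀ p : (δ ⊕ Fin n) × (δ ⊕ Fin n),
      S.avT (fun ω (x : δ ⊕ Fin n → S.X) => Δ p.1 p.2 (S.π ω) x) ≤ E := by
    rintro ⟨a, a'⟩
    by_cases h : a = a'
    · subst h
      have h1 := S.avT_comp (J := Fin 1) (J' := δ ⊕ Fin n) (fun _ => a)
        (fun _ _ _ => Subsingleton.elim _ _) (fun t (x : Fin 1 → S.X) =>
        |gram (κ t) (κ t) (x 0) (x 0) - (cumul c (Fin.last k) + τ)|)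
      have h2 := S.avT_eq (Equiv.refl (Fin 1)) (fun t (x : Fin 1 → S.X) =>
        |gram (κ t) (κ t) (x 0) (x 0) - (cumul c (Fin.last k) + τ)|)
      rw [h2] at h1
      refine le_trans (le_of_eq ?_) hdiag
      refine Eq.trans ?_ h1
      simp only [hΔ, Sys.LMat, if_true]
    · have hinj : Function.Injective (![a, a'] : Fin 2 → δ ⊕ Fin n) := by
        intro i j hij
        fin_cases i <;> fin_cases j
        · rfl
        · exact absurd hij h
        · exact absurd hij.symm h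
        · rfl
      have h1 := S.avT_comp (J := Fin 2) (J' := δ ⊕ Fin n) ![a, a'] hinj
        (fun t (x : Fin 2 → S.X) =>
        |gram (κ t) (κ t) (x 0) (x 1) - cumul c (lev b (S.R (x 0) (x 1)))|)
      have h2 := S.avT_eq (Equiv.refl (Fin 2)) (fun t (x : Fin 2 → S.X) =>
        |gram (κ t) (κ t) (x 0) (x 1) - cumul c (lev b (S.R (x 0) (x 1)))|)
      rw [h2] at h1
      refine le_trans (le_of_eq ?_) hoff
      refine Eq.trans ?_ h1
      simp only [hΔ, Sys.LMat, if_neg h, add_zero]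
      rfl
  have hsum : ∑ p : (δ ⊕ Fin n) × (δ ⊕ Fin n),
      S.avT (fun ω (x : δ ⊕ Fin n → S.X) => Δ p.1 p.2 (S.π ω) x) ≤
      (Fintype.card δ + n) ^ 2 * E := by
    refine (Finset.sum_le_sum fun p _ => hΔav p).trans (le_of_eq ?_)
    rw [Finset.sum_const, Finset.card_univ, Fintype.card_prod, Fintype.card_sum,
      Fintype.card_fin, nsmul_eq_mul]
    push_cast
    ring
  calc M * (1 / 2) * _ ≤ M * (1 / 2) * ((Fintype.card δ + n) ^ 2 * E) :=
        mul_le_mul_of_nonneg_left hsum (by positivity)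
    _ = _ := by ring

end Average

end Vale.Agent.P157.Par
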