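import Vale.Agent.P157.ParTrans2

open MeasureTheory ProbabilityTheory Filter Topology Finset

namespace Vale.Agent.P157.Par

set_option linter.unusedSectionVars false

open Vale.Agent.P367.GT (gM)

/-! ### Series representations for one system -/

section Series

variable (S : Sys) {K : Type} [Fintype K] [DecidableEq K] {κ : S.T → S.X → K → ℝ}
  (hκ : ∀ x c, Measurable fun t => κ t x c) {δ : Type} [Fintype δ] [DecidableEq δ]

lemma zbar_eq {W : ℝ → ℝ} (ω : S.Ω) (y : S.X → ℝ) :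
    1 - ∑ x, S.w ω x * (1 - W (y x)) = ∑ x, S.w ω x * W (y x) := by
  have h := S.w1 ω
  simp only [mul_sub, mul_one, Finset.sum_sub_distrib, h]
  ring

lemma vbar_mem {W : ℝ → ℝ} {a : ℝ} (hWa : ∀ x, a ≤ W x) (hW1 : ∀ x, W x ≤ 1) (ω : S.Ω)
    (y : S.X → ℝ) : 0 ≤ ∑ x, S.w ω x * (1 - W (y x)) ∧ ∑ x, S.w ω x * (1 - W (y x)) ≤ 1 - a := by
  constructor
  · exact Finset.sum_nonneg fun x _ => mul_nonneg (S.w0 ω x) (by linarith [hW1 (y x)])
  · calc ∑ x, S.w ω x * (1 - W (y x)) ≤ ∑ x, S.w ω x * (1 - a) :=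
          Finset.sum_le_sum fun x _ => mul_le_mul_of_nonneg_left (by linarith [hWa (y x)]) (S.w0 ω x)
      _ = 1 - a := by rw [← Finset.sum_mul, S.w1, one_mul]

include hκ

/-- The series of a ratio of averages. -/
theorem ratio_eq {Φ : S.T → (δ → S.X) → ℝ} (hΦm : ∀ x, Measurable fun t => Φ t x)
    (hΦ : ∀ t x, |Φ t x| ≤ 1) {A : δ → ℝ → ℝ} (hA : ∀ i, BM (A i)) {W : ℝ → ℝ}
    (hWm : Measurable W) {a : ℝ} (ha : 0 < a) (hWa : ∀ x, a ≤ W x) (hW1 : ∀ x, W x ≤ 1) (e : ℕ) :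
    ∫ z : S.Ω × (K → ℝ), (∑ x : δ → S.X, Φ (S.π z.1) x *
        ∏ i, (S.w z.1 (x i) * A i (lin (κ (S.π z.1)) z.2 (x i)))) /
        (∑ x, S.w z.1 x * W (lin (κ (S.π z.1)) z.2 x)) ^ (e + 1) ∂(S.P.prod (gM K)) =
      ∑' n : ℕ, ((n + e).choose e : ℝ) * S.avT (fun ω (x : δ ⊕ Fin n → S.X) =>
        Φ (S.π ω) (fun i => x (Sum.inl i)) *
        gE (fun a => κ (S.π ω) (x a)) (fam A fun x => 1 - W x)) := by
  obtain ⟨C, hC0, hC⟩ := exists_bound hA
  have ha1 : a ≤ 1 := (hWa 0).trans (hW1 0)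
  have bv : BM fun x => 1 - W x :=
    ⟨measurable_const.sub hWm, 1, fun x => by
      rw [abs_le]; constructor <;> linarith [hWa x, hW1 x]⟩
  have hfam : ∀ (n : ℕ) (x : δ ⊕ Fin n), BM (fam A (fun x => 1 - W x) x) := by
    rintro n (i | j)
    · exact hA i
    · exact bv
  -- each term
  have hterm : ∀ n : ℕ, S.avT (fun ω (x : δ ⊕ Fin n → S.X) =>
        Φ (S.π ω) (fun i => x (Sum.inl i)) *
        gE (fun a => κ (S.π ω) (x a)) (fam A fun x => 1 - W x)) =
      ∫ z : S.Ω × (K → ℝ), (∑ x : δ → S.X, Φ (S.π z.1) x *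
        ∏ i, (S.w z.1 (x i) * A i (lin (κ (S.π z.1)) z.2 (x i)))) *
        (∑ x, S.w z.1 x * (1 - W (lin (κ (S.π z.1)) z.2 x))) ^ n ∂(S.P.prod (gM K)) := by
    intro n
    rw [← moment S hκ (F := fun t (x : δ ⊕ Fin n → S.X) => Φ t (fun i => x (Sum.inl i)))
      (fun x => hΦm _) (fun t x => hΦ t _) (hfam n)]
    congr 1
    funext z
    rw [prod_sum_pow n (Φ (S.π z.1))
      (fun i x => S.w z.1 x * A i (lin (κ (S.π z.1)) z.2 x))
      (fun x => S.w z.1 x * (1 - W (lin (κ (S.π z.1)) z.2 x)))]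
    apply Finset.sum_congr rfl
    intro x _
    rw [Fintype.prod_sum_type, Fintype.prod_sum_type, Finset.prod_mul_distrib,
      Finset.prod_mul_distrib]
    simp only [fam, Sum.elim_inl, Sum.elim_inr]
    ring
  simp_rw [hterm, ← integral_const_mul]
  -- measurability and bounds
  have hmx : ∀ x : S.X, Measurable fun z : S.Ω × (K → ℝ) => lin (κ (S.π z.1)) z.2 x :=
    measurable_field S hκ
  have hmN : Measurable fun z : S.Ω × (K → ℝ) => ∑ x : δ → S.X, Φ (S.π z.1) x *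
        ∏ i, (S.w z.1 (x i) * A i (lin (κ (S.π z.1)) z.2 (x i))) := by
    apply Finset.measurable_sum
    intro x _
    refine ((hΦm x).comp (S.hπ.comp measurable_fst)).mul (Finset.measurable_prod _ fun i _ => ?_)
    exact ((S.hw _).comp measurable_fst).mul ((hA i).meas.comp (hmx _))
  have hmV : Measurable fun z : S.Ω × (K → ℝ) =>
      ∑ x, S.w z.1 x * (1 - W (lin (κ (S.π z.1)) z.2 x)) := by
    apply Finset.measurable_sum
    intro x _
    exact ((S.hw _).comp measurable_fst).mul (measurable_const.sub (hWm.comp (hmx _)))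
  have hbN : ∀ z : S.Ω × (K → ℝ), |∑ x : δ → S.X, Φ (S.π z.1) x *
        ∏ i, (S.w z.1 (x i) * A i (lin (κ (S.π z.1)) z.2 (x i)))| ≤ C ^ Fintype.card δ := by
    intro z
    refine (Finset.abs_sum_le_sum_abs _ _).trans ?_
    have h1 : ∀ x : δ → S.X, |Φ (S.π z.1) x *
        ∏ i, (S.w z.1 (x i) * A i (lin (κ (S.π z.1)) z.2 (x i)))| ≤
        (∏ i, S.w z.1 (x i)) * C ^ Fintype.card δ := by
      intro x
      rw [Finset.prod_mul_distrib, abs_mul, abs_mul, abs_of_nonneg (S.prod_wT_nonneg _ _)]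
      have h2 : |∏ i, A i (lin (κ (S.π z.1)) z.2 (x i))| ≤ C ^ (univ : Finset δ).card :=
        abs_prod_le fun i _ => hC i _
      rw [Finset.card_univ] at h2
      calc |Φ (S.π z.1) x| * ((∏ i, S.w z.1 (x i)) * |∏ i, A i (lin (κ (S.π z.1)) z.2 (x i))|) ≤
          1 * ((∏ i, S.w z.1 (x i)) * C ^ Fintype.card δ) := by
            apply mul_le_mul (hΦ _ _) _ (mul_nonneg (S.prod_wT_nonneg _ _) (abs_nonneg _))
              zero_le_one
            exact mul_le_mul_of_nonneg_left h2 (S.prod_wT_nonneg _ _)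
        _ = _ := one_mul _
    refine (Finset.sum_le_sum fun x _ => h1 x).trans ?_
    rw [← Finset.sum_mul, S.sum_prod_w, one_mul]
  set N : S.Ω × (K → ℝ) → ℝ := fun z => ∑ x : δ → S.X, Φ (S.π z.1) x *
        ∏ i, (S.w z.1 (x i) * A i (lin (κ (S.π z.1)) z.2 (x i))) with hN
  set V : S.Ω × (K → ℝ) → ℝ := fun z =>
      ∑ x, S.w z.1 x * (1 - W (lin (κ (S.π z.1)) z.2 x)) with hV
  have hV0 : ∀ z, 0 ≤ V z ∧ V z ≤ 1 - a := fun z =>
    vbar_mem S hWa hW1 z.1 fun x => lin (κ (S.π z.1)) z.2 x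
  have hbt : ∀ (n : ℕ) z, ‖((n + e).choose e : ℝ) * (N z * V z ^ n)‖ ≤
      C ^ Fintype.card δ * (((n + e).choose e : ℝ) * (1 - a) ^ n) := by
    intro n z
    rw [Real.norm_eq_abs, abs_mul, abs_mul, Nat.abs_cast, abs_pow, abs_of_nonneg (hV0 z).1]
    have h1 := pow_le_pow_left₀ (hV0 z).1 (hV0 z).2 n
    calc ((n + e).choose e : ℝ) * (|N z| * V z ^ n) ≤
        ((n + e).choose e : ℝ) * (C ^ Fintype.card δ * (1 - a) ^ n) := by
          gcongr
          · exact pow_nonneg (hV0 z).1 n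
          · exact hbN z
      _ = _ := by ring
  have hint : ∀ n : ℕ, Integrable (fun z => ((n + e).choose e : ℝ) * (N z * V z ^ n))
      (S.P.prod (gM K)) := fun n =>
    Integrable.of_bound ((hmN.mul (hmV.pow_const n)).const_mul _).aestronglyMeasurable _
      (Eventually.of_forall (hbt n))
  have hsumg : Summable fun n : ℕ => ((n + e).choose e : ℝ) * (1 - a) ^ n :=
    summable_choose_mul_geometric_of_norm_lt_one e (by
      rw [Real.norm_eq_abs, abs_of_nonneg (by linarith)]; linarith)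
  have hsum : Summable fun n : ℕ => ∫ z, ‖((n + e).choose e : ℝ) * (N z * V z ^ n)‖
      ∂(S.P.prod (gM K)) := by
    refine Summable.of_nonneg_of_le (fun n => integral_nonneg fun z => norm_nonneg _) (fun n => ?_)
      (hsumg.mul_left (C ^ Fintype.card δ))
    have h1 := integral_mono (hint n).norm (integrable_const _) (hbt n)
    rwa [integral_const, probReal_univ, one_smul] at h1
  rw [integral_tsum_of_summable_integral_norm hint hsum]
  congr 1
  funext z
  have h1 := tsum_choose_mul_geometric_of_norm_lt_one (𝕜 := ℝ) e (r := V z) (by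
    rw [Real.norm_eq_abs, abs_of_nonneg (hV0 z).1]; linarith [(hV0 z).2])
  have h2 : ∀ n : ℕ, ((n + e).choose e : ℝ) * (N z * V z ^ n) =
      N z * (((n + e).choose e : ℝ) * V z ^ n) := fun n => by ring
  simp_rw [h2]
  rw [tsum_mul_left, h1, hV]
  simp only
  rw [zbar_eq S z.1 fun x => lin (κ (S.π z.1)) z.2 x]
  rw [div_eq_mul_one_div]

/-- The series of the logarithm of an average. -/
theorem log_eq {W : ℝ → ℝ}
    (hWm : Measurable W) {a : ℝ} (ha : 0 < a) (hWa : ∀ x, a ≤ W x) (hW1 : ∀ x, W x ≤ 1) :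
    ∫ z : S.Ω × (K → ℝ), Real.log (∑ x, S.w z.1 x * W (lin (κ (S.π z.1)) z.2 x))
        ∂(S.P.prod (gM K)) =
      - ∑' n : ℕ, 1 / ((n : ℝ) + 1) * S.avT (fun ω (x : Empty ⊕ Fin (n + 1) → S.X) =>
        (fun _ _ => (1 : ℝ)) (S.π ω) (fun i => x (Sum.inl i)) *
        gE (fun a => κ (S.π ω) (x a)) (fam noA fun x => 1 - W x)) := by
  have ha1 : a ≤ 1 := (hWa 0).trans (hW1 0)
  have bv : BM fun x => 1 - W x :=
    ⟨measurable_const.sub hWm, 1, fun x => by
      rw [abs_le]; constructor <;> linarith [hWa x, hW1 x]⟩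
  have hfam : ∀ (n : ℕ) (x : Empty ⊕ Fin n), BM (fam noA (fun x => 1 - W x) x) := by
    rintro n (i | j)
    · exact i.elim
    · exact bv
  have hterm : ∀ n : ℕ, S.avT (fun ω (x : Empty ⊕ Fin n → S.X) =>
        (fun _ _ => (1 : ℝ)) (S.π ω) (fun i => x (Sum.inl i)) *
        gE (fun a => κ (S.π ω) (x a)) (fam noA fun x => 1 - W x)) =
      ∫ z : S.Ω × (K → ℝ),
        (∑ x, S.w z.1 x * (1 - W (lin (κ (S.π z.1)) z.2 x))) ^ n ∂(S.P.prod (gM K)) := by
    intro n
    rw [← moment S hκ (F := fun t (x : Empty ⊕ Fin n → S.X) =>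
      (fun _ _ => (1 : ℝ)) t (fun i => x (Sum.inl i)))
      (fun x => measurable_const) (B := 1) (fun t x => by simp) (hfam n)]
    congr 1
    funext z
    have h := prod_sum_pow (δ := Empty) n (fun _ => (1 : ℝ)) (fun i (_ : S.X) => i.elim)
      (fun x => S.w z.1 x * (1 - W (lin (κ (S.π z.1)) z.2 x)))
    simp only [Finset.univ_eq_empty, Finset.prod_empty, Finset.univ_unique, mul_one,
      Finset.sum_const, Finset.card_singleton, one_smul, one_mul] at h
    rw [h]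
    apply Finset.sum_congr rfl
    intro x _
    rw [Fintype.prod_sum_type, Fintype.prod_sum_type]
    simp only [fam, Sum.elim_inl, Sum.elim_inr, Finset.univ_eq_empty, Finset.prod_empty, one_mul]
    rw [Finset.prod_mul_distrib]
  simp_rw [hterm, ← integral_const_mul]
  have hmx : ∀ x : S.X, Measurable fun z : S.Ω × (K → ℝ) => lin (κ (S.π z.1)) z.2 x :=
    measurable_field S hκ
  have hmV : Measurable fun z : S.Ω × (K → ℝ) =>
      ∑ x, S.w z.1 x * (1 - W (lin (κ (S.π z.1)) z.2 x)) := by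
    apply Finset.measurable_sum
    intro x _
    exact ((S.hw _).comp measurable_fst).mul (measurable_const.sub (hWm.comp (hmx _)))
  set V : S.Ω × (K → ℝ) → ℝ := fun z =>
      ∑ x, S.w z.1 x * (1 - W (lin (κ (S.π z.1)) z.2 x)) with hV
  have hV0 : ∀ z, 0 ≤ V z ∧ V z ≤ 1 - a := fun z =>
    vbar_mem S hWa hW1 z.1 fun x => lin (κ (S.π z.1)) z.2 x
  have hbt : ∀ (n : ℕ) z, ‖1 / ((n : ℝ) + 1) * V z ^ (n + 1)‖ ≤ (1 - a) ^ n := by
    intro n z
    rw [Real.norm_eq_abs, abs_mul, abs_pow, abs_of_nonneg (hV0 z).1,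
      abs_of_nonneg (by positivity : (0:ℝ) ≤ 1 / ((n : ℝ) + 1))]
    have h1 := pow_le_pow_left₀ (hV0 z).1 (hV0 z).2 (n + 1)
    have h4 : (1 - a) ^ (n + 1) ≤ (1 - a) ^ n := by
      rw [pow_succ]
      exact mul_le_of_le_one_right (pow_nonneg (by linarith) n) (by linarith)
    have h5 : 1 / ((n : ℝ) + 1) ≤ 1 := by
      rw [div_le_one (by positivity)]; linarith [Nat.cast_nonneg (α := ℝ) n]
    have h6 : 0 ≤ V z ^ (n + 1) := pow_nonneg (hV0 z).1 _
    calc 1 / ((n : ℝ) + 1) * V z ^ (n + 1) ≤ 1 * V z ^ (n + 1) :=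
          mul_le_mul_of_nonneg_right h5 h6
      _ ≤ (1 - a) ^ n := by rw [one_mul]; exact h1.trans h4
  have hint : ∀ n : ℕ, Integrable (fun z => 1 / ((n : ℝ) + 1) * V z ^ (n + 1))
      (S.P.prod (gM K)) := fun n =>
    Integrable.of_bound ((hmV.pow_const (n + 1)).const_mul _).aestronglyMeasurable _
      (Eventually.of_forall (hbt n))
  have hsumg : Summable fun n : ℕ => (1 - a) ^ n :=
    summable_geometric_of_lt_one (by linarith) (by linarith)
  have hsum : Summable fun n : ℕ => ∫ z, ‖1 / ((n : ℝ) + 1) * V z ^ (n + 1)‖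
      ∂(S.P.prod (gM K)) := by
    refine Summable.of_nonneg_of_le (fun n => integral_nonneg fun z => norm_nonneg _) (fun n => ?_)
      hsumg
    have h1 := integral_mono (hint n).norm (integrable_const _) (hbt n)
    rwa [integral_const, probReal_univ, one_smul] at h1
  rw [integral_tsum_of_summable_integral_norm hint hsum, ← integral_neg]
  congr 1
  funext z
  have h1 := Real.hasSum_pow_div_log_of_abs_lt_one (x := V z)
    (by rw [abs_of_nonneg (hV0 z).1]; linarith [(hV0 z).2])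
  have h2 : ∀ n : ℕ, 1 / ((n : ℝ) + 1) * V z ^ (n + 1) = V z ^ (n + 1) / ((n : ℝ) + 1) :=
    fun n => by ring
  simp_rw [h2]
  rw [h1.tsum_eq, neg_neg, hV]
  simp only
  rw [zbar_eq S z.1 fun x => lin (κ (S.π z.1)) z.2 x]

end Series

end Vale.Agent.P157.Par
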