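import Vale.Agent.P157.ParTrans3

open MeasureTheory ProbabilityTheory Filter Topology Finset

namespace Vale.Agent.P157.Par

set_option linter.unusedSectionVars false

open Vale.Agent.P367.GT (gM)

/-- Average of the indicator of the non ultrametric matrices. -/
lemma tendsto_ind_ultra {U : Ultrafilter ℕ} {S : ℕ → Sys} {k : ℕ} {b : Fin k → ℝ}
    {w : Fin (k + 1) → ℝ} (h : LimData U S b w) {J : Type} [Fintype J] [DecidableEq J] :
    Tendsto (fun j => (S j).avT (fun _ (x : J → (S j).X) => ind (¬ Ultra ((S j).LMat b x)))) U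
      (𝓝 0) := by
  have h1 := tendsto_not_ultra h.gg h.mono h.na (Fintype.equivFin J)
  refine h1.congr fun j => ?_
  exact ((S j).avT_eq (Fintype.equivFin J) (fun _ x => ind (¬ Ultra ((S j).LMat b x)))).symm

section Limit

variable {U : Ultrafilter ℕ} {S : ℕ → Sys} {k : ℕ} {b : Fin k → ℝ} {w : Fin (k + 1) → ℝ}
  (hL : LimData U S b w) {c : Fin (k + 1) → ℝ} (hc : ∀ l, 0 ≤ c l) {τ ε B : ℝ} (hτ : 0 ≤ τ)
  {K : ℕ → Type} [∀ j, Fintype (K j)] [∀ j, DecidableEq (K j)]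
  {κ : ∀ j, (S j).T → (S j).X → K j → ℝ} (hκ : KerClose U S b c τ ε B κ)
  {δ : Type} [Fintype δ] [DecidableEq δ] {Φ : ∀ j, (S j).T → (δ → (S j).X) → ℝ}
  (hΦm : ∀ j x, Measurable fun t => Φ j t x) (hΦ : ∀ j t x, |Φ j t x| ≤ 1)
  {𝓐 : Arr k w δ} (h𝓐 : ∀ (ι : Type) [Fintype ι] [DecidableEq ι]
      (A : LM k (δ ⊕ ι) → ℝ), Tendsto (fun j => (S j).avT
        (fun ω (x : δ ⊕ ι → (S j).X) => Φ j ((S j).π ω) (fun i => x (Sum.inl i)) *
          A ((S j).LMat b x))) U (𝓝 (𝓐.E ι A)))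

include hL hc hτ hκ hΦm hΦ h𝓐

/-- The limit of a term of the series. -/
lemma term_lim {A A' A'' : δ → ℝ → ℝ} {v v' v'' : ℝ → ℝ}
    {C α : ℝ} (hC : 1 ≤ C) (hα0 : 0 < α) (hα1 : α ≤ 1) (hA : ∀ i, SB C (A i) (A' i) (A'' i))
    (hv : (∀ x, HasDerivAt v (v' x) x) ∧ (∀ x, HasDerivAt v' (v'' x) x) ∧
      Continuous v'' ∧ (∀ x, |v x| ≤ α) ∧ (∀ x, |v' x| ≤ C) ∧ ∀ x, |v'' x| ≤ C) (n : ℕ) :
    ∀ η > 0, ∀ᶠ j in (U : Filter ℕ),
      |(S j).avT (fun ω (x : δ ⊕ Fin n → (S j).X) => Φ j ((S j).π ω) (fun i => x (Sum.inl i)) *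
        gE (fun a => κ j ((S j).π ω) (x a)) (fam A v)) -
      𝓐.T c (fun _ => 1) (fun i => heat τ (A i)) (heat τ v) (Fin n)| ≤
      C ^ (Fintype.card δ + 2) / α ^ 2 * α ^ n * (1 / 2 * (Fintype.card δ + n) ^ 2) * ε + η := by
  intro η hη
  have hC0 : 0 < C := by linarith
  have hbm : ∀ a : δ ⊕ Fin n, BM (fam A v a) := by
    rintro (i | j)
    · exact ⟨(continuous_iff_continuousAt.2 fun x => ((hA i).1 x).continuousAt).measurable, C,
        (hA i).2.2.2.1⟩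
    · exact ⟨(continuous_iff_continuousAt.2 fun x => (hv.1 x).continuousAt).measurable, α,
        hv.2.2.2.1⟩
  have e1 : 𝓐.T c (fun _ => 1) (fun i => heat τ (A i)) (heat τ v) (Fin n) =
      𝓐.E (Fin n) (fun L => gE (noisy τ (UL c L)) (fam A v)) := by
    unfold Arr.T
    congr 1
    funext L
    rw [one_mul, gE_noisy τ _ hbm]
    congr 1
    funext a
    rcases a with i | j <;> rfl
  have h1 := h𝓐 (Fin n) (fun L => gE (noisy τ (UL c L)) (fam A v))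
  rw [← e1] at h1
  have h2 := tendsto_ind_ultra (J := δ ⊕ Fin n) hL
  have h3 := (Metric.tendsto_nhds.1 h1) (η / 2) (by positivity)
  have h4 : Tendsto (fun j => 2 * C ^ Fintype.card δ * (S j).avT
      (fun _ (x : δ ⊕ Fin n → (S j).X) => ind (¬ Ultra ((S j).LMat b x)))) U (𝓝 0) := by
    have := h2.const_mul (2 * C ^ Fintype.card δ)
    rwa [mul_zero] at this
  have h5 := (tendsto_order.1 h4).2 (η / 2) (by positivity)
  filter_upwards [h3, h5, hκ.off, hκ.diag] with j h3 h5 h6 h7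
  have h8 := avT_cmp (S j) hc hτ (hκ.meas j) (hκ.bdd j) (hΦm j) (hΦ j) hC hα0 hα1 hA hv
    (n := n) h6 h7
  rw [Real.dist_eq] at h3
  have h9 := abs_sub_le ((S j).avT (fun ω (x : δ ⊕ Fin n → (S j).X) =>
      Φ j ((S j).π ω) (fun i => x (Sum.inl i)) *
        gE (fun a => κ j ((S j).π ω) (x a)) (fam A v)))
    ((S j).avT (fun ω (x : δ ⊕ Fin n → (S j).X) => Φ j ((S j).π ω) (fun i => x (Sum.inl i)) *
        gE (noisy τ (UL c ((S j).LMat b x))) (fam A v)))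
    (𝓐.T c (fun _ => 1) (fun i => heat τ (A i)) (heat τ v) (Fin n))
  have e2 : C ^ (Fintype.card δ + 2) / α ^ 2 * α ^ n * (1 / 2 * ((Fintype.card δ + n) ^ 2 * ε)) =
    C ^ (Fintype.card δ + 2) / α ^ 2 * α ^ n * (1 / 2 * (Fintype.card δ + n) ^ 2) * ε := by ring
  rw [e2] at h8
  linarith

end Limit

/-- The bounds of a term. -/
lemma term_bound (S : Sys) {K : Type} [Fintype K] [DecidableEq K] {κ : S.T → S.X → K → ℝ}
    (hκ : ∀ x c, Measurable fun t => κ t x c) {δ : Type} [Fintype δ] [DecidableEq δ]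
    {Φ : S.T → (δ → S.X) → ℝ} (hΦm : ∀ x, Measurable fun t => Φ t x)
    (hΦ : ∀ t x, |Φ t x| ≤ 1) {A : δ → ℝ → ℝ} {v : ℝ → ℝ} {C α : ℝ} (hAm : ∀ i, Measurable (A i))
    (hA : ∀ i x, |A i x| ≤ C) (hvm : Measurable v) (hv : ∀ x, |v x| ≤ α) (n : ℕ) :
    |S.avT (fun ω (x : δ ⊕ Fin n → S.X) => Φ (S.π ω) (fun i => x (Sum.inl i)) *
        gE (fun a => κ (S.π ω) (x a)) (fam A v))| ≤ C ^ Fintype.card δ * α ^ n := by
  have hbm : ∀ a : δ ⊕ Fin n, BM (fam A v a) := by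
    rintro (i | j)
    · exact ⟨hAm i, C, hA i⟩
    · exact ⟨hvm, α, hv⟩
  apply S.abs_avT_le_const
  · intro x
    exact ((hΦm _).comp S.hπ).mul ((measurable_gE S hκ x hbm).comp S.hπ)
  · intro ω x
    rw [abs_mul]
    have h := abs_gE_le (U := fun a => κ (S.π ω) (x a)) (f := fam A v)
      (C := Sum.elim (fun _ => C) (fun _ => α)) (by
      rintro (i | j) y
      · exact hA i y
      · exact hv y)
    rw [Fintype.prod_sum_type] at h
    simp only [Sum.elim_inl, Sum.elim_inr, Finset.prod_const, Finset.card_univ,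
      Fintype.card_fin] at h
    exact (mul_le_of_le_one_left (abs_nonneg _) (hΦ _ _)).trans h

lemma heat_le {τ C : ℝ} {g : ℝ → ℝ} (hg : ∀ x, |g x| ≤ C) (x : ℝ) : |heat τ g x| ≤ C :=
  heat_abs_le hg τ x

end Vale.Agent.P157.Par
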