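import Vale.Agent.P157.ParTrans4

open MeasureTheory ProbabilityTheory Filter Topology Finset

namespace Vale.Agent.P157.Par

set_option linter.unusedSectionVars false

open Vale.Agent.P367.GT (gM)

/-- The constant of the transfer of ratios. -/
noncomputable def Dr (C α : ℝ) (d e : ℕ) : ℝ :=
  ∑' n : ℕ, ((n + e).choose e : ℝ) * (C ^ (d + 2) / α ^ 2 * α ^ n * (1 / 2 * ((d : ℝ) + n) ^ 2))

/-- The constant of the transfer of logarithms. -/
noncomputable def Dl (C α : ℝ) : ℝ :=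
  ∑' n : ℕ, C ^ 2 / α ^ 2 * α ^ (n + 1) * (1 / 2 * ((n : ℝ) + 1) ^ 2)

lemma summable_Dr {C α : ℝ} (_hC : 0 ≤ C) (hα0 : 0 < α) (hα1 : α < 1) (d e : ℕ) :
    Summable fun n : ℕ => ((n + e).choose e : ℝ) *
      (C ^ (d + 2) / α ^ 2 * α ^ n * (1 / 2 * ((d : ℝ) + n) ^ 2)) := by
  have h := Arr.summable_dT_bound e hα0.le hα1 (C ^ (d + 2) / α ^ 2 * (1 / 2) * ((d : ℝ) + 1) ^ 2)
  refine Summable.of_nonneg_of_le (fun n => by positivity) (fun n => ?_) h
  apply mul_le_mul_of_nonneg_left _ (Nat.cast_nonneg _)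
  have h1 : ((d : ℝ) + n) ^ 2 ≤ ((d : ℝ) + 1) ^ 2 * ((n : ℝ) + 1) ^ 2 := by
    rw [← mul_pow]
    apply pow_le_pow_left₀ (by positivity)
    linarith only [hα0, hα1, mul_nonneg (Nat.cast_nonneg (α := ℝ) d) (Nat.cast_nonneg (α := ℝ) n)]
  calc C ^ (d + 2) / α ^ 2 * α ^ n * (1 / 2 * ((d : ℝ) + n) ^ 2) ≤
      C ^ (d + 2) / α ^ 2 * α ^ n * (1 / 2 * (((d : ℝ) + 1) ^ 2 * ((n : ℝ) + 1) ^ 2)) := by
        gcongr
    _ = _ := by ring

lemma summable_Dl {C α : ℝ} (hC : 0 ≤ C) (hα0 : 0 < α) (hα1 : α < 1) :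
    Summable fun n : ℕ => C ^ 2 / α ^ 2 * α ^ (n + 1) * (1 / 2 * ((n : ℝ) + 1) ^ 2) := by
  have h := Arr.summable_dT_bound 0 hα0.le hα1 (C ^ 2 / α ^ 2 * α * (1 / 2))
  refine h.congr fun n => ?_
  simp only [Nat.choose_zero_right, Nat.cast_one, one_mul]
  ring

lemma summable_choose_pow (e : ℕ) {α : ℝ} (hα0 : 0 < α) (hα1 : α < 1) :
    Summable fun n : ℕ => ((n + e).choose e : ℝ) * α ^ n :=
  summable_choose_mul_geometric_of_norm_lt_one e
    (by rwa [Real.norm_eq_abs, abs_of_nonneg hα0.le])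

section Limit

variable {U : Ultrafilter ℕ} {S : ℕ → Sys} {k : ℕ} {b : Fin k → ℝ} {w : Fin (k + 1) → ℝ}
  (hL : LimData U S b w) {c : Fin (k + 1) → ℝ} (hc : ∀ l, 0 ≤ c l) {τ ε B : ℝ} (hτ : 0 ≤ τ)
  (hε : 0 ≤ ε)
  {K : ℕ → Type} [∀ j, Fintype (K j)] [∀ j, DecidableEq (K j)]
  {κ : ∀ j, (S j).T → (S j).X → K j → ℝ} (hκ : KerClose U S b c τ ε B κ)
  {δ : Type} [Fintype δ] [DecidableEq δ] {Φ : ∀ j, (S j).T → (δ → (S j).X) → ℝ}
  (hΦm : ∀ j x, Measurable fun t => Φ j t x) (hΦ : ∀ j t x, |Φ j t x| ≤ 1)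
  {𝓐 : Arr k w δ} (h𝓐1 : 𝓐.C = 1) (h𝓐 : ∀ (ι : Type) [Fintype ι] [DecidableEq ι]
      (A : LM k (δ ⊕ ι) → ℝ), Tendsto (fun j => (S j).avT
        (fun ω (x : δ ⊕ ι → (S j).X) => Φ j ((S j).π ω) (fun i => x (Sum.inl i)) *
          A ((S j).LMat b x))) U (𝓝 (𝓐.E ι A)))

include hL hc hτ hε hκ hΦm hΦ h𝓐1 h𝓐

/-- Transfer of a ratio to the limiting array. -/
theorem ratio_lim {A A' A'' : δ → ℝ → ℝ} {W W' W'' : ℝ → ℝ}
    {C α a : ℝ} (hC : 1 ≤ C) (ha : 0 < a) (haα : 1 - a ≤ α) (hα0 : 0 < α) (hα1 : α < 1)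
    (hA : ∀ i, SB C (A i) (A' i) (A'' i)) (hW : SB C W W' W'') (hWa : ∀ x, a ≤ W x)
    (hW1 : ∀ x, W x ≤ 1) (e : ℕ) :
    ∀ η > 0, ∀ᶠ j in (U : Filter ℕ),
      |(∫ z : (S j).Ω × (K j → ℝ), (∑ x : δ → (S j).X, Φ j ((S j).π z.1) x *
        ∏ i, ((S j).w z.1 (x i) * A i (lin (κ j ((S j).π z.1)) z.2 (x i)))) /
        (∑ x, (S j).w z.1 x * W (lin (κ j ((S j).π z.1)) z.2 x)) ^ (e + 1)
          ∂((S j).P.prod (gM (K j)))) -
      𝓐.Q e c (fun _ => 1) (fun i => heat τ (A i)) (heat τ fun x => 1 - W x)| ≤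
      Dr C α (Fintype.card δ) e * ε + η := by
  have hC0 : 0 < C := by linarith
  have hWm : Measurable W :=
    (continuous_iff_continuousAt.2 fun x => (hW.1 x).continuousAt).measurable
  have hbm : ∀ i, BM (A i) := fun i =>
    ⟨(continuous_iff_continuousAt.2 fun x => ((hA i).1 x).continuousAt).measurable, C,
      (hA i).2.2.2.1⟩
  have hv1 : ∀ x, |1 - W x| ≤ α := fun x => by
    rw [abs_le]; constructor <;> linarith [hWa x, hW1 x]
  have hv : (∀ x, HasDerivAt (fun x => 1 - W x) (- W' x) x) ∧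
      (∀ x, HasDerivAt (fun x => - W' x) (- W'' x) x) ∧
      Continuous (fun x => - W'' x) ∧ (∀ x, |1 - W x| ≤ α) ∧ (∀ x, |- W' x| ≤ C) ∧
        ∀ x, |- W'' x| ≤ C := by
    refine ⟨fun x => ?_, fun x => (hW.2.1 x).neg, hW.2.2.1.neg, hv1, fun x => ?_, fun x => ?_⟩
    · have := (hW.1 x).const_sub 1
      exact this
    · rw [abs_neg]; exact hW.2.2.2.2.1 x
    · rw [abs_neg]; exact hW.2.2.2.2.2 x
  have h1 := sum_lim (U := (U : Filter ℕ))
    (x := fun j n => ((n + e).choose e : ℝ) * (S j).avT (fun ω (x : δ ⊕ Fin n → (S j).X) =>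
        Φ j ((S j).π ω) (fun i => x (Sum.inl i)) *
        gE (fun a => κ j ((S j).π ω) (x a)) (fam A fun x => 1 - W x)))
    (y := fun n => ((n + e).choose e : ℝ) *
      𝓐.T c (fun _ => 1) (fun i => heat τ (A i)) (heat τ fun x => 1 - W x) (Fin n))
    (B := fun n => C ^ Fintype.card δ * (((n + e).choose e : ℝ) * α ^ n))
    (D := fun n => ((n + e).choose e : ℝ) *
      (C ^ (Fintype.card δ + 2) / α ^ 2 * α ^ n * (1 / 2 * ((Fintype.card δ : ℝ) + n) ^ 2)))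
    hε ((summable_choose_pow e hα0 hα1).mul_left _) (summable_Dr hC0.le hα0 hα1 _ e)
    (fun j n => by
      rw [abs_mul, Nat.abs_cast]
      have := term_bound (S j) (hκ.meas j) (hΦm j) (hΦ j) (A := A) (v := fun x => 1 - W x)
        (fun i => (hbm i).meas) (fun i => (hA i).2.2.2.1) (measurable_const.sub hWm) hv1 n
      calc _ ≤ ((n + e).choose e : ℝ) * (C ^ Fintype.card δ * α ^ n) :=
            mul_le_mul_of_nonneg_left this (Nat.cast_nonneg _)
        _ = _ := by ring)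
    (fun n => by
      rw [abs_mul, Nat.abs_cast]
      have := 𝓐.T_le c (χ := fun _ => 1) (X := 1) (fun _ => by simp)
        (A := fun i => heat τ (A i)) (v := heat τ fun x => 1 - W x) (C := C) (a := α)
        (fun i => heat_le (hA i).2.2.2.1) (heat_le hv1) n
      rw [h𝓐1, one_mul, one_mul] at this
      calc _ ≤ ((n + e).choose e : ℝ) * (C ^ Fintype.card δ * α ^ n) :=
            mul_le_mul_of_nonneg_left this (Nat.cast_nonneg _)
        _ = _ := by ring)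
    (fun n => by positivity)
    (fun n η hη => by
      have hch : (0 : ℝ) < ((n + e).choose e : ℝ) := by
        exact_mod_cast Nat.choose_pos (Nat.le_add_left e n)
      have := term_lim hL hc hτ hκ hΦm hΦ h𝓐 hC hα0 hα1.le hA hv n
        (η / ((n + e).choose e : ℝ)) (by positivity)
      filter_upwards [this] with j hj
      rw [← mul_sub, abs_mul, Nat.abs_cast]
      calc _ ≤ ((n + e).choose e : ℝ) * _ := mul_le_mul_of_nonneg_left hj hch.le
        _ = _ := by field_simp)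
  intro η hη
  filter_upwards [h1 η hη] with j hj
  rw [ratio_eq (S j) (hκ.meas j) (hΦm j) (hΦ j) hbm hWm ha hWa hW1 e]
  exact hj

end Limit

/-- Transfer of a logarithm to the limiting array. -/
theorem log_lim {U : Ultrafilter ℕ} {S : ℕ → Sys} {k : ℕ} {b : Fin k → ℝ} {w : Fin (k + 1) → ℝ}
    (hL : LimData U S b w) {c : Fin (k + 1) → ℝ} (hc : ∀ l, 0 ≤ c l) {τ ε B : ℝ} (hτ : 0 ≤ τ)
    (hε : 0 ≤ ε)
    {K : ℕ → Type} [∀ j, Fintype (K j)] [∀ j, DecidableEq (K j)]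
    {κ : ∀ j, (S j).T → (S j).X → K j → ℝ} (hκ : KerClose U S b c τ ε B κ)
    {𝓐 : Arr k w Empty} (h𝓐1 : 𝓐.C = 1) (h𝓐 : ∀ (ι : Type) [Fintype ι] [DecidableEq ι]
      (A : LM k (Empty ⊕ ι) → ℝ), Tendsto (fun j => (S j).avT
        (fun ω (x : Empty ⊕ ι → (S j).X) => (fun _ _ _ => (1 : ℝ)) j ((S j).π ω)
          (fun i => x (Sum.inl i)) *
          A ((S j).LMat b x))) U (𝓝 (𝓐.E ι A)))
    {W W' W'' : ℝ → ℝ}
    {C α a : ℝ} (hC : 1 ≤ C) (ha : 0 < a) (haα : 1 - a ≤ α) (hα0 : 0 < α) (hα1 : α < 1)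
    (hW : SB C W W' W'') (hWa : ∀ x, a ≤ W x) (hW1 : ∀ x, W x ≤ 1) :
    ∀ η > 0, ∀ᶠ j in (U : Filter ℕ),
      |(∫ z : (S j).Ω × (K j → ℝ), Real.log
        (∑ x, (S j).w z.1 x * W (lin (κ j ((S j).π z.1)) z.2 x)) ∂((S j).P.prod (gM (K j)))) +
      𝓐.Lg c (heat τ fun x => 1 - W x)| ≤ Dl C α * ε + η := by
  have hC0 : 0 < C := by linarith
  have hWm : Measurable W :=
    (continuous_iff_continuousAt.2 fun x => (hW.1 x).continuousAt).measurable
  have hv1 : ∀ x, |1 - W x| ≤ α := fun x => by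
    rw [abs_le]; constructor <;> linarith [hWa x, hW1 x]
  have hv : (∀ x, HasDerivAt (fun x => 1 - W x) (- W' x) x) ∧
      (∀ x, HasDerivAt (fun x => - W' x) (- W'' x) x) ∧
      Continuous (fun x => - W'' x) ∧ (∀ x, |1 - W x| ≤ α) ∧ (∀ x, |- W' x| ≤ C) ∧
        ∀ x, |- W'' x| ≤ C := by
    refine ⟨fun x => ?_, fun x => (hW.2.1 x).neg, hW.2.2.1.neg, hv1, fun x => ?_, fun x => ?_⟩
    · have := (hW.1 x).const_sub 1
      exact this
    · rw [abs_neg]; exact hW.2.2.2.2.1 x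
    · rw [abs_neg]; exact hW.2.2.2.2.2 x
  have hAe : ∀ i : Empty, SB C (noA i) (noA i) (noA i) := fun i => i.elim
  have hnoA : (fun i => heat τ (noA i)) = noA := funext fun i => i.elim
  have hinv : ∀ n : ℕ, 0 < 1 / ((n : ℝ) + 1) ∧ 1 / ((n : ℝ) + 1) ≤ 1 := fun n =>
    ⟨by positivity, by rw [div_le_one (by positivity)]; linarith [Nat.cast_nonneg (α := ℝ) n]⟩
  have h1 := sum_lim (U := (U : Filter ℕ))
    (x := fun j n => 1 / ((n : ℝ) + 1) * (S j).avT (fun ω (x : Empty ⊕ Fin (n + 1) → (S j).X) =>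
        (fun _ _ => (1 : ℝ)) ((S j).π ω) (fun i => x (Sum.inl i)) *
        gE (fun a => κ j ((S j).π ω) (x a)) (fam noA fun x => 1 - W x)))
    (y := fun n => 1 / ((n : ℝ) + 1) *
      𝓐.T c (fun _ => 1) noA (heat τ fun x => 1 - W x) (Fin (n + 1)))
    (B := fun n => α ^ n)
    (D := fun n => C ^ 2 / α ^ 2 * α ^ (n + 1) * (1 / 2 * ((n : ℝ) + 1) ^ 2))
    hε (summable_geometric_of_lt_one hα0.le hα1) (summable_Dl hC0.le hα0 hα1)
    (fun j n => by
      rw [abs_mul, abs_of_pos (hinv n).1]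
      have := term_bound (S j) (hκ.meas j) (δ := Empty) (Φ := fun _ _ => (1 : ℝ))
        (fun _ => measurable_const) (fun _ _ => by simp) (A := noA) (v := fun x => 1 - W x)
        (C := C) (fun i => i.elim) (fun i => i.elim) (measurable_const.sub hWm) hv1 (n + 1)
      rw [Fintype.card_empty, pow_zero, one_mul] at this
      calc _ ≤ 1 * α ^ (n + 1) :=
            mul_le_mul (hinv n).2 this (abs_nonneg _) zero_le_one
        _ = α ^ n * α := by ring
        _ ≤ α ^ n := mul_le_of_le_one_right (by positivity) hα1.le)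
    (fun n => by
      rw [abs_mul, abs_of_pos (hinv n).1]
      have := 𝓐.T_empty_le c (v := heat τ fun x => 1 - W x) (heat_le hv1) (n + 1)
      rw [h𝓐1, one_mul] at this
      calc _ ≤ 1 * α ^ (n + 1) :=
            mul_le_mul (hinv n).2 this (abs_nonneg _) zero_le_one
        _ = α ^ n * α := by ring
        _ ≤ α ^ n := mul_le_of_le_one_right (by positivity) hα1.le)
    (fun n => by positivity)
    (fun n η hη => by
      have := term_lim hL hc hτ hκ (Φ := fun _ _ _ => (1 : ℝ)) (fun _ _ => measurable_const)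
        (fun _ _ _ => by simp) h𝓐 hC hα0 hα1.le hAe hv (n + 1) η hη
      rw [hnoA] at this
      filter_upwards [this] with j hj
      rw [← mul_sub, abs_mul, abs_of_pos (hinv n).1]
      calc _ ≤ 1 * _ := mul_le_mul (hinv n).2 hj (abs_nonneg _) zero_le_one
        _ = _ := by
          rw [Fintype.card_empty]
          push_cast
          ring)
  intro η hη
  filter_upwards [h1 η hη] with j hj
  rw [log_eq (S j) (hκ.meas j) hWm ha hWa hW1, neg_add_eq_sub, abs_sub_comm]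
  exact hj

end Vale.Agent.P157.Par
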