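import Vale.Agent.P157.ParTrans5

open MeasureTheory ProbabilityTheory Filter Topology Finset

namespace Vale.Agent.P157.Par

set_option linter.unusedSectionVars false

open Vale.Agent.P367.GT (gM)

/-- The weight after integration of the top increment. -/
noncomputable def topW (τ : ℝ) (W : ℝ → ℝ) : ℝ → ℝ := heat τ W

/-- The observable after integration of the top increment. -/
noncomputable def toph (τ : ℝ) (W h : ℝ → ℝ) : ℝ → ℝ := fun x =>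
  heat τ (fun y => h y * W y) x / heat τ W x

lemma topW_eq (τ : ℝ) (W : ℝ → ℝ) : topW τ W = flowW 1 τ W 0 := by
  funext x
  simp only [topW, flowW, sub_zero, Real.rpow_one, div_one]

lemma toph_eq (τ : ℝ) (W h : ℝ → ℝ) : toph τ W h = flowh 1 τ W h 0 := by
  funext x
  simp only [toph, flowh, sub_zero, Real.rpow_one]

section

variable {W : ℝ → ℝ} {a : ℝ}

lemma topW_spec (τ : ℝ) (ha : 0 < a) (hW : ∃ W' W'', CB2 W W' W'') (hWa : ∀ x, a ≤ W x)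
    (hW1 : ∀ x, W x ≤ 1) :
    (∃ V' V'', CB2 (topW τ W) V' V'') ∧ (∀ x, a ≤ topW τ W x) ∧ ∀ x, topW τ W x ≤ 1 := by
  obtain ⟨W', W'', hW⟩ := hW
  rw [topW_eq]
  refine ⟨flowW_cb2 one_pos ha hW hWa hW1, fun x => ?_, fun x => ?_⟩
  · exact (flowW_mem one_pos ha hW.cont.measurable hWa hW1 x).1
  · exact (flowW_mem one_pos ha hW.cont.measurable hWa hW1 x).2

lemma toph_spec (τ : ℝ) (ha : 0 < a) (hW : ∃ W' W'', CB2 W W' W'') (hWa : ∀ x, a ≤ W x)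
    (hW1 : ∀ x, W x ≤ 1) {h : ℝ → ℝ} (hh : ∃ h' h'', CB2 h h' h'') :
    ∃ h' h'', CB2 (toph τ W h) h' h'' := by
  obtain ⟨W', W'', hW⟩ := hW
  obtain ⟨h', h'', hh⟩ := hh
  rw [toph_eq]
  exact flowh_cb2 one_pos ha hW hWa hW1 hh

lemma heat_one_sub (τ : ℝ) (hWm : Measurable W) (ha : 0 < a) (hWa : ∀ x, a ≤ W x)
    (hW1 : ∀ x, W x ≤ 1) : heat τ (fun x => 1 - W x) = fun x => 1 - topW τ W x := by
  funext x
  have h1 : ∀ x, |W x| ≤ 1 := fun x => by rw [abs_le]; constructor <;> linarith [hWa x, hW1 x]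
  have h2 := integrable_heat hWm h1 τ x
  unfold heat topW heat
  rw [integral_sub (integrable_const _) h2]
  simp

lemma heat_mul_eq (τ : ℝ) (ha : 0 < a) (hW : ∃ W' W'', CB2 W W' W'') (hWa : ∀ x, a ≤ W x)
    (hW1 : ∀ x, W x ≤ 1) (h : ℝ → ℝ) :
    heat τ (fun y => h y * W y) = fun x => toph τ W h x * topW τ W x := by
  funext x
  have h1 := (topW_spec τ ha hW hWa hW1).2.1 x
  have h2 : topW τ W x ≠ 0 := (lt_of_lt_of_le ha h1).ne'
  unfold toph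
  unfold topW at h2 ⊢
  field_simp

end

/-- Decomposition along the level of a pair. -/
lemma Q_split {k : ℕ} {w : Fin (k + 1) → ℝ} {δ : Type} [Fintype δ] [DecidableEq δ]
    (𝓐 : Arr k w δ) (e : ℕ) (c : Fin (k + 1) → ℝ) (i₀ j₀ : δ) {A : δ → ℝ → ℝ} {v : ℝ → ℝ}
    (hA : ∀ i, BM (A i)) {a : ℝ} (ha0 : 0 ≤ a) (ha : a < 1) (hv : ∀ x, |v x| ≤ a) :
    𝓐.Q e c (fun _ => 1) A v =
      ∑ l, 𝓐.Q e c (fun L => if L i₀ j₀ = l then 1 else 0) A v := by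
  unfold Arr.Q
  rw [← Summable.tsum_finsetSum fun l _ => 𝓐.Q_summable e c _ hA ha0 ha hv]
  congr 1
  funext n
  rw [← Finset.mul_sum]
  congr 1
  unfold Arr.T
  rw [← map_sum]
  congr 1
  funext L
  rw [Finset.sum_apply, ← Finset.sum_mul]
  have h1 : ∑ l, (if Arr.res L i₀ j₀ = l then (1 : ℝ) else 0) = 1 := by
    rw [Finset.sum_ite_eq, if_pos (Finset.mem_univ _)]
  rw [h1]

section Final

variable {U : Ultrafilter ℕ} {S : ℕ → Sys} {k : ℕ} {b : Fin k → ℝ} {w : Fin (k + 1) → ℝ}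
  (hL : LimData U S b w) {m v : ℕ → ℝ} (hv : ∀ l, 0 ≤ v l)
  (hm : ∀ l, 1 ≤ l → l ≤ k → 0 < m l) (hmw : ∀ l : Fin (k + 1), Arr.up w l = 1 - m l)
  {τ ε B : ℝ} (hτ : 0 ≤ τ) (hε : 0 ≤ ε)
  {K : ℕ → Type} [∀ j, Fintype (K j)] [∀ j, DecidableEq (K j)]
  {κ : ∀ j, (S j).T → (S j).X → K j → ℝ} (hκ : KerClose U S b (cut v k) τ ε B κ)
  {W W' W'' : ℝ → ℝ} {C α a : ℝ} (hC : 1 ≤ C) (ha : 0 < a) (haα : 1 - a ≤ α) (hα0 : 0 < α)
  (hα1 : α < 1) (hW : SB C W W' W'') (hWa : ∀ x, a ≤ W x) (hW1 : ∀ x, W x ≤ 1)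

lemma SB.cb2 {C : ℝ} {A A' A'' : ℝ → ℝ} (h : SB C A A' A'') : CB2 A A' A'' :=
  ⟨h.1, h.2.1, h.2.2.1, ⟨C, h.2.2.2.1⟩, ⟨C, h.2.2.2.2.1⟩, ⟨C, h.2.2.2.2.2⟩⟩

include hL hv hm hmw hτ hε hκ hC ha haα hα0 hα1 hW hWa hW1

/-- Transfer of the logarithm of an average. -/
theorem trans_log :
    ∀ η > 0, ∀ᶠ j in (U : Filter ℕ),
      |(∫ z : (S j).Ω × (K j → ℝ), Real.log
        (∑ x, (S j).w z.1 x * W (lin (κ j ((S j).π z.1)) z.2 x)) ∂((S j).P.prod (gM (K j)))) -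
      ∫ z, Real.log (lvW m v k (topW τ W) 0 (√(v 0) * z)) ∂(gaussianReal 0 1)| ≤
        Dl C α * ε + η := by
  obtain ⟨𝓐, h𝓐1, h𝓐⟩ := exists_arr hL.gg hL.mono hL.b0 hL.b1 hL.na hL.lim
    (δ := Empty) (fun _ _ _ => (1 : ℝ)) (fun _ _ => measurable_const) (fun _ _ _ => by simp)
  have h1 := log_lim hL (cut_nonneg hv k) hτ hε hκ h𝓐1 h𝓐 hC ha haα hα0 hα1 hW hWa hW1
  have hWc : ∃ W' W'', CB2 W W' W'' := ⟨W', W'', hW.cb2⟩
  have hspec := topW_spec τ ha hWc hWa hW1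
  have hE1 : 𝓐.E (Fin 1) (fun _ => 1) = 1 := by
    have h2 := h𝓐 (Fin 1) (fun _ => 1)
    have h3 : (fun j => (S j).avT (fun _ (_ : Empty ⊕ Fin 1 → (S j).X) => (1 : ℝ) * 1)) =
        fun _ => (1 : ℝ) := by
      funext j
      rw [(S j).avT_const, mul_one]
    have h4 : Tendsto (fun _ : ℕ => (1 : ℝ)) U (𝓝 (𝓐.E (Fin 1) (fun _ => 1))) := by
      rw [← h3]
      exact h2
    exact tendsto_nhds_unique h4 tendsto_const_nhds
  have h2 := 𝓐.Lg_eval hL.wsum hv hm hmw ha hspec.1 hspec.2.1 hspec.2.2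
  rw [heat_one_sub τ hW.cb2.cont.measurable ha hWa hW1, h2, hE1, one_mul] at h1
  intro η hη
  filter_upwards [h1 η hη] with j hj
  rw [sub_eq_add_neg]
  exact hj

variable {h h' h'' : ℝ → ℝ} (hh : CB2 h h' h'') {A' A'' : ℝ → ℝ}
  (hA : SB C (fun x => h x * W x) A' A'')

include hh hA

/-- Transfer of an average of one replica. -/
theorem trans_one {Φ : ∀ j, (S j).T → (Fin 1 → (S j).X) → ℝ}
    (hΦm : ∀ j x, Measurable fun t => Φ j t x) (hΦ : ∀ j t x, |Φ j t x| ≤ 1) :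
    ∀ η > 0, ∀ᶠ j in (U : Filter ℕ),
      |(∫ z : (S j).Ω × (K j → ℝ), (∑ x : Fin 1 → (S j).X, Φ j ((S j).π z.1) x *
        ∏ i, ((S j).w z.1 (x i) * (h (lin (κ j ((S j).π z.1)) z.2 (x i)) *
          W (lin (κ j ((S j).π z.1)) z.2 (x i))))) /
        (∑ x, (S j).w z.1 x * W (lin (κ j ((S j).π z.1)) z.2 x)) ^ 1
          ∂((S j).P.prod (gM (K j)))) -
      (S j).avT (fun ω (x : Fin 1 → (S j).X) => Φ j ((S j).π ω) x) *
        ∫ z, lvh m v (lvW m v k (topW τ W)) k (toph τ W h) 0 (√(v 0) * z) ∂(gaussianReal 0 1)| ≤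
        Dr C α 1 0 * ε + η := by
  obtain ⟨𝓐, h𝓐1, h𝓐⟩ := exists_arr hL.gg hL.mono hL.b0 hL.b1 hL.na hL.lim Φ hΦm hΦ
  have h1 := ratio_lim hL (cut_nonneg hv k) hτ hε hκ hΦm hΦ h𝓐1 h𝓐
    (A := fun _ x => h x * W x) (A' := fun _ => A') (A'' := fun _ => A'') hC ha haα hα0 hα1
    (fun _ => hA) hW hWa hW1 0
  have hWc : ∃ W' W'', CB2 W W' W'' := ⟨W', W'', hW.cb2⟩
  have hspec := topW_spec τ ha hWc hWa hW1
  have hhs := toph_spec τ ha hWc hWa hW1 (h := h) ⟨h', h'', hh⟩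
  have h2 := 𝓐.Q_eval_one (by simp) hL.wsum hv hm hmw ha hspec.1 hspec.2.1 hspec.2.2
    (fun _ => 1) hhs
  simp only [heat_one_sub τ hW.cb2.cont.measurable ha hWa hW1,
    heat_mul_eq τ ha hWc hWa hW1 h] at h1
  rw [h2] at h1
  set I := ∫ z, lvh m v (lvW m v k (topW τ W)) k (toph τ W h) 0 (√(v 0) * z) ∂(gaussianReal 0 1)
    with hI
  -- the average of the test function
  have h3 := h𝓐 (Fin 0) (fun _ => 1)
  have h4 : Tendsto (fun j => (S j).avT (fun ω (x : Fin 1 → (S j).X) => Φ j ((S j).π ω) x)) U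
      (𝓝 (𝓐.E (Fin 0) (fun _ => 1))) := by
    refine h3.congr fun j => ?_
    rw [← (S j).avT_comp (J := Fin 1) (J' := Fin 1 ⊕ Fin 0) Sum.inl Sum.inl_injective
      (fun t x => Φ j t x)]
    congr 1
    funext ω x
    rw [mul_one]
  have h5 := (h4.sub_const (𝓐.E (Fin 0) (fun _ => 1))).mul_const I
  rw [sub_self, zero_mul] at h5
  intro η hη
  filter_upwards [h1 (η / 2) (by positivity), (Metric.tendsto_nhds.1 h5) (η / 2) (by positivity)]
    with j hj1 hj2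
  rw [Real.dist_eq, sub_zero] at hj2
  rw [Fintype.card_fin] at hj1
  have e1 : ∀ X Y Z : ℝ, X - Y * I = (X - Z * I) - (Y - Z) * I := fun X Y Z => by ring
  rw [e1 _ _ (𝓐.E (Fin 0) (fun _ => 1))]
  refine (abs_sub _ _).trans ?_
  linarith

/-- Transfer of an average of two replicas. -/
theorem trans_two {Φ : ∀ j, (S j).T → (Fin 2 → (S j).X) → ℝ}
    (hΦm : ∀ j x, Measurable fun t => Φ j t x) (hΦ : ∀ j t x, |Φ j t x| ≤ 1) :
    ∀ η > 0, ∀ᶠ j in (U : Filter ℕ),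
      |(∫ z : (S j).Ω × (K j → ℝ), (∑ x : Fin 2 → (S j).X, Φ j ((S j).π z.1) x *
        ∏ i, ((S j).w z.1 (x i) * (h (lin (κ j ((S j).π z.1)) z.2 (x i)) *
          W (lin (κ j ((S j).π z.1)) z.2 (x i))))) /
        (∑ x, (S j).w z.1 x * W (lin (κ j ((S j).π z.1)) z.2 x)) ^ 2
          ∂((S j).P.prod (gM (K j)))) -
      (S j).avT (fun ω (x : Fin 2 → (S j).X) => Φ j ((S j).π ω) x *
        Arr.pairVal m v k (topW τ W) (toph τ W h) (lev b ((S j).R (x 0) (x 1))))| ≤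
        Dr C α 2 1 * ε + η := by
  obtain ⟨𝓐, h𝓐1, h𝓐⟩ := exists_arr hL.gg hL.mono hL.b0 hL.b1 hL.na hL.lim Φ hΦm hΦ
  have h1 := ratio_lim hL (cut_nonneg hv k) hτ hε hκ hΦm hΦ h𝓐1 h𝓐
    (A := fun _ x => h x * W x) (A' := fun _ => A') (A'' := fun _ => A'') hC ha haα hα0 hα1
    (fun _ => hA) hW hWa hW1 1
  have hWc : ∃ W' W'', CB2 W W' W'' := ⟨W', W'', hW.cb2⟩
  have hspec := topW_spec τ ha hWc hWa hW1
  have hhs := toph_spec τ ha hWc hWa hW1 (h := h) ⟨h', h'', hh⟩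
  simp only [heat_one_sub τ hW.cb2.cont.measurable ha hWa hW1,
    heat_mul_eq τ ha hWc hWa hW1 h] at h1
  have h2 : 𝓐.Q 1 (cut v k) (fun _ => 1) (fun _ x => toph τ W h x * topW τ W x)
      (fun x => 1 - topW τ W x) = 𝓐.E (Fin 0) (fun L =>
        Arr.pairVal m v k (topW τ W) (toph τ W h) (L (Sum.inl 0) (Sum.inl 1))) := by
    rw [Q_split 𝓐 1 (cut v k) 0 1 (a := 1 - a) (fun i => ?_) (by linarith [hWa 0, hW1 0])
      (by linarith) (fun x => ?_)]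
    · have h3 := fun l => 𝓐.Q_eval_two (by simp) (i₀ := (0 : Fin 2)) (j₀ := 1) (by simp) hL.wsum hv
        hm hmw ha hspec.1 hspec.2.1 hspec.2.2 hhs l
      rw [Finset.sum_congr rfl fun l _ => h3 l]
      have h4 : ∀ l, 𝓐.E (Fin 0) (fun L => if L (Sum.inl 0) (Sum.inl 1) = l then 1 else 0) *
          Arr.pairVal m v k (topW τ W) (toph τ W h) l =
          𝓐.E (Fin 0) (fun L => if L (Sum.inl 0) (Sum.inl 1) = l then
            Arr.pairVal m v k (topW τ W) (toph τ W h) l else 0) := by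
        intro l
        rw [mul_comm, ← smul_eq_mul, ← map_smul]
        congr 1
        funext L
        rw [Pi.smul_apply, smul_eq_mul, mul_ite, mul_one, mul_zero]
      rw [Finset.sum_congr rfl fun l _ => h4 l, ← map_sum]
      congr 1
      funext L
      rw [Finset.sum_apply]
      simp
    · obtain ⟨p', p'', hp⟩ := hhs
      obtain ⟨q', q'', hq⟩ := hspec.1
      exact BM.mul ⟨hp.cont.measurable, hp.b0⟩ ⟨hq.cont.measurable, hq.b0⟩
    · rw [abs_le]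
      constructor <;> linarith [hspec.2.1 x, hspec.2.2 x]
  rw [h2] at h1
  -- the average of the test function
  have h3 := h𝓐 (Fin 0) (fun L => Arr.pairVal m v k (topW τ W) (toph τ W h) (L (Sum.inl 0) (Sum.inl 1)))
  have h4 : Tendsto (fun j => (S j).avT (fun ω (x : Fin 2 → (S j).X) => Φ j ((S j).π ω) x *
        Arr.pairVal m v k (topW τ W) (toph τ W h) (lev b ((S j).R (x 0) (x 1))))) U
      (𝓝 (𝓐.E (Fin 0) (fun L =>
        Arr.pairVal m v k (topW τ W) (toph τ W h) (L (Sum.inl 0) (Sum.inl 1))))) := by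
    refine h3.congr fun j => ?_
    rw [← (S j).avT_comp (J := Fin 2) (J' := Fin 2 ⊕ Fin 0) Sum.inl Sum.inl_injective
      (fun t x => Φ j t x * Arr.pairVal m v k (topW τ W) (toph τ W h) (lev b ((S j).R (x 0) (x 1))))]
    congr 1
  intro η hη
  filter_upwards [h1 (η / 2) (by positivity), (Metric.tendsto_nhds.1 h4) (η / 2) (by positivity)]
    with j hj1 hj2
  rw [Real.dist_eq] at hj2
  rw [Fintype.card_fin] at hj1
  have e1 := abs_sub_le (∫ z : (S j).Ω × (K j → ℝ), (∑ x : Fin 2 → (S j).X, Φ j ((S j).π z.1) x *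
        ∏ i, ((S j).w z.1 (x i) * (h (lin (κ j ((S j).π z.1)) z.2 (x i)) *
          W (lin (κ j ((S j).π z.1)) z.2 (x i))))) /
        (∑ x, (S j).w z.1 x * W (lin (κ j ((S j).π z.1)) z.2 x)) ^ (1 + 1)
          ∂((S j).P.prod (gM (K j)))) (𝓐.E (Fin 0) (fun L =>
        Arr.pairVal m v k (topW τ W) (toph τ W h) (L (Sum.inl 0) (Sum.inl 1))))
        ((S j).avT (fun ω (x : Fin 2 → (S j).X) => Φ j ((S j).π ω) x *
        Arr.pairVal m v k (topW τ W) (toph τ W h) (lev b ((S j).R (x 0) (x 1)))))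
  rw [abs_sub_comm (𝓐.E _ _)] at e1
  linarith

end Final

end Vale.Agent.P157.Par
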