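import Vale.Agent.P157.ParRhoDefs

/-! Truncation of the two cavity terms. -/

open MeasureTheory ProbabilityTheory Filter Topology

namespace Vale.Agent.P157.Par

open Vale.Agent.P367.GT (gM)

/-! ### The truncated identity -/

lemma trn_hasDerivAt_tanh (x : ℝ) : HasDerivAt Real.tanh (1 - Real.tanh x ^ 2) x := by
  have hc : Real.cosh x ≠ 0 := (Real.cosh_pos x).ne'
  have h := (Real.hasDerivAt_sinh x).div (Real.hasDerivAt_cosh x) hc
  have e : Real.tanh = fun y => Real.sinh y / Real.cosh y := by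
    funext y; exact Real.tanh_eq_sinh_div_cosh y
  rw [e]
  refine HasDerivAt.congr_deriv h ?_
  field_simp

lemma trn_tanh_nonneg {x : ℝ} (hx : 0 ≤ x) : 0 ≤ Real.tanh x := by
  rw [Real.tanh_eq_sinh_div_cosh]
  exact div_nonneg (Real.sinh_nonneg_iff.2 hx) (Real.cosh_pos x).le

lemma trn_tanh_le_self {x : ℝ} (hx : 0 ≤ x) : Real.tanh x ≤ x := by
  have hd : ∀ y, HasDerivAt (fun y : ℝ => y - Real.tanh y) (1 - (1 - Real.tanh y ^ 2)) y :=
    fun y => (hasDerivAt_id y).sub (trn_hasDerivAt_tanh y)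
  have hm : MonotoneOn (fun y : ℝ => y - Real.tanh y) (Set.Ici 0) := by
    apply monotoneOn_of_deriv_nonneg (convex_Ici 0)
    · exact fun y _ => (hd y).continuousAt.continuousWithinAt
    · exact fun y _ => (hd y).differentiableAt.differentiableWithinAt
    · intro y _
      rw [(hd y).deriv]
      have := sq_nonneg (Real.tanh y)
      linarith
  have h := hm (Set.mem_Ici.2 le_rfl) (Set.mem_Ici.2 hx) hx
  simp only [Real.tanh_zero] at h
  linarith

lemma trn_self_sub_tanh_le {x : ℝ} (hx : 0 ≤ x) : x - Real.tanh x ≤ x ^ 3 / 3 := by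
  have hd : ∀ y, HasDerivAt (fun y : ℝ => y ^ 3 / 3 - (y - Real.tanh y))
      (y ^ 2 - (1 - (1 - Real.tanh y ^ 2))) y := by
    intro y
    have h1 : HasDerivAt (fun y : ℝ => y ^ 3 / 3) (y ^ 2) y :=
      HasDerivAt.congr_deriv ((hasDerivAt_pow 3 y).div_const 3) (by norm_num)
    exact h1.sub ((hasDerivAt_id y).sub (trn_hasDerivAt_tanh y))
  have hm : MonotoneOn (fun y : ℝ => y ^ 3 / 3 - (y - Real.tanh y)) (Set.Ici 0) := by
    apply monotoneOn_of_deriv_nonneg (convex_Ici 0)
    · exact fun y _ => (hd y).continuousAt.continuousWithinAt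
    · exact fun y _ => (hd y).differentiableAt.differentiableWithinAt
    · intro y hy
      rw [(hd y).deriv]
      have hy0 : 0 ≤ y := by simpa using (interior_subset hy)
      have h1 := trn_tanh_le_self hy0
      have h2 := trn_tanh_nonneg hy0
      nlinarith only [hy0, h1, h2]
  have h := hm (Set.mem_Ici.2 le_rfl) (Set.mem_Ici.2 hx) hx
  simp only [Real.tanh_zero] at h
  linarith

lemma trn_abs_tanh_le (x : ℝ) : |Real.tanh x| ≤ |x| := by
  rcases le_total 0 x with h | h
  · rw [abs_of_nonneg (trn_tanh_nonneg h), abs_of_nonneg h]; exact trn_tanh_le_self h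
  · have h' : 0 ≤ -x := by linarith
    have h1 := trn_tanh_le_self h'
    have h2 := trn_tanh_nonneg h'
    rw [Real.tanh_neg] at h1 h2
    rw [abs_of_nonpos (by linarith), abs_of_nonpos h]; exact h1

lemma trn_abs_sub_tanh_le (x : ℝ) : |x - Real.tanh x| ≤ |x| ^ 3 / 3 := by
  rcases le_total 0 x with h | h
  · rw [abs_of_nonneg (by linarith [trn_tanh_le_self h]), abs_of_nonneg h]; exact trn_self_sub_tanh_le h
  · have h' : 0 ≤ -x := by linarith
    have h1 := trn_tanh_le_self h'
    have h2 := trn_self_sub_tanh_le h'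
    rw [Real.tanh_neg] at h1 h2
    rw [abs_of_nonpos (by linarith), abs_of_nonpos h]; linarith

lemma abs_trn_le {T : ℝ} (hT : 0 < T) (y : ℝ) : |trn T y| ≤ |y| := by
  unfold trn
  rw [abs_mul, abs_of_pos hT]
  have h := trn_abs_tanh_le (y / T)
  rw [abs_div, abs_of_pos hT] at h
  calc T * |Real.tanh (y / T)| ≤ T * (|y| / T) := mul_le_mul_of_nonneg_left h hT.le
    _ = |y| := by field_simp

lemma abs_sub_trn_le {T : ℝ} (hT : 0 < T) (y : ℝ) : |y - trn T y| ≤ |y| ^ 3 / (3 * T ^ 2) := by
  unfold trn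
  have e : y - T * Real.tanh (y / T) = T * (y / T - Real.tanh (y / T)) := by
    field_simp
  rw [e, abs_mul, abs_of_pos hT]
  have h := trn_abs_sub_tanh_le (y / T)
  rw [abs_div, abs_of_pos hT] at h
  calc T * |y / T - Real.tanh (y / T)| ≤ T * ((|y| / T) ^ 3 / 3) :=
        mul_le_mul_of_nonneg_left h hT.le
    _ = |y| ^ 3 / (3 * T ^ 2) := by field_simp

lemma measurable_trn (T : ℝ) : Measurable (trn T) := by
  have h : Continuous Real.tanh :=
    continuous_iff_continuousAt.2 fun x => (trn_hasDerivAt_tanh x).continuousAt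
  unfold trn
  exact (h.comp (continuous_id.div_const T)).measurable.const_mul T

/-! ### Log-sums with probability weights -/

section det

variable {X : Type} [Fintype X]

lemma tr_logsum_abs_le {w : X → ℝ} (hw0 : ∀ x, 0 ≤ w x) (hw1 : ∑ x, w x = 1) (E : X → ℝ) :
    |Real.log (∑ x, w x * Real.exp (E x))| ≤ ∑ x, |E x| := by
  set M := ∑ x, |E x| with hM
  have hE : ∀ x, |E x| ≤ M := fun x => Finset.single_le_sum (f := fun x => |E x|)
    (fun x _ => abs_nonneg _) (Finset.mem_univ x)
  have h1 : Real.exp (-M) ≤ ∑ x, w x * Real.exp (E x) := by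
    calc Real.exp (-M) = ∑ x, w x * Real.exp (-M) := by rw [← Finset.sum_mul, hw1, one_mul]
      _ ≤ _ := Finset.sum_le_sum fun x _ => mul_le_mul_of_nonneg_left
        (Real.exp_le_exp.2 (by linarith [neg_abs_le (E x), hE x])) (hw0 x)
  have h2 : ∑ x, w x * Real.exp (E x) ≤ Real.exp M := by
    calc ∑ x, w x * Real.exp (E x) ≤ ∑ x, w x * Real.exp M :=
          Finset.sum_le_sum fun x _ => mul_le_mul_of_nonneg_left
            (Real.exp_le_exp.2 (by linarith [le_abs_self (E x), hE x])) (hw0 x)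
      _ = Real.exp M := by rw [← Finset.sum_mul, hw1, one_mul]
  have hS : 0 < ∑ x, w x * Real.exp (E x) := lt_of_lt_of_le (Real.exp_pos _) h1
  have l1 := Real.log_le_log (Real.exp_pos _) h1
  have l2 := Real.log_le_log hS h2
  rw [Real.log_exp] at l1 l2
  exact abs_le.2 ⟨l1, l2⟩

lemma tr_sum_pos {w : X → ℝ} (hw0 : ∀ x, 0 ≤ w x) (hw1 : ∑ x, w x = 1) {g : X → ℝ}
    (hg : ∀ x, 0 < g x) : 0 < ∑ x, w x * g x := by
  have h0 : ∀ x, 0 ≤ w x * g x := fun x => mul_nonneg (hw0 x) (hg x).le
  rcases (Finset.sum_nonneg fun x _ => h0 x : 0 ≤ ∑ x, w x * g x).lt_or_eq with h | h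
  · exact h
  · exfalso
    have h1 := (Finset.sum_eq_zero_iff_of_nonneg fun x _ => h0 x).1 h.symm
    have h2 : ∀ x, w x = 0 := fun x => by
      rcases mul_eq_zero.1 (h1 x (Finset.mem_univ x)) with h | h
      · exact h
      · exact absurd h (hg x).ne'
    simp [h2] at hw1

/-- Jensen for `log` with weights of mass `Q`. -/
lemma tr_jensen {w : X → ℝ} (hw0 : ∀ x, 0 ≤ w x) (hw1 : ∑ x, w x = 1) {g : X → ℝ}
    (hg : ∀ x, 0 < g x) (u : X → ℝ) :
    (∑ x, w x * (u x * g x)) / (∑ x, w x * g x) ≤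
      Real.log (∑ x, w x * (Real.exp (u x) * g x)) - Real.log (∑ x, w x * g x) := by
  set Q := ∑ x, w x * g x with hQ
  have hQ0 : 0 < Q := tr_sum_pos hw0 hw1 hg
  set m := (∑ x, w x * (u x * g x)) / Q with hm
  have h1 : Q * Real.exp m ≤ ∑ x, w x * (Real.exp (u x) * g x) := by
    have h2 : ∀ x, w x * g x * (Real.exp m * (u x - m + 1)) ≤ w x * (Real.exp (u x) * g x) := by
      intro x
      have h3 : Real.exp m * (u x - m + 1) ≤ Real.exp (u x) := by
        have h4 := Real.add_one_le_exp (u x - m)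
        calc Real.exp m * (u x - m + 1) ≤ Real.exp m * Real.exp (u x - m) :=
              mul_le_mul_of_nonneg_left h4 (Real.exp_pos _).le
          _ = Real.exp (u x) := by rw [← Real.exp_add]; congr 1; ring
      calc w x * g x * (Real.exp m * (u x - m + 1)) ≤ w x * g x * Real.exp (u x) :=
            mul_le_mul_of_nonneg_left h3 (mul_nonneg (hw0 x) (hg x).le)
        _ = _ := by ring
    have h5 : ∑ x, w x * g x * (Real.exp m * (u x - m + 1)) = Q * Real.exp m := by
      have e : ∀ x, w x * g x * (Real.exp m * (u x - m + 1)) =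
          Real.exp m * (w x * (u x * g x)) + Real.exp m * (1 - m) * (w x * g x) := by
        intro x; ring
      simp_rw [e]
      rw [Finset.sum_add_distrib, ← Finset.mul_sum, ← Finset.mul_sum, ← hQ]
      have : ∑ x, w x * (u x * g x) = m * Q := by rw [hm]; field_simp
      rw [this]; ring
    rw [← h5]
    exact Finset.sum_le_sum fun x _ => h2 x
  have h6 := Real.log_le_log (mul_pos hQ0 (Real.exp_pos _)) h1
  rw [Real.log_mul hQ0.ne' (Real.exp_pos _).ne', Real.log_exp] at h6
  linarith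

/-- The deterministic part of `trunc_cosh`. -/
lemma tr_cosh_det {w : X → ℝ} (hw0 : ∀ x, 0 ≤ w x) (hw1 : ∑ x, w x = 1) (B Y : X → ℝ) (b : ℝ)
    {T : ℝ} (hT : 0 < T) :
    b + Real.log (∑ x, w x * Real.exp (Real.log (Real.cosh (trn T (Y x))))) -
        ∑ x, w x * (|B x - b| * Real.cosh (Y x)) ≤
      Real.log (∑ x, w x * (Real.exp (B x) * Real.cosh (Y x))) := by
  have hG1 : ∀ x, 1 ≤ Real.cosh (trn T (Y x)) := fun x => Real.one_le_cosh _
  have hG0 : ∀ x, 0 < Real.cosh (trn T (Y x)) := fun x => Real.cosh_pos _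
  have hGY : ∀ x, Real.cosh (trn T (Y x)) ≤ Real.cosh (Y x) := fun x =>
    Real.cosh_le_cosh.2 (abs_trn_le hT (Y x))
  have e1 : ∀ x, Real.exp (Real.log (Real.cosh (trn T (Y x)))) = Real.cosh (trn T (Y x)) :=
    fun x => Real.exp_log (hG0 x)
  simp_rw [e1]
  set Q := ∑ x, w x * Real.cosh (trn T (Y x)) with hQ
  have hQ1 : 1 ≤ Q := by
    rw [← hw1, hQ]
    exact Finset.sum_le_sum fun x _ => by nlinarith only [hw0 x, hG1 x]
  have hJ := tr_jensen hw0 hw1 hG0 (fun x => B x - b)
  rw [← hQ] at hJ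
  -- lower bound of the quotient
  have h1 : -(∑ x, w x * (|B x - b| * Real.cosh (Y x))) ≤
      (∑ x, w x * ((B x - b) * Real.cosh (trn T (Y x)))) / Q := by
    have h2 : -(∑ x, w x * (|B x - b| * Real.cosh (Y x))) ≤
        ∑ x, w x * ((B x - b) * Real.cosh (trn T (Y x))) := by
      rw [← Finset.sum_neg_distrib]
      refine Finset.sum_le_sum fun x _ => ?_
      have h3 : -(|B x - b| * Real.cosh (Y x)) ≤ (B x - b) * Real.cosh (trn T (Y x)) := by
        have h4 := neg_abs_le (B x - b)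
        have h5 := mul_le_mul_of_nonneg_left (hGY x) (abs_nonneg (B x - b))
        have h6 := mul_le_mul_of_nonneg_right h4 (hG0 x).le
        linarith
      have h7 := mul_le_mul_of_nonneg_left h3 (hw0 x)
      linarith
    rcases le_total 0 (∑ x, w x * ((B x - b) * Real.cosh (trn T (Y x)))) with h | h
    · have h3 : 0 ≤ (∑ x, w x * ((B x - b) * Real.cosh (trn T (Y x)))) / Q :=
        div_nonneg h (by linarith)
      have h4 : 0 ≤ ∑ x, w x * (|B x - b| * Real.cosh (Y x)) :=
        Finset.sum_nonneg fun x _ => mul_nonneg (hw0 x)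
          (mul_nonneg (abs_nonneg _) (Real.cosh_pos _).le)
      linarith
    · have h3 : (∑ x, w x * ((B x - b) * Real.cosh (trn T (Y x)))) ≤
          (∑ x, w x * ((B x - b) * Real.cosh (trn T (Y x)))) / Q := by
        rw [le_div_iff₀ (by linarith)]
        nlinarith only [hQ1, h]
      linarith
  -- remove the truncation and the shift
  have h8 : b + Real.log (∑ x, w x * (Real.exp (B x - b) * Real.cosh (trn T (Y x)))) ≤
      Real.log (∑ x, w x * (Real.exp (B x) * Real.cosh (Y x))) := by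
    have hp : 0 < ∑ x, w x * (Real.exp (B x - b) * Real.cosh (trn T (Y x))) :=
      tr_sum_pos hw0 hw1 fun x => mul_pos (Real.exp_pos _) (hG0 x)
    have h9 : Real.exp b * (∑ x, w x * (Real.exp (B x - b) * Real.cosh (trn T (Y x)))) ≤
        ∑ x, w x * (Real.exp (B x) * Real.cosh (Y x)) := by
      rw [Finset.mul_sum]
      refine Finset.sum_le_sum fun x _ => ?_
      have e : Real.exp b * (w x * (Real.exp (B x - b) * Real.cosh (trn T (Y x)))) =
          w x * (Real.exp (B x) * Real.cosh (trn T (Y x))) := by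
        have : Real.exp (B x) = Real.exp b * Real.exp (B x - b) := by
          rw [← Real.exp_add]; congr 1; ring
        rw [this]; ring
      rw [e]
      exact mul_le_mul_of_nonneg_left
        (mul_le_mul_of_nonneg_left (hGY x) (Real.exp_pos _).le) (hw0 x)
    have h10 := Real.log_le_log (mul_pos (Real.exp_pos b) hp) h9
    rwa [Real.log_mul (Real.exp_pos _).ne' hp.ne', Real.log_exp] at h10
  linarith

lemma tr_abs_exp_sub_le (a c M : ℝ) (ha : a ≤ M) (hc : c ≤ M) :
    |Real.exp a - Real.exp c| ≤ |a - c| * Real.exp M := by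
  rcases le_total a c with h | h
  · rw [abs_of_nonpos (by linarith [Real.exp_le_exp.2 h]), abs_of_nonpos (by linarith)]
    have h1 := Real.add_one_le_exp (a - c)
    have h2 : Real.exp a = Real.exp c * Real.exp (a - c) := by
      rw [← Real.exp_add]; congr 1; ring
    have h3 := Real.exp_le_exp.2 hc
    have h4 := Real.exp_pos c
    rw [h2]
    nlinarith only [h, h3, h1, h4]
  · rw [abs_of_nonneg (by linarith [Real.exp_le_exp.2 h]), abs_of_nonneg (by linarith)]
    have h1 := Real.add_one_le_exp (c - a)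
    have h2 : Real.exp c = Real.exp a * Real.exp (c - a) := by
      rw [← Real.exp_add]; congr 1; ring
    have h3 := Real.exp_le_exp.2 ha
    have h4 := Real.exp_pos a
    rw [h2]
    nlinarith

/-- pointwise bound of the error terms -/
lemma tr_term_bound {u p q T : ℝ} (hT : 1 ≤ T) :
    |Real.exp (u + p) - Real.exp (trn T p)| * Real.exp |q| ≤
      |Real.exp u - 1| * ((Real.exp (2 * |p|) + Real.exp (2 * |q|)) / 2) +
        1 / T ^ 2 * (Real.exp (4 * |p|) + Real.exp (2 * |q|)) := by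
  have hT0 : 0 < T := by linarith
  have hp := abs_nonneg p
  have hq := abs_nonneg q
  have h1 : |Real.exp (u + p) - Real.exp (trn T p)| ≤
      |Real.exp u - 1| * Real.exp |p| + |p| ^ 3 / (3 * T ^ 2) * Real.exp |p| := by
    have e : Real.exp (u + p) - Real.exp (trn T p) =
        (Real.exp u - 1) * Real.exp p + (Real.exp p - Real.exp (trn T p)) := by
      rw [Real.exp_add]; ring
    rw [e]
    refine (abs_add_le _ _).trans (add_le_add ?_ ?_)
    · rw [abs_mul, abs_of_pos (Real.exp_pos p)]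
      exact mul_le_mul_of_nonneg_left (Real.exp_le_exp.2 (le_abs_self p)) (abs_nonneg _)
    · refine (tr_abs_exp_sub_le p (trn T p) |p| (le_abs_self p)
        ((le_abs_self _).trans (abs_trn_le hT0 p))).trans ?_
      exact mul_le_mul_of_nonneg_right (abs_sub_trn_le hT0 p) (Real.exp_pos _).le
  have h2 : Real.exp |p| * Real.exp |q| ≤ (Real.exp (2 * |p|) + Real.exp (2 * |q|)) / 2 := by
    have e1 : Real.exp (2 * |p|) = Real.exp |p| ^ 2 := by
      rw [← Real.exp_nat_mul]; norm_num
    have e2 : Real.exp (2 * |q|) = Real.exp |q| ^ 2 := by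
      rw [← Real.exp_nat_mul]; norm_num
    rw [e1, e2]
    linarith only [sq_nonneg (Real.exp |p| - Real.exp |q|)]
  have h3 : |p| ^ 3 ≤ 6 * Real.exp |p| := by
    have h := Real.pow_div_factorial_le_exp |p| hp 3
    have e : ((Nat.factorial 3 : ℕ) : ℝ) = 6 := by norm_num [Nat.factorial]
    rw [e] at h
    linarith only [h]
  have h4 : |p| ^ 3 / (3 * T ^ 2) * Real.exp |p| * Real.exp |q| ≤
      1 / T ^ 2 * (Real.exp (4 * |p|) + Real.exp (2 * |q|)) := by
    have e1 : Real.exp (4 * |p|) = (Real.exp |p| ^ 2) ^ 2 := by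
      rw [← pow_mul, ← Real.exp_nat_mul]; norm_num
    have e2 : Real.exp (2 * |q|) = Real.exp |q| ^ 2 := by
      rw [← Real.exp_nat_mul]; norm_num
    have h5 : 2 * (Real.exp |p| ^ 2 * Real.exp |q|) ≤ Real.exp (4 * |p|) + Real.exp (2 * |q|) := by
      rw [e1, e2]
      linarith only [sq_nonneg (Real.exp |p| ^ 2 - Real.exp |q|)]
    have h6 : |p| ^ 3 * (Real.exp |p| * Real.exp |q|) ≤
        6 * Real.exp |p| * (Real.exp |p| * Real.exp |q|) :=
      mul_le_mul_of_nonneg_right h3 (by positivity)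
    have h7 : |p| ^ 3 / (3 * T ^ 2) * Real.exp |p| * Real.exp |q| =
        1 / T ^ 2 * ((|p| ^ 3 * (Real.exp |p| * Real.exp |q|)) / 3) := by
      field_simp
    rw [h7]
    apply mul_le_mul_of_nonneg_left _ (by positivity)
    linarith only [h5, h6]
  calc |Real.exp (u + p) - Real.exp (trn T p)| * Real.exp |q|
      ≤ (|Real.exp u - 1| * Real.exp |p| + |p| ^ 3 / (3 * T ^ 2) * Real.exp |p|) *
        Real.exp |q| := mul_le_mul_of_nonneg_right h1 (Real.exp_pos _).le
    _ = |Real.exp u - 1| * (Real.exp |p| * Real.exp |q|) +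
        |p| ^ 3 / (3 * T ^ 2) * Real.exp |p| * Real.exp |q| := by ring
    _ ≤ _ := add_le_add (mul_le_mul_of_nonneg_left h2 (abs_nonneg _)) h4

/-- The deterministic part of `trunc_id`. -/
lemma tr_id_det {w : X → ℝ} (hw0 : ∀ x, 0 ≤ w x) (hw1 : ∑ x, w x = 1) (B Y : X → ℝ) (b : ℝ)
    {T : ℝ} (hT : 1 ≤ T) :
    Real.log (∑ x, w x * Real.exp (B x + Y x)) ≤
      b + Real.log (∑ x, w x * Real.exp (trn T (Y x))) +
        ∑ x, ∑ y, w x * w y * (|Real.exp (B x - b) - 1| *
          ((Real.exp (2 * |Y x|) + Real.exp (2 * |Y y|)) / 2) +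
          1 / T ^ 2 * (Real.exp (4 * |Y x|) + Real.exp (2 * |Y y|))) := by
  have hT0 : 0 < T := by linarith
  set p := ∑ x, w x * Real.exp (B x - b + Y x) with hp
  set q := ∑ x, w x * Real.exp (trn T (Y x)) with hq
  have hp0 : 0 < p := tr_sum_pos hw0 hw1 fun x => Real.exp_pos _
  have hq0 : 0 < q := tr_sum_pos hw0 hw1 fun x => Real.exp_pos _
  have e1 : ∑ x, w x * Real.exp (B x + Y x) = Real.exp b * p := by
    rw [hp, Finset.mul_sum]
    refine Finset.sum_congr rfl fun x _ => ?_
    have : Real.exp (B x + Y x) = Real.exp b * Real.exp (B x - b + Y x) := by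
      rw [← Real.exp_add]; congr 1; ring
    rw [this]; ring
  rw [e1, Real.log_mul (Real.exp_pos _).ne' hp0.ne', Real.log_exp]
  have h1 : Real.log p - Real.log q ≤ |p - q| * q⁻¹ := by
    have h2 : Real.log p - Real.log q = Real.log (p / q) := by
      rw [Real.log_div hp0.ne' hq0.ne']
    have h3 := Real.log_le_sub_one_of_pos (div_pos hp0 hq0)
    have h4 : p / q - 1 = (p - q) * q⁻¹ := by field_simp
    rw [h2]
    calc Real.log (p / q) ≤ (p - q) * q⁻¹ := by rw [← h4]; exact h3
      _ ≤ |p - q| * q⁻¹ := mul_le_mul_of_nonneg_right (le_abs_self _) (inv_nonneg.2 hq0.le)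
  have h2 : |p - q| ≤ ∑ x, w x * |Real.exp (B x - b + Y x) - Real.exp (trn T (Y x))| := by
    rw [hp, hq, ← Finset.sum_sub_distrib]
    refine (Finset.abs_sum_le_sum_abs _ _).trans (Finset.sum_le_sum fun x _ => ?_)
    rw [← mul_sub, abs_mul, abs_of_nonneg (hw0 x)]
  have h3 : q⁻¹ ≤ ∑ y, w y * Real.exp |Y y| := by
    refine (Lin.inv_sum_le hw0 hw1 (fun x => Real.exp_pos (trn T (Y x))) hq hq0).trans ?_
    refine Finset.sum_le_sum fun y _ => mul_le_mul_of_nonneg_left ?_ (hw0 y)
    rw [← Real.exp_neg]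
    exact Real.exp_le_exp.2 ((neg_le_abs _).trans (abs_trn_le hT0 _))
  have h4 : |p - q| * q⁻¹ ≤
      (∑ x, w x * |Real.exp (B x - b + Y x) - Real.exp (trn T (Y x))|) *
        ∑ y, w y * Real.exp |Y y| :=
    mul_le_mul h2 h3 (inv_nonneg.2 hq0.le)
      (Finset.sum_nonneg fun x _ => mul_nonneg (hw0 x) (abs_nonneg _))
  have h5 : (∑ x, w x * |Real.exp (B x - b + Y x) - Real.exp (trn T (Y x))|) *
        (∑ y, w y * Real.exp |Y y|) ≤
      ∑ x, ∑ y, w x * w y * (|Real.exp (B x - b) - 1| *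
          ((Real.exp (2 * |Y x|) + Real.exp (2 * |Y y|)) / 2) +
          1 / T ^ 2 * (Real.exp (4 * |Y x|) + Real.exp (2 * |Y y|))) := by
    rw [Finset.sum_mul_sum]
    refine Finset.sum_le_sum fun x _ => Finset.sum_le_sum fun y _ => ?_
    have h6 := tr_term_bound (u := B x - b) (p := Y x) (q := Y y) hT
    calc w x * |Real.exp (B x - b + Y x) - Real.exp (trn T (Y x))| * (w y * Real.exp |Y y|) =
          w x * w y * (|Real.exp (B x - b + Y x) - Real.exp (trn T (Y x))| * Real.exp |Y y|) := by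
          ring
      _ ≤ _ := mul_le_mul_of_nonneg_left h6 (mul_nonneg (hw0 x) (hw0 y))
  linarith only [h1, h4, h5]

end det

/-! ### Integrated versions -/

section TRUNC

variable {X K : Type} [Fintype X] [Fintype K] [DecidableEq K]

omit [Fintype X] [DecidableEq K] in
lemma tr_measurable_lin (κ : X → K → ℝ) (x : X) : Measurable fun z : K → ℝ => lin κ z x := by
  unfold lin; fun_prop

omit [Fintype X] in
lemma tr_integrable_lin (κ : X → K → ℝ) (x : X) :
    Integrable (fun z : K → ℝ => lin κ z x) (gM K) := by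
  have h := Cube.integrable_lin (Y := Unit) (K := K) (fun _ => κ x) ()
  exact h

omit [Fintype X] in
lemma tr_exp_lin (κ : X → K → ℝ) (x : X) (t : ℝ) :
    Integrable (fun z : K → ℝ => Real.exp (t * lin κ z x)) (gM K) ∧
      ∫ z, Real.exp (t * lin κ z x) ∂(gM K) = Real.exp (t ^ 2 * (∑ c, κ x c ^ 2) / 2) := by
  have e : ∀ z : K → ℝ, t * lin κ z x = lin (fun (_ : Unit) c => t * κ x c) z () := by
    intro z
    unfold lin
    rw [Finset.mul_sum]
    exact Finset.sum_congr rfl fun c _ => by ring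
  simp_rw [e]
  refine ⟨Cube.integrable_exp_lin (Y := Unit) (K := K) (fun _ c => t * κ x c) (), ?_⟩
  rw [Cube.integral_exp_lin (Y := Unit) (K := K) (fun _ c => t * κ x c) ()]
  congr 1
  rw [Finset.mul_sum]
  congr 1
  exact Finset.sum_congr rfl fun c _ => by ring

omit [Fintype X] in
lemma tr_exp_abs_lin (κ : X → K → ℝ) (x : X) {A : ℝ} (hκ : ∑ c, κ x c ^ 2 ≤ A) {t : ℝ}
    (_ht : 0 ≤ t) :
    Integrable (fun z : K → ℝ => Real.exp (t * |lin κ z x|)) (gM K) ∧
      ∫ z, Real.exp (t * |lin κ z x|) ∂(gM K) ≤ 2 * Real.exp (t ^ 2 * A / 2) := by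
  obtain ⟨i1, v1⟩ := tr_exp_lin κ x t
  obtain ⟨i2, v2⟩ := tr_exp_lin κ x (-t)
  have hle : ∀ z : K → ℝ, Real.exp (t * |lin κ z x|) ≤
      Real.exp (t * lin κ z x) + Real.exp (-t * lin κ z x) := by
    intro z
    rcases le_total 0 (lin κ z x) with h | h
    · rw [abs_of_nonneg h]
      linarith [Real.exp_pos (-t * lin κ z x)]
    · rw [abs_of_nonpos h]
      have : t * -lin κ z x = -t * lin κ z x := by ring
      rw [this]
      linarith [Real.exp_pos (t * lin κ z x)]
  have hm : Measurable fun z : K → ℝ => Real.exp (t * |lin κ z x|) := by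
    have := tr_measurable_lin κ x
    fun_prop
  have hi : Integrable (fun z : K → ℝ => Real.exp (t * |lin κ z x|)) (gM K) := by
    refine Integrable.mono' (i1.add i2) hm.aestronglyMeasurable
      (Filter.Eventually.of_forall fun z => ?_)
    rw [Real.norm_eq_abs, abs_of_pos (Real.exp_pos _)]
    exact hle z
  refine ⟨hi, ?_⟩
  calc ∫ z, Real.exp (t * |lin κ z x|) ∂(gM K)
      ≤ ∫ z, (Real.exp (t * lin κ z x) + Real.exp (-t * lin κ z x)) ∂(gM K) :=
        integral_mono hi (i1.add i2) hle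
    _ = Real.exp (t ^ 2 * (∑ c, κ x c ^ 2) / 2) + Real.exp ((-t) ^ 2 * (∑ c, κ x c ^ 2) / 2) := by
        rw [integral_add i1 i2, v1, v2]
    _ = 2 * Real.exp (t ^ 2 * (∑ c, κ x c ^ 2) / 2) := by rw [neg_sq]; ring
    _ ≤ 2 * Real.exp (t ^ 2 * A / 2) := by
        have : t ^ 2 * (∑ c, κ x c ^ 2) ≤ t ^ 2 * A := mul_le_mul_of_nonneg_left hκ (sq_nonneg t)
        have h2 : Real.exp (t ^ 2 * (∑ c, κ x c ^ 2) / 2) ≤ Real.exp (t ^ 2 * A / 2) :=
          Real.exp_le_exp.2 (by linarith)
        linarith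

omit [DecidableEq K] in
/-- integrability of log-sums with probability weights -/
lemma tr_integrable_logsum {w : X → ℝ} (hw0 : ∀ x, 0 ≤ w x) (hw1 : ∑ x, w x = 1)
    {E : (K → ℝ) → X → ℝ} (hm : ∀ x, Measurable fun z => E z x)
    (hE : ∀ x, Integrable (fun z => E z x) (gM K)) :
    Integrable (fun z => Real.log (∑ x, w x * Real.exp (E z x))) (gM K) := by
  refine Integrable.mono' (g := fun z => ∑ x, |E z x|)
    (integrable_finsetSum _ fun x _ => (hE x).abs) ?_
    (Filter.Eventually.of_forall fun z => tr_logsum_abs_le hw0 hw1 (E z))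
  refine (Real.measurable_log.comp ?_).aestronglyMeasurable
  exact Finset.measurable_fun_sum _ fun x _ => (Real.measurable_exp.comp (hm x)).const_mul _

lemma tr_log_cosh_abs_le (y : ℝ) : |Real.log (Real.cosh y)| ≤ |y| := by
  have h1 := Real.one_le_cosh y
  rw [abs_of_nonneg (Real.log_nonneg h1)]
  have h2 : Real.cosh y ≤ Real.exp |y| := by
    rw [Real.cosh_eq]
    have h3 : Real.exp y ≤ Real.exp |y| := Real.exp_le_exp.2 (le_abs_self y)
    have h4 : Real.exp (-y) ≤ Real.exp |y| := Real.exp_le_exp.2 (neg_le_abs y)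
    linarith
  calc Real.log (Real.cosh y) ≤ Real.log (Real.exp |y|) :=
        Real.log_le_log (Real.cosh_pos y) h2
    _ = |y| := Real.log_exp _

omit [Fintype X] [DecidableEq K] in
lemma tr_integral_bsub (b : ℝ) {f g : (K → ℝ) → ℝ} (hf : Integrable f (gM K))
    (hg : Integrable g (gM K)) :
    ∫ z, (b + f z - g z) ∂(gM K) = b + ∫ z, f z ∂(gM K) - ∫ z, g z ∂(gM K) := by
  have e1 : ∫ z, (b + f z - g z) ∂(gM K) =
      ∫ z, (b + f z) ∂(gM K) - ∫ z, g z ∂(gM K) :=
    integral_sub (f := fun z => b + f z) ((integrable_const b).add hf) hg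
  have e2 : ∫ z, (b + f z) ∂(gM K) = ∫ _z, b ∂(gM K) + ∫ z, f z ∂(gM K) :=
    integral_add (f := fun _ => b) (integrable_const b) hf
  rw [e1, e2, integral_const, probReal_univ, one_smul]

omit [Fintype X] [DecidableEq K] in
lemma tr_integral_badd (b : ℝ) {f g : (K → ℝ) → ℝ} (hf : Integrable f (gM K))
    (hg : Integrable g (gM K)) :
    ∫ z, (b + f z + g z) ∂(gM K) = b + ∫ z, f z ∂(gM K) + ∫ z, g z ∂(gM K) := by
  have e1 : ∫ z, (b + f z + g z) ∂(gM K) =
      ∫ z, (b + f z) ∂(gM K) + ∫ z, g z ∂(gM K) :=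
    integral_add (f := fun z => b + f z) ((integrable_const b).add hf) hg
  have e2 : ∫ z, (b + f z) ∂(gM K) = ∫ _z, b ∂(gM K) + ∫ z, f z ∂(gM K) :=
    integral_add (f := fun _ => b) (integrable_const b) hf
  rw [e1, e2, integral_const, probReal_univ, one_smul]

/-- The lower bound for the first cavity term. -/
theorem trunc_cosh {w : X → ℝ} (hw0 : ∀ x, 0 ≤ w x) (hw1 : ∑ x, w x = 1) (B : X → ℝ)
    {κ : X → K → ℝ} {A : ℝ} (hκ : ∀ x, ∑ c, κ x c ^ 2 ≤ A) (b : ℝ) {T : ℝ} (hT : 0 < T) :
    b + ∫ z, Real.log (∑ x, w x * Real.exp (Real.log (Real.cosh (trn T (lin κ z x))))) ∂(gM K) -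
        Real.exp (A / 2) * ∑ x, w x * |B x - b| ≤
      ∫ z, Real.log (∑ x, w x * (Real.exp (B x) * Real.cosh (lin κ z x))) ∂(gM K) := by
  have hml := fun x => tr_measurable_lin κ x
  have mtr := measurable_trn T
  -- the three integrable functions
  have i1 : Integrable (fun z => Real.log (∑ x, w x *
      Real.exp (Real.log (Real.cosh (trn T (lin κ z x)))))) (gM K) := by
    refine tr_integrable_logsum (E := fun z x => Real.log (Real.cosh (trn T (lin κ z x))))
      hw0 hw1 (fun x => ?_) fun x => ?_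
    · exact Real.measurable_log.comp (Real.measurable_cosh.comp (mtr.comp (hml x)))
    · refine Integrable.mono' (tr_integrable_lin κ x).abs
        (Real.measurable_log.comp (Real.measurable_cosh.comp
          (mtr.comp (hml x)))).aestronglyMeasurable
        (Filter.Eventually.of_forall fun z => ?_)
      rw [Real.norm_eq_abs]
      exact (tr_log_cosh_abs_le _).trans (abs_trn_le hT _)
  have e2 : ∀ z : K → ℝ, ∑ x, w x * (Real.exp (B x) * Real.cosh (lin κ z x)) =
      ∑ x, w x * Real.exp (B x + Real.log (Real.cosh (lin κ z x))) := by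
    intro z
    refine Finset.sum_congr rfl fun x _ => ?_
    rw [Real.exp_add, Real.exp_log (Real.cosh_pos _)]
  have i2 : Integrable (fun z => Real.log (∑ x, w x *
      (Real.exp (B x) * Real.cosh (lin κ z x)))) (gM K) := by
    simp_rw [e2]
    refine tr_integrable_logsum (E := fun z x => B x + Real.log (Real.cosh (lin κ z x)))
      hw0 hw1 (fun x => ?_) fun x => ?_
    · exact (Real.measurable_log.comp (Real.measurable_cosh.comp (hml x))).const_add _
    · refine (integrable_const _).add ?_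
      refine Integrable.mono' (tr_integrable_lin κ x).abs
        (Real.measurable_log.comp (Real.measurable_cosh.comp (hml x))).aestronglyMeasurable
        (Filter.Eventually.of_forall fun z => ?_)
      rw [Real.norm_eq_abs]
      exact tr_log_cosh_abs_le _
  have hcosh : ∀ x, Integrable (fun z => Real.cosh (lin κ z x)) (gM K) ∧
      ∫ z, Real.cosh (lin κ z x) ∂(gM K) ≤ Real.exp (A / 2) := by
    intro x
    obtain ⟨j1, v1⟩ := tr_exp_lin κ x 1
    obtain ⟨j2, v2⟩ := tr_exp_lin κ x (-1)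
    have e : ∀ z : K → ℝ, Real.cosh (lin κ z x) =
        (Real.exp (1 * lin κ z x) + Real.exp (-1 * lin κ z x)) / 2 := by
      intro z; rw [Real.cosh_eq]; simp
    simp_rw [e]
    refine ⟨(j1.add j2).div_const 2, ?_⟩
    rw [integral_div, integral_add j1 j2, v1, v2]
    have h3 : Real.exp (1 ^ 2 * (∑ c, κ x c ^ 2) / 2) ≤ Real.exp (A / 2) :=
      Real.exp_le_exp.2 (by linarith [hκ x])
    have h4 : Real.exp ((-1) ^ 2 * (∑ c, κ x c ^ 2) / 2) ≤ Real.exp (A / 2) :=
      Real.exp_le_exp.2 (by linarith [hκ x])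
    linarith
  have i3 : Integrable (fun z => ∑ x, w x * (|B x - b| * Real.cosh (lin κ z x))) (gM K) :=
    integrable_finsetSum _ fun x _ => ((hcosh x).1.const_mul _).const_mul _
  have hint : ∫ z, (b + Real.log (∑ x, w x *
        Real.exp (Real.log (Real.cosh (trn T (lin κ z x))))) -
        ∑ x, w x * (|B x - b| * Real.cosh (lin κ z x))) ∂(gM K) ≤
      ∫ z, Real.log (∑ x, w x * (Real.exp (B x) * Real.cosh (lin κ z x))) ∂(gM K) :=
    integral_mono (((integrable_const _).add i1).sub i3) i2 fun z =>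
      tr_cosh_det hw0 hw1 B (fun x => lin κ z x) b hT
  rw [tr_integral_bsub b i1 i3] at hint
  have h3 : ∫ z, (∑ x, w x * (|B x - b| * Real.cosh (lin κ z x))) ∂(gM K) ≤
      Real.exp (A / 2) * ∑ x, w x * |B x - b| := by
    rw [integral_finsetSum _ fun x _ => ((hcosh x).1.const_mul _).const_mul _, Finset.mul_sum]
    refine Finset.sum_le_sum fun x _ => ?_
    rw [integral_const_mul, integral_const_mul]
    have h4 := mul_le_mul_of_nonneg_left (hcosh x).2
      (mul_nonneg (hw0 x) (abs_nonneg (B x - b)))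
    linarith
  linarith

/-- The upper bound for the second cavity term. -/
theorem trunc_id (A : ℝ) : ∃ D : ℝ, ∀ (X K : Type) [Fintype X] [Fintype K] [DecidableEq K]
    (w : X → ℝ) (_hw0 : ∀ x, 0 ≤ w x) (_hw1 : ∑ x, w x = 1) (B : X → ℝ)
    (κ : X → K → ℝ) (_hκ : ∀ x, ∑ c, κ x c ^ 2 ≤ A) (b T : ℝ) (_hT : 1 ≤ T),
    ∫ z, Real.log (∑ x, w x * Real.exp (B x + lin κ z x)) ∂(gM K) ≤
      b + ∫ z, Real.log (∑ x, w x * Real.exp (trn T (lin κ z x))) ∂(gM K) +
        D * (∑ x, w x * |Real.exp (B x - b) - 1| + 1 / T ^ 2) := by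
  refine ⟨4 * Real.exp (8 * A), ?_⟩
  intro X K _ _ _ w hw0 hw1 B κ hκ b T hT
  have hT0 : 0 < T := by linarith
  have hml := fun x => tr_measurable_lin κ x
  have mtr := measurable_trn T
  have hA : 0 ≤ A := by
    have hne : Nonempty X := by
      by_contra h
      rw [not_nonempty_iff] at h
      simp at hw1
    obtain ⟨x⟩ := hne
    exact (Finset.sum_nonneg fun c _ => sq_nonneg _).trans (hκ x)
  have i1 : Integrable (fun z => Real.log (∑ x, w x * Real.exp (B x + lin κ z x))) (gM K) :=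
    tr_integrable_logsum (E := fun z x => B x + lin κ z x) hw0 hw1
      (fun x => (hml x).const_add _) fun x => (integrable_const _).add (tr_integrable_lin κ x)
  have i2 : Integrable (fun z => Real.log (∑ x, w x * Real.exp (trn T (lin κ z x)))) (gM K) := by
    refine tr_integrable_logsum (E := fun z x => trn T (lin κ z x)) hw0 hw1
      (fun x => mtr.comp (hml x)) fun x => ?_
    refine Integrable.mono' (tr_integrable_lin κ x).abs
      (mtr.comp (hml x)).aestronglyMeasurable (Filter.Eventually.of_forall fun z => ?_)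
    rw [Real.norm_eq_abs]
    exact abs_trn_le hT0 _
  have h2 := fun x => tr_exp_abs_lin κ x (hκ x) (t := 2) (by norm_num)
  have h4 := fun x => tr_exp_abs_lin κ x (hκ x) (t := 4) (by norm_num)
  have j1 : ∀ x y, Integrable (fun z : K → ℝ =>
      (Real.exp (2 * |lin κ z x|) + Real.exp (2 * |lin κ z y|)) / 2) (gM K) := fun x y =>
    ((h2 x).1.add (h2 y).1).div_const 2
  have j2 : ∀ x y, Integrable (fun z : K → ℝ =>
      Real.exp (4 * |lin κ z x|) + Real.exp (2 * |lin κ z y|)) (gM K) := fun x y =>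
    (h4 x).1.add (h2 y).1
  have v1 : ∀ x y, ∫ z : K → ℝ,
      (Real.exp (2 * |lin κ z x|) + Real.exp (2 * |lin κ z y|)) / 2 ∂(gM K) ≤
        2 * Real.exp (8 * A) := by
    intro x y
    rw [integral_div, integral_add (h2 x).1 (h2 y).1]
    have e : Real.exp (2 ^ 2 * A / 2) ≤ Real.exp (8 * A) := Real.exp_le_exp.2 (by linarith)
    have := (h2 x).2
    have := (h2 y).2
    linarith
  have v2 : ∀ x y, ∫ z : K → ℝ,
      (Real.exp (4 * |lin κ z x|) + Real.exp (2 * |lin κ z y|)) ∂(gM K) ≤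
        4 * Real.exp (8 * A) := by
    intro x y
    rw [integral_add (h4 x).1 (h2 y).1]
    have e : Real.exp (2 ^ 2 * A / 2) ≤ Real.exp (8 * A) := Real.exp_le_exp.2 (by linarith)
    have e' : Real.exp (4 ^ 2 * A / 2) = Real.exp (8 * A) := by congr 1; ring
    have h5 := (h4 x).2
    have h6 := (h2 y).2
    rw [e'] at h5
    linarith
  have j3 : ∀ x y, Integrable (fun z : K → ℝ => w x * w y * (|Real.exp (B x - b) - 1| *
          ((Real.exp (2 * |lin κ z x|) + Real.exp (2 * |lin κ z y|)) / 2) +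
          1 / T ^ 2 * (Real.exp (4 * |lin κ z x|) + Real.exp (2 * |lin κ z y|)))) (gM K) :=
    fun x y => (((j1 x y).const_mul _).add ((j2 x y).const_mul _)).const_mul _
  have i3 : Integrable (fun z : K → ℝ => ∑ x, ∑ y, w x * w y * (|Real.exp (B x - b) - 1| *
          ((Real.exp (2 * |lin κ z x|) + Real.exp (2 * |lin κ z y|)) / 2) +
          1 / T ^ 2 * (Real.exp (4 * |lin κ z x|) + Real.exp (2 * |lin κ z y|)))) (gM K) :=
    integrable_finsetSum _ fun x _ => integrable_finsetSum _ fun y _ => j3 x y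
  have hint : ∫ z, Real.log (∑ x, w x * Real.exp (B x + lin κ z x)) ∂(gM K) ≤
      ∫ z, (b + Real.log (∑ x, w x * Real.exp (trn T (lin κ z x))) +
        ∑ x, ∑ y, w x * w y * (|Real.exp (B x - b) - 1| *
          ((Real.exp (2 * |lin κ z x|) + Real.exp (2 * |lin κ z y|)) / 2) +
          1 / T ^ 2 * (Real.exp (4 * |lin κ z x|) + Real.exp (2 * |lin κ z y|)))) ∂(gM K) :=
    integral_mono i1 (((integrable_const _).add i2).add i3) fun z =>
      tr_id_det hw0 hw1 B (fun x => lin κ z x) b hT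
  rw [tr_integral_badd b i2 i3] at hint
  have hR : ∫ z, (∑ x, ∑ y, w x * w y * (|Real.exp (B x - b) - 1| *
          ((Real.exp (2 * |lin κ z x|) + Real.exp (2 * |lin κ z y|)) / 2) +
          1 / T ^ 2 * (Real.exp (4 * |lin κ z x|) + Real.exp (2 * |lin κ z y|)))) ∂(gM K) ≤
      4 * Real.exp (8 * A) * (∑ x, w x * |Real.exp (B x - b) - 1| + 1 / T ^ 2) := by
    rw [integral_finsetSum _ fun x _ => integrable_finsetSum _ fun y _ => j3 x y]
    simp_rw [integral_finsetSum _ fun y _ => j3 _ y]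
    have hterm : ∀ x y, ∫ z : K → ℝ, w x * w y * (|Real.exp (B x - b) - 1| *
          ((Real.exp (2 * |lin κ z x|) + Real.exp (2 * |lin κ z y|)) / 2) +
          1 / T ^ 2 * (Real.exp (4 * |lin κ z x|) + Real.exp (2 * |lin κ z y|))) ∂(gM K) ≤
        w x * w y * (4 * Real.exp (8 * A) * (|Real.exp (B x - b) - 1| + 1 / T ^ 2)) := by
      intro x y
      rw [integral_const_mul, integral_add ((j1 x y).const_mul _) ((j2 x y).const_mul _),
        integral_const_mul, integral_const_mul]
      apply mul_le_mul_of_nonneg_left _ (mul_nonneg (hw0 x) (hw0 y))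
      have g1 := mul_le_mul_of_nonneg_left (v1 x y) (abs_nonneg (Real.exp (B x - b) - 1))
      have g2 := mul_le_mul_of_nonneg_left (v2 x y) (by positivity : (0 : ℝ) ≤ 1 / T ^ 2)
      have g3 : 0 ≤ |Real.exp (B x - b) - 1| * Real.exp (8 * A) := by positivity
      linarith
    calc _ ≤ ∑ x, ∑ y, w x * w y *
          (4 * Real.exp (8 * A) * (|Real.exp (B x - b) - 1| + 1 / T ^ 2)) :=
          Finset.sum_le_sum fun x _ => Finset.sum_le_sum fun y _ => hterm x y
      _ = 4 * Real.exp (8 * A) * (∑ x, w x * |Real.exp (B x - b) - 1| + 1 / T ^ 2) := by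
          have e1 : ∀ x, ∑ y, w x * w y *
              (4 * Real.exp (8 * A) * (|Real.exp (B x - b) - 1| + 1 / T ^ 2)) =
              4 * Real.exp (8 * A) * (w x * |Real.exp (B x - b) - 1|) +
                4 * Real.exp (8 * A) * (1 / T ^ 2) * w x := by
            intro x
            rw [← Finset.sum_mul, ← Finset.mul_sum, hw1]
            ring
          simp_rw [e1]
          rw [Finset.sum_add_distrib, ← Finset.mul_sum, ← Finset.mul_sum, hw1]
          ring
  linarith

end TRUNC

end Vale.Agent.P157.Par
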