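import Vale.Agent.P157.ParUDefs

/-!
Basic facts about the cascades and the tilted chain in dimension `N`: functions of exponential
growth, integrability, linearity, monotonicity, Lipschitz estimates.
-/

open MeasureTheory ProbabilityTheory Filter Topology

namespace Vale.Agent.P157.Par

variable {N : ℕ}

/-- Measurable functions of at most exponential growth. -/
structure EG (h : (Fin N → ℝ) → ℝ) : Prop where
  meas : Measurable h
  bdd : ∃ C a : ℝ, 0 ≤ C ∧ 0 ≤ a ∧ ∀ y, |h y| ≤ C * Real.exp (a * ‖y‖)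

/-- Lipschitz functions. -/
def Lip (G : (Fin N → ℝ) → ℝ) : Prop := ∃ L : ℝ, 0 ≤ L ∧ ∀ y y', |G y - G y'| ≤ L * ‖y - y'‖

lemma Lip.continuous {G : (Fin N → ℝ) → ℝ} (h : Lip G) : Continuous G := by
  obtain ⟨L, hL, h⟩ := h
  refine (LipschitzWith.of_dist_le_mul (K := ⟨L, hL⟩) fun y y' => ?_).continuous
  rw [Real.dist_eq, dist_eq_norm]; exact h y y'

lemma Lip.measurable {G : (Fin N → ℝ) → ℝ} (h : Lip G) : Measurable G := h.continuous.measurable

namespace EG

lemma of_bdd {h : (Fin N → ℝ) → ℝ} (hm : Measurable h) {C : ℝ} (hC : ∀ y, |h y| ≤ C) : EG h :=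
  ⟨hm, |C|, 0, abs_nonneg _, le_rfl, fun y => by simpa using (hC y).trans (le_abs_self C)⟩

lemma const (c : ℝ) : EG (fun _ : Fin N → ℝ => c) := of_bdd measurable_const fun _ => le_rfl

lemma add {f g : (Fin N → ℝ) → ℝ} (hf : EG f) (hg : EG g) : EG (fun y => f y + g y) := by
  obtain ⟨C, a, hC, ha, h1⟩ := hf.bdd
  obtain ⟨D, b, hD, hb, h2⟩ := hg.bdd
  refine ⟨hf.meas.add hg.meas, C + D, max a b, by positivity, by positivity, fun y => ?_⟩
  have e1 : Real.exp (a * ‖y‖) ≤ Real.exp (max a b * ‖y‖) :=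
    Real.exp_le_exp.2 (mul_le_mul_of_nonneg_right (le_max_left _ _) (norm_nonneg _))
  have e2 : Real.exp (b * ‖y‖) ≤ Real.exp (max a b * ‖y‖) :=
    Real.exp_le_exp.2 (mul_le_mul_of_nonneg_right (le_max_right _ _) (norm_nonneg _))
  calc |f y + g y| ≤ |f y| + |g y| := abs_add_le _ _
    _ ≤ C * Real.exp (a * ‖y‖) + D * Real.exp (b * ‖y‖) := add_le_add (h1 y) (h2 y)
    _ ≤ C * Real.exp (max a b * ‖y‖) + D * Real.exp (max a b * ‖y‖) := by gcongr
    _ = _ := by ring

lemma mul {f g : (Fin N → ℝ) → ℝ} (hf : EG f) (hg : EG g) : EG (fun y => f y * g y) := by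
  obtain ⟨C, a, hC, ha, h1⟩ := hf.bdd
  obtain ⟨D, b, hD, hb, h2⟩ := hg.bdd
  refine ⟨hf.meas.mul hg.meas, C * D, a + b, by positivity, by positivity, fun y => ?_⟩
  calc |f y * g y| = |f y| * |g y| := abs_mul _ _
    _ ≤ (C * Real.exp (a * ‖y‖)) * (D * Real.exp (b * ‖y‖)) := by
        gcongr
        · exact h1 y
        · exact h2 y
    _ = C * D * Real.exp ((a + b) * ‖y‖) := by rw [add_mul, Real.exp_add]; ring

lemma const_mul {f : (Fin N → ℝ) → ℝ} (c : ℝ) (hf : EG f) : EG (fun y => c * f y) :=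
  (const c).mul hf

lemma neg {f : (Fin N → ℝ) → ℝ} (hf : EG f) : EG (fun y => -f y) := by
  simpa using hf.const_mul (-1)

lemma sub {f g : (Fin N → ℝ) → ℝ} (hf : EG f) (hg : EG g) : EG (fun y => f y - g y) := by
  simpa [sub_eq_add_neg] using hf.add hg.neg

lemma sum {ι : Type*} (s : Finset ι) {f : ι → (Fin N → ℝ) → ℝ} (hf : ∀ i ∈ s, EG (f i)) :
    EG (fun y => ∑ i ∈ s, f i y) := by
  classical
  induction s using Finset.induction_on with
  | empty => simpa using const 0
  | insert a s ha ih =>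
    simp only [Finset.sum_insert ha]
    exact (hf a (Finset.mem_insert_self a s)).add
      (ih fun i hi => hf i (Finset.mem_insert_of_mem hi))

lemma pow {f : (Fin N → ℝ) → ℝ} (hf : EG f) (n : ℕ) : EG (fun y => f y ^ n) := by
  induction n with
  | zero => simpa using const 1
  | succ n ih => simpa [pow_succ] using ih.mul hf

lemma coord (i : Fin N) : EG (fun y : Fin N → ℝ => y i) := by
  refine ⟨measurable_pi_apply i, 1, 1, zero_le_one, zero_le_one, fun y => ?_⟩
  rw [one_mul, one_mul, ← Real.norm_eq_abs]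
  exact (norm_le_pi_norm y i).trans ((Real.add_one_le_exp ‖y‖).trans' (by linarith))

lemma mono {f g : (Fin N → ℝ) → ℝ} (hg : EG g) (hf : Measurable f) (h : ∀ y, |f y| ≤ |g y|) :
    EG f := by
  obtain ⟨C, a, hC, ha, h1⟩ := hg.bdd
  exact ⟨hf, C, a, hC, ha, fun y => (h y).trans (h1 y)⟩

end EG

lemma Lip.eg {G : (Fin N → ℝ) → ℝ} (h : Lip G) : EG G := by
  obtain ⟨L, hL, h'⟩ := id h
  refine ⟨h.measurable, |G 0| + L, 1, by positivity, zero_le_one, fun y => ?_⟩
  have h1 : |G y| ≤ |G 0| + L * ‖y‖ := by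
    have := h' y 0
    rw [sub_zero] at this
    calc |G y| = |(G y - G 0) + G 0| := by ring_nf
      _ ≤ |G y - G 0| + |G 0| := abs_add_le _ _
      _ ≤ _ := by linarith
  have h2 : ‖y‖ ≤ Real.exp ‖y‖ := (Real.add_one_le_exp ‖y‖).trans' (by linarith)
  have h3 : 1 ≤ Real.exp ‖y‖ := Real.one_le_exp (norm_nonneg _)
  rw [one_mul]
  calc |G y| ≤ |G 0| + L * ‖y‖ := h1
    _ ≤ |G 0| * Real.exp ‖y‖ + L * Real.exp ‖y‖ := by
        refine add_le_add (le_mul_of_one_le_right (abs_nonneg _) h3) (by gcongr)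
    _ = _ := by ring

lemma Lip.exp_eg {G : (Fin N → ℝ) → ℝ} (h : Lip G) (m : ℝ) :
    EG (fun y => Real.exp (m * G y)) := by
  obtain ⟨L, hL, h'⟩ := id h
  refine ⟨Real.measurable_exp.comp (h.measurable.const_mul m), Real.exp (|m| * |G 0|), |m| * L,
    (Real.exp_pos _).le, by positivity, fun y => ?_⟩
  rw [abs_of_pos (Real.exp_pos _), ← Real.exp_add, Real.exp_le_exp]
  have h1 : |G y| ≤ |G 0| + L * ‖y‖ := by
    have := h' y 0
    rw [sub_zero] at this
    calc |G y| = |(G y - G 0) + G 0| := by ring_nf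
      _ ≤ |G y - G 0| + |G 0| := abs_add_le _ _
      _ ≤ _ := by linarith
  calc m * G y ≤ |m * G y| := le_abs_self _
    _ = |m| * |G y| := abs_mul _ _
    _ ≤ |m| * (|G 0| + L * ‖y‖) := by gcongr
    _ = _ := by ring

lemma integrable_exp_norm (a : ℝ) :
    Integrable (fun z : Fin N → ℝ => Real.exp (a * ‖z‖)) (gN N) := by
  have h1 : Integrable (fun x : ℝ => Real.exp (|a| * |x|)) (gaussianReal 0 1) :=
    ProbabilityTheory.integrable_exp_mul_abs (X := fun x => x) (t := |a|)
      (by simpa using integrable_exp_mul_gaussianReal (μ := 0) (v := 1) (|a|))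
      (by simpa using integrable_exp_mul_gaussianReal (μ := 0) (v := 1) (-|a|))
  have h2 : Integrable (fun z : Fin N → ℝ => ∏ i, Real.exp (|a| * |z i|)) (gN N) :=
    Integrable.fintype_prod (f := fun _ x => Real.exp (|a| * |x|)) fun _ => h1
  refine h2.mono' ?_ (Filter.Eventually.of_forall fun z => ?_)
  · exact (by fun_prop : Continuous fun z : Fin N → ℝ => Real.exp (a * ‖z‖)).aestronglyMeasurable
  · rw [Real.norm_eq_abs, abs_of_pos (Real.exp_pos _), ← Real.exp_sum, Real.exp_le_exp,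
      ← Finset.mul_sum]
    have hn : ‖z‖ ≤ ∑ i, |z i| := by
      refine (pi_norm_le_iff_of_nonneg (Finset.sum_nonneg fun i _ => abs_nonneg _)).2 fun i => ?_
      rw [Real.norm_eq_abs]
      exact Finset.single_le_sum (f := fun i => |z i|) (fun i _ => abs_nonneg _)
        (Finset.mem_univ i)
    calc a * ‖z‖ ≤ |a| * ‖z‖ := mul_le_mul_of_nonneg_right (le_abs_self a) (norm_nonneg _)
      _ ≤ |a| * ∑ i, |z i| := by gcongr

/-- Functions of exponential growth are integrable after any shift and scaling. -/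
lemma EG.integrable {h : (Fin N → ℝ) → ℝ} (hh : EG h) (y : Fin N → ℝ) (s : ℝ) :
    Integrable (fun z => h (y + s • z)) (gN N) := by
  obtain ⟨C, a, hC, ha, hb⟩ := hh.bdd
  refine ((integrable_exp_norm (N := N) (a * |s|)).const_mul (C * Real.exp (a * ‖y‖))).mono'
    (hh.meas.comp (by fun_prop)).aestronglyMeasurable (Filter.Eventually.of_forall fun z => ?_)
  rw [Real.norm_eq_abs]
  refine (hb _).trans ?_
  rw [mul_assoc, ← Real.exp_add]
  gcongr
  calc a * ‖y + s • z‖ ≤ a * (‖y‖ + ‖s • z‖) := by gcongr; exact norm_add_le _ _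
    _ = _ := by rw [norm_smul, Real.norm_eq_abs]; ring

lemma EG.integrable_smul {h : (Fin N → ℝ) → ℝ} (hh : EG h) (s : ℝ) :
    Integrable (fun z => h (s • z)) (gN N) := by
  simpa using hh.integrable 0 s

/-- Averages of functions of exponential growth over a Gaussian shift are measurable. -/
lemma EG.meas_int {h : (Fin N → ℝ) → ℝ} (hh : EG h) (s : ℝ) :
    Measurable (fun y => ∫ z, h (y + s • z) ∂(gN N)) := by
  have : StronglyMeasurable (Function.uncurry fun (y z : Fin N → ℝ) => h (y + s • z)) :=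
    (hh.meas.comp (by fun_prop)).stronglyMeasurable
  exact this.integral_prod_right.measurable

lemma int_exp_pos {G : (Fin N → ℝ) → ℝ} (hG : Lip G) (m v : ℝ) (y : Fin N → ℝ) :
    0 < ∫ z, Real.exp (m * G (y + √v • z)) ∂(gN N) :=
  integral_exp_pos ((hG.exp_eg m).integrable y (√v))

lemma EG.integrable_tilt {G h : (Fin N → ℝ) → ℝ} (hG : Lip G) (hh : EG h) (m v : ℝ)
    (y : Fin N → ℝ) :
    Integrable (fun z => h (y + √v • z) * Real.exp (m * G (y + √v • z))) (gN N) :=
  (hh.mul (hG.exp_eg m)).integrable y (√v)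

lemma EG.measurable_tilt {G h : (Fin N → ℝ) → ℝ} (hG : Lip G) (hh : EG h) (m v : ℝ) :
    Measurable (tiltN m v G h) :=
  ((hh.mul (hG.exp_eg m)).meas_int (√v)).div ((hG.exp_eg m).meas_int (√v))

lemma tiltN_mono {G h h' : (Fin N → ℝ) → ℝ} (hG : Lip G) (hh : EG h) (hh' : EG h')
    (hle : ∀ y, h y ≤ h' y) (m v : ℝ) (y : Fin N → ℝ) : tiltN m v G h y ≤ tiltN m v G h' y := by
  unfold tiltN
  refine div_le_div_of_nonneg_right ?_ (int_exp_pos hG m v y).le
  exact integral_mono (hh.integrable_tilt hG m v y) (hh'.integrable_tilt hG m v y)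
    fun z => mul_le_mul_of_nonneg_right (hle _) (Real.exp_pos _).le

lemma tiltN_const {G : (Fin N → ℝ) → ℝ} (hG : Lip G) (m v c : ℝ) (y : Fin N → ℝ) :
    tiltN m v G (fun _ => c) y = c := by
  unfold tiltN
  rw [integral_const_mul, mul_div_assoc, div_self (int_exp_pos hG m v y).ne', mul_one]

lemma tiltN_add {G h h' : (Fin N → ℝ) → ℝ} (hG : Lip G) (hh : EG h) (hh' : EG h')
    (m v : ℝ) (y : Fin N → ℝ) :
    tiltN m v G (fun y => h y + h' y) y = tiltN m v G h y + tiltN m v G h' y := by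
  unfold tiltN
  rw [← add_div, ← integral_add (hh.integrable_tilt hG m v y) (hh'.integrable_tilt hG m v y)]
  simp only [add_mul]

lemma tiltN_const_mul (G h : (Fin N → ℝ) → ℝ) (m v c : ℝ) (y : Fin N → ℝ) :
    tiltN m v G (fun y => c * h y) y = c * tiltN m v G h y := by
  unfold tiltN
  simp only [mul_assoc]
  rw [integral_const_mul, mul_div_assoc]

lemma tiltN_neg (G h : (Fin N → ℝ) → ℝ) (m v : ℝ) (y : Fin N → ℝ) :
    tiltN m v G (fun y => -h y) y = -tiltN m v G h y := by
  simpa using tiltN_const_mul G h m v (-1) y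

lemma tiltN_sub {G h h' : (Fin N → ℝ) → ℝ} (hG : Lip G) (hh : EG h) (hh' : EG h')
    (m v : ℝ) (y : Fin N → ℝ) :
    tiltN m v G (fun y => h y - h' y) y = tiltN m v G h y - tiltN m v G h' y := by
  simp only [sub_eq_add_neg]
  rw [tiltN_add hG hh hh'.neg, tiltN_neg]

lemma tiltN_sum {ι : Type*} (s : Finset ι) {G : (Fin N → ℝ) → ℝ} {h : ι → (Fin N → ℝ) → ℝ}
    (hG : Lip G) (hh : ∀ i ∈ s, EG (h i)) (m v : ℝ) (y : Fin N → ℝ) :
    tiltN m v G (fun y => ∑ i ∈ s, h i y) y = ∑ i ∈ s, tiltN m v G (h i) y := by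
  classical
  induction s using Finset.induction_on with
  | empty => simpa using tiltN_const hG m v 0 y
  | insert a s ha ih =>
    simp only [Finset.sum_insert ha]
    rw [tiltN_add hG (hh a (Finset.mem_insert_self a s))
      (EG.sum s fun i hi => hh i (Finset.mem_insert_of_mem hi)),
      ih fun i hi => hh i (Finset.mem_insert_of_mem hi)]

lemma tiltN_congr {G h h' : (Fin N → ℝ) → ℝ} (hle : ∀ y, h y = h' y) (m v : ℝ)
    (y : Fin N → ℝ) : tiltN m v G h y = tiltN m v G h' y := by
  rw [funext hle]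

lemma abs_tiltN_le {G h : (Fin N → ℝ) → ℝ} (hG : Lip G) (hh : EG h) (m v : ℝ) (y : Fin N → ℝ) :
    |tiltN m v G h y| ≤ tiltN m v G (fun y => |h y|) y := by
  have habs : EG (fun y => |h y|) := hh.mono hh.meas.abs fun y => by simp
  rw [abs_le]
  constructor
  · rw [← tiltN_neg]
    exact tiltN_mono hG habs.neg hh (fun y => neg_abs_le _) m v y
  · exact tiltN_mono hG hh habs (fun y => le_abs_self _) m v y

lemma abs_tiltN_le_of_bdd {G h : (Fin N → ℝ) → ℝ} (hG : Lip G) (hh : Measurable h) {C : ℝ}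
    (hC : ∀ y, |h y| ≤ C) (m v : ℝ) (y : Fin N → ℝ) : |tiltN m v G h y| ≤ C := by
  have h1 := EG.of_bdd hh hC
  have habs : EG (fun y => |h y|) := h1.mono h1.meas.abs fun y => by simp
  calc _ ≤ tiltN m v G (fun y => |h y|) y := abs_tiltN_le hG h1 m v y
    _ ≤ tiltN m v G (fun _ => C) y := tiltN_mono hG habs (EG.const C) hC m v y
    _ = C := tiltN_const hG m v C y

/-- The tilted chain preserves the class of functions of exponential growth. -/
lemma EG.tilt {G h : (Fin N → ℝ) → ℝ} (hG : Lip G) (hh : EG h) (m v : ℝ) :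
    EG (tiltN m v G h) := by
  obtain ⟨C, a, hC, ha, hb⟩ := hh.bdd
  obtain ⟨L, hL, hl⟩ := id hG
  set A : ℝ := ∫ z : Fin N → ℝ, Real.exp ((a * √v + |m| * L * √v) * ‖z‖) ∂(gN N) with hA
  set B : ℝ := ∫ z : Fin N → ℝ, Real.exp (-(|m| * L * √v) * ‖z‖) ∂(gN N) with hB
  have hA0 : 0 < A := integral_exp_pos (integrable_exp_norm _)
  have hB0 : 0 < B := integral_exp_pos (integrable_exp_norm _)
  refine ⟨hh.measurable_tilt hG m v, C * (A / B), a, by positivity, ha, fun y => ?_⟩
  have habs : EG (fun y => |h y|) := hh.mono hh.meas.abs fun y => by simp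
  refine (abs_tiltN_le hG hh m v y).trans ?_
  have key : ∀ z : Fin N → ℝ, |m * G (y + √v • z) - m * G y| ≤ |m| * L * √v * ‖z‖ := by
    intro z
    rw [← mul_sub, abs_mul]
    have := hl (y + √v • z) y
    rw [add_sub_cancel_left, norm_smul, Real.norm_eq_abs, abs_of_nonneg (Real.sqrt_nonneg v)] at this
    calc |m| * |G (y + √v • z) - G y| ≤ |m| * (L * (√v * ‖z‖)) := by gcongr
      _ = _ := by ring
  unfold tiltN
  rw [div_le_iff₀ (int_exp_pos hG m v y)]
  have h1 : ∫ z, |h (y + √v • z)| * Real.exp (m * G (y + √v • z)) ∂(gN N) ≤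
      C * Real.exp (a * ‖y‖) * Real.exp (m * G y) * A := by
    rw [hA, ← integral_const_mul]
    refine integral_mono (habs.integrable_tilt hG m v y)
      ((integrable_exp_norm _).const_mul _) fun z => ?_
    dsimp only
    have e1 : |h (y + √v • z)| ≤ C * Real.exp (a * ‖y‖) * Real.exp (a * √v * ‖z‖) := by
      refine (hb _).trans ?_
      rw [mul_assoc, ← Real.exp_add]
      gcongr
      calc a * ‖y + √v • z‖ ≤ a * (‖y‖ + ‖√v • z‖) := by gcongr; exact norm_add_le _ _
        _ = _ := by rw [norm_smul, Real.norm_eq_abs, abs_of_nonneg (Real.sqrt_nonneg v)]; ring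
    have e2 : Real.exp (m * G (y + √v • z)) ≤
        Real.exp (m * G y) * Real.exp (|m| * L * √v * ‖z‖) := by
      rw [← Real.exp_add, Real.exp_le_exp]
      linarith [(abs_le.1 (key z)).2]
    calc |h (y + √v • z)| * Real.exp (m * G (y + √v • z)) ≤
        (C * Real.exp (a * ‖y‖) * Real.exp (a * √v * ‖z‖)) *
          (Real.exp (m * G y) * Real.exp (|m| * L * √v * ‖z‖)) := by gcongr
      _ = _ := by rw [add_mul, Real.exp_add]; ring
  have h2 : Real.exp (m * G y) * B ≤ ∫ z, Real.exp (m * G (y + √v • z)) ∂(gN N) := by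
    rw [hB, ← integral_const_mul]
    refine integral_mono ((integrable_exp_norm _).const_mul _)
      ((hG.exp_eg m).integrable y (√v)) fun z => ?_
    dsimp only
    rw [← Real.exp_add, Real.exp_le_exp]
    linarith [(abs_le.1 (key z)).1]
  calc ∫ z, |h (y + √v • z)| * Real.exp (m * G (y + √v • z)) ∂(gN N) ≤
      C * Real.exp (a * ‖y‖) * Real.exp (m * G y) * A := h1
    _ = C * (A / B) * Real.exp (a * ‖y‖) * (Real.exp (m * G y) * B) := by
        field_simp
    _ ≤ _ := by gcongr

/-- Cascade steps preserve Lipschitz functions. -/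
lemma Lip.gstep {G : (Fin N → ℝ) → ℝ} (hG : Lip G) {m : ℝ} (hm : 0 < m) (v : ℝ) :
    Lip (gstepN m v G) := by
  obtain ⟨L, hL, hl⟩ := id hG
  have key : ∀ y y', gstepN m v G y ≤ gstepN m v G y' + L * ‖y - y'‖ := by
    intro y y'
    unfold gstepN
    have h1 : ∫ z, Real.exp (m * G (y + √v • z)) ∂(gN N) ≤
        Real.exp (m * (L * ‖y - y'‖)) * ∫ z, Real.exp (m * G (y' + √v • z)) ∂(gN N) := by
      rw [← integral_const_mul]
      refine integral_mono ((hG.exp_eg m).integrable y (√v))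
        (((hG.exp_eg m).integrable y' (√v)).const_mul _) fun z => ?_
      dsimp only
      rw [← Real.exp_add, Real.exp_le_exp, ← mul_add]
      refine mul_le_mul_of_nonneg_left ?_ hm.le
      have := (abs_le.1 (hl (y + √v • z) (y' + √v • z))).2
      rw [add_sub_add_right_eq_sub] at this
      linarith
    have h2 := Real.log_le_log (int_exp_pos hG m v y) h1
    rw [Real.log_mul (Real.exp_pos _).ne' (int_exp_pos hG m v y').ne', Real.log_exp] at h2
    calc 1 / m * Real.log (∫ z, Real.exp (m * G (y + √v • z)) ∂(gN N)) ≤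
        1 / m * (m * (L * ‖y - y'‖) + Real.log (∫ z, Real.exp (m * G (y' + √v • z)) ∂(gN N))) := by
          gcongr
      _ = _ := by field_simp; ring
  refine ⟨L, hL, fun y y' => abs_le.2 ⟨?_, ?_⟩⟩
  · have := key y' y
    rw [norm_sub_rev] at this
    linarith
  · have := key y y'
    linarith

/-- The difference of two cascade steps in terms of the tilted chain. -/
lemma gstepN_sub {G G' : (Fin N → ℝ) → ℝ} (hG : Lip G) (hG' : Lip G') {m : ℝ}
    (v : ℝ) (y : Fin N → ℝ) :
    gstepN m v G' y - gstepN m v G y =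
      1 / m * Real.log (tiltN m v G (fun y => Real.exp (m * (G' y - G y))) y) := by
  unfold gstepN tiltN
  have h1 : ∀ z, Real.exp (m * (G' (y + √v • z) - G (y + √v • z))) *
      Real.exp (m * G (y + √v • z)) = Real.exp (m * G' (y + √v • z)) := by
    intro z
    rw [← Real.exp_add]; ring_nf
  simp only [h1]
  rw [Real.log_div (int_exp_pos hG' m v y).ne' (int_exp_pos hG m v y).ne']
  ring

/-- Jensen's inequality for one cascade step. -/
lemma le_gstepN_sub {G G' h : (Fin N → ℝ) → ℝ} (hG : Lip G) (hG' : Lip G') (hh : EG h) {m : ℝ}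
    (hm : 0 < m) (v : ℝ) (hle : ∀ y, h y ≤ G' y - G y) (y : Fin N → ℝ) :
    tiltN m v G h y ≤ gstepN m v G' y - gstepN m v G y := by
  rw [gstepN_sub hG hG']
  set a := tiltN m v G h y with ha
  have hE : EG (fun y => Real.exp (m * (G' y - G y))) := by
    have := (hG'.exp_eg m).mul (hG.exp_eg (-m))
    refine this.mono ?_ fun y => ?_
    · exact Real.measurable_exp.comp ((hG'.measurable.sub hG.measurable).const_mul m)
    · rw [← Real.exp_add]
      refine le_of_eq ?_
      congr 2
      ring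
  have h1 : tiltN m v G (fun y => Real.exp (m * a) * (1 + m * (h y - a))) y ≤
      tiltN m v G (fun y => Real.exp (m * (G' y - G y))) y := by
    refine tiltN_mono hG ?_ hE (fun y => ?_) m v y
    · exact ((EG.const 1).add ((hh.sub (EG.const a)).const_mul m)).const_mul _
    · have e1 : m * (h y - a) + 1 ≤ Real.exp (m * (h y - a)) := Real.add_one_le_exp _
      have e2 : Real.exp (m * a) * Real.exp (m * (h y - a)) = Real.exp (m * h y) := by
        rw [← Real.exp_add]; ring_nf
      calc Real.exp (m * a) * (1 + m * (h y - a)) ≤ Real.exp (m * a) *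
          Real.exp (m * (h y - a)) := by
            refine mul_le_mul_of_nonneg_left ?_ (Real.exp_pos _).le
            linarith
        _ = Real.exp (m * h y) := e2
        _ ≤ _ := Real.exp_le_exp.2 (mul_le_mul_of_nonneg_left (hle y) hm.le)
  have h2 : tiltN m v G (fun y => Real.exp (m * a) * (1 + m * (h y - a))) y =
      Real.exp (m * a) := by
    rw [tiltN_const_mul, tiltN_add hG (EG.const 1) ((hh.sub (EG.const a)).const_mul m),
      tiltN_const hG, tiltN_const_mul, tiltN_sub hG hh (EG.const a), tiltN_const hG, ← ha]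
    ring
  rw [h2] at h1
  have h3 := Real.log_le_log (Real.exp_pos _) h1
  rw [Real.log_exp] at h3
  calc a = 1 / m * (m * a) := by field_simp
    _ ≤ _ := by gcongr

lemma gstepN_le_add {G G' : (Fin N → ℝ) → ℝ} (hG : Lip G) (hG' : Lip G') {m : ℝ} (hm : 0 < m)
    (v : ℝ) {C : ℝ} (h : ∀ y, G y ≤ G' y + C) (y : Fin N → ℝ) :
    gstepN m v G y ≤ gstepN m v G' y + C := by
  have h1 := le_gstepN_sub (h := fun _ => -C) hG hG' (EG.const _) hm v
    (fun y => by linarith [h y]) y
  rw [tiltN_const hG] at h1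
  linarith

section chain

variable {m r : ℕ → ℝ}

/-- The full cascade is Lipschitz in the sup norm. -/
lemma topN_le_add {l : ℕ} (hm : ∀ j < l, 0 < m (j + 1)) {G G' : (Fin N → ℝ) → ℝ} (hG : Lip G)
    (hG' : Lip G') {C : ℝ} (h : ∀ y, G y ≤ G' y + C) : topN m r l G ≤ topN m r l G' + C := by
  induction l generalizing G G' with
  | zero =>
    unfold topN
    have := integral_mono (hG.eg.integrable_smul (√(r 0)))
      (((hG'.eg.integrable_smul (√(r 0))).add (integrable_const C))) fun z => h (√(r 0) • z)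
    refine this.trans (le_of_eq ?_)
    rw [integral_add' (hG'.eg.integrable_smul (√(r 0))) (integrable_const C)]
    simp
  | succ l ih =>
    unfold topN
    exact ih (fun j hj => hm j (by omega)) (hG.gstep (hm l (by omega)) _)
      (hG'.gstep (hm l (by omega)) _)
      (gstepN_le_add hG hG' (hm l (by omega)) _ h)

lemma abs_topN_sub_le {l : ℕ} (hm : ∀ j < l, 0 < m (j + 1)) {G G' : (Fin N → ℝ) → ℝ}
    (hG : Lip G) (hG' : Lip G') {C : ℝ} (h : ∀ y, |G y - G' y| ≤ C) :
    |topN m r l G - topN m r l G'| ≤ C := by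
  rw [abs_le]
  constructor
  · have := topN_le_add (r := r) hm hG' hG (C := C) fun y => by
      linarith [(abs_le.1 (h y)).1]
    linarith
  · have := topN_le_add (r := r) hm hG hG' (C := C) fun y => by
      linarith [(abs_le.1 (h y)).2]
    linarith

lemma chainAv_mono {l : ℕ} (hm : ∀ j < l, 0 < m (j + 1)) {G h h' : (Fin N → ℝ) → ℝ} (hG : Lip G)
    (hh : EG h) (hh' : EG h') (hle : ∀ y, h y ≤ h' y) : chainAv m r l G h ≤ chainAv m r l G h' := by
  induction l generalizing G h h' with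
  | zero => exact integral_mono (hh.integrable_smul _) (hh'.integrable_smul _) fun z => hle _
  | succ l ih =>
    unfold chainAv
    exact ih (fun j hj => hm j (by omega)) (hG.gstep (hm l (by omega)) _) (hh.tilt hG _ _)
      (hh'.tilt hG _ _) (tiltN_mono hG hh hh' hle _ _)

lemma chainAv_add {l : ℕ} (hm : ∀ j < l, 0 < m (j + 1)) {G h h' : (Fin N → ℝ) → ℝ} (hG : Lip G)
    (hh : EG h) (hh' : EG h') :
    chainAv m r l G (fun y => h y + h' y) = chainAv m r l G h + chainAv m r l G h' := by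
  induction l generalizing G h h' with
  | zero => exact integral_add (hh.integrable_smul _) (hh'.integrable_smul _)
  | succ l ih =>
    unfold chainAv
    rw [funext (tiltN_add hG hh hh' _ _)]
    exact ih (fun j hj => hm j (by omega)) (hG.gstep (hm l (by omega)) _) (hh.tilt hG _ _)
      (hh'.tilt hG _ _)

lemma chainAv_const_mul (l : ℕ) (G h : (Fin N → ℝ) → ℝ) (c : ℝ) :
    chainAv m r l G (fun y => c * h y) = c * chainAv m r l G h := by
  induction l generalizing G h with
  | zero => exact integral_const_mul _ _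
  | succ l ih =>
    unfold chainAv
    rw [funext (tiltN_const_mul G h _ _ c)]
    exact ih _ _

lemma chainAv_neg (l : ℕ) (G h : (Fin N → ℝ) → ℝ) :
    chainAv m r l G (fun y => -h y) = -chainAv m r l G h := by
  simpa using chainAv_const_mul (m := m) (r := r) l G h (-1)

lemma chainAv_sub {l : ℕ} (hm : ∀ j < l, 0 < m (j + 1)) {G h h' : (Fin N → ℝ) → ℝ} (hG : Lip G)
    (hh : EG h) (hh' : EG h') :
    chainAv m r l G (fun y => h y - h' y) = chainAv m r l G h - chainAv m r l G h' := by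
  simp only [sub_eq_add_neg]
  rw [chainAv_add hm hG hh hh'.neg, chainAv_neg]

lemma chainAv_const {l : ℕ} (hm : ∀ j < l, 0 < m (j + 1)) {G : (Fin N → ℝ) → ℝ} (hG : Lip G)
    (c : ℝ) : chainAv m r l G (fun _ => c) = c := by
  induction l generalizing G with
  | zero => simp [chainAv]
  | succ l ih =>
    unfold chainAv
    rw [funext (tiltN_const hG _ _ c)]
    exact ih (fun j hj => hm j (by omega)) (hG.gstep (hm l (by omega)) _)

lemma chainAv_sum {ι : Type*} (s : Finset ι) {l : ℕ} (hm : ∀ j < l, 0 < m (j + 1))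
    {G : (Fin N → ℝ) → ℝ} {h : ι → (Fin N → ℝ) → ℝ} (hG : Lip G) (hh : ∀ i ∈ s, EG (h i)) :
    chainAv m r l G (fun y => ∑ i ∈ s, h i y) = ∑ i ∈ s, chainAv m r l G (h i) := by
  classical
  induction s using Finset.induction_on with
  | empty => simpa using chainAv_const hm hG 0
  | insert a s ha ih =>
    simp only [Finset.sum_insert ha]
    rw [chainAv_add hm hG (hh a (Finset.mem_insert_self a s))
      (EG.sum s fun i hi => hh i (Finset.mem_insert_of_mem hi)),
      ih fun i hi => hh i (Finset.mem_insert_of_mem hi)]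

/-- Jensen's inequality for the full cascade. -/
lemma chainAv_le_topN_sub {l : ℕ} (hm : ∀ j < l, 0 < m (j + 1)) {G G' h : (Fin N → ℝ) → ℝ}
    (hG : Lip G) (hG' : Lip G') (hh : EG h) (hle : ∀ y, h y ≤ G' y - G y) :
    chainAv m r l G h ≤ topN m r l G' - topN m r l G := by
  induction l generalizing G G' h with
  | zero =>
    unfold chainAv topN
    rw [← integral_sub (hG'.eg.integrable_smul _) (hG.eg.integrable_smul _)]
    exact integral_mono (hh.integrable_smul _)
      ((hG'.eg.integrable_smul _).sub (hG.eg.integrable_smul _)) fun z => hle _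
  | succ l ih =>
    unfold chainAv topN
    exact ih (fun j hj => hm j (by omega)) (hG.gstep (hm l (by omega)) _)
      (hG'.gstep (hm l (by omega)) _) (hh.tilt hG _ _)
      (le_gstepN_sub hG hG' hh (hm l (by omega)) _ hle)

end chain

section lw

variable {X : Type} [Fintype X] [Nonempty X]

lemma sum_exp_pos (e : X → ℝ) : 0 < ∑ x, Real.exp (e x) :=
  Finset.sum_pos (fun _ _ => Real.exp_pos _) Finset.univ_nonempty

/-- The log-partition function is a Lipschitz function of the energies. -/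
lemma log_sum_exp_le {e e' : X → ℝ} {C : ℝ} (h : ∀ x, e x ≤ e' x + C) :
    Real.log (∑ x, Real.exp (e x)) ≤ Real.log (∑ x, Real.exp (e' x)) + C := by
  rw [← Real.log_exp C, ← Real.log_mul (sum_exp_pos e').ne' (Real.exp_pos C).ne']
  refine Real.log_le_log (sum_exp_pos e) ?_
  rw [Finset.sum_mul]
  refine Finset.sum_le_sum fun x _ => ?_
  rw [← Real.exp_add]
  exact Real.exp_le_exp.2 (h x)

lemma lw_le_add (φ : X → Fin N → ℝ) (c : ℝ) {u u' : X → ℝ} {C : ℝ} (h : ∀ x, u x ≤ u' x + C)
    (y : Fin N → ℝ) : lw φ c u y ≤ lw φ c u' y + C :=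
  log_sum_exp_le fun x => by linarith [h x]

lemma abs_lw_sub_le (φ : X → Fin N → ℝ) (c : ℝ) {u u' : X → ℝ} {C : ℝ}
    (h : ∀ x, |u x - u' x| ≤ C) (y : Fin N → ℝ) : |lw φ c u y - lw φ c u' y| ≤ C := by
  rw [abs_le]
  constructor
  · have := lw_le_add φ c (u := u') (u' := u) (C := C)
      (fun x => by linarith [(abs_le.1 (h x)).1]) y
    linarith
  · have := lw_le_add φ c (u := u) (u' := u') (C := C)
      (fun x => by linarith [(abs_le.1 (h x)).2]) y
    linarith

lemma lip_lw (φ : X → Fin N → ℝ) (c : ℝ) (u : X → ℝ) : Lip (lw φ c u) := by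
  set L : ℝ := |c| * ∑ x, ∑ i, |φ x i| with hL
  have key : ∀ y y' : Fin N → ℝ, lw φ c u y ≤ lw φ c u y' + L * ‖y - y'‖ := by
    intro y y'
    refine log_sum_exp_le fun x => ?_
    have h1 : c * ∑ i, y i * φ x i - c * ∑ i, y' i * φ x i ≤ L * ‖y - y'‖ := by
      calc c * ∑ i, y i * φ x i - c * ∑ i, y' i * φ x i = c * ∑ i, (y - y') i * φ x i := by
            rw [← mul_sub, ← Finset.sum_sub_distrib]
            simp only [Pi.sub_apply, sub_mul]
        _ ≤ |c * ∑ i, (y - y') i * φ x i| := le_abs_self _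
        _ = |c| * |∑ i, (y - y') i * φ x i| := abs_mul _ _
        _ ≤ |c| * ∑ i, |(y - y') i * φ x i| := by
            gcongr; exact Finset.abs_sum_le_sum_abs _ _
        _ ≤ |c| * ∑ i, ‖y - y'‖ * |φ x i| := by
            gcongr with i _
            rw [abs_mul]
            gcongr
            rw [← Real.norm_eq_abs]; exact norm_le_pi_norm (y - y') i
        _ = |c| * (∑ i, |φ x i|) * ‖y - y'‖ := by rw [← Finset.mul_sum]; ring
        _ ≤ L * ‖y - y'‖ := by
            rw [hL]
            gcongr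
            exact Finset.single_le_sum (f := fun x => ∑ i, |φ x i|)
              (fun x _ => Finset.sum_nonneg fun i _ => abs_nonneg _) (Finset.mem_univ x)
    linarith
  refine ⟨L, by positivity, fun y y' => abs_le.2 ⟨?_, ?_⟩⟩
  · have := key y' y
    rw [norm_sub_rev] at this
    linarith
  · linarith [key y y']

/-- The Gibbs average is an average. -/
lemma gw_mono (φ : X → Fin N → ℝ) (c : ℝ) (u : X → ℝ) {h h' : X → ℝ} (hle : ∀ x, h x ≤ h' x)
    (y : Fin N → ℝ) : gw φ c u h y ≤ gw φ c u h' y := by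
  unfold gw
  refine div_le_div_of_nonneg_right ?_ (sum_exp_pos _).le
  exact Finset.sum_le_sum fun x _ => mul_le_mul_of_nonneg_left (hle x) (Real.exp_pos _).le

lemma gw_const (φ : X → Fin N → ℝ) (c : ℝ) (u : X → ℝ) (a : ℝ) (y : Fin N → ℝ) :
    gw φ c u (fun _ => a) y = a := by
  unfold gw
  rw [← Finset.sum_mul, mul_comm, mul_div_assoc, div_self (sum_exp_pos _).ne', mul_one]

lemma abs_gw_le (φ : X → Fin N → ℝ) (c : ℝ) (u : X → ℝ) {h : X → ℝ} {C : ℝ}
    (hC : ∀ x, |h x| ≤ C) (y : Fin N → ℝ) : |gw φ c u h y| ≤ C := by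
  rw [abs_le]
  constructor
  · rw [← gw_const φ c u (-C) y]
    exact gw_mono φ c u (fun x => (abs_le.1 (hC x)).1) y
  · rw [← gw_const φ c u C y]
    exact gw_mono φ c u (fun x => (abs_le.1 (hC x)).2) y

omit [Nonempty X] in
lemma measurable_gw (φ : X → Fin N → ℝ) (c : ℝ) (u : X → ℝ) (h : X → ℝ) :
    Measurable (gw φ c u h) := by
  unfold gw
  fun_prop

lemma eg_gw (φ : X → Fin N → ℝ) (c : ℝ) (u : X → ℝ) (h : X → ℝ) : EG (gw φ c u h) := by
  refine EG.of_bdd (measurable_gw φ c u h) (C := ∑ x, |h x|) fun y => ?_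
  exact abs_gw_le φ c u (fun x => Finset.single_le_sum (f := fun x => |h x|)
    (fun x _ => abs_nonneg _) (Finset.mem_univ x)) y

lemma eg_bw (φ : X → Fin N → ℝ) (c : ℝ) (u : X → ℝ) (i : Fin N) :
    EG (fun y => bw φ c u y i) := eg_gw φ c u _

end lw

section meas

variable {X : Type} [Fintype X] [Nonempty X] {m r : ℕ → ℝ}

/-- The full cascade depends continuously on the energies. -/
lemma continuous_topN_lw {l : ℕ} (hm : ∀ j < l, 0 < m (j + 1)) (φ : X → Fin N → ℝ) (c : ℝ) :
    Continuous (fun u : X → ℝ => topN m r l (lw φ c u)) := by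
  refine (LipschitzWith.of_dist_le_mul (K := 1) fun u u' => ?_).continuous
  rw [Real.dist_eq, NNReal.coe_one, one_mul, dist_eq_norm]
  refine abs_topN_sub_le hm (lip_lw φ c u) (lip_lw φ c u') fun y => ?_
  refine abs_lw_sub_le φ c (fun x => ?_) y
  have := norm_le_pi_norm (u - u') x
  rwa [Real.norm_eq_abs, Pi.sub_apply] at this

lemma abs_topN_lw_sub_le {l : ℕ} (hm : ∀ j < l, 0 < m (j + 1)) (φ : X → Fin N → ℝ) (c : ℝ)
    {u u' : X → ℝ} {C : ℝ} (h : ∀ x, |u x - u' x| ≤ C) :
    |topN m r l (lw φ c u) - topN m r l (lw φ c u')| ≤ C :=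
  abs_topN_sub_le hm (lip_lw φ c u) (lip_lw φ c u') (abs_lw_sub_le φ c h)

end meas

end Vale.Agent.P157.Par
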