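import Vale.Agent.P157.ParDefs

/-!
Definitions for the Guerra upper bound (module U of the Parisi plan): the cascades in dimension
`N`, the tilted chain, and the log-weights of a finite system in a Gaussian field.
-/

open MeasureTheory ProbabilityTheory

namespace Vale.Agent.P157.Par

/-- The standard Gaussian measure on `ℝ^N`. -/
noncomputable abbrev gN (N : ℕ) : Measure (Fin N → ℝ) := Measure.pi fun _ => gaussianReal 0 1

variable {N : ℕ}

/-- One step of the cascade in dimension `N`: `y ↦ (1/m) log E exp(m G(y + √v z))`. -/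
noncomputable def gstepN (m v : ℝ) (G : (Fin N → ℝ) → ℝ) : (Fin N → ℝ) → ℝ := fun y =>
  1 / m * Real.log (∫ z, Real.exp (m * G (y + √v • z)) ∂(gN N))

/-- One step of the tilted chain: `y ↦ E[h(y + √v z) e^{m G(y + √v z)}] / E[e^{m G(y + √v z)}]`. -/
noncomputable def tiltN (m v : ℝ) (G h : (Fin N → ℝ) → ℝ) : (Fin N → ℝ) → ℝ := fun y =>
  (∫ z, h (y + √v • z) * Real.exp (m * G (y + √v • z)) ∂(gN N)) /
    ∫ z, Real.exp (m * G (y + √v • z)) ∂(gN N)

/-- The value of the full cascade started at the level `l` with the function `G`. -/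
noncomputable def topN (m r : ℕ → ℝ) : ℕ → ((Fin N → ℝ) → ℝ) → ℝ
  | 0, G => ∫ z, G (√(r 0) • z) ∂(gN N)
  | l + 1, G => topN m r l (gstepN (m (l + 1)) (r (l + 1) - r l) G)

/-- The average of `h` over the state at the level `l` of the tilted chain, when the log-weight at
the level `l` is `G`. -/
noncomputable def chainAv (m r : ℕ → ℝ) : ℕ → ((Fin N → ℝ) → ℝ) → ((Fin N → ℝ) → ℝ) → ℝ
  | 0, _, h => ∫ z, h (√(r 0) • z) ∂(gN N)
  | l + 1, G, h => chainAv m r l (gstepN (m (l + 1)) (r (l + 1) - r l) G)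
      (tiltN (m (l + 1)) (r (l + 1) - r l) G h)

/-- The overlap path of the tilted chain: `Rs m r l G B j = (1/N) E_chain |B_j|²` for `j ≤ l`, where
`B_l = B` and `B_{j-1}` is the tilted average of `B_j`. -/
noncomputable def Rs (m r : ℕ → ℝ) : ℕ → ((Fin N → ℝ) → ℝ) → ((Fin N → ℝ) → Fin N → ℝ) → ℕ → ℝ
  | 0, G, B, _ => chainAv m r 0 G (fun y => ∑ i, B y i ^ 2) / N
  | l + 1, G, B, j => if j ≤ l then
      Rs m r l (gstepN (m (l + 1)) (r (l + 1) - r l) G)
        (fun y i => tiltN (m (l + 1)) (r (l + 1) - r l) G (fun y => B y i) y) j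
      else chainAv m r (l + 1) G (fun y => ∑ i, B y i ^ 2) / N

theorem topN_succ_def (m r : ℕ → ℝ) (l : ℕ) (G : (Fin N → ℝ) → ℝ) :
    topN m r (l + 1) G = topN m r l (gstepN (m (l + 1)) (r (l + 1) - r l) G) := by
  have h1 := @topN.eq_1
  have h2 := @topN.eq_def
  simp only [topN]

theorem chainAv_succ_def (m r : ℕ → ℝ) (l : ℕ) (G h : (Fin N → ℝ) → ℝ) :
    chainAv m r (l + 1) G h = chainAv m r l (gstepN (m (l + 1)) (r (l + 1) - r l) G)
      (tiltN (m (l + 1)) (r (l + 1) - r l) G h) := by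
  have h1 := @chainAv.eq_1
  have h2 := @chainAv.eq_def
  simp only [chainAv]

theorem Rs_succ_def (m r : ℕ → ℝ) (l : ℕ) (G : (Fin N → ℝ) → ℝ) (B : (Fin N → ℝ) → Fin N → ℝ)
    {j : ℕ} (hj : j ≤ l) : Rs m r (l + 1) G B j =
      Rs m r l (gstepN (m (l + 1)) (r (l + 1) - r l) G)
        (fun y i => tiltN (m (l + 1)) (r (l + 1) - r l) G (fun y => B y i) y) j := by
  have h1 := @Rs.eq_1
  have h2 := @Rs.eq_def
  simp only [Rs, if_pos hj]

variable {X : Type} [Fintype X]

/-- The log-partition function in the field `c y`: `y ↦ log ∑_x e^{u x + c ⟨y, φ x⟩}`. -/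
noncomputable def lw (φ : X → Fin N → ℝ) (c : ℝ) (u : X → ℝ) : (Fin N → ℝ) → ℝ := fun y =>
  Real.log (∑ x, Real.exp (u x + c * ∑ i, y i * φ x i))

/-- The Gibbs average of a function of `x` in the field `c y`. -/
noncomputable def gw (φ : X → Fin N → ℝ) (c : ℝ) (u : X → ℝ) (h : X → ℝ) (y : Fin N → ℝ) : ℝ :=
  (∑ x, Real.exp (u x + c * ∑ i, y i * φ x i) * h x) /
    ∑ x, Real.exp (u x + c * ∑ i, y i * φ x i)

/-- The Gibbs mean of `x` in the field `c y`. -/
noncomputable def bw (φ : X → Fin N → ℝ) (c : ℝ) (u : X → ℝ) : (Fin N → ℝ) → Fin N → ℝ :=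
  fun y i => gw φ c u (fun x => φ x i) y

end Vale.Agent.P157.Par
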