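import Vale.Agent.P157.ParUCalc

/-!
The field step of the Guerra upper bound: changing the strength of the external field of a finite
system (Jensen and Gaussian integration by parts along the tilted chain).
-/

open MeasureTheory ProbabilityTheory

namespace Vale.Agent.P157.Par

variable {N : ℕ}

lemma Rs_self (m r : ℕ → ℝ) (l : ℕ) (G : (Fin N → ℝ) → ℝ) (B : (Fin N → ℝ) → Fin N → ℝ) :
    Rs m r l G B l = chainAv m r l G (fun y => ∑ i, B y i ^ 2) / N := by
  cases l with
  | zero => rfl
  | succ l =>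
    unfold Rs
    rw [if_neg (by omega)]

lemma Rs_succ_of_le (m r : ℕ → ℝ) {l j : ℕ} (hj : j ≤ l) (G : (Fin N → ℝ) → ℝ)
    (B : (Fin N → ℝ) → Fin N → ℝ) :
    Rs m r (l + 1) G B j = Rs m r l (gstepN (m (l + 1)) (r (l + 1) - r l) G)
        (fun y i => tiltN (m (l + 1)) (r (l + 1) - r l) G (fun y => B y i) y) j := by
  conv_lhs => unfold Rs
  rw [if_pos hj]

namespace Lvl

variable {c : ℝ} {G : (Fin N → ℝ) → ℝ} {B d : (Fin N → ℝ) → Fin N → ℝ}

/-- Integration by parts along the whole chain. -/
theorem chain_field {m r : ℕ → ℝ} (hm0 : m 0 = 0) (hr0 : 0 ≤ r 0) (hN : 0 < N) (l : ℕ)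
    (hm : ∀ j < l, 0 < m (j + 1)) (hr : ∀ j < l, r j ≤ r (j + 1)) (H : Lvl c G B d) :
    chainAv m r l G (fun y => ∑ i, y i * B y i) =
      r l * (chainAv m r l G (fun y => ∑ i, d y i) + c * N * m l * Rs m r l G B l) -
        c * N * ∑ i ∈ Finset.range l, (m (i + 1) - m i) * r i * Rs m r l G B i := by
  have hN' : (N : ℝ) ≠ 0 := by positivity
  induction l generalizing G B d with
  | zero =>
    rw [hm0, Finset.range_zero, Finset.sum_empty]
    simp only [mul_zero, zero_mul, add_zero, sub_zero]
    unfold chainAv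
    have h1 : ∀ z : Fin N → ℝ, ∑ i, (√(r 0) • z) i * B (√(r 0) • z) i =
        ∑ i, √(r 0) * (z i * B (0 + √(r 0) • z) i) := by
      intro z
      refine Finset.sum_congr rfl fun i _ => ?_
      rw [zero_add, Pi.smul_apply, smul_eq_mul]
      ring
    simp only [h1]
    rw [integral_finsetSum _ fun i _ =>
      (integrable_coord_mul (H.egB i) i 0 (√(r 0))).const_mul _]
    rw [integral_finsetSum _ fun i _ => (H.egd i).integrable_smul (√(r 0)), Finset.mul_sum]
    refine Finset.sum_congr rfl fun i _ => ?_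
    rw [integral_const_mul, (H.pd2 i).stein (H.egB i) (H.egd i) (√(r 0)) 0, ← mul_assoc,
      Real.mul_self_sqrt hr0]
    simp only [zero_add]
  | succ l ih =>
    have hml := hm l (by omega)
    have hv : 0 ≤ r (l + 1) - r l := sub_nonneg.2 (hr l (by omega))
    have hm' : ∀ j < l, 0 < m (j + 1) := fun j hj => hm j (by omega)
    have hr' : ∀ j < l, r j ≤ r (j + 1) := fun j hj => hr j (by omega)
    have H' := H.step hml (r (l + 1) - r l)
    have IH := ih hm' hr' H'
    set M := m (l + 1) with hM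
    set v := r (l + 1) - r l with hvdef
    set G' := gstepN M v G with hG'
    have hG'lip : Lip G' := H'.lip
    have egd2 : ∀ i, EG (fun y => d y i + M * c * B y i ^ 2) := fun i =>
      (H.egd i).add (((H.egB i).pow 2).const_mul _)
    have egt : ∀ i, EG (tiltN M v G (fun y => d y i + M * c * B y i ^ 2)) := fun i =>
      (egd2 i).tilt H.lip M v
    have egtB : ∀ i, EG (tiltN M v G (fun y => B y i)) := fun i => (H.egB i).tilt H.lip M v
    -- the left side
    have e1 : chainAv m r (l + 1) G (fun y => ∑ i, y i * B y i) =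
        chainAv m r l G' (fun y => ∑ i, y i * tiltN M v G (fun y => B y i) y) +
          v * chainAv m r l G' (fun y => ∑ i, tiltN M v G (fun y => d y i + M * c * B y i ^ 2) y)
        := by
      change chainAv m r l G' (tiltN M v G (fun y => ∑ i, y i * B y i)) = _
      rw [funext (H.tilt_field M hv), ← chainAv_const_mul, chainAv_add hm' hG'lip]
      · exact EG.sum _ fun i _ => (EG.coord i).mul (egtB i)
      · exact (EG.sum _ fun i _ => egt i).const_mul v
    -- the values
    have e2 : chainAv m r l G' (fun y => ∑ i, tiltN M v G (fun y => d y i + M * c * B y i ^ 2) y) =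
        chainAv m r (l + 1) G (fun y => ∑ i, d y i) +
          M * c * chainAv m r (l + 1) G (fun y => ∑ i, B y i ^ 2) := by
      change _ = chainAv m r l G' (tiltN M v G (fun y => ∑ i, d y i)) +
        M * c * chainAv m r l G' (tiltN M v G (fun y => ∑ i, B y i ^ 2))
      rw [← chainAv_const_mul, ← chainAv_add hm' hG'lip
        ((EG.sum _ fun i _ => H.egd i).tilt H.lip M v)
        (((EG.sum _ fun i _ => (H.egB i).pow 2).tilt H.lip M v).const_mul _)]
      congr 1
      funext y
      rw [← tiltN_const_mul, ← tiltN_add H.lip (EG.sum _ fun i _ => H.egd i)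
        ((EG.sum _ fun i _ => (H.egB i).pow 2).const_mul _),
        ← tiltN_sum Finset.univ H.lip (fun i _ => egd2 i)]
      refine tiltN_congr (fun y => ?_) M v y
      rw [Finset.mul_sum, ← Finset.sum_add_distrib]
    have e3 : chainAv m r l G' (fun y => ∑ i, (tiltN M v G (fun y => d y i + M * c * B y i ^ 2) y
        - M * c * (tiltN M v G (fun y => B y i) y) ^ 2)) =
        chainAv m r l G' (fun y => ∑ i, tiltN M v G (fun y => d y i + M * c * B y i ^ 2) y) -
          M * c * chainAv m r l G' (fun y => ∑ i, (tiltN M v G (fun y => B y i) y) ^ 2) := by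
      rw [← chainAv_const_mul, ← chainAv_sub hm' hG'lip (EG.sum _ fun i _ => egt i)
        ((EG.sum _ fun i _ => (egtB i).pow 2).const_mul _)]
      congr 1
      funext y
      rw [Finset.mul_sum, ← Finset.sum_sub_distrib]
    have e4 : Rs m r (l + 1) G B (l + 1) =
        chainAv m r (l + 1) G (fun y => ∑ i, B y i ^ 2) / N := Rs_self m r (l + 1) G B
    have e5 : Rs m r l G' (fun y i => tiltN M v G (fun y => B y i) y) l =
        chainAv m r l G' (fun y => ∑ i, (tiltN M v G (fun y => B y i) y) ^ 2) / N :=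
      Rs_self m r l G' _
    have e6 : ∑ i ∈ Finset.range (l + 1), (m (i + 1) - m i) * r i * Rs m r (l + 1) G B i =
        ∑ i ∈ Finset.range l, (m (i + 1) - m i) * r i *
          Rs m r l G' (fun y i => tiltN M v G (fun y => B y i) y) i +
        (m (l + 1) - m l) * r l * Rs m r l G' (fun y i => tiltN M v G (fun y => B y i) y) l := by
      rw [Finset.sum_range_succ, Rs_succ_of_le m r le_rfl]
      congr 1
      refine Finset.sum_congr rfl fun i hi => ?_
      rw [Rs_succ_of_le m r (Finset.mem_range.1 hi).le]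
    rw [e1, IH, e6, e4, e3, e2, e5]
    set S1 := chainAv m r (l + 1) G (fun y => ∑ i, d y i)
    set S2 := chainAv m r (l + 1) G (fun y => ∑ i, B y i ^ 2)
    set S3 := chainAv m r l G' (fun y => ∑ i, (tiltN M v G (fun y => B y i) y) ^ 2)
    have e7 : r (l + 1) = r l + v := by rw [hvdef]; ring
    rw [e7, ← hM]
    field_simp
    ring

end Lvl

section top

variable {X : Type} [Fintype X]

omit [Fintype X] in
lemma pd_energy (φ : X → Fin N → ℝ) (c : ℝ) (u : X → ℝ) (x : X) (i : Fin N) :
    PD i (fun y => Real.exp (u x + c * ∑ j, y j * φ x j))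
      (fun y => Real.exp (u x + c * ∑ j, y j * φ x j) * (c * φ x i)) := by
  refine PD.exp ?_
  intro y t
  have h1 : ∀ s : ℝ, u x + c * ∑ j, Function.update y i s j * φ x j =
      (u x + c * ∑ j ∈ Finset.univ.erase i, y j * φ x j) + s * (c * φ x i) := by
    intro s
    rw [← Finset.add_sum_erase _ _ (Finset.mem_univ i), Function.update_self]
    have h2 : ∑ j ∈ Finset.univ.erase i, Function.update y i s j * φ x j =
        ∑ j ∈ Finset.univ.erase i, y j * φ x j := by
      refine Finset.sum_congr rfl fun j hj => ?_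
      rw [Function.update_of_ne (Finset.ne_of_mem_erase hj)]
    rw [h2]
    ring
  simp only [h1]
  simpa using ((hasDerivAt_id t).mul_const (c * φ x i)).const_add
    (u x + c * ∑ j ∈ Finset.univ.erase i, y j * φ x j)

variable [Nonempty X]

theorem lvl_lw (φ : X → Fin N → ℝ) (c : ℝ) (u : X → ℝ) :
    Lvl c (lw φ c u) (bw φ c u)
      (fun y i => c * (gw φ c u (fun x => φ x i ^ 2) y - bw φ c u y i ^ 2)) := by
  have hZ : ∀ i, PD i (fun y : Fin N → ℝ => ∑ x, Real.exp (u x + c * ∑ j, y j * φ x j))
      (fun y => ∑ x, Real.exp (u x + c * ∑ j, y j * φ x j) * (c * φ x i)) := fun i =>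
    PD.sum Finset.univ fun x _ => pd_energy φ c u x i
  have hpos : ∀ y : Fin N → ℝ, 0 < ∑ x, Real.exp (u x + c * ∑ j, y j * φ x j) := fun y =>
    sum_exp_pos _
  have hgb : ∀ (h : X → ℝ) (y : Fin N → ℝ), |gw φ c u h y| ≤ ∑ x, |h x| := fun h y =>
    abs_gw_le φ c u (fun x => Finset.single_le_sum (f := fun x => |h x|)
      (fun x _ => abs_nonneg _) (Finset.mem_univ x)) y
  refine ⟨lip_lw φ c u, fun i => ?_, fun i => ?_, fun i => measurable_gw φ c u _, fun i => ?_,
    ⟨∑ i, ∑ x, |φ x i|, fun y i => ?_⟩, ?_⟩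
  · refine ((hZ i).log fun y => (hpos y).ne').congr fun y => ?_
    unfold bw gw
    rw [← mul_div_assoc, Finset.mul_sum]
    congr 1
    refine Finset.sum_congr rfl fun x _ => by ring
  · have hnum : PD i (fun y : Fin N → ℝ => ∑ x, Real.exp (u x + c * ∑ j, y j * φ x j) * φ x i)
        (fun y => ∑ x, φ x i * (Real.exp (u x + c * ∑ j, y j * φ x j) * (c * φ x i))) := by
      have h1 : PD i (fun y : Fin N → ℝ => ∑ x, φ x i * Real.exp (u x + c * ∑ j, y j * φ x j))
        (fun y => ∑ x, φ x i * (Real.exp (u x + c * ∑ j, y j * φ x j) * (c * φ x i))) :=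
        PD.sum Finset.univ fun x _ => (pd_energy φ c u x i).const_mul (φ x i)
      have h2 : (fun y : Fin N → ℝ => ∑ x, Real.exp (u x + c * ∑ j, y j * φ x j) * φ x i) =
          fun y => ∑ x, φ x i * Real.exp (u x + c * ∑ j, y j * φ x j) := by
        funext y
        refine Finset.sum_congr rfl fun x _ => mul_comm _ _
      rw [h2]
      exact h1
    have h3 := hnum.div (hZ i) fun y => (hpos y).ne'
    refine h3.congr fun y => ?_
    unfold bw gw
    have h4 : ∑ x, φ x i * (Real.exp (u x + c * ∑ j, y j * φ x j) * (c * φ x i)) =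
        c * ∑ x, Real.exp (u x + c * ∑ j, y j * φ x j) * φ x i ^ 2 := by
      rw [Finset.mul_sum]
      refine Finset.sum_congr rfl fun x _ => by ring
    have h5 : ∑ x, Real.exp (u x + c * ∑ j, y j * φ x j) * (c * φ x i) =
        c * ∑ x, Real.exp (u x + c * ∑ j, y j * φ x j) * φ x i := by
      rw [Finset.mul_sum]
      refine Finset.sum_congr rfl fun x _ => by ring
    rw [h4, h5]
    have := (hpos y).ne'
    field_simp
  · exact ((measurable_gw φ c u _).sub ((measurable_gw φ c u _).pow_const 2)).const_mul c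
  · refine (hgb _ y).trans ?_
    exact Finset.single_le_sum (f := fun i => ∑ x, |φ x i|)
      (fun i _ => Finset.sum_nonneg fun x _ => abs_nonneg _) (Finset.mem_univ i)
  · refine ⟨|c| * ((∑ i, ∑ x, |φ x i ^ 2|) + (∑ i, ∑ x, |φ x i|) ^ 2), fun y i => ?_⟩
    rw [abs_mul]
    refine mul_le_mul_of_nonneg_left ((abs_sub _ _).trans (add_le_add ?_ ?_)) (abs_nonneg c)
    · refine (hgb _ y).trans ?_
      exact Finset.single_le_sum (f := fun i => ∑ x, |φ x i ^ 2|)
        (fun i _ => Finset.sum_nonneg fun x _ => abs_nonneg _) (Finset.mem_univ i)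
    · rw [abs_pow]
      refine pow_le_pow_left₀ (abs_nonneg _) ?_ 2
      refine (hgb _ y).trans ?_
      exact Finset.single_le_sum (f := fun i => ∑ x, |φ x i|)
        (fun i _ => Finset.sum_nonneg fun x _ => abs_nonneg _) (Finset.mem_univ i)

/-- Jensen for the Gibbs average. -/
theorem lw_sub_ge (φ : X → Fin N → ℝ) (c c' : ℝ) (u : X → ℝ) (y : Fin N → ℝ) :
    (c' - c) * ∑ i, y i * bw φ c u y i ≤ lw φ c' u y - lw φ c u y := by
  set Z : ℝ := ∑ x, Real.exp (u x + c * ∑ j, y j * φ x j) with hZ
  have hZpos : 0 < Z := sum_exp_pos _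
  have hZ' : 0 < ∑ x, Real.exp (u x + c' * ∑ j, y j * φ x j) := sum_exp_pos _
  set t : X → ℝ := fun x => ∑ j, y j * φ x j with ht
  have hsum : ∑ i, y i * bw φ c u y i =
      (∑ x, Real.exp (u x + c * t x) * t x) / Z := by
    unfold bw gw
    rw [← hZ]
    simp only [mul_div_assoc']
    rw [← Finset.sum_div]
    congr 1
    simp only [ht, Finset.mul_sum]
    rw [Finset.sum_comm]
    refine Finset.sum_congr rfl fun x _ => Finset.sum_congr rfl fun i _ => by ring
  set a : ℝ := (c' - c) * ((∑ x, Real.exp (u x + c * t x) * t x) / Z) with ha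
  rw [hsum, ← ha]
  have h1 : Real.exp a * Z ≤ ∑ x, Real.exp (u x + c' * t x) := by
    have h2 : ∀ x, Real.exp (u x + c * t x) * (Real.exp a * (1 + ((c' - c) * t x - a))) ≤
        Real.exp (u x + c' * t x) := by
      intro x
      have h3 : (c' - c) * t x - a + 1 ≤ Real.exp ((c' - c) * t x - a) := Real.add_one_le_exp _
      calc Real.exp (u x + c * t x) * (Real.exp a * (1 + ((c' - c) * t x - a)))
          ≤ Real.exp (u x + c * t x) * (Real.exp a * Real.exp ((c' - c) * t x - a)) := by
            gcongr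
            linarith
        _ = Real.exp (u x + c' * t x) := by
            rw [← Real.exp_add, ← Real.exp_add]
            congr 1
            ring
    refine le_trans (le_of_eq ?_) (Finset.sum_le_sum fun x _ => h2 x)
    have h4 : ∑ x, Real.exp (u x + c * t x) * (Real.exp a * (1 + ((c' - c) * t x - a))) =
        Real.exp a * ((1 - a) * ∑ x, Real.exp (u x + c * t x) +
          (c' - c) * ∑ x, Real.exp (u x + c * t x) * t x) := by
      rw [Finset.mul_sum, Finset.mul_sum, ← Finset.sum_add_distrib, Finset.mul_sum]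
      refine Finset.sum_congr rfl fun x _ => by ring
    rw [h4]
    have h5 : (c' - c) * ∑ x, Real.exp (u x + c * t x) * t x = a * Z := by
      rw [ha]
      field_simp
    rw [h5]
    have h6 : ∑ x, Real.exp (u x + c * t x) = Z := rfl
    rw [h6]
    ring
  unfold lw
  rw [le_sub_iff_add_le, ← hZ]
  calc a + Real.log Z = Real.log (Real.exp a * Z) := by
        rw [Real.log_mul (Real.exp_pos a).ne' hZpos.ne', Real.log_exp]
    _ ≤ _ := Real.log_le_log (by positivity) h1

/-- **The field step.** -/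
theorem field_step {k : ℕ} {m r : ℕ → ℝ} (hm : Exponents k m) (hr : Path k r)
    (φ : X → Fin N → ℝ) (hφ : ∀ x, ∑ i, φ x i ^ 2 = N) (hN : 0 < N) (u : X → ℝ) (c c' : ℝ) :
    topN m r k (lw φ c u) + (c' - c) * (c * N * (r k - ∑ l ∈ Finset.range (k + 1),
      (m (l + 1) - m l) * r l * Rs m r k (lw φ c u) (bw φ c u) l)) ≤ topN m r k (lw φ c' u) := by
  obtain ⟨hm0, hmk, hmlt⟩ := hm
  obtain ⟨hr0, hrle⟩ := hr
  have hmpos : ∀ j ≤ k, 0 < m (j + 1) := by
    intro j hj
    induction j with
    | zero => rw [← hm0]; exact hmlt 0 hj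
    | succ j ih => exact (ih (by omega)).trans (hmlt (j + 1) hj)
  have hmpos' : ∀ j < k, 0 < m (j + 1) := fun j hj => hmpos j hj.le
  have H := lvl_lw φ c u
  have hN' : (N : ℝ) ≠ 0 := by positivity
  have egf : EG (fun y : Fin N → ℝ => ∑ i, y i * bw φ c u y i) :=
    EG.sum _ fun i _ => (EG.coord i).mul (eg_bw φ c u i)
  have hJ := chainAv_le_topN_sub (r := r) hmpos' (lip_lw φ c u) (lip_lw φ c' u)
    (egf.const_mul (c' - c)) (lw_sub_ge φ c c' u)
  rw [chainAv_const_mul] at hJ
  have hF := H.chain_field hm0 hr0 hN k hmpos' hrle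
  have hD : chainAv m r k (lw φ c u)
      (fun y => ∑ i, c * (gw φ c u (fun x => φ x i ^ 2) y - bw φ c u y i ^ 2)) =
      c * (N - chainAv m r k (lw φ c u) (fun y => ∑ i, bw φ c u y i ^ 2)) := by
    have h1 : (fun y : Fin N → ℝ => ∑ i, c * (gw φ c u (fun x => φ x i ^ 2) y -
        bw φ c u y i ^ 2)) = fun y => c * ((N : ℝ) - ∑ i, bw φ c u y i ^ 2) := by
      funext y
      rw [← Finset.mul_sum, Finset.sum_sub_distrib]
      congr 2
      unfold gw
      rw [← Finset.sum_div, Finset.sum_comm]
      simp only [← Finset.mul_sum, hφ]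
      rw [← Finset.sum_mul, mul_comm, mul_div_assoc, div_self (sum_exp_pos _).ne', mul_one]
    rw [h1, chainAv_const_mul, chainAv_sub hmpos' (lip_lw φ c u) (EG.const _)
      (EG.sum _ fun i _ => (eg_bw φ c u i).pow 2), chainAv_const hmpos' (lip_lw φ c u)]
  rw [hD, Rs_self] at hF
  rw [hF] at hJ
  rw [Finset.sum_range_succ, hmk, Rs_self]
  set S := chainAv m r k (lw φ c u) (fun y => ∑ i, bw φ c u y i ^ 2)
  set T := ∑ l ∈ Finset.range k, (m (l + 1) - m l) * r l * Rs m r k (lw φ c u) (bw φ c u) l
  have e : c * N * (r k - (T + (1 - m k) * r k * (S / N))) =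
      r k * (c * (N - S) + c * N * m k * (S / N)) - c * N * T := by
    field_simp
    ring
  rw [e]
  linarith

end top

end Vale.Agent.P157.Par
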