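import Vale.Agent.P157.ParUMDup

/-!
Ghirlanda-Guerra identities imply nonnegativity of the overlaps and ultrametricity
(Panchenko's theorem), for finite random Gibbs systems along an ultrafilter.
-/

open MeasureTheory ProbabilityTheory Filter Topology
open scoped RealInnerProductSpace

namespace Vale.Agent.P157.Par

variable {U : Ultrafilter ℕ} {S : ℕ → Sys}

theorem tendsto_zero_of_not_ge (f : ℕ → ℝ) (h0 : ∀ N, 0 ≤ f N)
    (h : ∀ p > 0, ¬ ∀ᶠ N in (U : Filter ℕ), p ≤ f N) : Tendsto f U (𝓝 0) := by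
  rw [tendsto_order]
  refine ⟨fun a ha => Eventually.of_forall fun N => lt_of_lt_of_le ha (h0 N), fun a ha => ?_⟩
  have h1 := h a ha
  rw [← Ultrafilter.eventually_not] at h1
  filter_upwards [h1] with N hN
  exact not_le.mp hN

/-- iterated duplication -/
theorem dup_iter (hGG : ∀ p : ℕ, AsympGG U S (fun x => x ^ p)) {c : ℝ} (hc : NonAtom U S c)
    {κ : Type*} (J : κ → κ → Set ℝ) (hsymm : ∀ k l, J k l = J l k) (k0 : κ)
    (hJ : ∀ k, J k0 k ⊆ Set.Iio c) (hJ0 : Set.Iio c ⊆ J k0 k0) {n : ℕ} (hn : 2 ≤ n)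
    (τ : Fin n → κ) (i : Fin n) (hi : τ i = k0) {p : ℝ} (hp : 0 < p)
    (hA : ∀ᶠ N in (U : Filter ℕ), p ≤ (S N).pr (Ev (S N) J τ)) (m : ℕ) :
    ∃ δ > 0, ∀ᶠ N in (U : Filter ℕ),
      δ ≤ (S N).pr (Ev (S N) J (Fin.append τ (fun _ : Fin m => k0))) := by
  induction m with
  | zero =>
    refine ⟨p, hp, ?_⟩
    filter_upwards [hA] with N hN
    refine hN.trans ?_
    refine Sys.pr_mono (S N) fun x hx => ?_
    have h1 : Fin.append τ (fun _ : Fin 0 => k0) = τ := by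
      funext a
      have := Fin.append_left τ (fun _ : Fin 0 => k0) a
      exact this
    rw [h1]
    exact hx
  | succ m ih =>
    obtain ⟨δ, hδ, h⟩ := ih
    have h1 := dup hGG hc J hsymm k0 hJ hJ0 (n := n + m) (by omega)
      (Fin.append τ (fun _ : Fin m => k0)) (Fin.castAdd m i) (by rw [Fin.append_left, hi]) hδ h
    obtain ⟨δ', hδ', h'⟩ := h1
    refine ⟨δ', hδ', ?_⟩
    filter_upwards [h'] with N hN
    have h2 : (Fin.append τ (fun _ : Fin (m + 1) => k0) : Fin (n + (m + 1)) → κ) =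
        Fin.snoc (α := fun _ => κ) (Fin.append τ (fun _ : Fin m => k0)) k0 := by
      funext a
      induction a using Fin.lastCases with
      | last =>
        exact (Fin.append_right τ (fun _ : Fin (m + 1) => k0) (Fin.last m)).trans
          (Fin.snoc_last (α := fun _ : Fin (n + m + 1) => κ) k0
            (Fin.append τ (fun _ : Fin m => k0))).symm
      | cast a =>
        refine Eq.trans ?_ (Fin.snoc_castSucc (α := fun _ : Fin (n + m + 1) => κ) k0
            (Fin.append τ (fun _ : Fin m => k0)) a).symm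
        induction a using Fin.addCases with
        | left b =>
          rw [Fin.append_left]
          exact Fin.append_left τ (fun _ : Fin (m + 1) => k0) b
        | right b =>
          rw [Fin.append_right]
          exact Fin.append_right τ (fun _ : Fin (m + 1) => k0) b.castSucc
    rw [h2]
    exact hN

theorem Sys.exists_of_pr_pos {S : Sys} {n : ℕ} {E : (Fin n → S.X) → Prop} (h : 0 < S.pr E) :
    ∃ x, E x := by
  by_contra hcon
  push Not at hcon
  have h1 : S.pr E = 0 := by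
    unfold Sys.pr
    have h2 : S.tav (n := n) (fun _ x => ind (E x)) = S.tav (n := n) (fun _ _ => 0) :=
      Sys.tav_congr fun _ x => ind_of_not (hcon x)
    rw [h2, Sys.tav_const]
  linarith

theorem norm_sum_sq_le {V : Type*} [NormedAddCommGroup V] [InnerProductSpace ℝ V] {m : ℕ}
    (v : Fin m → V) (h1 : ∀ a, ‖v a‖ = 1) {c : ℝ} (h : ∀ a b, a ≠ b → ⟪v a, v b⟫ ≤ c) :
    ‖∑ a, v a‖ ^ 2 ≤ m + m * (m - 1) * c := by
  rw [← real_inner_self_eq_norm_sq, sum_inner]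
  have h2 : ∀ a, ⟪v a, ∑ b, v b⟫ ≤ 1 + (m - 1) * c := by
    intro a
    rw [inner_sum, ← Finset.add_sum_erase _ _ (Finset.mem_univ a), real_inner_self_eq_norm_sq,
      h1 a]
    have h3 : ∑ b ∈ Finset.univ.erase a, ⟪v a, v b⟫ ≤ ∑ b ∈ Finset.univ.erase a, c :=
      Finset.sum_le_sum fun b hb => h a b (Finset.ne_of_mem_erase hb).symm
    rw [Finset.sum_const, Finset.card_erase_of_mem (Finset.mem_univ a), Finset.card_univ,
      Fintype.card_fin, nsmul_eq_mul, Nat.cast_sub (by have := a.2; omega)] at h3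
    norm_num at h3 ⊢
    linarith
  calc ∑ a, ⟪v a, ∑ b, v b⟫ ≤ ∑ _a : Fin m, (1 + ((m : ℝ) - 1) * c) :=
        Finset.sum_le_sum fun a _ => h2 a
    _ = m + m * (m - 1) * c := by
      rw [Finset.sum_const, Finset.card_univ, Fintype.card_fin, nsmul_eq_mul]
      ring

/-- **Positivity of the overlaps** -/
theorem positivity (hGG : ∀ p : ℕ, AsympGG U S (fun x => x ^ p)) {ε : ℝ} (hε : 0 < ε) :
    Tendsto (fun N => (S N).tav (n := 2)
      (fun _ x => if (S N).R (x 0) (x 1) < -ε then 1 else 0)) U (𝓝 0) := by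
  refine tendsto_zero_of_not_ge _ (fun N => Sys.tav_nonneg fun _ x => by
    split_ifs <;> norm_num) fun p hp hcon => ?_
  obtain ⟨c, hc1, hc2, hc⟩ := exists_nonAtom U S (show -ε < 0 by linarith)
  obtain ⟨m, hm⟩ := exists_nat_gt (1 / (-c))
  have hA : ∀ᶠ N in (U : Filter ℕ), p ≤ (S N).pr
      (Ev (S N) (fun _ _ : Unit => Set.Iio c) (fun _ : Fin 2 => ())) := by
    filter_upwards [hcon] with N hN
    refine hN.trans ?_
    have h1 : (S N).tav (n := 2) (fun _ x => if (S N).R (x 0) (x 1) < -ε then 1 else 0) =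
        (S N).pr (n := 2) (fun x => (S N).R (x 0) (x 1) < -ε) :=
      Sys.tav_congr fun _ x => (ind_eq _).symm
    rw [h1]
    refine Sys.pr_mono (S N) fun x hx a b hab => ?_
    show (S N).R (x a) (x b) < c
    have hx' : (S N).R (x 0) (x 1) < -ε := hx
    fin_cases a <;> fin_cases b
    · exact absurd rfl hab
    · exact lt_trans hx' hc1
    · rw [Sys.R_symm]
      exact lt_trans hx' hc1
    · exact absurd rfl hab
  obtain ⟨δ, hδ, h⟩ := dup_iter hGG hc (fun _ _ : Unit => Set.Iio c) (fun _ _ => rfl) ()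
    (fun _ => subset_rfl) subset_rfl le_rfl (fun _ : Fin 2 => ()) 0 rfl hp hA m
  obtain ⟨N, hN⟩ := h.exists
  obtain ⟨x, hx⟩ := Sys.exists_of_pr_pos (lt_of_lt_of_le hδ hN)
  have h1 := norm_sum_sq_le (fun a => (S N).φ (x a)) (fun a => (S N).hφ _) (c := c)
    (fun a b hab => (le_of_lt (hx a b hab)))
  have h2 := sq_nonneg ‖∑ a, (S N).φ (x a)‖
  have h3 : 1 < m * (-c) := by
    rwa [div_lt_iff₀ (by linarith)] at hm
  have hm0 : (0 : ℝ) ≤ m := Nat.cast_nonneg m
  push_cast at h1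
  nlinarith only [hc2, h3, h1]

/-- the sets used for ultrametricity: types `0` and `2` are the close pair, `1` is the far point -/
def umJ (c : ℝ) (I01 I02 I12 : Set ℝ) : Fin 3 → Fin 3 → Set ℝ :=
  ![![Set.Iio c, I01, I02], ![I01, Set.univ, I12], ![I02, I12, Set.Iio c]]

theorem umJ_symm (c : ℝ) (I01 I02 I12 : Set ℝ) (k l : Fin 3) :
    umJ c I01 I02 I12 k l = umJ c I01 I02 I12 l k := by
  fin_cases k <;> fin_cases l <;> rfl

/-- the geometric contradiction -/
theorem um_geom {V : Type*} [NormedAddCommGroup V] [InnerProductSpace ℝ V] {m : ℕ}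
    (hm : 0 < m) (y z : Fin m → V) (x : V) (hx : ‖x‖ = 1) (hy : ∀ a, ‖y a‖ = 1)
    (hz : ∀ a, ‖z a‖ = 1) {c β ζ α' h ε : ℝ} (hyy : ∀ a b, a ≠ b → ⟪y a, y b⟫ ≤ c)
    (hzz : ∀ a b, a ≠ b → ⟪z a, z b⟫ ≤ c) (hyz : ∀ a b, ζ ≤ ⟪y a, z b⟫)
    (hxy : ∀ a, β ≤ ⟪x, y a⟫) (hxz : ∀ a, ⟪x, z a⟫ ≤ α') (hε : 0 < ε) (hgap : ε / 2 ≤ β - α')
    (hc1 : -1 ≤ c) (hcζ : c - ζ ≤ 2 * h) (hh : h ≤ ε ^ 2 / 64) (hm2 : 64 / ε ^ 2 < m) : False := by
  have hmR : (0 : ℝ) < m := by exact_mod_cast hm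
  have h1 := norm_sum_sq_le y hy hyy
  have h2 := norm_sum_sq_le z hz hzz
  have h3 : (m : ℝ) * (m * ζ) ≤ ⟪∑ a, y a, ∑ b, z b⟫ := by
    rw [sum_inner]
    have h4 : ∀ a ∈ Finset.univ, (m : ℝ) * ζ ≤ ⟪y a, ∑ b, z b⟫ := by
      intro a _
      rw [inner_sum]
      have h5 := Finset.card_nsmul_le_sum Finset.univ (fun b => ⟪y a, z b⟫) ζ
        (fun b _ => hyz a b)
      rw [Finset.card_univ, Fintype.card_fin, nsmul_eq_mul] at h5
      exact h5
    have h6 := Finset.card_nsmul_le_sum Finset.univ (fun a => ⟪y a, ∑ b, z b⟫) _ h4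
    rw [Finset.card_univ, Fintype.card_fin, nsmul_eq_mul] at h6
    exact h6
  have h4 : (m : ℝ) * (ε / 2) ≤ ⟪x, ∑ a, y a - ∑ b, z b⟫ := by
    rw [inner_sub_right, inner_sum, inner_sum]
    have h5 := Finset.card_nsmul_le_sum Finset.univ (fun b => ⟪x, y b⟫) β (fun b _ => hxy b)
    have h6 := Finset.sum_le_card_nsmul Finset.univ (fun b => ⟪x, z b⟫) α' (fun b _ => hxz b)
    rw [Finset.card_univ, Fintype.card_fin, nsmul_eq_mul] at h5 h6
    nlinarith only [h5, h6, hgap]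
  have h5 : ⟪x, ∑ a, y a - ∑ b, z b⟫ ≤ ‖∑ a, y a - ∑ b, z b‖ := by
    have := real_inner_le_norm x (∑ a, y a - ∑ b, z b)
    rwa [hx, one_mul] at this
  have h6 : ‖∑ a, y a - ∑ b, z b‖ ^ 2 =
      ‖∑ a, y a‖ ^ 2 - 2 * ⟪∑ a, y a, ∑ b, z b⟫ + ‖∑ b, z b‖ ^ 2 := norm_sub_sq_real _ _
  have h7 : ((m : ℝ) * (ε / 2)) ^ 2 ≤ ‖∑ a, y a - ∑ b, z b‖ ^ 2 := by
    have h8 := h4.trans h5
    have h9 : 0 ≤ (m : ℝ) * (ε / 2) := by positivity
    exact pow_le_pow_left₀ h9 h8 2
  have h8 : ((m : ℝ) * (ε / 2)) ^ 2 ≤ 4 * m + 4 * h * m ^ 2 := by nlinarith only [h1, h2, h3, h6, h7, hcζ, hc1]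
  have h9 : (m : ℝ) * ε ^ 2 ≤ 64 := by
    have e1 : ((m : ℝ) * (ε / 2)) ^ 2 = m * (m * ε ^ 2 / 4) := by ring
    have e2 : 4 * (m : ℝ) + 4 * h * m ^ 2 = m * (4 + 4 * h * m) := by ring
    rw [e1, e2] at h8
    have h10 := le_of_mul_le_mul_left h8 hmR
    have h11 : 4 * h * m ≤ ε ^ 2 / 16 * m := by nlinarith only [hh]
    linarith only [h10, h11, mul_pos hmR (pow_pos hε 2)]
  rw [div_lt_iff₀ (by positivity)] at hm2
  linarith only [hm2, h9]

theorem um_core (hGG : ∀ p : ℕ, AsympGG U S (fun x => x ^ p)) {ε h α β ζ : ℝ} (hε : 0 < ε)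
    (h0 : 0 < h) (h1 : h ≤ ε / 4) (h2 : h ≤ ε ^ 2 / 64) (hζ : -1 ≤ ζ) (hβζ : β ≤ ζ)
    (hα : α < β + h - ε) {p : ℝ} (hp : 0 < p)
    (hA : ∀ᶠ N in (U : Filter ℕ), p ≤ (S N).pr (n := 3) (fun x =>
      (S N).R (x 0) (x 1) ∈ Set.Ico β (β + h) ∧ (S N).R (x 0) (x 2) ∈ Set.Ico ζ (ζ + h) ∧
        (S N).R (x 1) (x 2) ∈ Set.Ico α (α + h))) : False := by
  obtain ⟨c, hc1, hc2, hc⟩ := exists_nonAtom U S (show ζ + h < ζ + 2 * h by linarith)
  obtain ⟨m, hm⟩ := exists_nat_gt (64 / ε ^ 2)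
  have hm0 : 0 < m := by
    have : (0 : ℝ) < m := lt_trans (by positivity) hm
    exact_mod_cast this
  set I01 : Set ℝ := Set.Ico β (β + h) with hI01
  set I02 : Set ℝ := Set.Ico ζ (ζ + h) with hI02
  set I12 : Set ℝ := Set.Ico α (α + h) with hI12
  set J := umJ c I01 I02 I12 with hJdef
  have e01 : I01 ⊆ Set.Iio c := fun r hr => lt_of_lt_of_le hr.2 (by linarith only [hβζ, hc1])
  have e02 : I02 ⊆ Set.Iio c := fun r hr => lt_of_lt_of_le hr.2 (by linarith)
  have e12 : I12 ⊆ Set.Iio c := fun r hr => lt_of_lt_of_le hr.2 (by linarith only [h1, hβζ, hα, hc1, hc2])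
  have hJ0 : ∀ k, J 0 k ⊆ Set.Iio c := by
    intro k
    fin_cases k
    · exact subset_rfl
    · exact e01
    · exact e02
  have hJ2 : ∀ k, J 2 k ⊆ Set.Iio c := by
    intro k
    fin_cases k
    · exact e02
    · exact e12
    · exact subset_rfl
  have hA' : ∀ᶠ N in (U : Filter ℕ), p ≤ (S N).pr (Ev (S N) J (fun a : Fin 3 => a)) := by
    filter_upwards [hA] with N hN
    refine hN.trans (Sys.pr_mono (S N) fun x hx a b hab => ?_)
    obtain ⟨x01, x02, x12⟩ := hx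
    fin_cases a <;> fin_cases b
    · exact absurd rfl hab
    · exact x01
    · exact x02
    · show (S N).R (x 1) (x 0) ∈ I01
      rw [Sys.R_symm]
      exact x01
    · exact absurd rfl hab
    · exact x12
    · show (S N).R (x 2) (x 0) ∈ I02
      rw [Sys.R_symm]
      exact x02
    · show (S N).R (x 2) (x 1) ∈ I12
      rw [Sys.R_symm]
      exact x12
    · exact absurd rfl hab
  obtain ⟨δ, hδ, hB⟩ := dup_iter hGG hc J (umJ_symm _ _ _ _) 0 hJ0 subset_rfl (n := 3)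
    (by norm_num) (fun a : Fin 3 => a) 0 rfl hp hA' m
  obtain ⟨δ', hδ', hC⟩ := dup_iter hGG hc J (umJ_symm _ _ _ _) 2 hJ2 subset_rfl (n := 3 + m)
    (by omega) (Fin.append (fun a : Fin 3 => a) (fun _ : Fin m => 0)) (Fin.castAdd m 2)
    (Fin.append_left _ _ _) hδ hB m
  obtain ⟨N, hN⟩ := hC.exists
  obtain ⟨x, hx⟩ := Sys.exists_of_pr_pos (lt_of_lt_of_le hδ' hN)
  set τ : Fin (3 + m + m) → Fin 3 := Fin.append (Fin.append (fun a : Fin 3 => a)
    (fun _ : Fin m => 0)) (fun _ : Fin m => 2) with hτ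
  let iy : Fin m → Fin (3 + m + m) := fun k => Fin.castAdd m (Fin.natAdd 3 k)
  let iz : Fin m → Fin (3 + m + m) := fun k => Fin.natAdd (3 + m) k
  let ix : Fin (3 + m + m) := Fin.castAdd m (Fin.castAdd m 1)
  have ty : ∀ k, τ (iy k) = 0 := fun k => by
    simp only [hτ, iy]
    rw [Fin.append_left, Fin.append_right]
  have tz : ∀ k, τ (iz k) = 2 := fun k => by
    simp only [hτ, iz]
    rw [Fin.append_right]
  have tx : τ ix = 1 := by
    simp only [hτ, ix]
    rw [Fin.append_left, Fin.append_left]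
  have nyy : ∀ a b, a ≠ b → iy a ≠ iy b := by
    intro a b hab heq
    apply hab
    have := congrArg Fin.val heq
    simp only [iy, Fin.val_castAdd, Fin.val_natAdd] at this
    exact Fin.ext (by omega)
  have nzz : ∀ a b, a ≠ b → iz a ≠ iz b := by
    intro a b hab heq
    apply hab
    have := congrArg Fin.val heq
    simp only [iz, Fin.val_natAdd] at this
    exact Fin.ext (by omega)
  have nyz : ∀ a b, iy a ≠ iz b := by
    intro a b heq
    have := congrArg Fin.val heq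
    simp only [iy, iz, Fin.val_castAdd, Fin.val_natAdd] at this
    have := a.2
    omega
  have nxy : ∀ a, ix ≠ iy a := by
    intro a heq
    have := congrArg Fin.val heq
    simp only [ix, iy, Fin.val_castAdd, Fin.val_natAdd] at this
    simp at this
    omega
  have nxz : ∀ a, ix ≠ iz a := by
    intro a heq
    have := congrArg Fin.val heq
    simp only [ix, iz, Fin.val_castAdd, Fin.val_natAdd] at this
    simp at this
    omega
  refine um_geom hm0 (fun k => (S N).φ (x (iy k))) (fun k => (S N).φ (x (iz k)))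
    ((S N).φ (x ix)) ((S N).hφ _) (fun _ => (S N).hφ _) (fun _ => (S N).hφ _)
    (c := c) (β := β) (ζ := ζ) (α' := α + h) (h := h) (ε := ε) ?_ ?_ ?_ ?_ ?_ hε ?_ ?_ ?_ h2 hm
  · intro a b hab
    have h3 := hx (iy a) (iy b) (nyy a b hab)
    rw [ty, ty] at h3
    exact le_of_lt h3
  · intro a b hab
    have h3 := hx (iz a) (iz b) (nzz a b hab)
    rw [tz, tz] at h3
    exact le_of_lt h3
  · intro a b
    have h3 := hx (iy a) (iz b) (nyz a b)
    rw [ty, tz] at h3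
    exact h3.1
  · intro a
    have h3 := hx ix (iy a) (nxy a)
    rw [tx, ty] at h3
    exact h3.1
  · intro a
    have h3 := hx ix (iz a) (nxz a)
    rw [tx, tz] at h3
    exact le_of_lt h3.2
  · linarith only [h1, hα]
  · linarith
  · linarith

theorem Sys.pr_le_sum {S : Sys} {n : ℕ} {ι : Type*} [Fintype ι] (E : (Fin n → S.X) → Prop)
    (F : ι → (Fin n → S.X) → Prop) (h : ∀ x, E x → ∃ t, F t x) : S.pr E ≤ ∑ t, S.pr (F t) := by
  classical
  have h1 : ∀ s : Finset ι, ∑ t ∈ s, S.pr (F t) =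
      S.tav (n := n) (fun _ x => ∑ t ∈ s, ind (F t x)) := by
    intro s
    induction s using Finset.induction_on with
    | empty =>
      simp only [Finset.sum_empty]
      exact (Sys.tav_const 0).symm
    | insert t s hts ih =>
      rw [Finset.sum_insert hts, ih]
      obtain ⟨D, hD⟩ := Sys.exists_bdd (S := S) (fun x : Fin n → S.X => ∑ t ∈ s, ind (F t x))
      unfold Sys.pr
      rw [← Sys.tav_add (Sys.bdd_ind (F t)) hD]
      refine Sys.tav_congr fun _ x => ?_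
      rw [Finset.sum_insert hts]
  rw [h1 Finset.univ]
  obtain ⟨D, hD⟩ := Sys.exists_bdd (S := S) (fun x : Fin n → S.X => ∑ t, ind (F t x))
  refine Sys.tav_mono (Sys.bdd_ind E) hD fun _ x => ?_
  by_cases hE : E x
  · obtain ⟨t, ht⟩ := h x hE
    rw [ind_of hE, ← ind_of ht]
    exact Finset.single_le_sum (f := fun t => ind (F t x)) (fun t _ => ind_nonneg _)
      (Finset.mem_univ t)
  · rw [ind_of_not hE]
    exact Finset.sum_nonneg fun t _ => ind_nonneg _

theorem exists_bin {K : ℕ} {r : ℝ} (hr : r ∈ Set.Icc (-1 : ℝ) 1) :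
    ∃ k : Fin (K + 2), r ∈ Set.Ico (-1 + (k : ℕ) * (2 / ((K : ℝ) + 1)))
      (-1 + (k : ℕ) * (2 / ((K : ℝ) + 1)) + 2 / ((K : ℝ) + 1)) := by
  set h : ℝ := 2 / ((K : ℝ) + 1) with hh
  have hK : (0 : ℝ) < (K : ℝ) + 1 := by positivity
  have h0 : 0 < h := by positivity
  have h1 : 0 ≤ (r + 1) / h := div_nonneg (by linarith [hr.1]) h0.le
  have h2 : (r + 1) / h ≤ K + 1 := by
    rw [div_le_iff₀ h0, hh, mul_div_cancel₀ _ hK.ne']
    linarith [hr.2]
  have h3 := Nat.floor_le h1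
  have h4 := Nat.lt_floor_add_one ((r + 1) / h)
  have h5 : ⌊(r + 1) / h⌋₊ < K + 2 := by
    have : (⌊(r + 1) / h⌋₊ : ℝ) ≤ K + 1 := h3.trans h2
    have h6 : ⌊(r + 1) / h⌋₊ ≤ K + 1 := by exact_mod_cast this
    omega
  refine ⟨⟨⌊(r + 1) / h⌋₊, h5⟩, ?_, ?_⟩
  · rw [le_div_iff₀ h0] at h3
    simp only
    linarith only [h3]
  · rw [div_lt_iff₀ h0] at h4
    simp only
    linarith only [h4]

/-- **Ultrametricity** (Panchenko's theorem). -/
theorem ultrametricity (hGG : ∀ p : ℕ, AsympGG U S (fun x => x ^ p)) {ε : ℝ} (hε : 0 < ε) :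
    Tendsto (fun N => (S N).tav (n := 3) (fun _ x =>
      if (S N).R (x 1) (x 2) < min ((S N).R (x 0) (x 1)) ((S N).R (x 0) (x 2)) - ε
        then 1 else 0)) U (𝓝 0) := by
  refine tendsto_zero_of_not_ge _ (fun N => Sys.tav_nonneg fun _ x => by
    split_ifs <;> norm_num) fun p hp hcon => ?_
  have hmin : 0 < min (ε / 4) (ε ^ 2 / 64) := lt_min (by positivity) (by positivity)
  obtain ⟨K, hK⟩ := exists_nat_gt (2 / min (ε / 4) (ε ^ 2 / 64))
  have hK1 : (0 : ℝ) < (K : ℝ) + 1 := by positivity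
  set h : ℝ := 2 / ((K : ℝ) + 1) with hh
  have h0 : 0 < h := by positivity
  have hle : h ≤ min (ε / 4) (ε ^ 2 / 64) := by
    rw [hh, div_le_iff₀ hK1]
    rw [div_lt_iff₀ hmin] at hK
    linarith only [hmin, hK]
  have h1 : h ≤ ε / 4 := hle.trans (min_le_left _ _)
  have h2 : h ≤ ε ^ 2 / 64 := hle.trans (min_le_right _ _)
  let ι := Fin (K + 2) × Fin (K + 2) × Fin (K + 2)
  let lo : Fin (K + 2) → ℝ := fun k => -1 + (k : ℕ) * h
  let F : (N : ℕ) → ι → (Fin 3 → (S N).X) → Prop := fun N t x =>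
    (S N).R (x 1) (x 2) < min ((S N).R (x 0) (x 1)) ((S N).R (x 0) (x 2)) - ε ∧
      ((S N).R (x 0) (x 1) ∈ Set.Ico (lo t.1) (lo t.1 + h) ∧
        (S N).R (x 0) (x 2) ∈ Set.Ico (lo t.2.1) (lo t.2.1 + h) ∧
        (S N).R (x 1) (x 2) ∈ Set.Ico (lo t.2.2) (lo t.2.2 + h))
  set q : ℝ := p / (Fintype.card ι) with hq
  have hcard : (0 : ℝ) < Fintype.card ι := by
    have : 0 < Fintype.card ι := Fintype.card_pos_iff.mpr ⟨(0, 0, 0)⟩
    exact_mod_cast this
  have hq0 : 0 < q := by positivity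
  have hex : ∀ᶠ N in (U : Filter ℕ), ∃ t : ι, q ≤ (S N).pr (F N t) := by
    filter_upwards [hcon] with N hN
    have e1 : (S N).tav (n := 3) (fun _ x =>
      if (S N).R (x 1) (x 2) < min ((S N).R (x 0) (x 1)) ((S N).R (x 0) (x 2)) - ε
        then 1 else 0) = (S N).pr (n := 3) (fun x =>
        (S N).R (x 1) (x 2) < min ((S N).R (x 0) (x 1)) ((S N).R (x 0) (x 2)) - ε) :=
      Sys.tav_congr fun _ x => (ind_eq _).symm
    rw [e1] at hN
    have e2 := Sys.pr_le_sum (S := S N) (fun x : Fin 3 → (S N).X =>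
        (S N).R (x 1) (x 2) < min ((S N).R (x 0) (x 1)) ((S N).R (x 0) (x 2)) - ε) (F N)
      (fun x hx => by
        obtain ⟨k1, hk1⟩ := exists_bin (K := K) (Sys.R_mem (x 0) (x 1))
        obtain ⟨k2, hk2⟩ := exists_bin (K := K) (Sys.R_mem (x 0) (x 2))
        obtain ⟨k3, hk3⟩ := exists_bin (K := K) (Sys.R_mem (x 1) (x 2))
        exact ⟨(k1, k2, k3), hx, hk1, hk2, hk3⟩)
    by_contra hno
    push Not at hno
    have e3 : ∑ t, (S N).pr (F N t) < ∑ _t : ι, q :=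
      Finset.sum_lt_sum_of_nonempty ⟨(0, 0, 0), Finset.mem_univ _⟩ fun t _ => hno t
    rw [Finset.sum_const, Finset.card_univ, nsmul_eq_mul, hq, mul_div_cancel₀ _ hcard.ne'] at e3
    linarith only [hN, e2, e3]
  rw [Ultrafilter.eventually_exists_iff] at hex
  obtain ⟨⟨k1, k2, k3⟩, ht⟩ := hex
  obtain ⟨N, hN⟩ := ht.exists
  obtain ⟨x, hx⟩ := Sys.exists_of_pr_pos (lt_of_lt_of_le hq0 hN)
  obtain ⟨hb, hx1, hx2, hx3⟩ := hx
  have hm1 := min_le_left ((S N).R (x 0) (x 1)) ((S N).R (x 0) (x 2))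
  have hm2 := min_le_right ((S N).R (x 0) (x 1)) ((S N).R (x 0) (x 2))
  have g1 : lo k3 < lo k1 + h - ε := by
    have e1 := hx3.1
    have e2 := hx1.2
    simp only at e1 e2
    linarith
  have g2 : lo k3 < lo k2 + h - ε := by
    have e1 := hx3.1
    have e2 := hx2.2
    simp only at e1 e2
    linarith
  have hlo : ∀ k, -1 ≤ lo k := by
    intro k
    have : 0 ≤ ((k : ℕ) : ℝ) * h := by positivity
    simp only [lo]
    linarith
  rcases le_total (lo k1) (lo k2) with hcase | hcase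
  · refine um_core hGG hε h0 h1 h2 (hlo k2) hcase g1 hq0 ?_
    filter_upwards [ht] with N hN
    exact hN.trans (Sys.pr_mono (S N) fun x hx => hx.2)
  · refine um_core hGG hε h0 h1 h2 (hlo k1) hcase g2 hq0 ?_
    filter_upwards [ht] with N hN
    refine hN.trans ?_
    let G : (Fin 3 → (S N).X) → Prop := fun x =>
      (S N).R (x 0) (x 1) ∈ Set.Ico (lo k1) (lo k1 + h) ∧
        (S N).R (x 0) (x 2) ∈ Set.Ico (lo k2) (lo k2 + h) ∧
        (S N).R (x 1) (x 2) ∈ Set.Ico (lo k3) (lo k3 + h)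
    have e1 : (S N).pr (F N (k1, k2, k3)) ≤ (S N).pr G := Sys.pr_mono (S N) fun x hx => hx.2
    have e2 : (S N).pr (fun x => G (fun k => x (Equiv.swap 1 2 k))) = (S N).pr G :=
      Sys.tav_comp (S := S N) (Equiv.swap (1 : Fin 3) 2) (Equiv.injective _)
        (fun _ x => ind (G x))
    rw [← e2] at e1
    refine e1.trans (Sys.pr_mono (S N) fun x hx => ?_)
    obtain ⟨g3, g4, g5⟩ := hx
    have s0 : (Equiv.swap (1 : Fin 3) 2) 0 = 0 := by decide
    have s1 : (Equiv.swap (1 : Fin 3) 2) 1 = 2 := by decide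
    have s2 : (Equiv.swap (1 : Fin 3) 2) 2 = 1 := by decide
    simp only [s0, s1, s2] at g3 g4 g5
    refine ⟨g4, g3, ?_⟩
    rw [Sys.R_symm]
    exact g5

end Vale.Agent.P157.Par
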