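import Vale.Agent.P157.ParSys

open MeasureTheory ProbabilityTheory Filter Topology
open scoped RealInnerProductSpace

namespace Vale.Agent.P157.Par

/-! ### indicators of propositions -/

open Classical in
/-- The real indicator of a proposition. -/
noncomputable def ind (p : Prop) : ℝ := if p then 1 else 0

theorem ind_eq (p : Prop) [Decidable p] : ind p = if p then 1 else 0 := by
  unfold ind
  by_cases h : p
  · rw [if_pos h, if_pos h]
  · rw [if_neg h, if_neg h]

theorem ind_of {p : Prop} (h : p) : ind p = 1 := by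
  classical
  rw [ind_eq, if_pos h]

theorem ind_of_not {p : Prop} (h : ¬ p) : ind p = 0 := by
  classical
  rw [ind_eq, if_neg h]

theorem ind_nonneg (p : Prop) : 0 ≤ ind p := by
  by_cases h : p
  · rw [ind_of h]; norm_num
  · rw [ind_of_not h]

theorem ind_le_one (p : Prop) : ind p ≤ 1 := by
  by_cases h : p
  · rw [ind_of h]
  · rw [ind_of_not h]; norm_num

theorem abs_ind_le_one (p : Prop) : |ind p| ≤ 1 := by
  rw [abs_of_nonneg (ind_nonneg p)]
  exact ind_le_one p

theorem ind_mono {p q : Prop} (h : p → q) : ind p ≤ ind q := by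
  by_cases hp : p
  · rw [ind_of hp, ind_of (h hp)]
  · rw [ind_of_not hp]
    exact ind_nonneg q

/-! ### the inner average -/

namespace Sys

variable (S : Sys)

/-- average over the replicas at fixed disorder -/
noncomputable def inn {n : ℕ} (ω : S.Ω) (F : (Fin n → S.X) → ℝ) : ℝ :=
  ∑ x : Fin n → S.X, (∏ i, S.w ω (x i)) * F x

variable {S}

theorem prod_w_nonneg {n : ℕ} (ω : S.Ω) (x : Fin n → S.X) : 0 ≤ ∏ i, S.w ω (x i) :=
  Finset.prod_nonneg fun i _ => S.w0 ω (x i)

theorem w_le_one (ω : S.Ω) (x : S.X) : S.w ω x ≤ 1 := by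
  rw [← S.w1 ω]
  exact Finset.single_le_sum (fun y _ => S.w0 ω y) (Finset.mem_univ x)

theorem inn_const {n : ℕ} (ω : S.Ω) (c : ℝ) : S.inn (n := n) ω (fun _ => c) = c := by
  classical
  unfold inn
  rw [← Finset.sum_mul, ← Fintype.prod_sum (fun (_ : Fin n) (y : S.X) => S.w ω y)]
  simp [S.w1 ω]

theorem inn_mono {n : ℕ} (ω : S.Ω) {F G : (Fin n → S.X) → ℝ} (h : ∀ x, F x ≤ G x) :
    S.inn ω F ≤ S.inn ω G :=
  Finset.sum_le_sum fun x _ => mul_le_mul_of_nonneg_left (h x) (prod_w_nonneg ω x)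

theorem inn_nonneg {n : ℕ} (ω : S.Ω) {F : (Fin n → S.X) → ℝ} (h : ∀ x, 0 ≤ F x) :
    0 ≤ S.inn ω F :=
  Finset.sum_nonneg fun x _ => mul_nonneg (prod_w_nonneg ω x) (h x)

theorem inn_add {n : ℕ} (ω : S.Ω) (F G : (Fin n → S.X) → ℝ) :
    S.inn ω (fun x => F x + G x) = S.inn ω F + S.inn ω G := by
  unfold inn
  rw [← Finset.sum_add_distrib]
  exact Finset.sum_congr rfl fun x _ => mul_add _ _ _

theorem inn_sub {n : ℕ} (ω : S.Ω) (F G : (Fin n → S.X) → ℝ) :
    S.inn ω (fun x => F x - G x) = S.inn ω F - S.inn ω G := by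
  unfold inn
  rw [← Finset.sum_sub_distrib]
  exact Finset.sum_congr rfl fun x _ => mul_sub _ _ _

theorem inn_smul {n : ℕ} (ω : S.Ω) (c : ℝ) (F : (Fin n → S.X) → ℝ) :
    S.inn ω (fun x => c * F x) = c * S.inn ω F := by
  unfold inn
  rw [Finset.mul_sum]
  exact Finset.sum_congr rfl fun x _ => by ring

theorem inn_abs_le {n : ℕ} (ω : S.Ω) {F : (Fin n → S.X) → ℝ} {C : ℝ} (h : ∀ x, |F x| ≤ C) :
    |S.inn ω F| ≤ C := by
  rw [abs_le]
  constructor
  · rw [← inn_const (n := n) ω (-C)]
    exact inn_mono ω fun x => (abs_le.mp (h x)).1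
  · calc S.inn ω F ≤ S.inn (n := n) ω (fun _ => C) := inn_mono ω fun x => (abs_le.mp (h x)).2
      _ = C := inn_const ω C

theorem inn_measurable {n : ℕ} {F : S.Ω → (Fin n → S.X) → ℝ} (h : ∀ x, Measurable fun ω => F ω x) :
    Measurable fun ω => S.inn ω (F ω) := by
  unfold inn
  exact Finset.measurable_sum _ fun x _ =>
    (Finset.measurable_prod _ fun i _ => S.hw (x i)).mul (h x)

theorem inn_integrable {n : ℕ} {F : S.Ω → (Fin n → S.X) → ℝ} {C : ℝ}
    (h : ∀ x, Measurable fun ω => F ω x) (hC : ∀ ω x, |F ω x| ≤ C) :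
    Integrable (fun ω => S.inn ω (F ω)) S.P := by
  refine Integrable.of_bound (inn_measurable h).aestronglyMeasurable C
    (Eventually.of_forall fun ω => ?_)
  rw [Real.norm_eq_abs]
  exact inn_abs_le ω (hC ω)

/-- splitting off the last `j` replicas -/
theorem inn_append {n j : ℕ} (ω : S.Ω) (F : (Fin (n + j) → S.X) → ℝ) :
    S.inn ω F = S.inn (n := n) ω (fun u => S.inn (n := j) ω (fun v => F (Fin.append u v))) := by
  unfold inn
  rw [← Equiv.sum_comp (Fin.appendEquiv n j), Fintype.sum_prod_type]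
  refine Finset.sum_congr rfl fun u _ => ?_
  rw [Finset.mul_sum]
  refine Finset.sum_congr rfl fun v _ => ?_
  have h : Fin.appendEquiv n j (u, v) = Fin.append u v := rfl
  rw [h, Fin.prod_univ_add]
  simp only [Fin.append_left, Fin.append_right]
  ring

/-- marginals of the replicas -/
theorem inn_comp {m n : ℕ} (ω : S.Ω) (e : Fin m → Fin n) (he : Function.Injective e)
    (g : (Fin m → S.X) → ℝ) :
    S.inn (n := n) ω (fun x => g (fun k => x (e k))) = S.inn ω g := by
  classical
  unfold inn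
  have h1 : ∀ x : Fin n → S.X, (∏ i, S.w ω (x i)) * g (fun k => x (e k)) =
      ∑ y : Fin m → S.X, g y * ((∏ a, S.w ω (x a)) * ind (∀ k, x (e k) = y k)) := by
    intro x
    rw [Finset.sum_eq_single (fun k => x (e k))]
    · rw [ind_of (fun _ => rfl)]
      ring
    · intro y _ hy
      rw [ind_of_not]
      · ring
      · intro h
        exact hy (funext fun k => (h k).symm)
    · intro h
      exact absurd (Finset.mem_univ _) h
  simp_rw [h1]
  rw [Finset.sum_comm]
  refine Finset.sum_congr rfl fun y _ => ?_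
  rw [← Finset.mul_sum, mul_comm]
  congr 1
  have h2 : ∀ x : Fin n → S.X, (∏ a, S.w ω (x a)) * ind (∀ k, x (e k) = y k) =
      ∏ a, (S.w ω (x a) * ind (∀ k, e k = a → x a = y k)) := by
    intro x
    rw [Finset.prod_mul_distrib]
    congr 1
    by_cases h : ∀ k, x (e k) = y k
    · rw [ind_of h]
      symm
      refine Finset.prod_eq_one fun a _ => ind_of ?_
      rintro k rfl
      exact h k
    · rw [ind_of_not h]
      push Not at h
      obtain ⟨k, hk⟩ := h
      symm
      refine Finset.prod_eq_zero (Finset.mem_univ (e k)) (ind_of_not ?_)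
      intro h3
      exact hk (h3 k rfl)
  simp_rw [h2]
  rw [← Fintype.prod_sum (fun (a : Fin n) (v : S.X) =>
    S.w ω v * ind (∀ k, e k = a → v = y k))]
  symm
  refine Fintype.prod_of_injective e he _ _ ?_ ?_
  · intro a ha
    have h3 : ∀ v : S.X, S.w ω v * ind (∀ k, e k = a → v = y k) = S.w ω v := by
      intro v
      rw [ind_of, mul_one]
      intro k hk
      exact absurd ⟨k, hk⟩ ha
    simp_rw [h3]
    exact S.w1 ω
  · intro k
    rw [Finset.sum_eq_single (y k)]
    · rw [ind_of, mul_one]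
      intro k' hk'
      rw [he hk']
    · intro v _ hv
      rw [ind_of_not, mul_zero]
      intro h
      exact hv (h k rfl)
    · intro h
      exact absurd (Finset.mem_univ _) h

theorem inn_one (ω : S.Ω) (F : (Fin 1 → S.X) → ℝ) :
    S.inn ω F = ∑ y, S.w ω y * F (fun _ => y) := by
  unfold inn
  rw [← Equiv.sum_comp (Equiv.funUnique (Fin 1) S.X).symm]
  refine Finset.sum_congr rfl fun y _ => ?_
  have h : (Equiv.funUnique (Fin 1) S.X).symm y = fun _ => y := by
    funext i
    rw [Subsingleton.elim i default]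
    rfl
  rw [h]
  simp

/-- splitting off the last replica -/
theorem inn_snoc {n : ℕ} (ω : S.Ω) (F : (Fin (n + 1) → S.X) → ℝ) :
    S.inn ω F = S.inn (n := n) ω (fun u => ∑ y, S.w ω y * F (Fin.snoc u y)) := by
  rw [inn_append (n := n) (j := 1)]
  congr 1
  funext u
  rw [inn_one]
  refine Finset.sum_congr rfl fun y _ => ?_
  congr 2
  exact Fin.append_right_eq_snoc u (fun _ => y)

/-- product structure in the last replicas -/
theorem inn_prod {j : ℕ} (ω : S.Ω) (h : S.X → ℝ) :
    S.inn (n := j) ω (fun v => ∏ k, h (v k)) = (∑ y, S.w ω y * h y) ^ j := by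
  classical
  unfold inn
  have h1 : ∀ v : Fin j → S.X, (∏ i, S.w ω (v i)) * ∏ k, h (v k) =
      ∏ k, (S.w ω (v k) * h (v k)) := fun v => by rw [Finset.prod_mul_distrib]
  simp_rw [h1]
  rw [← Fintype.prod_sum (fun (_ : Fin j) (v : S.X) => S.w ω v * h v)]
  simp

theorem inn_mono' {n : ℕ} (ω : S.Ω) {F G : (Fin n → S.X) → ℝ}
    (h : ∀ x, (∀ i, 0 < S.w ω (x i)) → F x ≤ G x) : S.inn ω F ≤ S.inn ω G := by
  refine Finset.sum_le_sum fun x _ => ?_
  by_cases hx : ∀ i, 0 < S.w ω (x i)
  · exact mul_le_mul_of_nonneg_left (h x hx) (prod_w_nonneg ω x)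
  · push Not at hx
    obtain ⟨i, hi⟩ := hx
    have h0 : S.w ω (x i) = 0 := le_antisymm hi (S.w0 ω (x i))
    rw [Finset.prod_eq_zero (Finset.mem_univ i) h0, zero_mul, zero_mul]

/-- resampling one replica -/
theorem inn_update {n : ℕ} (ω : S.Ω) (i : Fin n) (F : (Fin n → S.X) → ℝ) :
    S.inn ω F = S.inn ω (fun x => ∑ y, S.w ω y * F (Function.update x i y)) := by
  classical
  unfold inn
  have h1 : ∀ x : Fin n → S.X, (∏ a, S.w ω (x a)) * F x =
      ∑ y, ((∏ a, S.w ω (x a)) * S.w ω y) * F x := by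
    intro x
    rw [← Finset.sum_mul, ← Finset.mul_sum, S.w1 ω, mul_one]
  have h2 : ∀ x : Fin n → S.X, (∏ a, S.w ω (x a)) *
      ∑ y, S.w ω y * F (Function.update x i y) =
      ∑ y, ((∏ a, S.w ω (x a)) * S.w ω y) * F (Function.update x i y) := by
    intro x
    rw [Finset.mul_sum]
    exact Finset.sum_congr rfl fun y _ => by ring
  simp_rw [h1, h2]
  rw [← Fintype.sum_prod_type' (fun (x : Fin n → S.X) (y : S.X) =>
      ((∏ a, S.w ω (x a)) * S.w ω y) * F x),
    ← Fintype.sum_prod_type' (fun (x : Fin n → S.X) (y : S.X) =>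
      ((∏ a, S.w ω (x a)) * S.w ω y) * F (Function.update x i y))]
  let e : ((Fin n → S.X) × S.X) → ((Fin n → S.X) × S.X) :=
    fun p => (Function.update p.1 i p.2, p.1 i)
  have he : Function.Involutive e := by
    rintro ⟨x, y⟩
    simp [e]
  rw [← Equiv.sum_comp (Function.Involutive.toPerm e he)]
  refine Finset.sum_congr rfl fun p _ => ?_
  obtain ⟨x, y⟩ := p
  have h3 : Function.Involutive.toPerm e he (x, y) = (Function.update x i y, x i) := rfl
  rw [h3]
  have h4 : (∏ a, S.w ω (Function.update x i y a)) * S.w ω (x i) =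
      (∏ a, S.w ω (x a)) * S.w ω y := by
    rw [← Finset.mul_prod_erase Finset.univ _ (Finset.mem_univ i),
      ← Finset.mul_prod_erase Finset.univ (fun a => S.w ω (x a)) (Finset.mem_univ i)]
    have h5 : ∏ a ∈ Finset.univ.erase i, S.w ω (Function.update x i y a) =
        ∏ a ∈ Finset.univ.erase i, S.w ω (x a) := by
      refine Finset.prod_congr rfl fun a ha => ?_
      rw [Function.update_of_ne (Finset.ne_of_mem_erase ha)]
    rw [h5, Function.update_self]
    ring
  simp only
  rw [h4]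

/-! ### averages over the disorder -/

/-- bounded measurable functions of the replicas -/
structure Bdd (S : Sys) {n : ℕ} (F : S.T → (Fin n → S.X) → ℝ) (C : ℝ) : Prop where
  meas : ∀ x, Measurable fun t => F t x
  bdd : ∀ t x, |F t x| ≤ C

theorem tav_def {n : ℕ} (F : S.T → (Fin n → S.X) → ℝ) :
    S.tav F = ∫ ω, S.inn ω (F (S.π ω)) ∂S.P := rfl

theorem Bdd.integrable {n : ℕ} {F : S.T → (Fin n → S.X) → ℝ} {C : ℝ} (h : Bdd S F C) :
    Integrable (fun ω => S.inn ω (F (S.π ω))) S.P :=
  inn_integrable (C := C) (fun x => (h.meas x).comp S.hπ) (fun _ x => h.bdd _ x)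

/-- functions of the replicas alone -/
theorem exists_bdd {n : ℕ} (f : (Fin n → S.X) → ℝ) : ∃ C, Bdd S (fun _ => f) C := by
  classical
  refine ⟨∑ x, |f x|, fun _ => measurable_const, fun t x => ?_⟩
  exact Finset.single_le_sum (f := fun x => |f x|) (fun _ _ => abs_nonneg _) (Finset.mem_univ x)

theorem Bdd.mul {n : ℕ} {F G : S.T → (Fin n → S.X) → ℝ} {C D : ℝ} (hF : Bdd S F C)
    (hG : Bdd S G D) : Bdd S (fun t x => F t x * G t x) (C * D) where
  meas x := (hF.meas x).mul (hG.meas x)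
  bdd t x := by
    rw [abs_mul]
    exact mul_le_mul (hF.bdd t x) (hG.bdd t x) (abs_nonneg _) ((abs_nonneg _).trans (hF.bdd t x))

theorem Bdd.comp {m n : ℕ} {F : S.T → (Fin m → S.X) → ℝ} {C : ℝ} (hF : Bdd S F C)
    (e : Fin m → Fin n) : Bdd S (fun t (x : Fin n → S.X) => F t (fun k => x (e k))) C where
  meas x := hF.meas _
  bdd t x := hF.bdd t _

theorem tav_add {n : ℕ} {F G : S.T → (Fin n → S.X) → ℝ} {C D : ℝ} (hF : Bdd S F C)
    (hG : Bdd S G D) : S.tav (fun t x => F t x + G t x) = S.tav F + S.tav G := by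
  rw [tav_def, tav_def, tav_def, ← integral_add hF.integrable hG.integrable]
  exact integral_congr_ae (Eventually.of_forall fun ω => inn_add ω _ _)

theorem tav_sub {n : ℕ} {F G : S.T → (Fin n → S.X) → ℝ} {C D : ℝ} (hF : Bdd S F C)
    (hG : Bdd S G D) : S.tav (fun t x => F t x - G t x) = S.tav F - S.tav G := by
  rw [tav_def, tav_def, tav_def, ← integral_sub hF.integrable hG.integrable]
  exact integral_congr_ae (Eventually.of_forall fun ω => inn_sub ω _ _)

theorem tav_smul {n : ℕ} (c : ℝ) (F : S.T → (Fin n → S.X) → ℝ) :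
    S.tav (fun t x => c * F t x) = c * S.tav F := by
  rw [tav_def, tav_def, ← integral_const_mul]
  exact integral_congr_ae (Eventually.of_forall fun ω => inn_smul ω _ _)

theorem tav_mono {n : ℕ} {F G : S.T → (Fin n → S.X) → ℝ} {C D : ℝ} (hF : Bdd S F C)
    (hG : Bdd S G D) (h : ∀ t x, F t x ≤ G t x) : S.tav F ≤ S.tav G :=
  integral_mono hF.integrable hG.integrable fun ω => inn_mono ω (h _)

theorem tav_nonneg {n : ℕ} {F : S.T → (Fin n → S.X) → ℝ} (h : ∀ t x, 0 ≤ F t x) : 0 ≤ S.tav F :=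
  integral_nonneg fun ω => inn_nonneg ω (h _)

theorem tav_const {n : ℕ} (c : ℝ) : S.tav (n := n) (fun _ _ => c) = c := by
  rw [tav_def]
  simp_rw [inn_const]
  simp

theorem tav_congr {n : ℕ} {F G : S.T → (Fin n → S.X) → ℝ} (h : ∀ t x, F t x = G t x) :
    S.tav F = S.tav G := by
  have : F = G := by
    funext t x
    exact h t x
  rw [this]

theorem tav_abs_le {n : ℕ} {F G : S.T → (Fin n → S.X) → ℝ} {C D : ℝ} (hF : Bdd S F C)
    (hG : Bdd S G D) (h : ∀ t x, |F t x| ≤ G t x) : |S.tav F| ≤ S.tav G := by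
  rw [abs_le]
  constructor
  · have h1 : S.tav (fun t x => (-1) * G t x) = (-1) * S.tav G := tav_smul _ _
    have h2 : Bdd S (fun t x => (-1) * G t x) D :=
      ⟨fun x => (hG.meas x).const_mul _, fun t x => by
        rw [abs_mul, abs_neg, abs_one, one_mul]; exact hG.bdd t x⟩
    have h3 := tav_mono h2 hF (fun t x => by
      have := (abs_le.mp (h t x)).1
      linarith)
    linarith
  · exact tav_mono hF hG fun t x => (abs_le.mp (h t x)).2

theorem tav_comp {m n : ℕ} (e : Fin m → Fin n) (he : Function.Injective e)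
    (F : S.T → (Fin m → S.X) → ℝ) :
    S.tav (fun t (x : Fin n → S.X) => F t (fun k => x (e k))) = S.tav F := by
  rw [tav_def, tav_def]
  exact integral_congr_ae (Eventually.of_forall fun ω => inn_comp ω e he _)

theorem tav_pair {n : ℕ} {a b : Fin n} (hab : a ≠ b) (f : S.X → S.X → ℝ) :
    S.tav (fun _ (x : Fin n → S.X) => f (x a) (x b)) =
      S.tav (n := 2) (fun _ x => f (x 0) (x 1)) := by
  have h := tav_comp (S := S) (![a, b] : Fin 2 → Fin n) (by
    intro k l hkl
    fin_cases k <;> fin_cases l <;> simp_all) (fun _ x => f (x 0) (x 1))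
  exact h

end Sys

end Vale.Agent.P157.Par
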