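import Vale.Agent.P157.ParUMGG

open MeasureTheory ProbabilityTheory Filter Topology
open scoped RealInnerProductSpace

namespace Vale.Agent.P157.Par

namespace Sys

variable {S : Sys}

/-- conditional probability of the complement of the event `R ≥ c` -/
noncomputable def vv (S : Sys) (c : ℝ) (ω : S.Ω) (z : S.X) : ℝ :=
  ∑ y, S.w ω y * ind (S.R z y < c)

theorem vv_nonneg (c : ℝ) (ω : S.Ω) (z : S.X) : 0 ≤ S.vv c ω z :=
  Finset.sum_nonneg fun y _ => mul_nonneg (S.w0 ω y) (ind_nonneg _)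

theorem vv_le_one (c : ℝ) (ω : S.Ω) (z : S.X) : S.vv c ω z ≤ 1 := by
  rw [← S.w1 ω]
  exact Finset.sum_le_sum fun y _ => mul_le_of_le_one_right (S.w0 ω y) (ind_le_one _)

/-- the test functions used in the iteration -/
noncomputable def ff (S : Sys) {n : ℕ} (A : (Fin n → S.X) → ℝ) (i : Fin n) (c : ℝ) (j : ℕ)
    (x : Fin (n + j) → S.X) : ℝ :=
  A (fun a => x (Fin.castAdd j a)) *
    ∏ k : Fin j, ind (S.R (x (Fin.castAdd j i)) (x (Fin.natAdd n k)) < c)

theorem inn_ff {n : ℕ} (ω : S.Ω) (A : (Fin n → S.X) → ℝ) (i : Fin n) (c : ℝ) (j : ℕ)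
    (H : S.X → ℝ) :
    S.inn ω (fun x => S.ff A i c j x * H (x (Fin.castAdd j i))) =
      S.inn ω (fun u => A u * S.vv c ω (u i) ^ j * H (u i)) := by
  rw [inn_append]
  congr 1
  funext u
  have h1 : ∀ v : Fin j → S.X, S.ff A i c j (Fin.append u v) *
      H (Fin.append u v (Fin.castAdd j i)) =
      (A u * H (u i)) * ∏ k, ind (S.R (u i) (v k) < c) := by
    intro v
    unfold ff
    simp only [Fin.append_left, Fin.append_right]
    ring
  simp_rw [h1]
  rw [inn_smul, inn_prod ω (fun y => ind (S.R (u i) y < c))]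
  unfold vv
  ring

theorem inn_ff_last {n : ℕ} (ω : S.Ω) (A : (Fin n → S.X) → ℝ) (i : Fin n) (c : ℝ) (j : ℕ) :
    S.inn (n := n + j + 1) ω (fun x => S.ff A i c j (fun k => x k.castSucc) *
      (Set.Ici c).indicator 1 (S.R (x (Fin.castAdd j i).castSucc) (x (Fin.last (n + j))))) =
      S.inn ω (fun u => A u * S.vv c ω (u i) ^ j * (1 - S.vv c ω (u i))) := by
  rw [inn_snoc, ← inn_ff ω A i c j (fun z => 1 - S.vv c ω z)]
  congr 1
  funext u
  have h1 : ∀ y : S.X, (Set.Ici c).indicator (1 : ℝ → ℝ) (S.R (u (Fin.castAdd j i)) y) =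
      1 - ind (S.R (u (Fin.castAdd j i)) y < c) := by
    intro y
    by_cases h : S.R (u (Fin.castAdd j i)) y < c
    · rw [ind_of h, Set.indicator_of_notMem (by simpa using h)]
      ring
    · rw [ind_of_not h, Set.indicator_of_mem (by simpa using h)]
      simp
  have h2 : ∀ y : S.X, (fun k : Fin (n + j) =>
      (Fin.snoc (α := fun _ => S.X) u y : Fin (n + j + 1) → S.X) k.castSucc) = u := by
    intro y
    funext k
    exact Fin.snoc_castSucc _ _ _
  have h3 : ∀ y : S.X, (Fin.snoc (α := fun _ => S.X) u y : Fin (n + j + 1) → S.X)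
      (Fin.castAdd j i).castSucc = u (Fin.castAdd j i) := fun y => Fin.snoc_castSucc _ _ _
  have h4 : ∀ y : S.X, (Fin.snoc (α := fun _ => S.X) u y : Fin (n + j + 1) → S.X)
      (Fin.last (n + j)) = y := fun y => Fin.snoc_last _ _
  simp only [h2, h3, h4, h1]
  have h5 : ∀ y : S.X, S.w ω y * (S.ff A i c j u * (1 - ind (S.R (u (Fin.castAdd j i)) y < c))) =
      S.ff A i c j u * (S.w ω y - S.w ω y * ind (S.R (u (Fin.castAdd j i)) y < c)) := by
    intro y
    ring
  simp_rw [h5]
  rw [← Finset.mul_sum, Finset.sum_sub_distrib, S.w1 ω]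
  rfl

/-- the numbers `a_j` -/
noncomputable def aa (S : Sys) {n : ℕ} (A : (Fin n → S.X) → ℝ) (i : Fin n) (c : ℝ) (j : ℕ) : ℝ :=
  ∫ ω, S.inn ω (fun u => A u * S.vv c ω (u i) ^ j) ∂S.P

theorem aa_integrable {n : ℕ} (A : (Fin n → S.X) → ℝ) (i : Fin n) (c : ℝ) (j : ℕ) :
    Integrable (fun ω => S.inn ω (fun u => A u * S.vv c ω (u i) ^ j)) S.P := by
  obtain ⟨C, hC⟩ := exists_bdd (S := S) A
  refine inn_integrable (C := C) (fun x => ?_) (fun ω x => ?_)
  · refine Measurable.const_mul ?_ _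
    refine Measurable.pow_const ?_ j
    unfold vv
    exact Finset.measurable_sum _ fun y _ => (S.hw y).mul_const _
  · rw [abs_mul]
    have h1 : |S.vv c ω (x i) ^ j| ≤ 1 := by
      rw [abs_of_nonneg (pow_nonneg (vv_nonneg c ω _) j)]
      exact pow_le_one₀ (vv_nonneg c ω _) (vv_le_one c ω _)
    by_cases hT : Nonempty S.T
    · obtain ⟨t⟩ := hT
      calc |A x| * |S.vv c ω (x i) ^ j| ≤ |A x| * 1 :=
            mul_le_mul_of_nonneg_left h1 (abs_nonneg _)
        _ ≤ C := by rw [mul_one]; exact hC.bdd t x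
    · exact absurd ⟨S.π ω⟩ hT

theorem tav_ff {n : ℕ} (A : (Fin n → S.X) → ℝ) (i : Fin n) (c : ℝ) (j : ℕ) :
    S.tav (fun _ x => S.ff A i c j x) = S.aa A i c j := by
  rw [tav_def]
  unfold aa
  refine integral_congr_ae (Eventually.of_forall fun ω => ?_)
  have h := inn_ff ω A i c j (fun _ => 1)
  simpa using h

theorem tav_ff_last {n : ℕ} (A : (Fin n → S.X) → ℝ) (i : Fin n) (c : ℝ) (j : ℕ) :
    S.tav (n := n + j + 1) (fun _ x => S.ff A i c j (fun k => x k.castSucc) *
      (Set.Ici c).indicator 1 (S.R (x (Fin.castAdd j i).castSucc) (x (Fin.last (n + j))))) =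
      S.aa A i c j - S.aa A i c (j + 1) := by
  rw [tav_def]
  unfold aa
  rw [← integral_sub (aa_integrable A i c j) (aa_integrable A i c (j + 1))]
  refine integral_congr_ae (Eventually.of_forall fun ω => ?_)
  simp only
  rw [inn_ff_last, ← inn_sub]
  congr 1
  funext u
  ring

theorem ff_mul_eq_zero {n : ℕ} (E : (Fin n → S.X) → Prop) (i : Fin n) (c : ℝ) (j : ℕ)
    (hE : ∀ x, E x → ∀ a, a ≠ i → S.R (x i) (x a) < c) (l : Fin (n + j))
    (hl : l ≠ Fin.castAdd j i) (x : Fin (n + j) → S.X) :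
    S.ff (fun x => ind (E x)) i c j x *
      (Set.Ici c).indicator (1 : ℝ → ℝ) (S.R (x (Fin.castAdd j i)) (x l)) = 0 := by
  unfold ff
  by_cases hEx : E (fun a => x (Fin.castAdd j a))
  · by_cases hlt : S.R (x (Fin.castAdd j i)) (x l) < c
    · rw [Set.indicator_of_notMem (by simpa using hlt), mul_zero]
    · induction l using Fin.addCases with
      | left a =>
        exfalso
        apply hlt
        refine hE _ hEx a ?_
        rintro rfl
        exact hl rfl
      | right k =>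
        rw [Finset.prod_eq_zero (Finset.mem_univ k) (ind_of_not hlt), mul_zero, zero_mul]
  · simp only
    rw [ind_of_not hEx, zero_mul, zero_mul]

theorem defect_ff {n : ℕ} (E : (Fin n → S.X) → Prop) (i : Fin n) (c : ℝ) (j : ℕ)
    (hE : ∀ x, E x → ∀ a, a ≠ i → S.R (x i) (x a) < c) :
    S.ggDefect ((Set.Ici c).indicator 1) (Fin.castAdd j i)
      (fun _ x => S.ff (fun x => ind (E x)) i c j x) =
    ((n + j : ℕ) : ℝ) * (S.aa (fun x => ind (E x)) i c j - S.aa (fun x => ind (E x)) i c (j + 1))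
      - S.aa (fun x => ind (E x)) i c j *
        S.tav (fun _ (x : Fin 2 → S.X) => (Set.Ici c).indicator 1 (S.R (x 0) (x 1))) := by
  unfold Sys.ggDefect
  rw [tav_ff_last, tav_ff]
  have h0 : ∑ l ∈ Finset.univ.erase (Fin.castAdd j i), S.tav (fun _ x =>
      S.ff (fun x => ind (E x)) i c j x *
        (Set.Ici c).indicator (1 : ℝ → ℝ) (S.R (x (Fin.castAdd j i)) (x l))) = 0 := by
    refine Finset.sum_eq_zero fun l hl => ?_
    have h1 : S.tav (n := n + j) (fun _ x =>
      S.ff (fun x => ind (E x)) i c j x *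
        (Set.Ici c).indicator (1 : ℝ → ℝ) (S.R (x (Fin.castAdd j i)) (x l))) =
        S.tav (n := n + j) (fun _ _ => 0) :=
      tav_congr fun _ x => ff_mul_eq_zero E i c j hE l (Finset.ne_of_mem_erase hl) x
    rw [h1, tav_const]
  rw [h0, add_zero]

theorem ff_test {n : ℕ} (E : (Fin n → S.X) → Prop) (i : Fin n) (c : ℝ) (j : ℕ) :
    S.Test (fun _ x => S.ff (fun x => ind (E x)) i c j x) where
  meas _ := measurable_const
  bdd _ x := by
    unfold ff
    rw [abs_mul, Finset.abs_prod]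
    have h1 : ∏ k : Fin j, |ind (S.R (x (Fin.castAdd j i)) (x (Fin.natAdd n k)) < c)| ≤ 1 :=
      Finset.prod_le_one (fun _ _ => abs_nonneg _) fun _ _ => abs_ind_le_one _
    calc _ ≤ 1 * 1 := mul_le_mul (abs_ind_le_one _) h1
          (Finset.prod_nonneg fun _ _ => abs_nonneg _) zero_le_one
      _ = 1 := one_mul 1

/-- upper bound: pointwise inequality -/
theorem geom_bound {V W1 W2 η : ℝ} (hV0 : 0 ≤ V) (hV1 : V ≤ 1) (hW1 : 0 < W1) (hW2 : 0 ≤ W2)
    (h : W1 ≤ (1 - V) + W2) (hη : 0 < η) (J : ℕ) :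
    ∑ j ∈ Finset.range J, V ^ j ≤ (2 + 2 * η * J) / W1 + J / η * W2 := by
  have hJ : (0 : ℝ) ≤ J := Nat.cast_nonneg J
  have h1 : ∑ j ∈ Finset.range J, V ^ j ≤ J := by
    calc ∑ j ∈ Finset.range J, V ^ j ≤ ∑ j ∈ Finset.range J, (1 : ℝ) :=
          Finset.sum_le_sum fun j _ => pow_le_one₀ hV0 hV1
      _ = J := by simp
  have t1 : 0 ≤ 2 / W1 := by positivity
  have t2 : 0 ≤ 2 * η * J / W1 := by positivity
  have t3 : 0 ≤ J / η * W2 := by positivity
  rw [add_div]
  by_cases hc : W2 ≤ W1 / 2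
  · have hW : W1 / 2 ≤ 1 - V := by linarith
    have h2 : (∑ j ∈ Finset.range J, V ^ j) * (1 - V) ≤ 1 := by
      rw [geom_sum_mul_neg]
      have := pow_nonneg hV0 J
      linarith
    have h3 : ∑ j ∈ Finset.range J, V ^ j ≤ 2 / W1 := by
      rw [le_div_iff₀ hW1]
      have h4 : 0 ≤ ∑ j ∈ Finset.range J, V ^ j := Finset.sum_nonneg fun j _ => pow_nonneg hV0 j
      nlinarith
    linarith
  · push Not at hc
    by_cases hd : W1 ≤ 2 * η
    · have h3 : (J : ℝ) ≤ 2 * η * J / W1 := by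
        rw [le_div_iff₀ hW1]
        nlinarith
      linarith
    · push Not at hd
      have h3 : (J : ℝ) ≤ J / η * W2 := by
        rw [div_mul_eq_mul_div, le_div_iff₀ hη]
        have : η < W2 := by linarith
        nlinarith
      linarith

/-- upper bound: for fixed disorder -/
theorem inn_upper {n : ℕ} (ω : S.Ω) (E : (Fin n → S.X) → Prop) (i : Fin n) (c : ℝ)
    (T : (Fin n → S.X) → S.X → Prop) (hT : ∀ x y z, T (Function.update x i y) z ↔ T x z)
    (hET : ∀ x, E x → T x (x i)) {η : ℝ} (hη : 0 < η) (J : ℕ) :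
    ∑ j ∈ Finset.range J, S.inn ω (fun u => ind (E u) * S.vv c ω (u i) ^ j) ≤
      2 + 2 * η * J + J / η * S.inn ω (fun u => ind (E u) *
        ∑ y, S.w ω y * ind (T u y ∧ S.R (u i) y < c)) := by
  classical
  set W1 : (Fin n → S.X) → ℝ := fun u => ∑ y, S.w ω y * ind (T u y) with hW1
  set W2 : (Fin n → S.X) → ℝ := fun u => ∑ y, S.w ω y * ind (T u y ∧ S.R (u i) y < c) with hW2
  have h1 : ∑ j ∈ Finset.range J, S.inn ω (fun u => ind (E u) * S.vv c ω (u i) ^ j) =
      S.inn ω (fun u => ind (E u) * ∑ j ∈ Finset.range J, S.vv c ω (u i) ^ j) := by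
    unfold inn
    rw [Finset.sum_comm]
    refine Finset.sum_congr rfl fun x _ => ?_
    simp only [Finset.mul_sum]
  rw [h1]
  have h2 : S.inn ω (fun u => ind (E u) * ∑ j ∈ Finset.range J, S.vv c ω (u i) ^ j) ≤
      S.inn ω (fun u => (2 + 2 * η * J) * (ind (E u) / W1 u) + J / η * (ind (E u) * W2 u)) := by
    refine inn_mono' ω fun x hx => ?_
    by_cases hE : E x
    · rw [ind_of hE, one_mul, one_mul]
      have hpos : 0 < W1 x := by
        have h3 : S.w ω (x i) ≤ W1 x := by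
          have h4 : S.w ω (x i) * ind (T x (x i)) ≤ W1 x :=
            Finset.single_le_sum (f := fun y => S.w ω y * ind (T x y))
              (fun y _ => mul_nonneg (S.w0 ω y) (ind_nonneg _)) (Finset.mem_univ (x i))
          rwa [ind_of (hET x hE), mul_one] at h4
        exact lt_of_lt_of_le (hx i) h3
      have hW20 : 0 ≤ W2 x := Finset.sum_nonneg fun y _ => mul_nonneg (S.w0 ω y) (ind_nonneg _)
      have hle : W1 x ≤ (1 - S.vv c ω (x i)) + W2 x := by
        rw [← S.w1 ω]
        simp only [hW1, hW2]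
        unfold vv
        rw [← Finset.sum_sub_distrib, ← Finset.sum_add_distrib]
        refine Finset.sum_le_sum fun y _ => ?_
        have hw := S.w0 ω y
        by_cases ht : T x y
        · by_cases hr : S.R (x i) y < c
          · rw [ind_of ht, ind_of hr, ind_of ⟨ht, hr⟩]
            linarith
          · rw [ind_of ht, ind_of_not hr,
              ind_of_not (p := T x y ∧ S.R (x i) y < c) (fun h => hr h.2)]
            linarith
        · rw [ind_of_not ht, ind_of_not (p := T x y ∧ S.R (x i) y < c) (fun h => ht h.1)]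
          have := ind_le_one (S.R (x i) y < c)
          nlinarith
      have h5 := geom_bound (vv_nonneg c ω (x i)) (vv_le_one c ω (x i)) hpos hW20 hle hη J
      rw [mul_one_div]
      exact h5
    · rw [ind_of_not hE]
      simp
  refine h2.trans ?_
  rw [inn_add, inn_smul, inn_smul]
  have h3 : S.inn ω (fun u => ind (E u) / W1 u) ≤ 1 := by
    rw [inn_update ω i]
    rw [← inn_const (S := S) (n := n) ω 1]
    refine inn_mono ω fun x => ?_
    have h4 : ∀ y, W1 (Function.update x i y) = W1 x := by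
      intro y
      simp only [hW1]
      refine Finset.sum_congr rfl fun z _ => ?_
      rw [show (T (Function.update x i y) z) = T x z from propext (hT x y z)]
    have h5 : ∑ y, S.w ω y * (ind (E (Function.update x i y)) / W1 (Function.update x i y)) ≤
        (∑ y, S.w ω y * ind (T x y)) / W1 x := by
      rw [Finset.sum_div]
      refine Finset.sum_le_sum fun y _ => ?_
      rw [h4 y, mul_div_assoc]
      have hW0 : 0 ≤ W1 x := Finset.sum_nonneg fun y _ => mul_nonneg (S.w0 ω y) (ind_nonneg _)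
      have h6 : ind (E (Function.update x i y)) ≤ ind (T x y) := by
        refine ind_mono fun h => ?_
        have h7 := hET _ h
        rw [Function.update_self] at h7
        exact (hT x y y).mp h7
      exact mul_le_mul_of_nonneg_left (div_le_div_of_nonneg_right h6 hW0) (S.w0 ω y)
    refine h5.trans ?_
    exact div_self_le_one _
  have h4 : 0 ≤ 2 + 2 * η * (J : ℝ) := by positivity
  nlinarith [mul_le_mul_of_nonneg_left h3 h4]

end Sys

/-- probability of an event of the replicas -/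
noncomputable def Sys.pr (S : Sys) {n : ℕ} (E : (Fin n → S.X) → Prop) : ℝ :=
  S.tav fun _ x => ind (E x)

theorem Sys.bdd_ind {S : Sys} {n : ℕ} (E : (Fin n → S.X) → Prop) :
    Sys.Bdd S (fun _ x => ind (E x)) 1 :=
  ⟨fun _ => measurable_const, fun _ _ => abs_ind_le_one _⟩

theorem Sys.pr_nonneg (S : Sys) {n : ℕ} (E : (Fin n → S.X) → Prop) : 0 ≤ S.pr E :=
  Sys.tav_nonneg fun _ _ => ind_nonneg _

theorem Sys.pr_mono (S : Sys) {n : ℕ} {E E' : (Fin n → S.X) → Prop} (h : ∀ x, E x → E' x) :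
    S.pr E ≤ S.pr E' :=
  Sys.tav_mono (Sys.bdd_ind E) (Sys.bdd_ind E') fun _ x => ind_mono (h x)

/-- the event that all overlaps lie in prescribed sets -/
def Ev (S : Sys) {κ : Type*} (J : κ → κ → Set ℝ) {n : ℕ} (τ : Fin n → κ) (x : Fin n → S.X) : Prop :=
  ∀ a b, a ≠ b → S.R (x a) (x b) ∈ J (τ a) (τ b)

theorem rec_lower {n J : ℕ} {a : ℕ → ℝ} {γ ε : ℝ} (ha : ∀ j, 0 ≤ a j) (hγ1 : γ ≤ 1)
    (h : ∀ j < J, |((n + j : ℕ) : ℝ) * (a j - a (j + 1)) - a j * γ| ≤ ε) (j : ℕ) (hj : j ≤ J) :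
    ((n : ℝ) - 1) * a 0 - j * ε ≤ ((n : ℝ) + j - 1) * a j := by
  induction j with
  | zero => simp
  | succ j ih =>
    have h1 := ih (by omega)
    have h2 := (abs_le.mp (h j (by omega))).2
    have h3 := ha j
    push_cast at h2 ⊢
    nlinarith

theorem sum_lower {n J : ℕ} (hn : 2 ≤ n) {a : ℕ → ℝ} {p ε : ℝ} (hε : 0 ≤ ε) (hp0 : 0 ≤ p)
    (hp : p ≤ a 0)
    (h : ∀ j < J, ((n : ℝ) - 1) * a 0 - j * ε ≤ ((n : ℝ) + j - 1) * a j) :
    p * ((1 / (n : ℝ)) * ∑ j ∈ Finset.range J, 1 / ((j : ℝ) + 1)) - J * ε ≤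
      ∑ j ∈ Finset.range J, a j := by
  have hn' : (2 : ℝ) ≤ n := by exact_mod_cast hn
  have h1 : ∀ j ∈ Finset.range J, p * ((1 / (n : ℝ)) * (1 / ((j : ℝ) + 1))) - ε ≤ a j := by
    intro j hj
    have h2 := h j (Finset.mem_range.mp hj)
    have hj0 : (0 : ℝ) ≤ j := Nat.cast_nonneg j
    have hD : (0 : ℝ) < (n : ℝ) + j - 1 := by linarith
    have h3 : (p - j * ε) / ((n : ℝ) + j - 1) ≤ a j := by
      rw [div_le_iff₀ hD]
      nlinarith
    have h4 : p * ((1 / (n : ℝ)) * (1 / ((j : ℝ) + 1))) ≤ p / ((n : ℝ) + j - 1) := by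
      rw [one_div_mul_one_div, mul_one_div]
      refine div_le_div_of_nonneg_left hp0 hD ?_
      nlinarith
    have h5 : j * ε / ((n : ℝ) + j - 1) ≤ ε := by
      rw [div_le_iff₀ hD]
      nlinarith
    rw [sub_div] at h3
    linarith
  have h2 := Finset.sum_le_sum h1
  rw [Finset.sum_sub_distrib, Finset.sum_const, Finset.card_range, nsmul_eq_mul,
    ← Finset.mul_sum, ← Finset.mul_sum] at h2
  exact h2

variable {U : Ultrafilter ℕ} {S : ℕ → Sys}

theorem Sys.aa_nonneg {S : Sys} {n : ℕ} (E : (Fin n → S.X) → Prop) (i : Fin n) (c : ℝ) (j : ℕ) :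
    0 ≤ S.aa (fun x => ind (E x)) i c j :=
  integral_nonneg fun ω => Sys.inn_nonneg ω fun _ =>
    mul_nonneg (ind_nonneg _) (pow_nonneg (Sys.vv_nonneg c ω _) j)

theorem Sys.aa_zero {S : Sys} {n : ℕ} (E : (Fin n → S.X) → Prop) (i : Fin n) (c : ℝ) :
    S.aa (fun x => ind (E x)) i c 0 = S.pr E := by
  unfold Sys.aa Sys.pr
  rw [Sys.tav_def]
  simp

/-- averaged upper bound -/
theorem Sys.aa_upper {S : Sys} {κ : Type*} (J : κ → κ → Set ℝ) (hsymm : ∀ k l, J k l = J l k)
    {c : ℝ} {k0 : κ} (hJ0 : Set.Iio c ⊆ J k0 k0) {n : ℕ} (τ : Fin n → κ) (i : Fin n)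
    (hi : τ i = k0) {η : ℝ} (hη : 0 < η) (M : ℕ) :
    ∑ j ∈ Finset.range M, S.aa (fun x => ind (Ev S J τ x)) i c j ≤
      2 + 2 * η * M + M / η * S.pr (Ev S J (Fin.snoc (α := fun _ => κ) τ k0)) := by
  set T : (Fin n → S.X) → S.X → Prop := fun x z => ∀ a, a ≠ i → S.R z (x a) ∈ J k0 (τ a) with hTdef
  have hT : ∀ x y z, T (Function.update x i y) z ↔ T x z := by
    intro x y z
    refine forall_congr' fun a => forall_congr' fun ha => ?_
    rw [Function.update_of_ne ha]
  have hET : ∀ x, Ev S J τ x → T x (x i) := by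
    intro x hx a ha
    have := hx i a ha.symm
    rwa [hi] at this
  have h1 : ∀ ω, ∑ j ∈ Finset.range M,
      S.inn ω (fun u => ind (Ev S J τ u) * S.vv c ω (u i) ^ j) ≤
      2 + 2 * η * M + M / η * S.inn ω
        (fun x => ind (Ev S J (Fin.snoc (α := fun _ => κ) τ k0) x)) := by
    intro ω
    refine (Sys.inn_upper ω (Ev S J τ) i c T hT hET hη M).trans ?_
    have h2 : S.inn ω (fun u => ind (Ev S J τ u) *
        ∑ y, S.w ω y * ind (T u y ∧ S.R (u i) y < c)) ≤
        S.inn ω (fun x => ind (Ev S J (Fin.snoc (α := fun _ => κ) τ k0) x)) := by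
      rw [Sys.inn_snoc]
      refine Sys.inn_mono ω fun u => ?_
      rw [Finset.mul_sum]
      refine Finset.sum_le_sum fun y _ => ?_
      rw [mul_left_comm]
      refine mul_le_mul_of_nonneg_left ?_ (S.w0 ω y)
      by_cases hE : Ev S J τ u
      · by_cases hTy : T u y ∧ S.R (u i) y < c
        · rw [ind_of hE, ind_of hTy, ind_of, one_mul]
          intro a b hab
          have key : ∀ b : Fin n, S.R y (u b) ∈ J k0 (τ b) := by
            intro b
            by_cases hb : b = i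
            · rw [hb, hi]
              apply hJ0
              rw [Sys.R_symm]
              exact hTy.2
            · exact hTy.1 b hb
          induction a using Fin.lastCases with
          | last =>
            induction b using Fin.lastCases with
            | last => exact absurd rfl hab
            | cast b =>
              rw [Fin.snoc_last, Fin.snoc_last, Fin.snoc_castSucc, Fin.snoc_castSucc]
              exact key b
          | cast a =>
            induction b using Fin.lastCases with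
            | last =>
              rw [Fin.snoc_last, Fin.snoc_last, Fin.snoc_castSucc, Fin.snoc_castSucc, hsymm,
                Sys.R_symm]
              exact key a
            | cast b =>
              rw [Fin.snoc_castSucc, Fin.snoc_castSucc, Fin.snoc_castSucc, Fin.snoc_castSucc]
              refine hE a b ?_
              rintro rfl
              exact hab rfl
        · rw [ind_of_not hTy, mul_zero]
          exact ind_nonneg _
      · rw [ind_of_not hE, zero_mul]
        exact ind_nonneg _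
    have h3 : 0 ≤ (M : ℝ) / η := by positivity
    linarith [mul_le_mul_of_nonneg_left h2 h3]
  unfold Sys.aa Sys.pr
  rw [← integral_finsetSum _ (fun j _ => Sys.aa_integrable _ i c j), Sys.tav_def]
  have hint := (Sys.bdd_ind (S := S) (Ev S J (Fin.snoc (α := fun _ => κ) τ k0))).integrable
  rw [← integral_const_mul]
  have h4 : ∫ ω, (2 + 2 * η * (M : ℝ)) ∂S.P = 2 + 2 * η * M := by simp
  rw [← h4, ← integral_add (integrable_const _) (hint.const_mul _)]
  refine integral_mono (integrable_finsetSum _ fun j _ => Sys.aa_integrable _ i c j)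
    ((integrable_const _).add (hint.const_mul _)) fun ω => ?_
  exact h1 ω

/-- **Duplication lemma.** -/
theorem dup (hGG : ∀ p : ℕ, AsympGG U S (fun x => x ^ p)) {c : ℝ} (hc : NonAtom U S c)
    {κ : Type*} (J : κ → κ → Set ℝ) (hsymm : ∀ k l, J k l = J l k) (k0 : κ)
    (hJ : ∀ k, J k0 k ⊆ Set.Iio c) (hJ0 : Set.Iio c ⊆ J k0 k0) {n : ℕ} (hn : 2 ≤ n)
    (τ : Fin n → κ) (i : Fin n) (hi : τ i = k0) {p : ℝ} (hp : 0 < p)
    (hA : ∀ᶠ N in (U : Filter ℕ), p ≤ (S N).pr (Ev (S N) J τ)) :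
    ∃ δ > 0, ∀ᶠ N in (U : Filter ℕ),
      δ ≤ (S N).pr (Ev (S N) J (Fin.snoc (α := fun _ => κ) τ k0)) := by
  have hn0 : (0 : ℝ) < n := by
    have : 0 < n := by omega
    exact_mod_cast this
  obtain ⟨M, hM⟩ : ∃ M : ℕ, 5 * n / p ≤ ∑ j ∈ Finset.range M, 1 / ((j : ℝ) + 1) :=
    ((Filter.tendsto_atTop.mp Real.tendsto_sum_range_one_div_nat_succ_atTop) (5 * n / p)).exists
  have hM1 : (0 : ℝ) < (M : ℝ) + 1 := by positivity
  set ε : ℝ := 1 / ((M : ℝ) + 1) with hε
  set η : ℝ := 1 / (2 * ((M : ℝ) + 1)) with hη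
  have hε0 : 0 < ε := by positivity
  have hη0 : 0 < η := by positivity
  refine ⟨η / ((M : ℝ) + 1), by positivity, ?_⟩
  have hind := AsympGG.indicator hGG hc
  have hev : ∀ᶠ N in (U : Filter ℕ), ∀ j ∈ Finset.range M,
      ∀ F : (S N).T → (Fin (n + j) → (S N).X) → ℝ, (S N).Test F →
        |(S N).ggDefect ((Set.Ici c).indicator 1) (Fin.castAdd j i) F| ≤ ε := by
    rw [Filter.eventually_all_finset]
    exact fun j _ => hind (n + j) (Fin.castAdd j i) ε hε0
  filter_upwards [hev, hA] with N hN hpN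
  have hE : ∀ x, Ev (S N) J τ x → ∀ a, a ≠ i → (S N).R (x i) (x a) < c := by
    intro x hx a ha
    have h1 := hx i a ha.symm
    rw [hi] at h1
    exact hJ _ h1
  set a : ℕ → ℝ := fun j => (S N).aa (fun x => ind (Ev (S N) J τ x)) i c j with ha
  set γ : ℝ := (S N).tav (fun _ (x : Fin 2 → (S N).X) =>
    (Set.Ici c).indicator 1 ((S N).R (x 0) (x 1))) with hγ
  have hγ1 : γ ≤ 1 := by
    obtain ⟨D, hD⟩ := Sys.exists_bdd (S := S N) (fun x : Fin 2 → (S N).X =>
      (Set.Ici c).indicator (1 : ℝ → ℝ) ((S N).R (x 0) (x 1)))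
    have h1 := Sys.tav_mono (G := fun _ _ => (1 : ℝ)) (D := 1) hD
      ⟨fun _ => measurable_const, fun _ _ => by norm_num⟩ (fun t x => by
        unfold Set.indicator
        split_ifs <;> norm_num)
    rwa [Sys.tav_const] at h1
  have hdef : ∀ j < M, |((n + j : ℕ) : ℝ) * (a j - a (j + 1)) - a j * γ| ≤ ε := by
    intro j hj
    have h1 := hN j (Finset.mem_range.mpr hj) _
      (Sys.ff_test (S := S N) (Ev (S N) J τ) i c j)
    rwa [Sys.defect_ff (Ev (S N) J τ) i c j hE] at h1
  have hrec := rec_lower (n := n) (J := M) (a := a) (fun j => Sys.aa_nonneg _ i c j) hγ1 hdef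
  have hp0 : p ≤ a 0 := by
    simp only [ha]
    rw [Sys.aa_zero]
    exact hpN
  have hlow := sum_lower hn hε0.le hp.le hp0 (fun j hj => hrec j hj.le)
  have hup := Sys.aa_upper (S := S N) J hsymm hJ0 τ i hi hη0 M
  have h1 : 5 ≤ p * ((1 / (n : ℝ)) * ∑ j ∈ Finset.range M, 1 / ((j : ℝ) + 1)) := by
    have h2 : p * ((1 / (n : ℝ)) * (5 * n / p)) ≤
      p * ((1 / (n : ℝ)) * ∑ j ∈ Finset.range M, 1 / ((j : ℝ) + 1)) :=
      mul_le_mul_of_nonneg_left (mul_le_mul_of_nonneg_left hM (by positivity)) hp.le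
    have h3 : p * ((1 / (n : ℝ)) * (5 * n / p)) = 5 := by
      field_simp
    linarith
  have h2 : (M : ℝ) * ε ≤ 1 := by
    rw [hε, mul_one_div, div_le_one hM1]
    linarith
  have h3 : 2 * η * (M : ℝ) ≤ 1 := by
    rw [hη, mul_one_div, div_mul_eq_mul_div, div_le_one (by positivity)]
    linarith
  set P := (S N).pr (Ev (S N) J (Fin.snoc (α := fun _ => κ) τ k0)) with hP
  have hP0 : 0 ≤ P := Sys.pr_nonneg _ _
  have h4 : 1 ≤ (M : ℝ) / η * P := by linarith
  have h5 : (M : ℝ) / η * P ≤ ((M : ℝ) + 1) / η * P :=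
    mul_le_mul_of_nonneg_right (div_le_div_of_nonneg_right (by linarith) hη0.le) hP0
  rw [div_le_iff₀ hM1]
  have h6 : 1 ≤ ((M : ℝ) + 1) / η * P := h4.trans h5
  rw [div_mul_eq_mul_div, le_div_iff₀ hη0] at h6
  linarith

end Vale.Agent.P157.Par
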