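import Vale.Agent.P157.ParUMBasic

open MeasureTheory ProbabilityTheory Filter Topology
open scoped RealInnerProductSpace

namespace Vale.Agent.P157.Par

/-! ### the defect as a function of `ψ` -/

namespace Sys

variable {S : Sys}

theorem Test.toBdd {n : ℕ} {F : S.T → (Fin n → S.X) → ℝ} (h : S.Test F) : Bdd S F 1 :=
  ⟨h.meas, h.bdd⟩

theorem abs_R_le (x y : S.X) : |S.R x y| ≤ 1 := by
  unfold Sys.R
  refine (abs_real_inner_le_norm _ _).trans ?_
  rw [S.hφ, S.hφ, one_mul]

theorem R_symm (x y : S.X) : S.R x y = S.R y x := real_inner_comm _ _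

theorem R_mem (x y : S.X) : S.R x y ∈ Set.Icc (-1 : ℝ) 1 := abs_le.mp (abs_R_le x y)

theorem ggDefect_sub {n : ℕ} (i : Fin n) {F : S.T → (Fin n → S.X) → ℝ} (hF : S.Test F)
    (ψ ψ' : ℝ → ℝ) : S.ggDefect (fun r => ψ r - ψ' r) i F =
      S.ggDefect ψ i F - S.ggDefect ψ' i F := by
  have hF1 := hF.toBdd
  have key : ∀ (m : ℕ) (G : S.T → (Fin m → S.X) → ℝ) (C : ℝ) (_ : Bdd S G C)
      (f f' : (Fin m → S.X) → ℝ), S.tav (fun t x => G t x * (f x - f' x)) =
        S.tav (fun t x => G t x * f x) - S.tav (fun t x => G t x * f' x) := by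
    intro m G C hG f f'
    obtain ⟨D, hD⟩ := exists_bdd (S := S) f
    obtain ⟨D', hD'⟩ := exists_bdd (S := S) f'
    rw [← tav_sub (hG.mul hD) (hG.mul hD')]
    exact tav_congr fun t x => by ring
  have key2 : ∀ (f f' : (Fin 2 → S.X) → ℝ), S.tav (fun _ x => f x - f' x) =
        S.tav (fun _ x => f x) - S.tav (fun _ x => f' x) := by
    intro f f'
    obtain ⟨D, hD⟩ := exists_bdd (S := S) f
    obtain ⟨D', hD'⟩ := exists_bdd (S := S) f'
    rw [← tav_sub hD hD']
  unfold Sys.ggDefect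
  rw [key (n + 1) (fun t x => F t (fun j => x j.castSucc)) 1 (hF1.comp _)
    (fun x => ψ (S.R (x i.castSucc) (x (Fin.last n))))
    (fun x => ψ' (S.R (x i.castSucc) (x (Fin.last n)))),
    key2 (fun x => ψ (S.R (x 0) (x 1))) (fun x => ψ' (S.R (x 0) (x 1)))]
  have h3 : ∀ j ∈ Finset.univ.erase i,
      S.tav (fun t x => F t x * (ψ (S.R (x i) (x j)) - ψ' (S.R (x i) (x j)))) =
      S.tav (fun t x => F t x * ψ (S.R (x i) (x j))) -
        S.tav (fun t x => F t x * ψ' (S.R (x i) (x j))) := fun j _ =>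
    key n F 1 hF1 (fun x => ψ (S.R (x i) (x j))) (fun x => ψ' (S.R (x i) (x j)))
  rw [Finset.sum_congr rfl h3, Finset.sum_sub_distrib]
  ring

theorem ggDefect_smul {n : ℕ} (i : Fin n) (F : S.T → (Fin n → S.X) → ℝ)
    (c : ℝ) (ψ : ℝ → ℝ) : S.ggDefect (fun r => c * ψ r) i F = c * S.ggDefect ψ i F := by
  have key : ∀ (m : ℕ) (G : S.T → (Fin m → S.X) → ℝ) (f : (Fin m → S.X) → ℝ),
      S.tav (fun t x => G t x * (c * f x)) = c * S.tav (fun t x => G t x * f x) := by
    intro m G f
    rw [← tav_smul]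
    exact tav_congr fun t x => by ring
  unfold Sys.ggDefect
  rw [key (n + 1) (fun t x => F t (fun j => x j.castSucc))
    (fun x => ψ (S.R (x i.castSucc) (x (Fin.last n)))),
    tav_smul c (fun _ (x : Fin 2 → S.X) => ψ (S.R (x 0) (x 1)))]
  have h3 : ∀ j ∈ Finset.univ.erase i,
      S.tav (fun t x => F t x * (c * ψ (S.R (x i) (x j)))) =
      c * S.tav (fun t x => F t x * ψ (S.R (x i) (x j))) := fun j _ =>
    key n F (fun x => ψ (S.R (x i) (x j)))
  rw [Finset.sum_congr rfl h3, ← Finset.mul_sum]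
  ring

theorem abs_ggDefect_le {n : ℕ} (i : Fin n) {F : S.T → (Fin n → S.X) → ℝ} (hF : S.Test F)
    (ψ : ℝ → ℝ) : |S.ggDefect ψ i F| ≤
      2 * n * S.tav (n := 2) (fun _ x => |ψ (S.R (x 0) (x 1))|) := by
  have hF1 := hF.toBdd
  set Q := S.tav (n := 2) (fun _ x => |ψ (S.R (x 0) (x 1))|) with hQ
  have key : ∀ (m : ℕ) (G : S.T → (Fin m → S.X) → ℝ) (_ : Bdd S G 1) (a b : Fin m) (_ : a ≠ b),
      |S.tav (fun t x => G t x * ψ (S.R (x a) (x b)))| ≤ Q := by
    intro m G hG a b hab
    obtain ⟨D, hD⟩ := exists_bdd (S := S) (fun x : Fin m → S.X => ψ (S.R (x a) (x b)))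
    obtain ⟨D', hD'⟩ := exists_bdd (S := S) (fun x : Fin m → S.X => |ψ (S.R (x a) (x b))|)
    have h1 := tav_abs_le (hG.mul hD) hD' (fun t x => by
      rw [abs_mul]
      exact mul_le_of_le_one_left (abs_nonneg _) (hG.bdd t x))
    rw [hQ, ← tav_pair hab (fun y z => |ψ (S.R y z)|)]
    exact h1
  have h1 : |S.tav (fun t (x : Fin (n + 1) → S.X) =>
      F t (fun j => x j.castSucc) * ψ (S.R (x i.castSucc) (x (Fin.last n))))| ≤ Q :=
    key (n + 1) (fun t x => F t (fun j => x j.castSucc)) (hF1.comp _) _ _ (Fin.castSucc_lt_last i).ne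
  have h2 : |S.tav F * S.tav (fun _ (x : Fin 2 → S.X) => ψ (S.R (x 0) (x 1)))| ≤ Q := by
    have h3 : |S.tav F| ≤ 1 := by
      have h4 := tav_abs_le (G := fun _ _ => (1 : ℝ)) (D := 1) hF1
        ⟨fun _ => measurable_const, fun _ _ => by norm_num⟩ (fun t x => hF.bdd t x)
      rwa [tav_const] at h4
    have h5 : |S.tav (fun _ (x : Fin 2 → S.X) => ψ (S.R (x 0) (x 1)))| ≤ Q := by
      have h6 := key 2 (fun _ _ => 1) ⟨fun _ => measurable_const, fun _ _ => by norm_num⟩ 0 1
        (by decide)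
      simpa using h6
    rw [abs_mul]
    exact (mul_le_of_le_one_left (abs_nonneg _) h3).trans h5
  have h4 : |∑ j ∈ Finset.univ.erase i, S.tav (fun t x => F t x * ψ (S.R (x i) (x j)))| ≤
      (n - 1) * Q := by
    refine (Finset.abs_sum_le_sum_abs _ _).trans ?_
    refine (Finset.sum_le_card_nsmul _ _ Q fun j hj =>
      key n F hF1 i j (Finset.ne_of_mem_erase hj).symm).trans ?_
    rw [Finset.card_erase_of_mem (Finset.mem_univ i), Finset.card_univ, Fintype.card_fin,
      nsmul_eq_mul]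
    have : 1 ≤ n := by have := i.2; omega
    rw [Nat.cast_sub this]
    simp
  unfold Sys.ggDefect
  have hn : (0 : ℝ) ≤ n := Nat.cast_nonneg n
  rw [abs_le] at h1 h2 h4 ⊢
  constructor
  · nlinarith [h1.1, h1.2, h2.1, h2.2, h4.1, h4.2, mul_le_mul_of_nonneg_left h1.1 hn]
  · nlinarith [h1.1, h1.2, h2.1, h2.2, h4.1, h4.2, mul_le_mul_of_nonneg_left h1.2 hn]

end Sys

variable {U : Ultrafilter ℕ} {S : ℕ → Sys}

theorem AsympGG.of_approx {ψ : ℝ → ℝ}
    (h : ∀ ε > 0, ∃ ψ' : ℝ → ℝ, AsympGG U S ψ' ∧ ∀ᶠ N in (U : Filter ℕ),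
      (S N).tav (n := 2) (fun _ x => |ψ ((S N).R (x 0) (x 1)) - ψ' ((S N).R (x 0) (x 1))|) ≤ ε) :
    AsympGG U S ψ := by
  intro n i ε hε
  have hn : (0 : ℝ) < 2 * n + 1 := by positivity
  obtain ⟨ψ', h1, h2⟩ := h (ε / 2 / (2 * n + 1)) (by positivity)
  filter_upwards [h1 n i (ε / 2) (by linarith), h2] with N hN1 hN2 F hF
  have h3 := Sys.abs_ggDefect_le i hF (fun r => ψ r - ψ' r)
  rw [Sys.ggDefect_sub i hF] at h3
  have h4 := hN1 F hF
  have h5 : 2 * (n : ℝ) * (S N).tav (n := 2)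
      (fun _ x => |ψ ((S N).R (x 0) (x 1)) - ψ' ((S N).R (x 0) (x 1))|) ≤ ε / 2 := by
    have h6 : 2 * (n : ℝ) * (S N).tav (n := 2)
      (fun _ x => |ψ ((S N).R (x 0) (x 1)) - ψ' ((S N).R (x 0) (x 1))|) ≤
        2 * (n : ℝ) * (ε / 2 / (2 * n + 1)) :=
      mul_le_mul_of_nonneg_left hN2 (by positivity)
    have h7 : 2 * (n : ℝ) * (ε / 2 / (2 * n + 1)) ≤ ε / 2 := by
      rw [mul_div_assoc', div_le_iff₀ hn]
      nlinarith
    linarith
  rw [abs_le] at h3 h4 ⊢
  constructor <;> linarith [h3.1, h3.2, h4.1, h4.2]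

theorem AsympGG.sub {ψ ψ' : ℝ → ℝ} (h : AsympGG U S ψ) (h' : AsympGG U S ψ') :
    AsympGG U S (fun r => ψ r - ψ' r) := by
  intro n i ε hε
  filter_upwards [h n i (ε / 2) (by linarith), h' n i (ε / 2) (by linarith)] with N h1 h2 F hF
  rw [Sys.ggDefect_sub i hF]
  have h3 := h1 F hF
  have h4 := h2 F hF
  rw [abs_le] at h3 h4 ⊢
  constructor <;> linarith [h3.1, h3.2, h4.1, h4.2]

theorem AsympGG.smul {ψ : ℝ → ℝ} (h : AsympGG U S ψ) (c : ℝ) :
    AsympGG U S (fun r => c * ψ r) := by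
  intro n i ε hε
  have hc : 0 < |c| + 1 := by positivity
  filter_upwards [h n i (ε / (|c| + 1)) (by positivity)] with N h1 F hF
  rw [Sys.ggDefect_smul, abs_mul]
  have h3 := h1 F hF
  have h4 : |c| * |(S N).ggDefect ψ i F| ≤ |c| * (ε / (|c| + 1)) :=
    mul_le_mul_of_nonneg_left h3 (abs_nonneg _)
  have h5 : |c| * (ε / (|c| + 1)) ≤ ε := by
    rw [mul_div_assoc', div_le_iff₀ hc]
    nlinarith [abs_nonneg c]
  linarith

theorem AsympGG.add {ψ ψ' : ℝ → ℝ} (h : AsympGG U S ψ) (h' : AsympGG U S ψ') :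
    AsympGG U S (fun r => ψ r + ψ' r) := by
  have h1 := h.sub (h'.smul (-1))
  have h2 : (fun r => ψ r - (-1) * ψ' r) = fun r => ψ r + ψ' r := by
    funext r
    ring
  rwa [h2] at h1

theorem AsympGG.polynomial (hGG : ∀ p : ℕ, AsympGG U S (fun x => x ^ p)) (q : Polynomial ℝ) :
    AsympGG U S (fun x => q.eval x) := by
  induction q using Polynomial.induction_on' with
  | add p q hp hq =>
    have h := hp.add hq
    have h2 : (fun r => Polynomial.eval r p + Polynomial.eval r q) =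
      fun r => Polynomial.eval r (p + q) := by
      funext r
      rw [Polynomial.eval_add]
    rwa [h2] at h
  | monomial n a =>
    have h := (hGG n).smul a
    have h2 : (fun r : ℝ => a * r ^ n) = fun r => Polynomial.eval r (Polynomial.monomial n a) := by
      funext r
      rw [Polynomial.eval_monomial]
    rwa [h2] at h

theorem AsympGG.continuous (hGG : ∀ p : ℕ, AsympGG U S (fun x => x ^ p)) {f : ℝ → ℝ}
    (hf : Continuous f) : AsympGG U S f := by
  refine AsympGG.of_approx fun ε hε => ?_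
  obtain ⟨q, hq⟩ := exists_polynomial_near_of_continuousOn (-1) 1 f hf.continuousOn ε hε
  refine ⟨fun x => q.eval x, AsympGG.polynomial hGG q, Eventually.of_forall fun N => ?_⟩
  obtain ⟨D, hD⟩ := Sys.exists_bdd (S := S N) (fun x : Fin 2 → (S N).X =>
    |f ((S N).R (x 0) (x 1)) - q.eval ((S N).R (x 0) (x 1))|)
  have h1 := Sys.tav_mono (G := fun _ _ => ε) (D := |ε|) hD
    ⟨fun _ => measurable_const, fun _ _ => le_rfl⟩ (fun t x => by
      rw [abs_sub_comm]
      exact (hq _ (Sys.R_mem _ _)).le)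
  rwa [Sys.tav_const] at h1

/-- `c` is not an atom of the limiting law of the overlap. -/
def NonAtom (U : Ultrafilter ℕ) (S : ℕ → Sys) (c : ℝ) : Prop :=
  ∀ δ > 0, ∃ η > 0, ∀ᶠ N in (U : Filter ℕ),
    (S N).tav (n := 2) (fun _ x => if |(S N).R (x 0) (x 1) - c| ≤ η then 1 else 0) ≤ δ

theorem AsympGG.indicator (hGG : ∀ p : ℕ, AsympGG U S (fun x => x ^ p)) {c : ℝ}
    (hc : NonAtom U S c) : AsympGG U S ((Set.Ici c).indicator 1) := by
  refine AsympGG.of_approx fun ε hε => ?_
  obtain ⟨η, hη, h⟩ := hc ε hε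
  refine ⟨fun x => max 0 (min 1 ((x - c) / η + 1)), AsympGG.continuous hGG ?_, ?_⟩
  · fun_prop
  · filter_upwards [h] with N hN
    refine le_trans ?_ hN
    obtain ⟨D, hD⟩ := Sys.exists_bdd (S := S N) (fun x : Fin 2 → (S N).X =>
      |(Set.Ici c).indicator (1 : ℝ → ℝ) ((S N).R (x 0) (x 1)) -
        max 0 (min 1 (((S N).R (x 0) (x 1) - c) / η + 1))|)
    obtain ⟨D', hD'⟩ := Sys.exists_bdd (S := S N) (fun x : Fin 2 → (S N).X =>
      if |(S N).R (x 0) (x 1) - c| ≤ η then (1 : ℝ) else 0)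
    refine Sys.tav_mono hD hD' fun t x => ?_
    generalize (S N).R (x 0) (x 1) = r
    by_cases h1 : c ≤ r
    · rw [Set.indicator_of_mem (Set.mem_Ici.mpr h1)]
      have h2 : 1 ≤ (r - c) / η + 1 := by
        have : 0 ≤ (r - c) / η := div_nonneg (by linarith) hη.le
        linarith
      rw [min_eq_left h2, max_eq_right zero_le_one]
      simp only [Pi.one_apply, sub_self, abs_zero]
      split_ifs <;> norm_num
    · rw [Set.indicator_of_notMem (by simpa using h1)]
      push Not at h1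
      by_cases h2 : r ≤ c - η
      · have h3 : (r - c) / η + 1 ≤ 0 := by
          have : (r - c) / η ≤ -1 := by
            rw [div_le_iff₀ hη]
            linarith
          linarith
        rw [max_eq_left ((min_le_right _ _).trans h3)]
        simp only [sub_self, abs_zero]
        split_ifs <;> norm_num
      · push Not at h2
        rw [if_pos (by rw [abs_le]; constructor <;> linarith)]
        rw [zero_sub, abs_neg, abs_of_nonneg (le_max_left _ _)]
        exact max_le zero_le_one (min_le_left _ _)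

theorem exists_gap (s : Finset ℝ) : ∃ η > 0, ∀ a ∈ s, ∀ b ∈ s, a ≠ b → 2 * η < |a - b| := by
  classical
  induction s using Finset.induction_on with
  | empty => exact ⟨1, one_pos, by simp⟩
  | insert c s hc ih =>
    obtain ⟨η, hη, h⟩ := ih
    have h1 : ∃ η' > 0, ∀ a ∈ s, 2 * η' < |a - c| := by
      clear h
      induction s using Finset.induction_on with
      | empty => exact ⟨1, one_pos, by simp⟩
      | insert d s hd ih2 =>
        obtain ⟨η', hη', h'⟩ := ih2 (fun h => hc (Finset.mem_insert_of_mem h))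
        have hdc : d ≠ c := fun h => hc (by rw [h]; exact Finset.mem_insert_self _ _)
        have hpos : 0 < |d - c| := abs_pos.mpr (sub_ne_zero.mpr hdc)
        refine ⟨min η' (|d - c| / 4), lt_min hη' (by linarith), ?_⟩
        intro a ha
        rw [Finset.mem_insert] at ha
        rcases ha with rfl | ha
        · have := min_le_right η' (|a - c| / 4)
          linarith
        · have := min_le_left η' (|d - c| / 4)
          have := h' a ha
          linarith
    obtain ⟨η', hη', h'⟩ := h1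
    refine ⟨min η η', lt_min hη hη', ?_⟩
    have m1 := min_le_left η η'
    have m2 := min_le_right η η'
    intro a ha b hb hab
    rw [Finset.mem_insert] at ha hb
    rcases ha with rfl | ha
    · rcases hb with rfl | hb
      · exact absurd rfl hab
      · have := h' b hb
        rw [abs_sub_comm]
        linarith
    · rcases hb with rfl | hb
      · have := h' a ha
        linarith
      · have := h a ha b hb hab
        linarith

theorem atoms_countable (U : Ultrafilter ℕ) (S : ℕ → Sys) : {c | ¬ NonAtom U S c}.Countable := by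
  classical
  let A : ℕ → Set ℝ := fun m => {c | ∀ η > 0, ∀ᶠ N in (U : Filter ℕ),
    1 / ((m : ℝ) + 1) < (S N).tav (n := 2)
      (fun _ x => if |(S N).R (x 0) (x 1) - c| ≤ η then 1 else 0)}
  have hsub : {c | ¬ NonAtom U S c} ⊆ ⋃ m, A m := by
    intro c hc
    have hc' : ¬ NonAtom U S c := hc
    unfold NonAtom at hc'
    push Not at hc'
    obtain ⟨δ, hδ, h⟩ := hc'
    obtain ⟨m, hm⟩ := exists_nat_one_div_lt hδ
    rw [Set.mem_iUnion]
    refine ⟨m, fun η hη => ?_⟩
    have h1 := h η hη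
    filter_upwards [h1] with N hN
    exact lt_trans hm hN
  refine Set.Countable.mono hsub (Set.countable_iUnion fun m => Set.Finite.countable ?_)
  by_contra hinf
  have hinf' : (A m).Infinite := hinf
  obtain ⟨s, hs, hcard⟩ := hinf'.exists_subset_card_eq (m + 1)
  obtain ⟨η, hη, hgap⟩ := exists_gap s
  have hev : ∀ᶠ N in (U : Filter ℕ), ∀ c ∈ s, 1 / ((m : ℝ) + 1) < (S N).tav (n := 2)
      (fun _ x => if |(S N).R (x 0) (x 1) - c| ≤ η then 1 else 0) := by
    rw [Filter.eventually_all_finset]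
    exact fun c hc => hs hc η hη
  obtain ⟨N, hN⟩ := hev.exists
  have h1 : ∑ c ∈ s, 1 / ((m : ℝ) + 1) < ∑ c ∈ s, (S N).tav (n := 2)
      (fun _ x => if |(S N).R (x 0) (x 1) - c| ≤ η then 1 else 0) := by
    refine Finset.sum_lt_sum_of_nonempty ?_ hN
    rw [← Finset.card_pos, hcard]
    omega
  rw [Finset.sum_const, hcard, nsmul_eq_mul] at h1
  have h2 : (((m + 1 : ℕ) : ℝ)) * (1 / ((m : ℝ) + 1)) = 1 := by
    push_cast
    field_simp
  rw [h2] at h1
  have h3 : ∀ t : Finset ℝ, t ⊆ s → ∑ c ∈ t, (S N).tav (n := 2)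
      (fun _ x => if |(S N).R (x 0) (x 1) - c| ≤ η then 1 else 0) =
      (S N).tav (n := 2) (fun _ x => ∑ c ∈ t,
        if |(S N).R (x 0) (x 1) - c| ≤ η then (1 : ℝ) else 0) := by
    intro t
    induction t using Finset.induction_on with
    | empty =>
      intro _
      simp only [Finset.sum_empty]
      exact (Sys.tav_const 0).symm
    | insert c t hct ih =>
      intro hts
      rw [Finset.sum_insert hct, ih (fun x hx => hts (Finset.mem_insert_of_mem hx))]
      obtain ⟨D, hD⟩ := Sys.exists_bdd (S := S N) (fun x : Fin 2 → (S N).X =>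
        if |(S N).R (x 0) (x 1) - c| ≤ η then (1 : ℝ) else 0)
      obtain ⟨D', hD'⟩ := Sys.exists_bdd (S := S N) (fun x : Fin 2 → (S N).X => ∑ c ∈ t,
        if |(S N).R (x 0) (x 1) - c| ≤ η then (1 : ℝ) else 0)
      rw [← Sys.tav_add hD hD']
      refine Sys.tav_congr fun _ x => ?_
      rw [Finset.sum_insert hct]
  rw [h3 s (Finset.Subset.refl s)] at h1
  obtain ⟨D', hD'⟩ := Sys.exists_bdd (S := S N) (fun x : Fin 2 → (S N).X => ∑ c ∈ s,
        if |(S N).R (x 0) (x 1) - c| ≤ η then (1 : ℝ) else 0)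
  have h4 := Sys.tav_mono (G := fun _ _ => (1 : ℝ)) (D := 1) hD'
    ⟨fun _ => measurable_const, fun _ _ => by norm_num⟩ (fun t x => by
      by_cases hex : ∃ c ∈ s, |(S N).R (x 0) (x 1) - c| ≤ η
      · obtain ⟨c, hc, hcη⟩ := hex
        rw [Finset.sum_eq_single_of_mem c hc]
        · rw [if_pos hcη]
        · intro b hb hbc
          rw [if_neg]
          intro hbη
          have h5 := hgap b hb c hc hbc
          rw [abs_le] at hbη hcη
          have h6 : |b - c| ≤ 2 * η := by
            rw [abs_le]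
            constructor <;> linarith [hbη.1, hbη.2, hcη.1, hcη.2]
          linarith
      · push Not at hex
        rw [Finset.sum_eq_zero]
        · norm_num
        · intro c hc
          rw [if_neg (not_le.mpr (hex c hc))])
  rw [Sys.tav_const] at h4
  linarith

/-- non-atomic thresholds are dense -/
theorem exists_nonAtom (U : Ultrafilter ℕ) (S : ℕ → Sys) {a b : ℝ} (hab : a < b) :
    ∃ c, a < c ∧ c < b ∧ NonAtom U S c := by
  have h := (atoms_countable U S).dense_compl ℝ
  obtain ⟨c, hc1, hc2⟩ := h.exists_between hab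
  refine ⟨c, hc2.1, hc2.2, ?_⟩
  by_contra hcon
  exact hc1 hcon

end Vale.Agent.P157.Par
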