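import Vale.Agent.P157.ParUPat5
import Vale.Agent.P157.ParUField
import Vale.Agent.P157.ParUTele

/-!
The Guerra upper bound for the Ising perceptron at every density, for `e^f = C - (positive
definite)`.
-/

open MeasureTheory ProbabilityTheory Filter Topology

namespace Vale.Agent.P157.Par

lemma sum_spin_sq {N : ℕ} (x : Fin N → Bool) : ∑ i, spin x i ^ 2 = N := by
  have : ∀ i, spin x i ^ 2 = 1 := by intro i; unfold spin; split_ifs <;> norm_num
  simp [this]

section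

variable {f : ℝ → ℝ} {ν : Measure ℝ} [IsFiniteMeasure ν] {C₀ : ℝ}

lemma hRs_spin {k N : ℕ} {m r : ℕ → ℝ} (hm : Exponents k m) (hN : 0 < N)
    (u : (Fin N → Bool) → ℝ) (c : ℝ) :
    Path k (Rs m r k (lw spin c u) (bw spin c u)) ∧
      Rs m r k (lw spin c u) (bw spin c u) k ≤ 1 := by
  have hp : ∀ j < k, 0 < m (j + 1) := fun j hj => hm.pos j hj.le
  refine ⟨Rs_path hp (lip_lw spin c u) (eg_bw spin c u), ?_⟩
  rw [Rs_eq_R1]
  exact R1_le_one hp sum_spin_sq hN c u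

/-- The Guerra bound at finite volume. -/
theorem guerra_classA {k N : ℕ} {m r : ℕ → ℝ} (hN : 0 < N)
    (hν : ν.real Set.univ < C₀) (hf : ∀ s : ℝ, Real.exp (f s) = C₀ - ∫ l, Real.cos (l * s) ∂ν)
    (hm : Exponents k m) (hr : Path k r) {α : ℝ} (hM : 0 < ⌊α * N⌋₊) {C : ℝ}
    (hC : ∀ q, Path k q → q k ≤ 1 → (⌊α * N⌋₊ : ℝ) / N * patternPart f k m q +
      1 / 2 * ∑ l ∈ Finset.range (k + 1), (m (l + 1) - m l) * r l * q l ≤ C) :
    meanPressure cube α f N ≤ C + spinPart k m r +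
      r k / 2 * ((1 + Real.log (⌊α * N⌋₊ : ℝ)) / (⌊α * N⌋₊ : ℝ)) := by
  obtain ⟨K, hK⟩ := classA_bdd hν hf
  refine guerra_finite hN hm hr (classA_meas hf) hK (fun u c c' => ?_) (fun u c => ?_)
    (hRs_spin hm hN) hM hC
  · exact field_step hm hr spin sum_spin_sq hN u c c'
  · exact one_pattern hν hf hm sum_spin_sq hN c u

/-- The Guerra bound in the limit. -/
theorem guerra_limit_classA {k : ℕ} {m r : ℕ → ℝ}
    (hν : ν.real Set.univ < C₀) (hf : ∀ s : ℝ, Real.exp (f s) = C₀ - ∫ l, Real.cos (l * s) ∂ν)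
    (hm : Exponents k m) (hr : Path k r) {α : ℝ} (hα : 0 < α) {C : ℝ}
    (hC : ∀ q, Path k q → q k ≤ 1 → parisi α f k m q r ≤ C) {ε : ℝ} (hε : 0 < ε) :
    ∀ᶠ N : ℕ in atTop, meanPressure cube α f N ≤ C + ε := by
  obtain ⟨K, hK⟩ := classA_bdd hν hf
  refine guerra_limit hm hr (classA_meas hf) hK (fun N hN u c c' => ?_) (fun N hN u c => ?_)
    (fun N hN => hRs_spin hm hN) hα hC hε
  · exact field_step hm hr spin sum_spin_sq hN u c c'
  · exact one_pattern hν hf hm sum_spin_sq hN c u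

end

end Vale.Agent.P157.Par
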