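import Vale.Agent.P157.ParUBasic

/-!
Adding one pattern (module U3), part 1: elementary pairs (a Fourier transform of a kernel into a
finite set of vectors, together with its one-dimensional counterpart) and the semiring they
generate.
-/

open MeasureTheory ProbabilityTheory Filter Topology

namespace Vale.Agent.P157.Par

variable {N : ℕ}

/-- Pairs of a complex function of the state and the pattern, and a function on the line. -/
abbrev PP (N : ℕ) : Type := ((Fin N → ℝ) → (Fin N → ℝ) → ℂ) × (ℝ → ℂ)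

/-- The overlap at the level `l`. -/
noncomputable def R1 (m r : ℕ → ℝ) (l : ℕ) (G : (Fin N → ℝ) → ℝ)
    (B : (Fin N → ℝ) → Fin N → ℝ) : ℝ := chainAv m r l G (fun y => ∑ i, B y i ^ 2) / N

/-- Elementary pairs. -/
def El (m r : ℕ → ℝ) (l : ℕ) (G : (Fin N → ℝ) → ℝ) (B : (Fin N → ℝ) → Fin N → ℝ) (P : PP N) :
    Prop :=
  ∃ (ι : Type) (_ : Fintype ι) (p : ι → (Fin N → ℝ) → ℝ) (e : ι → Fin N → ℝ) (c s Q : ℝ),
    0 ≤ c ∧ (∀ z, Measurable (p z)) ∧ (∀ z y, 0 ≤ p z y) ∧ (∀ y, ∑ z, p z y = 1) ∧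
    (∀ y i, ∑ z, p z y * e z i = s * B y i / √(N : ℝ)) ∧
    chainAv m r l G (fun y => ∑ z, p z y * ∑ i, e z i ^ 2) = s ^ 2 * R1 m r l G B + Q ∧
    (∀ y g, P.1 y g = c * ∑ z, (p z y : ℂ) *
      Complex.exp (((∑ i, g i * e z i : ℝ) : ℂ) * Complex.I)) ∧
    ∀ x, P.2 x = c * Complex.exp (((s * x : ℝ) : ℂ) * Complex.I - (Q / 2 : ℝ))

lemma El.const {m r : ℕ → ℝ} {l : ℕ} (hm : ∀ j < l, 0 < m (j + 1)) {G : (Fin N → ℝ) → ℝ}
    (hG : Lip G) (B : (Fin N → ℝ) → Fin N → ℝ) {c : ℝ} (hc : 0 ≤ c) :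
    El m r l G B ((fun _ _ => (c : ℂ)), fun _ => (c : ℂ)) := by
  refine ⟨Unit, inferInstance, fun _ _ => 1, fun _ _ => 0, c, 0, 0, hc, fun _ => measurable_const,
    fun _ _ => zero_le_one, fun _ => by simp, fun _ _ => by simp, ?_, fun _ _ => by simp,
    fun _ => by simp⟩
  simpa using chainAv_const hm hG 0

lemma prob_le_one {ι : Type} [Fintype ι] {p : ι → ℝ} (h0 : ∀ z, 0 ≤ p z) (h1 : ∑ z, p z = 1)
    (z : ι) : p z ≤ 1 := by
  rw [← h1]
  exact Finset.single_le_sum (fun z _ => h0 z) (Finset.mem_univ z)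

lemma eg_prob {ι : Type} [Fintype ι] {p : ι → (Fin N → ℝ) → ℝ} (hp : ∀ z, Measurable (p z))
    (h0 : ∀ z y, 0 ≤ p z y) (h1 : ∀ y, ∑ z, p z y = 1) (z : ι) : EG (p z) :=
  EG.of_bdd (hp z) (C := 1) fun y => by
    rw [abs_of_nonneg (h0 z y)]
    exact prob_le_one (fun z => h0 z y) (h1 y) z

lemma El.mul {m r : ℕ → ℝ} {l : ℕ} (hm : ∀ j < l, 0 < m (j + 1)) {G : (Fin N → ℝ) → ℝ}
    (hG : Lip G) {B : (Fin N → ℝ) → Fin N → ℝ} (hB : ∀ i, EG fun y => B y i) {P P' : PP N}
    (hP : El m r l G B P) (hP' : El m r l G B P') : El m r l G B (P * P') := by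
  obtain ⟨ι, hι, p, e, c, s, Q, hc, hpm, hp0, hp1, hpe, hch, hA, ha⟩ := hP
  obtain ⟨ι', hι', p', e', c', s', Q', hc', hpm', hp0', hp1', hpe', hch', hA', ha'⟩ := hP'
  have hsum : ∀ y, ∀ (F : ι → ℝ) (F' : ι' → ℝ), ∑ z : ι × ι', p z.1 y * p' z.2 y *
      (F z.1 * F' z.2) = (∑ z, p z y * F z) * ∑ z, p' z y * F' z := by
    intro y F F'
    rw [Fintype.sum_prod_type, Finset.sum_mul_sum]
    refine Finset.sum_congr rfl fun z _ => Finset.sum_congr rfl fun z' _ => by ring
  refine ⟨ι × ι', inferInstance, fun z y => p z.1 y * p' z.2 y, fun z i => e z.1 i + e' z.2 i,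
    c * c', s + s', Q + Q', mul_nonneg hc hc', fun z => (hpm _).mul (hpm' _),
    fun z y => mul_nonneg (hp0 _ _) (hp0' _ _), fun y => ?_, fun y i => ?_, ?_, fun y g => ?_,
    fun x => ?_⟩
  · have := hsum y (fun _ => 1) (fun _ => 1)
    simpa [hp1, hp1'] using this
  · have h1 := hsum y (fun z => e z i) (fun _ => 1)
    have h2 := hsum y (fun _ => 1) (fun z => e' z i)
    simp only [mul_one, one_mul, hp1, hp1', hpe, hpe'] at h1 h2
    simp only [mul_add, Finset.sum_add_distrib, h1, h2]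
    ring
  · have hpt : ∀ y, ∑ z : ι × ι', p z.1 y * p' z.2 y * ∑ i, (e z.1 i + e' z.2 i) ^ 2 =
        (∑ z, p z y * ∑ i, e z i ^ 2) + (∑ z, p' z y * ∑ i, e' z i ^ 2) +
          (2 * s * s' / N) * ∑ i, B y i ^ 2 := by
      intro y
      have h1 := hsum y (fun z => ∑ i, e z i ^ 2) (fun _ => 1)
      have h2 := hsum y (fun _ => 1) (fun z => ∑ i, e' z i ^ 2)
      have h3 : ∀ i, ∑ z : ι × ι', p z.1 y * p' z.2 y * (e z.1 i * e' z.2 i) =
          s * s' / N * B y i ^ 2 := by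
        intro i
        rw [hsum y (fun z => e z i) (fun z => e' z i), hpe, hpe']
        rcases Nat.eq_zero_or_pos N with hN | hN
        · subst hN; exact i.elim0
        · have : (√(N : ℝ)) ^ 2 = N := Real.sq_sqrt (Nat.cast_nonneg N)
          have hN' : (0 : ℝ) < N := by exact_mod_cast hN
          have h0 : √(N : ℝ) ≠ 0 := (Real.sqrt_pos.2 hN').ne'
          field_simp
          rw [this]
          ring
      simp only [mul_one, one_mul, hp1, hp1'] at h1 h2
      have h4 : ∀ z : ι × ι', p z.1 y * p' z.2 y * ∑ i, (e z.1 i + e' z.2 i) ^ 2 =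
          p z.1 y * p' z.2 y * (∑ i, e z.1 i ^ 2) + p z.1 y * p' z.2 y * (∑ i, e' z.2 i ^ 2) +
            ∑ i, 2 * (p z.1 y * p' z.2 y * (e z.1 i * e' z.2 i)) := by
        intro z
        simp only [Finset.mul_sum]
        rw [← Finset.sum_add_distrib, ← Finset.sum_add_distrib]
        exact Finset.sum_congr rfl fun i _ => by ring
      simp only [h4, Finset.sum_add_distrib, h1, h2]
      rw [Finset.sum_comm]
      simp only [← Finset.mul_sum, h3]
      ring
    rw [funext hpt, chainAv_add hm hG, chainAv_add hm hG, chainAv_const_mul, hch, hch']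
    · have : chainAv m r l G (fun y => ∑ i, B y i ^ 2) = R1 m r l G B * N := by
        unfold R1
        rcases Nat.eq_zero_or_pos N with hN | hN
        · subst hN
          simpa using chainAv_const hm hG 0
        · have hN' : (N : ℝ) ≠ 0 := by exact_mod_cast hN.ne'
          field_simp
      rw [this]
      rcases Nat.eq_zero_or_pos N with hN | hN
      · subst hN
        simp [R1]
      · have hN' : (N : ℝ) ≠ 0 := by exact_mod_cast hN.ne'
        field_simp
        ring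
    · exact EG.sum _ fun z _ => (eg_prob hpm hp0 hp1 z).mul (EG.const _)
    · exact EG.sum _ fun z _ => (eg_prob hpm' hp0' hp1' z).mul (EG.const _)
    · exact (EG.sum _ fun z _ => (eg_prob hpm hp0 hp1 z).mul (EG.const _)).add
        (EG.sum _ fun z _ => (eg_prob hpm' hp0' hp1' z).mul (EG.const _))
    · exact (EG.sum _ fun i _ => (hB i).pow 2).const_mul _
  · rw [Prod.fst_mul, Pi.mul_apply, Pi.mul_apply, hA, hA', Fintype.sum_prod_type]
    have : ∀ (z : ι) (z' : ι'), ((p z y * p' z' y : ℝ) : ℂ) *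
        Complex.exp (((∑ i, g i * (e z i + e' z' i) : ℝ) : ℂ) * Complex.I) =
        ((p z y : ℂ) * Complex.exp (((∑ i, g i * e z i : ℝ) : ℂ) * Complex.I)) *
        ((p' z' y : ℂ) * Complex.exp (((∑ i, g i * e' z' i : ℝ) : ℂ) * Complex.I)) := by
      intro z z'
      have h1 : (∑ i, g i * (e z i + e' z' i) : ℝ) = (∑ i, g i * e z i) + ∑ i, g i * e' z' i := by
        rw [← Finset.sum_add_distrib]
        exact Finset.sum_congr rfl fun i _ => by ring
      rw [h1, Complex.ofReal_add, add_mul, Complex.exp_add, Complex.ofReal_mul]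
      ring
    dsimp only
    simp only [this]
    rw [Complex.ofReal_mul, mul_mul_mul_comm, Finset.sum_mul_sum]
  · rw [Prod.snd_mul, Pi.mul_apply, ha, ha', mul_mul_mul_comm, ← Complex.exp_add,
      ← Complex.ofReal_mul]
    congr 2
    push_cast
    ring

/-- The submonoid of elementary pairs. -/
def ElM (m r : ℕ → ℝ) (l : ℕ) (hm : ∀ j < l, 0 < m (j + 1)) (G : (Fin N → ℝ) → ℝ) (hG : Lip G)
    (B : (Fin N → ℝ) → Fin N → ℝ) (hB : ∀ i, EG fun y => B y i) : Submonoid (PP N) where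
  carrier := {P | El m r l G B P}
  one_mem' := by
    have := El.const (r := r) hm hG B (c := 1) zero_le_one
    simp only [Complex.ofReal_one] at this
    exact this
  mul_mem' := fun h h' => h.mul hm hG hB h'

/-- Nonnegative combinations of elementary pairs. -/
def Rep (m r : ℕ → ℝ) (l : ℕ) (G : (Fin N → ℝ) → ℝ) (B : (Fin N → ℝ) → Fin N → ℝ)
    (P : PP N) : Prop := P ∈ AddSubmonoid.closure {P | El m r l G B P}

section closure

variable {m r : ℕ → ℝ} {l : ℕ} {G : (Fin N → ℝ) → ℝ} {B : (Fin N → ℝ) → Fin N → ℝ}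

lemma Rep.of_el {P : PP N} (h : El m r l G B P) : Rep m r l G B P :=
  AddSubmonoid.subset_closure h

lemma Rep.zero : Rep m r l G B (0 : PP N) := AddSubmonoid.zero_mem _

lemma Rep.add {P P' : PP N} (h : Rep m r l G B P) (h' : Rep m r l G B P') :
    Rep m r l G B (P + P') := AddSubmonoid.add_mem _ h h'

lemma Rep.sum {ι : Type*} (s : Finset ι) {P : ι → PP N} (h : ∀ i ∈ s, Rep m r l G B (P i)) :
    Rep m r l G B (∑ i ∈ s, P i) := AddSubmonoid.sum_mem _ h

lemma Rep.mul (hm : ∀ j < l, 0 < m (j + 1)) (hG : Lip G) (hB : ∀ i, EG fun y => B y i)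
    {P P' : PP N} (h : Rep m r l G B P) (h' : Rep m r l G B P') : Rep m r l G B (P * P') :=
  (ElM m r l hm G hG B hB).subsemiringClosure.mul_mem h h'

lemma Rep.const (hm : ∀ j < l, 0 < m (j + 1)) (hG : Lip G) (B : (Fin N → ℝ) → Fin N → ℝ)
    {c : ℝ} (hc : 0 ≤ c) : Rep m r l G B (((fun _ _ => (c : ℂ)), fun _ => (c : ℂ)) : PP N) :=
  Rep.of_el (El.const hm hG B hc)

lemma Rep.pow (hm : ∀ j < l, 0 < m (j + 1)) (hG : Lip G) (hB : ∀ i, EG fun y => B y i)
    {P : PP N} (h : Rep m r l G B P) (n : ℕ) : Rep m r l G B (P ^ n) :=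
  (ElM m r l hm G hG B hB).subsemiringClosure.pow_mem h n

lemma Rep.induction {motive : PP N → Prop} (h1 : ∀ P, El m r l G B P → motive P)
    (h0 : motive 0) (hadd : ∀ P P', motive P → motive P' → motive (P + P')) {P : PP N}
    (h : Rep m r l G B P) : motive P :=
  AddSubmonoid.closure_induction (motive := fun P _ => motive P) (fun P hP => h1 P hP) h0
    (fun P P' _ _ => hadd P P') h

/-- Boundedness and measurability of the elements. -/
lemma Rep.bdd {P : PP N} (h : Rep m r l G B P) :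
    (∃ C, ∀ y g, ‖P.1 y g‖ ≤ C) ∧ (∃ C, ∀ x, ‖P.2 x‖ ≤ C) ∧
      Measurable (fun p : (Fin N → ℝ) × (Fin N → ℝ) => P.1 p.1 p.2) ∧ Measurable P.2 := by
  refine Rep.induction (motive := fun P => (∃ C, ∀ y g, ‖P.1 y g‖ ≤ C) ∧
    (∃ C, ∀ x, ‖P.2 x‖ ≤ C) ∧ Measurable (fun p : (Fin N → ℝ) × (Fin N → ℝ) => P.1 p.1 p.2) ∧
      Measurable P.2) ?_ ?_ ?_ h
  · rintro P ⟨ι, hι, p, e, c, s, Q, hc, hpm, hp0, hp1, -, -, hA, ha⟩
    refine ⟨⟨c, fun y g => ?_⟩, ⟨c * Real.exp (-(Q / 2)), fun x => ?_⟩, ?_, ?_⟩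
    · rw [hA, norm_mul, Complex.norm_real, Real.norm_eq_abs, abs_of_nonneg hc]
      refine mul_le_of_le_one_right hc ?_
      calc ‖∑ z, (p z y : ℂ) * Complex.exp (((∑ i, g i * e z i : ℝ) : ℂ) * Complex.I)‖ ≤
          ∑ z, ‖(p z y : ℂ) * Complex.exp (((∑ i, g i * e z i : ℝ) : ℂ) * Complex.I)‖ :=
            norm_sum_le _ _
        _ = ∑ z, p z y := by
            refine Finset.sum_congr rfl fun z _ => ?_
            rw [norm_mul, Complex.norm_real, Real.norm_eq_abs, abs_of_nonneg (hp0 z y),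
              Complex.norm_exp_ofReal_mul_I, mul_one]
        _ = 1 := hp1 y
    · rw [ha, norm_mul, Complex.norm_real, Real.norm_eq_abs, abs_of_nonneg hc, sub_eq_add_neg,
        Complex.exp_add, norm_mul, Complex.norm_exp_ofReal_mul_I, one_mul,
        ← Complex.ofReal_neg, Complex.norm_exp_ofReal]
    · simp only [hA]
      have : ∀ z, Measurable (p z) := hpm
      fun_prop
    · rw [funext ha]
      fun_prop
  · refine ⟨⟨0, fun y g => by simp⟩, ⟨0, fun x => by simp⟩, ?_, ?_⟩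
    · simp only [Prod.fst_zero, Pi.zero_apply]; exact measurable_const
    · simp only [Prod.snd_zero]; exact measurable_const
  · rintro P P' ⟨⟨C1, h1⟩, ⟨C2, h2⟩, h3, h4⟩ ⟨⟨C1', h1'⟩, ⟨C2', h2'⟩, h3', h4'⟩
    refine ⟨⟨C1 + C1', fun y g => (norm_add_le _ _).trans (add_le_add (h1 y g) (h1' y g))⟩,
      ⟨C2 + C2', fun x => (norm_add_le _ _).trans (add_le_add (h2 x) (h2' x))⟩, ?_, ?_⟩
    · exact h3.add h3'
    · exact h4.add h4'

end closure

end Vale.Agent.P157.Par
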