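import Vale.Agent.P157.ParUPat1

/-!
Adding one pattern (module U3), part 2: the tilted chain acts on combinations of elementary pairs,
and the final comparison at the level zero.
-/

open MeasureTheory ProbabilityTheory Filter Topology

namespace Vale.Agent.P157.Par

variable {N : ℕ}

/-- The tilted average of a complex function. -/
noncomputable def tiltC (m v : ℝ) (G : (Fin N → ℝ) → ℝ) (A : (Fin N → ℝ) → ℂ) (y : Fin N → ℝ) :
    ℂ :=
  (∫ z, A (y + √v • z) * (Real.exp (m * G (y + √v • z)) : ℂ) ∂(gN N)) /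
    ((∫ z, Real.exp (m * G (y + √v • z)) ∂(gN N) : ℝ) : ℂ)

/-- One step on pairs: `w` is the increment of the overlap. -/
noncomputable def stepP (m v w : ℝ) (G : (Fin N → ℝ) → ℝ) (P : PP N) : PP N :=
  (fun y g => tiltC m v G (fun y => P.1 y g) y, fun x => ∫ z, P.2 (x + √w * z) ∂(gaussianReal 0 1))

lemma tiltC_ofReal (m v : ℝ) (G h : (Fin N → ℝ) → ℝ) (y : Fin N → ℝ) :
    tiltC m v G (fun y => (h y : ℂ)) y = (tiltN m v G h y : ℂ) := by
  unfold tiltC tiltN
  have h1 : ((∫ z, h (y + √v • z) * Real.exp (m * G (y + √v • z)) ∂(gN N) : ℝ) : ℂ) =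
      ∫ z, (h (y + √v • z) : ℂ) * (Real.exp (m * G (y + √v • z)) : ℂ) ∂(gN N) := by
    rw [← integral_complex_ofReal]
    simp only [Complex.ofReal_mul]
  rw [Complex.ofReal_div, h1]

lemma integrable_tiltC {G : (Fin N → ℝ) → ℝ} (hG : Lip G) (m v : ℝ) {A : (Fin N → ℝ) → ℂ}
    (hA : Measurable A) {C : ℝ} (hC : ∀ y, ‖A y‖ ≤ C) (y : Fin N → ℝ) :
    Integrable (fun z => A (y + √v • z) * (Real.exp (m * G (y + √v • z)) : ℂ)) (gN N) := by
  have h1 := ((hG.exp_eg m).integrable y (√v)).const_mul C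
  refine h1.mono' ?_ (Filter.Eventually.of_forall fun z => ?_)
  · have h2 : Measurable fun z : Fin N → ℝ => y + √v • z := by fun_prop
    have h3 : Measurable fun z : Fin N → ℝ => G (y + √v • z) := hG.measurable.comp h2
    have h4 : Measurable fun z : Fin N → ℝ => A (y + √v • z) := hA.comp h2
    exact (h4.mul (Complex.measurable_ofReal.comp
      (Real.measurable_exp.comp (h3.const_mul m)))).aestronglyMeasurable
  · rw [norm_mul, Complex.norm_real, Real.norm_eq_abs, abs_of_pos (Real.exp_pos _)]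
    exact mul_le_mul_of_nonneg_right (hC _) (Real.exp_pos _).le

lemma tiltC_add {G : (Fin N → ℝ) → ℝ} (hG : Lip G) (m v : ℝ) {A A' : (Fin N → ℝ) → ℂ}
    (hA : Measurable A) {C : ℝ} (hC : ∀ y, ‖A y‖ ≤ C) (hA' : Measurable A') {C' : ℝ}
    (hC' : ∀ y, ‖A' y‖ ≤ C') (y : Fin N → ℝ) :
    tiltC m v G (fun y => A y + A' y) y = tiltC m v G A y + tiltC m v G A' y := by
  unfold tiltC
  rw [← add_div, ← integral_add (integrable_tiltC hG m v hA hC y)
    (integrable_tiltC hG m v hA' hC' y)]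
  simp only [add_mul]

lemma norm_tiltC_le {G : (Fin N → ℝ) → ℝ} (hG : Lip G) (m v : ℝ) {A : (Fin N → ℝ) → ℂ}
    {C : ℝ} (hC : ∀ y, ‖A y‖ ≤ C) (y : Fin N → ℝ) : ‖tiltC m v G A y‖ ≤ C := by
  unfold tiltC
  rw [norm_div, Complex.norm_real, Real.norm_eq_abs, abs_of_pos (int_exp_pos hG m v y),
    div_le_iff₀ (int_exp_pos hG m v y), ← integral_const_mul]
  refine norm_integral_le_of_norm_le (((hG.exp_eg m).integrable y (√v)).const_mul C)
    (Filter.Eventually.of_forall fun z => ?_)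
  rw [norm_mul, Complex.norm_real, Real.norm_eq_abs, abs_of_pos (Real.exp_pos _)]
  exact mul_le_mul_of_nonneg_right (hC _) (Real.exp_pos _).le

lemma int_cexp (t : ℝ) : ∫ x, Complex.exp (((t * x : ℝ) : ℂ) * Complex.I) ∂(gaussianReal 0 1) =
    ((Real.exp (-(t ^ 2 / 2)) : ℝ) : ℂ) := by
  have h1 := charFun_gaussianReal (μ := 0) (v := 1) t
  rw [charFun_apply_real] at h1
  simp only [Complex.ofReal_mul]
  rw [h1]
  push_cast
  congr 1
  ring

lemma integrable_cexp (t s : ℝ) (μ : Measure ℝ) [IsFiniteMeasure μ] :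
    Integrable (fun x : ℝ => Complex.exp (((t * x + s : ℝ) : ℂ) * Complex.I)) μ := by
  refine Integrable.mono' (integrable_const (1 : ℝ))
    (by fun_prop : Measurable _).aestronglyMeasurable (Filter.Eventually.of_forall fun x => ?_)
  rw [Complex.norm_exp_ofReal_mul_I]

section step

variable {m r : ℕ → ℝ} {l : ℕ} {G : (Fin N → ℝ) → ℝ} {B : (Fin N → ℝ) → Fin N → ℝ}

/-- The step on the line of an elementary function. -/
lemma gauss_step {w : ℝ} (hw : 0 ≤ w) (s Q x : ℝ) :
    ∫ z, Complex.exp (((s * (x + √w * z) : ℝ) : ℂ) * Complex.I - (Q / 2 : ℝ))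
      ∂(gaussianReal 0 1) =
    Complex.exp (((s * x : ℝ) : ℂ) * Complex.I - ((Q + s ^ 2 * w) / 2 : ℝ)) := by
  have h1 : ∀ z : ℝ, Complex.exp (((s * (x + √w * z) : ℝ) : ℂ) * Complex.I - (Q / 2 : ℝ)) =
      Complex.exp (((s * x : ℝ) : ℂ) * Complex.I - (Q / 2 : ℝ)) *
        Complex.exp ((((s * √w) * z : ℝ) : ℂ) * Complex.I) := by
    intro z
    rw [← Complex.exp_add]
    congr 1
    push_cast
    ring
  simp only [h1]
  rw [integral_const_mul, int_cexp, Complex.ofReal_exp, ← Complex.exp_add]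
  congr 1
  have : (s * √w) ^ 2 = s ^ 2 * w := by rw [mul_pow, Real.sq_sqrt hw]
  rw [this]
  push_cast
  ring

lemma El.step (hG : Lip G) {P : PP N} {G' : (Fin N → ℝ) → ℝ}
    {B' : (Fin N → ℝ) → Fin N → ℝ} (hG' : G' = gstepN (m (l + 1)) (r (l + 1) - r l) G)
    (hB' : B' = fun y i => tiltN (m (l + 1)) (r (l + 1) - r l) G (fun y => B y i) y)
    (hR : R1 m r l G' B' ≤ R1 m r (l + 1) G B)
    (hP : El m r (l + 1) G B P) :
    El m r l G' B' (stepP (m (l + 1)) (r (l + 1) - r l) (R1 m r (l + 1) G B - R1 m r l G' B')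
      G P) := by
  obtain ⟨ι, hι, p, e, c, s, Q, hc, hpm, hp0, hp1, hpe, hch, hA, ha⟩ := hP
  have hpE := eg_prob hpm hp0 hp1
  refine ⟨ι, hι, fun z => tiltN (m (l + 1)) (r (l + 1) - r l) G (p z), e, c, s,
    Q + s ^ 2 * (R1 m r (l + 1) G B - R1 m r l G' B'), hc, fun z => (hpE z).measurable_tilt hG _ _,
    fun z y => ?_, fun y => ?_, fun y i => ?_, ?_, fun y g => ?_, fun x => ?_⟩
  · rw [← tiltN_const hG (m (l + 1)) (r (l + 1) - r l) 0 y]
    exact tiltN_mono hG (EG.const 0) (hpE z) (hp0 z) _ _ y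
  · rw [← tiltN_sum _ hG (fun z _ => hpE z), tiltN_congr hp1, tiltN_const hG]
  · have h1 : ∀ y, ∑ z, e z i * p z y = s / √(N : ℝ) * B y i := by
      intro y
      rw [show s / √(N : ℝ) * B y i = s * B y i / √(N : ℝ) by ring, ← hpe y i]
      exact Finset.sum_congr rfl fun z _ => mul_comm _ _
    have h2 : ∑ z, tiltN (m (l + 1)) (r (l + 1) - r l) G (p z) y * e z i =
        tiltN (m (l + 1)) (r (l + 1) - r l) G (fun y => ∑ z, e z i * p z y) y := by
      rw [tiltN_sum _ hG (fun z _ => (hpE z).const_mul _)]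
      exact Finset.sum_congr rfl fun z _ => by rw [tiltN_const_mul, mul_comm]
    rw [h2, tiltN_congr h1, tiltN_const_mul, hB']
    ring
  · have h2 : ∀ y, ∑ z, tiltN (m (l + 1)) (r (l + 1) - r l) G (p z) y * ∑ i, e z i ^ 2 =
        tiltN (m (l + 1)) (r (l + 1) - r l) G (fun y => ∑ z, p z y * ∑ i, e z i ^ 2) y := by
      intro y
      rw [tiltN_sum _ hG (fun z _ => (hpE z).mul (EG.const _))]
      refine Finset.sum_congr rfl fun z _ => ?_
      rw [mul_comm, ← tiltN_const_mul]
      exact tiltN_congr (fun y => mul_comm _ _) _ _ _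
    rw [funext h2, hG']
    have h3 : chainAv m r l (gstepN (m (l + 1)) (r (l + 1) - r l) G)
        (tiltN (m (l + 1)) (r (l + 1) - r l) G fun y => ∑ z, p z y * ∑ i, e z i ^ 2) =
        chainAv m r (l + 1) G (fun y => ∑ z, p z y * ∑ i, e z i ^ 2) := rfl
    rw [h3, hch]
    ring
  · show tiltC _ _ G (fun y => P.1 y g) y = _
    have h1 : (fun y => P.1 y g) = fun y => ∑ z, ((c : ℂ) *
        Complex.exp (((∑ i, g i * e z i : ℝ) : ℂ) * Complex.I)) * (p z y : ℂ) := by
      funext y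
      rw [hA, Finset.mul_sum]
      exact Finset.sum_congr rfl fun z _ => by ring
    rw [h1]
    unfold tiltC
    simp only [Finset.sum_mul]
    rw [integral_finsetSum _ fun z _ => ?_]
    · rw [Finset.sum_div, Finset.mul_sum]
      refine Finset.sum_congr rfl fun z _ => ?_
      simp only [mul_assoc]
      rw [integral_const_mul, integral_const_mul, mul_div_assoc, mul_div_assoc]
      have h2 := tiltC_ofReal (m (l + 1)) (r (l + 1) - r l) G (p z) y
      unfold tiltC at h2
      rw [h2]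
      ring
    · simp only [mul_assoc]
      refine ((integrable_tiltC hG _ _ (Complex.measurable_ofReal.comp (hpm z)) (C := 1)
        (fun y => ?_) y).const_mul _).const_mul _
      simp only [Function.comp_apply]
      rw [Complex.norm_real, Real.norm_eq_abs, abs_of_nonneg (hp0 z y)]
      exact prob_le_one (fun z => hp0 z y) (hp1 y) z
  · show ∫ z, P.2 (x + _ * z) ∂_ = _
    simp only [ha]
    rw [integral_const_mul, gauss_step (sub_nonneg.2 hR)]

lemma measurable_curry_left {A : (Fin N → ℝ) → (Fin N → ℝ) → ℂ}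
    (h : Measurable (fun p : (Fin N → ℝ) × (Fin N → ℝ) => A p.1 p.2)) (g : Fin N → ℝ) :
    Measurable fun y => A y g :=
  h.comp (measurable_id.prodMk measurable_const)

lemma Rep.step (hG : Lip G) {P : PP N} {G' : (Fin N → ℝ) → ℝ}
    {B' : (Fin N → ℝ) → Fin N → ℝ} (hG' : G' = gstepN (m (l + 1)) (r (l + 1) - r l) G)
    (hB' : B' = fun y i => tiltN (m (l + 1)) (r (l + 1) - r l) G (fun y => B y i) y)
    (hR : R1 m r l G' B' ≤ R1 m r (l + 1) G B)
    (hP : Rep m r (l + 1) G B P) :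
    Rep m r l G' B' (stepP (m (l + 1)) (r (l + 1) - r l) (R1 m r (l + 1) G B - R1 m r l G' B')
      G P) := by
  have key : Rep m r (l + 1) G B P ∧ Rep m r l G' B' (stepP (m (l + 1)) (r (l + 1) - r l)
      (R1 m r (l + 1) G B - R1 m r l G' B') G P) := by
    refine Rep.induction (motive := fun P => Rep m r (l + 1) G B P ∧
      Rep m r l G' B' (stepP (m (l + 1)) (r (l + 1) - r l)
        (R1 m r (l + 1) G B - R1 m r l G' B') G P)) ?_ ?_ ?_ hP
    · intro P hP
      exact ⟨Rep.of_el hP, Rep.of_el (El.step hG hG' hB' hR hP)⟩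
    · refine ⟨Rep.zero, ?_⟩
      have : stepP (m (l + 1)) (r (l + 1) - r l)
        (R1 m r (l + 1) G B - R1 m r l G' B') G (0 : PP N) = 0 := by
        unfold stepP tiltC
        ext <;> simp
      rw [this]
      exact Rep.zero
    · rintro P P' ⟨h1, h2⟩ ⟨h1', h2'⟩
      refine ⟨h1.add h1', ?_⟩
      obtain ⟨⟨C, hC⟩, ⟨D, hD⟩, hA, ha⟩ := h1.bdd
      obtain ⟨⟨C', hC'⟩, ⟨D', hD'⟩, hA', ha'⟩ := h1'.bdd
      have : stepP (m (l + 1)) (r (l + 1) - r l)
        (R1 m r (l + 1) G B - R1 m r l G' B') G (P + P') =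
        stepP (m (l + 1)) (r (l + 1) - r l) (R1 m r (l + 1) G B - R1 m r l G' B') G P +
        stepP (m (l + 1)) (r (l + 1) - r l) (R1 m r (l + 1) G B - R1 m r l G' B') G P' := by
        unfold stepP
        ext1
        · funext y g
          exact tiltC_add hG _ _ (measurable_curry_left hA g) (fun y => hC y g)
            (measurable_curry_left hA' g) (fun y => hC' y g) y
        · funext x
          refine integral_add ?_ ?_
          · refine Integrable.mono' (integrable_const D) (ha.comp (by fun_prop)).aestronglyMeasurable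
              (Filter.Eventually.of_forall fun z => hD _)
          · refine Integrable.mono' (integrable_const D') (ha'.comp (by fun_prop)).aestronglyMeasurable
              (Filter.Eventually.of_forall fun z => hD' _)
      rw [this]
      exact h2.add h2'
  exact key.2

end step

/-- The characteristic function of the standard Gaussian vector. -/
lemma int_cexp_gN (e : Fin N → ℝ) :
    ∫ g, Complex.exp (((∑ i, g i * e i : ℝ) : ℂ) * Complex.I) ∂(gN N) =
      ((Real.exp (-(∑ i, e i ^ 2) / 2) : ℝ) : ℂ) := by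
  have h1 : ∀ g : Fin N → ℝ, Complex.exp (((∑ i, g i * e i : ℝ) : ℂ) * Complex.I) =
      ∏ i, Complex.exp (((e i * g i : ℝ) : ℂ) * Complex.I) := by
    intro g
    rw [← Complex.exp_sum, ← Finset.sum_mul, ← Complex.ofReal_sum]
    have : ∑ i, g i * e i = ∑ i, e i * g i := Finset.sum_congr rfl fun i _ => mul_comm _ _
    rw [this]
  simp only [h1]
  rw [integral_fintype_prod_eq_prod (f := fun i x => Complex.exp (((e i * x : ℝ) : ℂ) * Complex.I))]
  simp only [int_cexp]
  rw [← Complex.ofReal_prod, ← Real.exp_sum]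
  congr 2
  rw [Finset.sum_neg_distrib, ← Finset.sum_div, neg_div]

lemma integrable_cexp_gN (e : Fin N → ℝ) :
    Integrable (fun g : Fin N → ℝ => Complex.exp (((∑ i, g i * e i : ℝ) : ℂ) * Complex.I))
      (gN N) := by
  refine Integrable.mono' (integrable_const (1 : ℝ))
    (by fun_prop : Measurable _).aestronglyMeasurable (Filter.Eventually.of_forall fun x => ?_)
  rw [Complex.norm_exp_ofReal_mul_I]

section final

variable {m r : ℕ → ℝ} {G : (Fin N → ℝ) → ℝ} {B : (Fin N → ℝ) → Fin N → ℝ}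

lemma R1_zero_nonneg : 0 ≤ R1 m r 0 G B := by
  unfold R1 chainAv
  refine div_nonneg (integral_nonneg fun z => Finset.sum_nonneg fun i _ => sq_nonneg _)
    (Nat.cast_nonneg N)

/-- The comparison at the level zero, for elementary pairs. -/
lemma El.final {P : PP N} (hP : El m r 0 G B P) :
    (∫ x, P.2 (√(R1 m r 0 G B) * x) ∂(gaussianReal 0 1)).re ≤
      (∫ g, ∫ z, P.1 (√(r 0) • z) g ∂(gN N) ∂(gN N)).re := by
  obtain ⟨ι, hι, p, e, c, s, Q, hc, hpm, hp0, hp1, hpe, hch, hA, ha⟩ := hP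
  have hpE := eg_prob hpm hp0 hp1
  -- the right side
  have h1 : ∀ g, ∫ z, P.1 (√(r 0) • z) g ∂(gN N) = (c : ℂ) * ∑ z,
      ((∫ ζ, p z (√(r 0) • ζ) ∂(gN N) : ℝ) : ℂ) *
        Complex.exp (((∑ i, g i * e z i : ℝ) : ℂ) * Complex.I) := by
    intro g
    simp only [hA]
    rw [integral_const_mul, integral_finsetSum _ fun z _ => ?_]
    · congr 1
      refine Finset.sum_congr rfl fun z _ => ?_
      rw [integral_mul_const, ← integral_complex_ofReal]
    · exact (((hpE z).integrable_smul (√(r 0))).ofReal).mul_const _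
  have h2 : ∫ g, ∫ z, P.1 (√(r 0) • z) g ∂(gN N) ∂(gN N) =
      ((c * ∑ z, (∫ ζ, p z (√(r 0) • ζ) ∂(gN N)) * Real.exp (-(∑ i, e z i ^ 2) / 2) : ℝ) : ℂ) := by
    simp only [h1]
    rw [integral_const_mul, integral_finsetSum _ fun z _ => ?_]
    · rw [Complex.ofReal_mul, Complex.ofReal_sum]
      congr 1
      refine Finset.sum_congr rfl fun z _ => ?_
      rw [integral_const_mul, int_cexp_gN, Complex.ofReal_mul]
    · exact (integrable_cexp_gN _).const_mul _
  -- the left side
  have h3 : ∫ x, P.2 (√(R1 m r 0 G B) * x) ∂(gaussianReal 0 1) =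
      ((c * Real.exp (-(Q + s ^ 2 * R1 m r 0 G B) / 2) : ℝ) : ℂ) := by
    rw [integral_congr_ae (Filter.Eventually.of_forall fun x => ha _), integral_const_mul]
    have := gauss_step (R1_zero_nonneg (m := m) (r := r) (G := G) (B := B)) s Q 0
    simp only [zero_add] at this
    rw [this, Complex.ofReal_mul c, Complex.ofReal_exp]
    congr 2
    push_cast
    ring_nf
  rw [h2, h3, Complex.ofReal_re, Complex.ofReal_re]
  refine mul_le_mul_of_nonneg_left ?_ hc
  -- Jensen
  set p' : ι → ℝ := fun z => ∫ ζ, p z (√(r 0) • ζ) ∂(gN N) with hp'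
  have hq0 : ∀ z, 0 ≤ p' z := fun z => integral_nonneg fun ζ => hp0 z _
  have hq1 : ∑ z, p' z = 1 := by
    rw [hp', ← integral_finsetSum _ fun z _ => (hpE z).integrable_smul (√(r 0))]
    simp only [hp1]
    simp
  have hq2 : ∑ z, p' z * ∑ i, e z i ^ 2 = s ^ 2 * R1 m r 0 G B + Q := by
    rw [← hch]
    unfold chainAv
    rw [integral_finsetSum _ fun z _ => ((hpE z).integrable_smul (√(r 0))).mul_const _]
    exact Finset.sum_congr rfl fun z _ => by rw [integral_mul_const]
  have hJ := convexOn_exp.map_sum_le (t := Finset.univ) (w := p')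
    (p := fun z => -(∑ i, e z i ^ 2) / 2) (fun z _ => hq0 z) hq1 (fun z _ => Set.mem_univ _)
  simp only [smul_eq_mul] at hJ
  refine le_trans (le_of_eq ?_) hJ
  congr 1
  have : ∑ z, p' z * (-(∑ i, e z i ^ 2) / 2) = -(∑ z, p' z * ∑ i, e z i ^ 2) / 2 := by
    rw [← Finset.sum_neg_distrib, Finset.sum_div]
    exact Finset.sum_congr rfl fun z _ => by ring
  rw [this, hq2]
  ring

lemma Rep.integrable_top {l : ℕ} {P : PP N} (h : Rep m r l G B P) (s : ℝ) (g : Fin N → ℝ) :
    Integrable (fun z => P.1 (s • z) g) (gN N) := by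
  obtain ⟨⟨C, hC⟩, -, hA, -⟩ := h.bdd
  exact Integrable.mono' (integrable_const C)
    ((measurable_curry_left hA g).comp (by fun_prop)).aestronglyMeasurable
    (Filter.Eventually.of_forall fun z => hC _ _)

lemma Rep.integrable_top2 {l : ℕ} {P : PP N} (h : Rep m r l G B P) (s : ℝ) :
    Integrable (fun g => ∫ z, P.1 (s • z) g ∂(gN N)) (gN N) := by
  obtain ⟨⟨C, hC⟩, -, hA, -⟩ := h.bdd
  refine Integrable.mono' (integrable_const C) ?_ (Filter.Eventually.of_forall fun g => ?_)
  · have : StronglyMeasurable (Function.uncurry fun (g z : Fin N → ℝ) => P.1 (s • z) g) :=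
      (hA.comp (by fun_prop : Measurable fun p : (Fin N → ℝ) × (Fin N → ℝ) =>
        (s • p.2, p.1))).stronglyMeasurable
    exact this.integral_prod_right.aestronglyMeasurable
  · refine (norm_integral_le_of_norm_le_const (C := C) (Filter.Eventually.of_forall fun z =>
      hC _ _)).trans ?_
    simp

lemma Rep.final {P : PP N} (hP : Rep m r 0 G B P) :
    (∫ x, P.2 (√(R1 m r 0 G B) * x) ∂(gaussianReal 0 1)).re ≤
      (∫ g, ∫ z, P.1 (√(r 0) • z) g ∂(gN N) ∂(gN N)).re := by
  have key : Rep m r 0 G B P ∧ (∫ x, P.2 (√(R1 m r 0 G B) * x) ∂(gaussianReal 0 1)).re ≤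
      (∫ g, ∫ z, P.1 (√(r 0) • z) g ∂(gN N) ∂(gN N)).re := by
    refine Rep.induction (motive := fun P => Rep m r 0 G B P ∧
      (∫ x, P.2 (√(R1 m r 0 G B) * x) ∂(gaussianReal 0 1)).re ≤
      (∫ g, ∫ z, P.1 (√(r 0) • z) g ∂(gN N) ∂(gN N)).re) ?_ ?_ ?_ hP
    · exact fun P hP => ⟨Rep.of_el hP, hP.final⟩
    · exact ⟨Rep.zero, by simp⟩
    · rintro P P' ⟨h1, h2⟩ ⟨h1', h2'⟩
      refine ⟨h1.add h1', ?_⟩
      have e1 : ∀ g, ∫ z, (P + P').1 (√(r 0) • z) g ∂(gN N) =
          ∫ z, P.1 (√(r 0) • z) g ∂(gN N) + ∫ z, P'.1 (√(r 0) • z) g ∂(gN N) := fun g =>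
        integral_add (h1.integrable_top _ g) (h1'.integrable_top _ g)
      have e2 : ∫ x, (P + P').2 (√(R1 m r 0 G B) * x) ∂(gaussianReal 0 1) =
          ∫ x, P.2 (√(R1 m r 0 G B) * x) ∂(gaussianReal 0 1) +
          ∫ x, P'.2 (√(R1 m r 0 G B) * x) ∂(gaussianReal 0 1) := by
        obtain ⟨-, ⟨D, hD⟩, -, ha⟩ := h1.bdd
        obtain ⟨-, ⟨D', hD'⟩, -, ha'⟩ := h1'.bdd
        refine integral_add ?_ ?_
        · exact Integrable.mono' (integrable_const D) (ha.comp (by fun_prop)).aestronglyMeasurable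
            (Filter.Eventually.of_forall fun z => hD _)
        · exact Integrable.mono' (integrable_const D') (ha'.comp (by fun_prop)).aestronglyMeasurable
            (Filter.Eventually.of_forall fun z => hD' _)
      rw [e2, funext e1, integral_add (h1.integrable_top2 _) (h1'.integrable_top2 _),
        Complex.add_re, Complex.add_re]
      exact add_le_add h2 h2'
  exact key.2

end final

end Vale.Agent.P157.Par
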