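import Vale.Agent.P157.ParUPat2

/-!
Adding one pattern (module U3), part 3: power series with nonnegative coefficients, the class of
good pairs (bounded pointwise limits of combinations of elementary pairs), its closure properties.
-/

open MeasureTheory ProbabilityTheory Filter Topology

namespace Vale.Agent.P157.Par

variable {N : ℕ}

/-- Power series with nonnegative coefficients on `(-1, 1)`. -/
structure NPS (h : ℝ → ℝ) (c : ℕ → ℝ) : Prop where
  nonneg : ∀ n, 0 ≤ c n
  hasSum : ∀ x, |x| < 1 → HasSum (fun n => c n * x ^ n) (h x)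

lemma NPS.nonneg_val {h : ℝ → ℝ} {c : ℕ → ℝ} (H : NPS h c) {ρ : ℝ} (h0 : 0 ≤ ρ) (h1 : ρ < 1) :
    0 ≤ h ρ :=
  (H.hasSum ρ (by rwa [abs_of_nonneg h0])).nonneg fun n => mul_nonneg (H.nonneg n) (pow_nonneg h0 n)

lemma NPS.tendsto {h : ℝ → ℝ} {c : ℕ → ℝ} (H : NPS h c) {ρ x : ℝ} (h1 : ρ < 1)
    {z : ℕ → ℂ} (hz : ∀ n, ‖z n‖ ≤ ρ) (hl : Tendsto z atTop (𝓝 (x : ℂ))) :
    Tendsto (fun n => ∑ j ∈ Finset.range n, (c j : ℂ) * z n ^ j) atTop (𝓝 (h x : ℂ)) := by
  have h0 : 0 ≤ ρ := (norm_nonneg _).trans (hz 0)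
  have hx : |x| < 1 := by
    have : ‖(x : ℂ)‖ ≤ ρ := le_of_tendsto (hl.norm) (Eventually.of_forall hz)
    rw [Complex.norm_real, Real.norm_eq_abs] at this
    linarith
  have hs : Summable fun j => c j * ρ ^ j := (H.hasSum ρ (by rwa [abs_of_nonneg h0])).summable
  have hx' : HasSum (fun n => ((c n * x ^ n : ℝ) : ℂ)) ((h x : ℝ) : ℂ) :=
    Complex.hasSum_ofReal.2 (H.hasSum x hx)
  have key := tendsto_tsum_of_dominated_convergence (𝓕 := atTop)
    (f := fun n j => if j < n then (c j : ℂ) * z n ^ j else 0)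
    (g := fun j => ((c j * x ^ j : ℝ) : ℂ)) (bound := fun j => c j * ρ ^ j) hs ?_ ?_
  · rw [hx'.tsum_eq] at key
    refine key.congr fun n => ?_
    rw [tsum_eq_sum (s := Finset.range n)]
    · exact Finset.sum_congr rfl fun j hj => by rw [if_pos (Finset.mem_range.1 hj)]
    · intro j hj
      rw [if_neg (by simpa using hj)]
  · intro j
    have : Tendsto (fun n => (c j : ℂ) * z n ^ j) atTop (𝓝 ((c j : ℂ) * (x : ℂ) ^ j)) :=
      (hl.pow j).const_mul _
    push_cast
    refine this.congr' ?_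
    filter_upwards [eventually_gt_atTop j] with n hn
    rw [if_pos hn]
  · refine Eventually.of_forall fun n j => ?_
    split_ifs
    · rw [norm_mul, Complex.norm_real, Real.norm_eq_abs, abs_of_nonneg (H.nonneg j), norm_pow]
      exact mul_le_mul_of_nonneg_left (pow_le_pow_left₀ (norm_nonneg _) (hz n) j) (H.nonneg j)
    · rw [norm_zero]
      exact mul_nonneg (H.nonneg j) (pow_nonneg h0 j)

lemma NPS.norm_le {h : ℝ → ℝ} {c : ℕ → ℝ} (H : NPS h c) {ρ : ℝ} (h1 : ρ < 1)
    {z : ℂ} (hz : ‖z‖ ≤ ρ) (n : ℕ) : ‖∑ j ∈ Finset.range n, (c j : ℂ) * z ^ j‖ ≤ h ρ := by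
  have h0 : 0 ≤ ρ := (norm_nonneg _).trans hz
  calc ‖∑ j ∈ Finset.range n, (c j : ℂ) * z ^ j‖ ≤ ∑ j ∈ Finset.range n, ‖(c j : ℂ) * z ^ j‖ :=
        norm_sum_le _ _
    _ ≤ ∑ j ∈ Finset.range n, c j * ρ ^ j := by
        refine Finset.sum_le_sum fun j _ => ?_
        rw [norm_mul, Complex.norm_real, Real.norm_eq_abs, abs_of_nonneg (H.nonneg j), norm_pow]
        exact mul_le_mul_of_nonneg_left (pow_le_pow_left₀ (norm_nonneg _) hz j) (H.nonneg j)
    _ ≤ h ρ := sum_le_hasSum _ (fun j _ => mul_nonneg (H.nonneg j) (pow_nonneg h0 j))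
        (H.hasSum ρ (by rwa [abs_of_nonneg h0]))

/-- Good pairs: bounded pointwise limits of combinations of elementary pairs. -/
structure Good (m r : ℕ → ℝ) (l : ℕ) (G : (Fin N → ℝ) → ℝ) (B : (Fin N → ℝ) → Fin N → ℝ) (ρ : ℝ)
    (A : (Fin N → ℝ) → (Fin N → ℝ) → ℝ) (a : ℝ → ℝ) : Prop where
  seq : ∃ P : ℕ → PP N, (∀ n, Rep m r l G B (P n)) ∧ (∀ n y g, ‖(P n).1 y g‖ ≤ ρ) ∧
    (∀ n x, ‖(P n).2 x‖ ≤ ρ) ∧ (∀ y g, Tendsto (fun n => (P n).1 y g) atTop (𝓝 (A y g : ℂ))) ∧
    ∀ x, Tendsto (fun n => (P n).2 x) atTop (𝓝 (a x : ℂ))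

section good

variable {m r : ℕ → ℝ} {l : ℕ} {G : (Fin N → ℝ) → ℝ} {B : (Fin N → ℝ) → Fin N → ℝ} {ρ : ℝ}
  {A : (Fin N → ℝ) → (Fin N → ℝ) → ℝ} {a : ℝ → ℝ}

lemma Good.bA (h : Good m r l G B ρ A a) (y g : Fin N → ℝ) : |A y g| ≤ ρ := by
  obtain ⟨P, -, h1, -, h2, -⟩ := h.seq
  have := le_of_tendsto (h2 y g).norm (Eventually.of_forall fun n => h1 n y g)
  rwa [Complex.norm_real, Real.norm_eq_abs] at this

lemma Good.ba (h : Good m r l G B ρ A a) (x : ℝ) : |a x| ≤ ρ := by
  obtain ⟨P, -, -, h1, -, h2⟩ := h.seq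
  have := le_of_tendsto (h2 x).norm (Eventually.of_forall fun n => h1 n x)
  rwa [Complex.norm_real, Real.norm_eq_abs] at this

lemma Good.mA (h : Good m r l G B ρ A a) :
    Measurable (fun p : (Fin N → ℝ) × (Fin N → ℝ) => A p.1 p.2) := by
  obtain ⟨P, h0, -, -, h2, -⟩ := h.seq
  have h3 : Measurable (fun p : (Fin N → ℝ) × (Fin N → ℝ) => ((A p.1 p.2 : ℝ) : ℂ)) :=
    measurable_of_tendsto_metrizable (fun n => (h0 n).bdd.2.2.1)
      (tendsto_pi_nhds.2 fun p => h2 p.1 p.2)
  exact Complex.measurable_re.comp h3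

lemma Good.ma (h : Good m r l G B ρ A a) : Measurable a := by
  obtain ⟨P, h0, -, -, -, h2⟩ := h.seq
  have h3 : Measurable (fun x => ((a x : ℝ) : ℂ)) :=
    measurable_of_tendsto_metrizable (fun n => (h0 n).bdd.2.2.2) (tendsto_pi_nhds.2 h2)
  exact Complex.measurable_re.comp h3

lemma Good.mA_left (h : Good m r l G B ρ A a) (g : Fin N → ℝ) : Measurable (fun y => A y g) :=
  h.mA.comp (measurable_id.prodMk measurable_const)

lemma Good.comp (hm : ∀ j < l, 0 < m (j + 1)) (hG : Lip G) (hB : ∀ i, EG fun y => B y i)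
    (h : Good m r l G B ρ A a) (hρ : ρ < 1) {f : ℝ → ℝ} {c : ℕ → ℝ} (H : NPS f c) :
    Good m r l G B (f ρ) (fun y g => f (A y g)) (fun x => f (a x)) := by
  obtain ⟨P, h0, h1, h2, h3, h4⟩ := h.seq
  have e1 : ∀ n y g, (∑ j ∈ Finset.range n, ((((fun _ _ => (c j : ℂ)), fun _ => (c j : ℂ)) : PP N) *
      P n ^ j)).1 y g = ∑ j ∈ Finset.range n, (c j : ℂ) * (P n).1 y g ^ j := by
    intro n y g
    rw [Prod.fst_sum, Finset.sum_apply, Finset.sum_apply]
    rfl
  have e2 : ∀ n x, (∑ j ∈ Finset.range n, ((((fun _ _ => (c j : ℂ)), fun _ => (c j : ℂ)) : PP N) *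
      P n ^ j)).2 x = ∑ j ∈ Finset.range n, (c j : ℂ) * (P n).2 x ^ j := by
    intro n x
    rw [Prod.snd_sum, Finset.sum_apply]
    rfl
  refine ⟨fun n => ∑ j ∈ Finset.range n, ((((fun _ _ => (c j : ℂ)), fun _ => (c j : ℂ)) : PP N) *
      P n ^ j), fun n => ?_, fun n y g => ?_, fun n x => ?_, fun y g => ?_, fun x => ?_⟩
  · exact Rep.sum _ fun j _ => (Rep.const hm hG B (H.nonneg j)).mul hm hG hB ((h0 n).pow hm hG hB j)
  · rw [e1]
    exact H.norm_le hρ (h1 n y g) n
  · rw [e2]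
    exact H.norm_le hρ (h2 n x) n
  · simp only [e1]
    exact H.tendsto hρ (fun n => h1 n y g) (h3 y g)
  · simp only [e2]
    exact H.tendsto hρ (fun n => h2 n x) (h4 x)

lemma Good.step (hG : Lip G) {G' : (Fin N → ℝ) → ℝ}
    {B' : (Fin N → ℝ) → Fin N → ℝ} (hG' : G' = gstepN (m (l + 1)) (r (l + 1) - r l) G)
    (hB' : B' = fun y i => tiltN (m (l + 1)) (r (l + 1) - r l) G (fun y => B y i) y)
    (hR : R1 m r l G' B' ≤ R1 m r (l + 1) G B) (h : Good m r (l + 1) G B ρ A a) :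
    Good m r l G' B' ρ
      (fun y g => tiltN (m (l + 1)) (r (l + 1) - r l) G (fun y => A y g) y)
      (fun x => ∫ z, a (x + √(R1 m r (l + 1) G B - R1 m r l G' B') * z) ∂(gaussianReal 0 1)) := by
  obtain ⟨P, h0, h1, h2, h3, h4⟩ := h.seq
  refine ⟨fun n => stepP (m (l + 1)) (r (l + 1) - r l) (R1 m r (l + 1) G B - R1 m r l G' B')
      G (P n), fun n => ?_, fun n y g => ?_, fun n x => ?_, fun y g => ?_, fun x => ?_⟩
  · exact Rep.step hG hG' hB' hR (h0 n)
  · exact norm_tiltC_le hG _ _ (fun y => h1 n y g) y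
  · refine (norm_integral_le_of_norm_le_const (C := ρ) (Eventually.of_forall fun z =>
      h2 n _)).trans ?_
    simp
  · rw [← tiltC_ofReal]
    refine Tendsto.div_const ?_ _
    refine tendsto_integral_of_dominated_convergence
      (fun z => ρ * Real.exp (m (l + 1) * G (y + √(r (l + 1) - r l) • z))) (fun n => ?_)
      (((hG.exp_eg _).integrable y _).const_mul ρ) (fun n => Eventually.of_forall fun z => ?_)
      (Eventually.of_forall fun z => ?_)
    · exact (integrable_tiltC hG _ _ (measurable_curry_left (h0 n).bdd.2.2.1 g)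
        (fun y => h1 n y g) y).aestronglyMeasurable
    · rw [norm_mul, Complex.norm_real, Real.norm_eq_abs, abs_of_pos (Real.exp_pos _)]
      exact mul_le_mul_of_nonneg_right (h1 n _ g) (Real.exp_pos _).le
    · exact (h3 _ g).mul_const _
  · rw [← integral_complex_ofReal]
    refine tendsto_integral_of_dominated_convergence (fun _ => ρ) (fun n => ?_)
      (integrable_const _) (fun n => Eventually.of_forall fun z => h2 n _)
      (Eventually.of_forall fun z => h4 _)
    exact ((h0 n).bdd.2.2.2.comp (by fun_prop)).aestronglyMeasurable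

/-- The comparison at the level zero, for good pairs. -/
lemma Good.final (h : Good m r 0 G B ρ A a) :
    ∫ x, a (√(R1 m r 0 G B) * x) ∂(gaussianReal 0 1) ≤
      ∫ g, ∫ z, A (√(r 0) • z) g ∂(gN N) ∂(gN N) := by
  obtain ⟨P, h0, h1, h2, h3, h4⟩ := h.seq
  have t1 : Tendsto (fun n => ∫ x, (P n).2 (√(R1 m r 0 G B) * x) ∂(gaussianReal 0 1)) atTop
      (𝓝 ((∫ x, a (√(R1 m r 0 G B) * x) ∂(gaussianReal 0 1) : ℝ) : ℂ)) := by
    rw [← integral_complex_ofReal]
    refine tendsto_integral_of_dominated_convergence (fun _ => ρ) (fun n => ?_)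
      (integrable_const _) (fun n => Eventually.of_forall fun z => h2 n _)
      (Eventually.of_forall fun z => h4 _)
    exact ((h0 n).bdd.2.2.2.comp (by fun_prop)).aestronglyMeasurable
  have t2 : ∀ g, Tendsto (fun n => ∫ z, (P n).1 (√(r 0) • z) g ∂(gN N)) atTop
      (𝓝 ((∫ z, A (√(r 0) • z) g ∂(gN N) : ℝ) : ℂ)) := by
    intro g
    rw [← integral_complex_ofReal]
    refine tendsto_integral_of_dominated_convergence (fun _ => ρ) (fun n => ?_)
      (integrable_const _) (fun n => Eventually.of_forall fun z => h1 n _ _)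
      (Eventually.of_forall fun z => h3 _ _)
    exact ((h0 n).integrable_top _ g).aestronglyMeasurable
  have t3 : Tendsto (fun n => ∫ g, ∫ z, (P n).1 (√(r 0) • z) g ∂(gN N) ∂(gN N)) atTop
      (𝓝 ((∫ g, ∫ z, A (√(r 0) • z) g ∂(gN N) ∂(gN N) : ℝ) : ℂ)) := by
    rw [← integral_complex_ofReal]
    refine tendsto_integral_of_dominated_convergence (fun _ => ρ) (fun n => ?_)
      (integrable_const _) (fun n => Eventually.of_forall fun g => ?_)
      (Eventually.of_forall fun g => t2 g)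
    · exact ((h0 n).integrable_top2 _).aestronglyMeasurable
    · refine (norm_integral_le_of_norm_le_const (C := ρ) (Eventually.of_forall fun z =>
        h1 n _ _)).trans ?_
      simp
  have := le_of_tendsto_of_tendsto (Complex.continuous_re.continuousAt.tendsto.comp t1)
    (Complex.continuous_re.continuousAt.tendsto.comp t3)
    (Eventually.of_forall fun n => (h0 n).final)
  simpa using this

end good

/-! ### The two power series -/

/-- The coefficients of `1 - (1 - x)^θ`. -/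
noncomputable def bc (θ : ℝ) : ℕ → ℝ
  | 0 => 0
  | n + 1 => -((-1) ^ (n + 1) * Ring.choose θ (n + 1))

lemma choose_succ_real (θ : ℝ) (n : ℕ) :
    ((n : ℝ) + 1) * Ring.choose θ (n + 1) = (θ - n) * Ring.choose θ n := by
  have h1 : Ring.choose θ (n + 1) =
      ((n + 1).factorial : ℝ)⁻¹ • (descPochhammer ℤ (n + 1)).smeval θ := Ring.choose_eq_smul
  have h2 : Ring.choose θ n = (n.factorial : ℝ)⁻¹ • (descPochhammer ℤ n).smeval θ :=
    Ring.choose_eq_smul
  have h3 : (descPochhammer ℤ (n + 1)).smeval θ = (θ - n) * (descPochhammer ℤ n).smeval θ := by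
    rw [descPochhammer_succ_right, Polynomial.smeval_mul, mul_comm]
    congr 1
    rw [Polynomial.smeval_sub, Polynomial.smeval_X, Polynomial.smeval_natCast]
    simp
  rw [h1, h2, h3, smul_eq_mul, smul_eq_mul, Nat.factorial_succ]
  push_cast
  have : (n.factorial : ℝ) ≠ 0 := by exact_mod_cast n.factorial_ne_zero
  have h4 : (n : ℝ) + 1 ≠ 0 := by positivity
  field_simp

lemma sign_choose {θ : ℝ} (h0 : 0 ≤ θ) (h1 : θ ≤ 1) (n : ℕ) :
    (-1) ^ (n + 1) * Ring.choose θ (n + 1) ≤ 0 := by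
  induction n with
  | zero => simp [h0]
  | succ n ih =>
    have h2 := choose_succ_real θ (n + 1)
    have h3 : Ring.choose θ (n + 1 + 1) = (θ - (n + 1)) / (n + 1 + 1) * Ring.choose θ (n + 1) := by
      have : ((n : ℝ) + 1 + 1) ≠ 0 := by positivity
      push_cast at h2
      field_simp
      linarith
    rw [h3]
    have h4 : (-1 : ℝ) ^ (n + 1 + 1) * ((θ - (n + 1)) / (n + 1 + 1) * Ring.choose θ (n + 1)) =
        (((n : ℝ) + 1 - θ) / (n + 1 + 1)) * ((-1) ^ (n + 1) * Ring.choose θ (n + 1)) := by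
      rw [pow_succ]
      ring
    rw [h4]
    refine mul_nonpos_of_nonneg_of_nonpos ?_ ih
    refine div_nonneg ?_ (by positivity)
    have : (0 : ℝ) ≤ n := Nat.cast_nonneg n
    linarith

lemma nps_rpow {θ : ℝ} (h0 : 0 ≤ θ) (h1 : θ ≤ 1) : NPS (fun x => 1 - (1 - x) ^ θ) (bc θ) := by
  refine ⟨fun n => ?_, fun x hx => ?_⟩
  · cases n with
    | zero => exact le_rfl
    | succ n => exact neg_nonneg.2 (sign_choose h0 h1 n)
  · have h2 := (Real.one_add_rpow_hasFPowerSeriesOnBall_zero (a := θ)).hasSum (y := -x) ?_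
    · rw [zero_add, ← sub_eq_add_neg] at h2
      have h3 : HasSum (fun n : ℕ => Ring.choose θ n * (-x) ^ n) ((1 - x) ^ θ) := by
        refine h2.congr_fun ?_ |> id
        intro n
        simp [binomialSeries, mul_comm]
      have h4 := ((hasSum_ite_eq 0 (1 : ℝ)).sub h3)
      refine h4.congr_fun ?_ |> id
      intro n
      cases n with
      | zero => simp [bc]
      | succ n =>
        simp only [bc, Nat.succ_ne_zero, if_false]
        rw [neg_pow]
        ring
    · simpa [enorm_eq_nnnorm] using! hx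

lemma nps_log : NPS (fun x => -Real.log (1 - x)) (fun n => if n = 0 then 0 else 1 / n) := by
  refine ⟨fun n => by split_ifs <;> positivity, fun x hx => ?_⟩
  have h1 := Real.hasSum_pow_div_log_of_abs_lt_one hx
  rw [← hasSum_nat_add_iff' 1]
  simp only [Finset.range_one, Finset.sum_singleton, if_true, zero_mul, sub_zero]
  refine h1.congr_fun ?_ |> id
  intro n
  rw [if_neg (Nat.succ_ne_zero n)]
  push_cast
  ring

end Vale.Agent.P157.Par
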