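import Vale.Agent.P157.ParUPat3

/-!
Adding one pattern (module U3), part 4: the overlap path is an admissible path, and the induction
over the levels.
-/

open MeasureTheory ProbabilityTheory Filter Topology

namespace Vale.Agent.P157.Par

variable {N : ℕ}

section path

variable {m r : ℕ → ℝ}

lemma sq_tiltN_le {G h : (Fin N → ℝ) → ℝ} (hG : Lip G) (hh : EG h) (m v : ℝ) (y : Fin N → ℝ) :
    tiltN m v G h y ^ 2 ≤ tiltN m v G (fun y => h y ^ 2) y := by
  set a := tiltN m v G h y with ha
  have h1 : 0 ≤ tiltN m v G (fun y => (h y - a) ^ 2) y := by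
    rw [← tiltN_const hG m v 0 y]
    exact tiltN_mono hG (EG.const 0) ((hh.sub (EG.const a)).pow 2) (fun y => sq_nonneg _) m v y
  have h2 : tiltN m v G (fun y => (h y - a) ^ 2) y = tiltN m v G (fun y => h y ^ 2) y - a ^ 2 := by
    have e : ∀ y, (h y - a) ^ 2 = (h y ^ 2 - 2 * a * h y) + a ^ 2 := fun y => by ring
    rw [tiltN_congr e, tiltN_add hG ((hh.pow 2).sub (hh.const_mul _)) (EG.const _),
      tiltN_sub hG (hh.pow 2) (hh.const_mul _), tiltN_const_mul, tiltN_const hG, ← ha]
    ring
  linarith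

lemma chainAv_nonneg {l : ℕ} (hm : ∀ j < l, 0 < m (j + 1)) {G h : (Fin N → ℝ) → ℝ} (hG : Lip G)
    (hh : EG h) (h0 : ∀ y, 0 ≤ h y) : 0 ≤ chainAv m r l G h := by
  rw [← chainAv_const (r := r) hm hG 0]
  exact chainAv_mono hm hG (EG.const 0) hh h0

lemma eg_tilt_vec {G : (Fin N → ℝ) → ℝ} (hG : Lip G) {B : (Fin N → ℝ) → Fin N → ℝ}
    (hB : ∀ i, EG fun y => B y i) (a v : ℝ) :
    ∀ i, EG fun y => (fun y i => tiltN a v G (fun y => B y i) y) y i :=
  fun i => (hB i).tilt hG a v

lemma R1_mono {l : ℕ} (hm : ∀ j < l + 1, 0 < m (j + 1)) {G : (Fin N → ℝ) → ℝ} (hG : Lip G)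
    {B : (Fin N → ℝ) → Fin N → ℝ} (hB : ∀ i, EG fun y => B y i) :
    R1 m r l (gstepN (m (l + 1)) (r (l + 1) - r l) G)
      (fun y i => tiltN (m (l + 1)) (r (l + 1) - r l) G (fun y => B y i) y) ≤
      R1 m r (l + 1) G B := by
  unfold R1
  refine div_le_div_of_nonneg_right ?_ (Nat.cast_nonneg N)
  show _ ≤ chainAv m r l (gstepN (m (l + 1)) (r (l + 1) - r l) G)
    (tiltN (m (l + 1)) (r (l + 1) - r l) G fun y => ∑ i, B y i ^ 2)
  have hG' := hG.gstep (hm l (by omega)) (r (l + 1) - r l)
  refine chainAv_mono (fun j hj => hm j (by omega)) hG'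
    (EG.sum _ fun i _ => ((hB i).tilt hG _ _).pow 2)
    ((EG.sum _ fun i _ => (hB i).pow 2).tilt hG _ _) fun y => ?_
  rw [tiltN_sum _ hG (fun i _ => (hB i).pow 2)]
  exact Finset.sum_le_sum fun i _ => sq_tiltN_le hG (hB i) _ _ y

lemma Rs_eq_R1 (m r : ℕ → ℝ) (l : ℕ) (G : (Fin N → ℝ) → ℝ) (B : (Fin N → ℝ) → Fin N → ℝ) :
    Rs m r l G B l = R1 m r l G B := by
  cases l with
  | zero => rfl
  | succ l => simp only [Rs, if_neg (Nat.not_succ_le_self l), R1]

lemma Rs_succ_eq (m r : ℕ → ℝ) (l : ℕ) (G : (Fin N → ℝ) → ℝ) (B : (Fin N → ℝ) → Fin N → ℝ) {j : ℕ}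
    (hj : j ≤ l) : Rs m r (l + 1) G B j =
      Rs m r l (gstepN (m (l + 1)) (r (l + 1) - r l) G)
        (fun y i => tiltN (m (l + 1)) (r (l + 1) - r l) G (fun y => B y i) y) j := by
  simp only [Rs, if_pos hj]

/-- The overlap path is an admissible path. -/
theorem Rs_path {l : ℕ} (hm : ∀ j < l, 0 < m (j + 1)) {G : (Fin N → ℝ) → ℝ} (hG : Lip G)
    {B : (Fin N → ℝ) → Fin N → ℝ} (hB : ∀ i, EG fun y => B y i) : Path l (Rs m r l G B) := by
  induction l generalizing G B with
  | zero =>
    refine ⟨?_, fun j hj => absurd hj (Nat.not_lt_zero j)⟩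
    rw [Rs_eq_R1]
    exact R1_zero_nonneg
  | succ l ih =>
    have h1 := ih (fun j hj => hm j (by omega)) (hG.gstep (hm l (by omega)) (r (l + 1) - r l))
      (eg_tilt_vec hG hB (m (l + 1)) (r (l + 1) - r l))
    refine ⟨?_, fun j hj => ?_⟩
    · rw [Rs_succ_eq m r l G B (Nat.zero_le l)]
      exact h1.1
    · rcases Nat.lt_or_ge j l with hj' | hj'
      · rw [Rs_succ_eq m r l G B hj'.le, Rs_succ_eq m r l G B hj']
        exact h1.2 j hj'
      · have : j = l := by omega
        subst this
        rw [Rs_eq_R1, Rs_succ_eq m r j G B le_rfl, Rs_eq_R1]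
        exact R1_mono hm hG hB

end path

section cascade

lemma gsU_meas {m v : ℝ} {F : ℝ → ℝ} (hF : Measurable F) : Measurable (gstep m v F) := by
  unfold gstep
  have : StronglyMeasurable (Function.uncurry fun (x z : ℝ) => Real.exp (m * F (x + √v * z))) :=
    (Real.measurable_exp.comp ((hF.comp (by fun_prop)).const_mul m)).stronglyMeasurable
  exact (Real.measurable_log.comp this.integral_prod_right.measurable).const_mul _

lemma gsU_int {m v C : ℝ} {F : ℝ → ℝ} (hF : Measurable F) (hC : ∀ x, |F x| ≤ C) (x : ℝ) :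
    Integrable (fun z => Real.exp (m * F (x + √v * z))) (gaussianReal 0 1) := by
  refine Integrable.mono' (integrable_const (Real.exp (|m| * C)))
    (Real.measurable_exp.comp ((hF.comp (by fun_prop)).const_mul m)).aestronglyMeasurable
    (Eventually.of_forall fun z => ?_)
  rw [Real.norm_eq_abs, abs_of_pos (Real.exp_pos _), Real.exp_le_exp]
  calc m * F (x + √v * z) ≤ |m * F (x + √v * z)| := le_abs_self _
    _ = |m| * |F (x + √v * z)| := abs_mul _ _
    _ ≤ |m| * C := mul_le_mul_of_nonneg_left (hC _) (abs_nonneg _)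

lemma gsU_bdd {m v C : ℝ} (hm : 0 < m) {F : ℝ → ℝ} (hF : Measurable F) (hC : ∀ x, |F x| ≤ C)
    (x : ℝ) : |gstep m v F x| ≤ C := by
  unfold gstep
  have h1 := gsU_int (m := m) (v := v) hF hC x
  have h2 : Real.exp (-(m * C)) ≤ ∫ z, Real.exp (m * F (x + √v * z)) ∂(gaussianReal 0 1) := by
    have := integral_mono (integrable_const (Real.exp (-(m * C)))) h1 fun z => by
      dsimp only
      refine Real.exp_le_exp.2 ?_
      rw [← mul_neg]
      exact mul_le_mul_of_nonneg_left (abs_le.1 (hC _)).1 hm.le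
    simpa using this
  have h3 : ∫ z, Real.exp (m * F (x + √v * z)) ∂(gaussianReal 0 1) ≤ Real.exp (m * C) := by
    have := integral_mono h1 (integrable_const (Real.exp (m * C))) fun z => by
      dsimp only
      exact Real.exp_le_exp.2 (mul_le_mul_of_nonneg_left (abs_le.1 (hC _)).2 hm.le)
    simpa using this
  have h4 := Real.log_le_log (Real.exp_pos _) h2
  have h5 := Real.log_le_log ((Real.exp_pos _).trans_le h2) h3
  rw [Real.log_exp] at h4 h5
  rw [abs_le]
  constructor
  · calc -C = 1 / m * -(m * C) := by field_simp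
      _ ≤ _ := by gcongr
  · calc _ ≤ 1 / m * (m * C) := by gcongr
      _ = C := by field_simp

lemma gsU_add {m v C : ℝ} (hm : 0 < m) {F : ℝ → ℝ} (hF : Measurable F)
    (hC : ∀ x, |F x| ≤ C) (c x : ℝ) : gstep m v (fun x => F x + c) x = gstep m v F x + c := by
  unfold gstep
  have h1 := gsU_int (m := m) (v := v) hF hC x
  have h2 : 0 < ∫ z, Real.exp (m * F (x + √v * z)) ∂(gaussianReal 0 1) := integral_exp_pos h1
  have h3 : ∀ z, Real.exp (m * (F (x + √v * z) + c)) =
      Real.exp (m * c) * Real.exp (m * F (x + √v * z)) := by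
    intro z; rw [← Real.exp_add]; ring_nf
  simp only [h3]
  rw [integral_const_mul, Real.log_mul (Real.exp_pos _).ne' h2.ne', Real.log_exp]
  field_simp
  ring

lemma casU_meas {m q : ℕ → ℝ} (l : ℕ) {F : ℝ → ℝ} (hF : Measurable F) :
    Measurable (cascade m q l F) := by
  induction l generalizing F with
  | zero => exact hF
  | succ l ih => exact ih (gsU_meas hF)

lemma casU_bdd {m q : ℕ → ℝ} {l : ℕ} (hm : ∀ j < l, 0 < m (j + 1)) {F : ℝ → ℝ}
    (hF : Measurable F) {C : ℝ} (hC : ∀ x, |F x| ≤ C) (x : ℝ) : |cascade m q l F x| ≤ C := by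
  induction l generalizing F with
  | zero => exact hC x
  | succ l ih =>
    exact ih (fun j hj => hm j (by omega)) (gsU_meas hF) (gsU_bdd (hm l (by omega)) hF hC)

lemma casU_add {m q : ℕ → ℝ} {l : ℕ} (hm : ∀ j < l, 0 < m (j + 1)) {F : ℝ → ℝ}
    (hF : Measurable F) {C : ℝ} (hC : ∀ x, |F x| ≤ C) (c x : ℝ) :
    cascade m q l (fun x => F x + c) x = cascade m q l F x + c := by
  induction l generalizing F with
  | zero => rfl
  | succ l ih =>
    unfold cascade
    rw [funext (gsU_add (hm l (by omega)) hF hC c)]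
    exact ih (fun j hj => hm j (by omega)) (gsU_meas hF) (gsU_bdd (hm l (by omega)) hF hC)

lemma casU_congr {m q q' : ℕ → ℝ} {l : ℕ} (h : ∀ j ≤ l, q j = q' j) (F : ℝ → ℝ) :
    cascade m q l F = cascade m q' l F := by
  induction l generalizing F with
  | zero => rfl
  | succ l ih =>
    unfold cascade
    rw [h (l + 1) le_rfl, h l (by omega)]
    exact ih (fun j hj => h j (by omega)) _

end cascade

section main

variable {m r : ℕ → ℝ}

lemma log_one_sub_bdd {ρ x : ℝ} (hρ : ρ < 1) (hx : |x| ≤ ρ) :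
    |Real.log (1 - x)| ≤ -Real.log (1 - ρ) := by
  have h0 : 0 ≤ ρ := (abs_nonneg x).trans hx
  have h1 := abs_le.1 hx
  have h2 : 0 < 1 - ρ := by linarith
  rw [abs_le]
  constructor
  · rw [neg_neg]
    exact Real.log_le_log h2 (by linarith)
  · have h3 : Real.log (1 - x) + Real.log (1 - ρ) ≤ 0 := by
      rw [← Real.log_mul (by linarith) (by linarith)]
      refine Real.log_nonpos (mul_nonneg (by linarith) (by linarith)) ?_
      nlinarith
    linarith

/-- The comparison between the cascade in dimension `N` averaged over a new pattern and the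
one-dimensional cascade along the overlap path. -/
theorem pattern_main {l : ℕ} (hm : ∀ j ≤ l, 0 < m (j + 1)) (hmono : ∀ j < l, m (j + 1) ≤ m (j + 2))
    {G : (Fin N → ℝ) → ℝ} (hG : Lip G) {B : (Fin N → ℝ) → Fin N → ℝ} (hB : ∀ i, EG fun y => B y i)
    {ρ : ℝ} (hρ : ρ < 1) {A : (Fin N → ℝ) → (Fin N → ℝ) → ℝ} {a : ℝ → ℝ}
    (h : Good m r l G B ρ A a) :
    ∫ g, (topN m r l (fun y => G y + 1 / m (l + 1) * Real.log (1 - A y g)) - topN m r l G)
      ∂(gN N) ≤
    ∫ x, cascade m (Rs m r l G B) l (fun x => 1 / m (l + 1) * Real.log (1 - a x))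
      (√(Rs m r l G B 0) * x) ∂(gaussianReal 0 1) := by
  induction l generalizing G B ρ A a with
  | zero =>
    have hρ0 : 0 ≤ ρ := (abs_nonneg _).trans (h.ba 0)
    have hc := h.comp (fun j hj => absurd hj (Nat.not_lt_zero j)) hG hB hρ nps_log
    have hf := hc.final
    have h1 : ∀ g, topN m r 0 (fun y => G y + 1 / m (0 + 1) * Real.log (1 - A y g)) -
        topN m r 0 G = 1 / m (0 + 1) * ∫ z, Real.log (1 - A (√(r 0) • z) g) ∂(gN N) := by
      intro g
      unfold topN
      have hE : EG (fun y => 1 / m (0 + 1) * Real.log (1 - A y g)) := by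
        refine (EG.of_bdd (C := -Real.log (1 - ρ)) ?_ fun y => ?_).const_mul _
        · exact Real.measurable_log.comp (measurable_const.sub (h.mA_left g))
        · exact log_one_sub_bdd hρ (h.bA y g)
      rw [← integral_sub ((hG.eg.add hE).integrable_smul _) (hG.eg.integrable_smul _),
        ← integral_const_mul]
      exact integral_congr_ae (Eventually.of_forall fun z => by dsimp only; ring)
    rw [funext h1, integral_const_mul]
    show _ ≤ ∫ x, 1 / m (0 + 1) * Real.log (1 - a (√(R1 m r 0 G B) * x)) ∂_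
    rw [integral_const_mul]
    refine mul_le_mul_of_nonneg_left ?_ (by have := hm 0 le_rfl; positivity)
    simp only [integral_neg] at hf
    linarith
  | succ l ih =>
    have hρ0 : 0 ≤ ρ := (abs_nonneg _).trans (h.ba 0)
    have hm' : ∀ j < l + 1, 0 < m (j + 1) := fun j hj => hm j (by omega)
    have hml : 0 < m (l + 1) := hm l (by omega)
    have hml1 : 0 < m (l + 1 + 1) := hm (l + 1) le_rfl
    set θ : ℝ := m (l + 1) / m (l + 1 + 1) with hθ
    have hθ0 : 0 ≤ θ := by positivity
    have hθ1 : θ ≤ 1 := (div_le_one hml1).2 (hmono l (by omega))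
    have hθpos : 0 < θ := by positivity
    set G' := gstepN (m (l + 1)) (r (l + 1) - r l) G with hG'
    set B' : (Fin N → ℝ) → Fin N → ℝ :=
      fun y i => tiltN (m (l + 1)) (r (l + 1) - r l) G (fun y => B y i) y with hB'
    have hR : R1 m r l G' B' ≤ R1 m r (l + 1) G B := R1_mono hm' hG hB
    have hc := h.comp hm' hG hB hρ (nps_rpow hθ0 hθ1)
    have hρ1 : (fun x : ℝ => 1 - (1 - x) ^ θ) ρ < 1 := by
      have : 0 < (1 - ρ) ^ θ := Real.rpow_pos_of_pos (by linarith) θ
      dsimp only
      linarith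
    have hs := hc.step hG hG' hB' hR
    have hLG' : Lip G' := hG.gstep hml _
    have := ih (fun j hj => hm j (by omega)) (fun j hj => hmono j (by omega)) hLG'
      (eg_tilt_vec hG hB _ _) hρ1 hs
    refine le_trans (le_of_eq ?_) (this.trans (le_of_eq ?_))
    · -- the cascades in dimension N
      have e1 : ∀ g y, gstepN (m (l + 1)) (r (l + 1) - r l)
          (fun y => G y + 1 / m (l + 1 + 1) * Real.log (1 - A y g)) y =
          G' y + 1 / m (l + 1) * Real.log (1 - tiltN (m (l + 1)) (r (l + 1) - r l) G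
            (fun y => 1 - (1 - A y g) ^ θ) y) := by
        intro g y
        have hpos : ∀ y, 0 < 1 - A y g := fun y => by linarith [(abs_le.1 (h.bA y g)).2]
        have e2 : ∀ y, Real.exp (m (l + 1) * (G y + 1 / m (l + 1 + 1) * Real.log (1 - A y g))) =
            (1 - A y g) ^ θ * Real.exp (m (l + 1) * G y) := by
          intro y
          rw [Real.rpow_def_of_pos (hpos y), ← Real.exp_add]
          congr 1
          rw [hθ]
          ring
        have hE : EG (fun y => (1 - A y g) ^ θ) := by
          refine EG.of_bdd (C := (1 + ρ) ^ θ) ?_ fun y => ?_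
          · exact (measurable_const.sub (h.mA_left g)).pow_const θ
          · rw [abs_of_nonneg (Real.rpow_nonneg (hpos y).le θ)]
            exact Real.rpow_le_rpow (hpos y).le (by linarith [(abs_le.1 (h.bA y g)).1]) hθ0
        have e3 : tiltN (m (l + 1)) (r (l + 1) - r l) G (fun y => 1 - (1 - A y g) ^ θ) y =
            1 - tiltN (m (l + 1)) (r (l + 1) - r l) G (fun y => (1 - A y g) ^ θ) y := by
          rw [tiltN_sub hG (EG.const 1) hE, tiltN_const hG]
        rw [e3, sub_sub_cancel]
        have h0 : 0 < ∫ z, (1 - A (y + √(r (l + 1) - r l) • z) g) ^ θ *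
            Real.exp (m (l + 1) * G (y + √(r (l + 1) - r l) • z)) ∂(gN N) := by
          have hI := hE.integrable_tilt hG (m (l + 1)) (r (l + 1) - r l) y
          have e4 : ∀ z, (1 - A (y + √(r (l + 1) - r l) • z) g) ^ θ *
            Real.exp (m (l + 1) * G (y + √(r (l + 1) - r l) • z)) =
            Real.exp (m (l + 1) * (G (y + √(r (l + 1) - r l) • z) + 1 / m (l + 1 + 1) *
              Real.log (1 - A (y + √(r (l + 1) - r l) • z) g))) := fun z => (e2 _).symm
          simp only [e4] at hI ⊢
          exact integral_exp_pos hI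
        unfold tiltN
        rw [Real.log_div h0.ne' (int_exp_pos hG _ _ y).ne']
        rw [hG']
        unfold gstepN
        simp only [e2]
        ring
      refine integral_congr_ae (Eventually.of_forall fun g => ?_)
      dsimp only
      show topN m r l (gstepN (m (l + 1)) (r (l + 1) - r l)
        (fun y => G y + 1 / m (l + 1 + 1) * Real.log (1 - A y g))) - topN m r l G' = _
      rw [funext (e1 g)]
    · -- the one-dimensional cascades
      have e0 : Rs m r l G' B' 0 = Rs m r (l + 1) G B 0 := (Rs_succ_eq m r l G B (Nat.zero_le l)).symm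
      have e1 : ∀ x, gstep (m (l + 1)) (Rs m r (l + 1) G B (l + 1) - Rs m r (l + 1) G B l)
          (fun x => 1 / m (l + 1 + 1) * Real.log (1 - a x)) x =
          1 / m (l + 1) * Real.log (1 - ∫ z, (1 - (1 - a (x + √(R1 m r (l + 1) G B -
            R1 m r l G' B') * z)) ^ θ) ∂(gaussianReal 0 1)) := by
        intro x
        have hpos : ∀ y, 0 < 1 - a y := fun y => by linarith [(abs_le.1 (h.ba y)).2]
        rw [Rs_eq_R1, Rs_succ_eq m r l G B le_rfl, Rs_eq_R1, ← hG', ← hB']
        set w := √(R1 m r (l + 1) G B - R1 m r l G' B') with hw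
        have hI : Integrable (fun z => (1 - a (x + w * z)) ^ θ) (gaussianReal 0 1) := by
          refine Integrable.mono' (integrable_const ((1 + ρ) ^ θ)) ?_
            (Eventually.of_forall fun z => ?_)
          · exact ((measurable_const.sub (h.ma.comp (by fun_prop))).pow_const θ).aestronglyMeasurable
          · rw [Real.norm_eq_abs, abs_of_nonneg (Real.rpow_nonneg (hpos _).le θ)]
            exact Real.rpow_le_rpow (hpos _).le (by linarith [(abs_le.1 (h.ba (x + w * z))).1]) hθ0
        rw [integral_sub (integrable_const _) hI]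
        simp only [integral_const, probReal_univ, smul_eq_mul, mul_one, sub_sub_cancel]
        unfold gstep
        congr 3
        funext z
        rw [← hw, Real.rpow_def_of_pos (hpos _)]
        congr 1
        rw [hθ]
        ring
      rw [e0]
      have e2 : cascade m (Rs m r (l + 1) G B) (l + 1)
          (fun x => 1 / m (l + 1 + 1) * Real.log (1 - a x)) = cascade m (Rs m r l G' B') l
          (fun x => 1 / m (l + 1) * Real.log (1 - ∫ z, (1 - (1 - a (x + √(R1 m r (l + 1) G B -
            R1 m r l G' B') * z)) ^ θ) ∂(gaussianReal 0 1))) := by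
        show cascade m (Rs m r (l + 1) G B) l _ = _
        rw [funext e1]
        exact casU_congr (fun j hj => Rs_succ_eq m r l G B hj) _
      rw [e2]

end main

end Vale.Agent.P157.Par
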