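import Vale.Agent.P157.ParSame

open MeasureTheory ProbabilityTheory Filter Topology Finset

namespace Vale.Agent.P157.Par

set_option linter.unusedSectionVars false

section

variable {W : ℝ → ℝ} {a : ℝ} (ha : 0 < a) (hW : ∃ W' W'', CB2 W W' W'') (hWa : ∀ x, a ≤ W x)
  (hW1 : ∀ x, W x ≤ 1)

include ha hW hWa hW1

lemma toph_abs_le {h h' h'' : ℝ → ℝ} (hh : CB2 h h' h'') {B : ℝ} (hB : ∀ x, |h x| ≤ B) (τ : ℝ)
    (x : ℝ) : |toph τ W h x| ≤ B := by
  obtain ⟨W', W'', hW⟩ := hW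
  have hB0 : 0 ≤ B := (abs_nonneg _).trans (hB 0)
  rw [toph_eq, abs_le]
  constructor
  · rw [← val_flowh_const (σ := τ) one_pos ha hW.cont.measurable hWa hW1 (-B) x]
    exact val_flowh_mono one_pos ha hW.cont.measurable hWa hW1 measurable_const
      hh.cont.measurable (fun _ => le_rfl) hB (fun y => (abs_le.1 (hB y)).1) x
  · rw [← val_flowh_const (σ := τ) one_pos ha hW.cont.measurable hWa hW1 B x]
    exact val_flowh_mono one_pos ha hW.cont.measurable hWa hW1 hh.cont.measurable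
      measurable_const hB (fun _ => le_rfl) (fun y => (abs_le.1 (hB y)).2) x

lemma toph_sq_le {h h' h'' : ℝ → ℝ} (hh : CB2 h h' h'') (τ x : ℝ) :
    toph τ W h x ^ 2 ≤ toph τ W (fun y => h y ^ 2) x := by
  obtain ⟨W', W'', hW⟩ := hW
  obtain ⟨B, hB⟩ := hh.b0
  rw [toph_eq, toph_eq]
  exact flowh_sq one_pos ha hW.cont.measurable hWa hW1 hh.cont.measurable hB x

variable {k : ℕ} {w : Fin (k + 1) → ℝ} (hw : ∀ l, 0 < w l) (q : ℕ → ℝ)

include hw

lemma pv_nonneg {h h' h'' : ℝ → ℝ} (hh : CB2 h h' h'') {l : ℕ} (hl : l ≤ k) :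
    0 ≤ pv W h k w q l := by
  have hspec := topW_spec (1 - q k) ha hW hWa hW1
  exact pairVal_nonneg (fun l hl _ => mOf_pos hw hl) ha hspec.1 hspec.2.1 hspec.2.2
    (toph_spec _ ha hW hWa hW1 ⟨h', h'', hh⟩) hl

lemma pv_mono {h h' h'' : ℝ → ℝ} (hh : CB2 h h' h'') {l : ℕ} (hl : l < k) :
    pv W h k w q l ≤ pv W h k w q (l + 1) := by
  have hspec := topW_spec (1 - q k) ha hW hWa hW1
  exact pairVal_mono (fun l hl _ => mOf_pos hw hl) ha hspec.1 hspec.2.1 hspec.2.2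
    (toph_spec _ ha hW hWa hW1 ⟨h', h'', hh⟩) hl

lemma pv_le {h h' h'' : ℝ → ℝ} (hh : CB2 h h' h'') {B : ℝ} (hB : ∀ x, |h x| ≤ B) {l : ℕ}
    (hl : l ≤ k) : pv W h k w q l ≤ B ^ 2 := by
  have hspec := topW_spec (1 - q k) ha hW hWa hW1
  exact pairVal_le (fun l hl _ => mOf_pos hw hl) ha hspec.1 hspec.2.1 hspec.2.2
    (toph_spec _ ha hW hWa hW1 ⟨h', h'', hh⟩) (toph_abs_le ha hW hWa hW1 hh hB _) hl

/-- The average of the observable, at the bottom level. -/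
lemma lvh0_integrable {h h' h'' : ℝ → ℝ} (hh : CB2 h h' h'') (t : ℝ) :
    Integrable (fun z => lvh (mOf w) (incr (stop k q))
    (lvW (mOf w) (incr (stop k q)) k (topW (1 - q k) W)) k h 0 (t * z)) (gaussianReal 0 1) := by
  have hspec := topW_spec (1 - q k) ha hW hWa hW1
  have hspec2 := lvW_spec (v := incr (stop k q)) (fun l hl (_ : l ≤ k) => mOf_pos hw hl) ha
    hspec.1 hspec.2.1 hspec.2.2
  obtain ⟨p', p'', hp⟩ := lvh_spec (v := incr (stop k q))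
    (fun l hl (_ : l ≤ k) => mOf_pos hw hl) ha hspec2 le_rfl ⟨h', h'', hh⟩ 0 (Nat.zero_le k)
  exact hp.integrable_fn t

lemma ov_abs_le {h h' h'' : ℝ → ℝ} (hh : CB2 h h' h'') {B : ℝ} (hB : ∀ x, |h x| ≤ B) :
    |ov W h k w q| ≤ B := by
  have hspec := topW_spec (1 - q k) ha hW hWa hW1
  have hm : ∀ l, 1 ≤ l → l ≤ k → 0 < mOf w l := fun l hl _ => mOf_pos hw hl
  have hspec2 := lvW_spec (v := incr (stop k q)) hm ha hspec.1 hspec.2.1 hspec.2.2
  obtain ⟨g', g'', hg⟩ := toph_spec (1 - q k) ha hW hWa hW1 ⟨h', h'', hh⟩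
  have h1 := toph_abs_le ha hW hWa hW1 hh hB (1 - q k)
  have h2 := lvh_mono (v := incr (stop k q)) hm ha hspec2 le_rfl ⟨g', g'', hg⟩ (CB2.const_fn B)
    (fun x => (abs_le.1 (h1 x)).2) 0 (Nat.zero_le k)
  have h3 := lvh_mono (v := incr (stop k q)) hm ha hspec2 le_rfl (CB2.const_fn (-B))
    ⟨g', g'', hg⟩ (fun x => (abs_le.1 (h1 x)).1) 0 (Nat.zero_le k)
  rw [lvh_const (v := incr (stop k q)) hm ha hspec2 le_rfl _ 0 (Nat.zero_le k)] at h2 h3
  have h4 := lvh0_integrable ha hW hWa hW1 hw q hg (√(incr (stop k q) 0))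
  unfold ov
  rw [abs_le]
  constructor
  · have := integral_mono (integrable_const (-B)) h4 (fun z => h3 _)
    simpa using this
  · have := integral_mono h4 (integrable_const B) (fun z => h2 _)
    simpa using this

lemma pv_le_ov {h h' h'' : ℝ → ℝ} (hh : CB2 h h' h'') :
    pv W h k w q k ≤ ov W (fun y => h y ^ 2) k w q := by
  have hspec := topW_spec (1 - q k) ha hW hWa hW1
  have hm : ∀ l, 1 ≤ l → l ≤ k → 0 < mOf w l := fun l hl _ => mOf_pos hw hl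
  have hspec2 := lvW_spec (v := incr (stop k q)) hm ha hspec.1 hspec.2.1 hspec.2.2
  obtain ⟨g', g'', hg⟩ := toph_spec (1 - q k) ha hW hWa hW1 ⟨h', h'', hh⟩
  obtain ⟨p', p'', hp⟩ := hh.sq_fn
  obtain ⟨r', r'', hr⟩ := toph_spec (1 - q k) ha hW hWa hW1 ⟨p', p'', hp⟩
  obtain ⟨s', s'', hs⟩ := hg.sq_fn
  have h2 := lvh_mono (v := incr (stop k q)) hm ha hspec2 le_rfl ⟨s', s'', hs⟩ ⟨r', r'', hr⟩
    (fun x => toph_sq_le ha hW hWa hW1 hh (1 - q k) x) 0 (Nat.zero_le k)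
  unfold pv Arr.pairVal ov
  have e1 : (fun x => lvh (mOf w) (incr (stop k q))
      (lvW (mOf w) (incr (stop k q)) k (topW (1 - q k) W)) k (toph (1 - q k) W h) k x ^ 2) =
      fun x => toph (1 - q k) W h x ^ 2 := by
    rw [lvh_top]
  rw [e1]
  exact integral_mono (lvh0_integrable ha hW hWa hW1 hw q hs _)
    (lvh0_integrable ha hW hWa hW1 hw q hr _) (fun z => h2 _)

end

end Vale.Agent.P157.Par
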