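import Vale.Agent.P157.RemBasic

open MeasureTheory ProbabilityTheory

namespace Vale.Agent.P157

lemma spin_mul {N : ℕ} (σ τ : Fin N → Bool) (i : Fin N) :
    spin σ i * spin τ i = 2 * (if σ i = τ i then (1 : ℝ) else 0) - 1 := by
  unfold spin
  cases σ i <;> cases τ i <;> norm_num

/-- number of agreements -/
def agree {N : ℕ} (σ τ : Fin N → Bool) : ℕ := (Finset.univ.filter fun i => σ i = τ i).card

lemma agree_le {N : ℕ} (σ τ : Fin N → Bool) : agree σ τ ≤ N := by
  unfold agree
  exact (Finset.card_filter_le _ _).trans (by simp)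

lemma half_ovl {N : ℕ} (hN : 0 < N) (σ τ : Fin N → Bool) :
    (1 + ovl σ τ) / 2 = (agree σ τ : ℝ) / N := by
  have hN' : (N : ℝ) ≠ 0 := by positivity
  unfold ovl agree
  simp_rw [spin_mul]
  rw [Finset.sum_sub_distrib, ← Finset.mul_sum, Finset.sum_boole]
  simp only [Finset.sum_const, Finset.card_univ, Fintype.card_fin, nsmul_eq_mul, mul_one]
  field_simp
  ring

lemma ovl_mem {N : ℕ} (hN : 0 < N) (σ τ : Fin N → Bool) : ovl σ τ ∈ Set.Icc (-1 : ℝ) 1 := by
  have h := half_ovl hN σ τ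
  have h1 : (0 : ℝ) ≤ (agree σ τ : ℝ) / N := by positivity
  have h2 : (agree σ τ : ℝ) / N ≤ 1 := by
    rw [div_le_one (by positivity)]
    exact_mod_cast agree_le σ τ
  constructor <;> linarith

/-- product Bernoulli weight -/
noncomputable def bw {N : ℕ} (x : ℝ) (σ τ : Fin N → Bool) : ℝ :=
  ∏ i, (if σ i = τ i then x else 1 - x)

lemma bw_nonneg {N : ℕ} {x : ℝ} (h0 : 0 ≤ x) (h1 : x ≤ 1) (σ τ : Fin N → Bool) :
    0 ≤ bw x σ τ := by
  unfold bw
  refine Finset.prod_nonneg fun i _ => ?_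
  split_ifs <;> linarith

lemma bw_eq {N : ℕ} (x : ℝ) (σ τ : Fin N → Bool) :
    bw x σ τ = x ^ (agree σ τ) * (1 - x) ^ (N - agree σ τ) := by
  unfold bw agree
  rw [Finset.prod_ite, Finset.prod_const, Finset.prod_const]
  congr 2
  have h := Finset.card_filter_add_card_filter_not (s := (Finset.univ : Finset (Fin N)))
    (p := fun i => σ i = τ i)
  simp only [Finset.card_univ, Fintype.card_fin] at h
  omega

lemma sum_bw {N : ℕ} (x : ℝ) (σ : Fin N → Bool) : ∑ τ : Fin N → Bool, bw x σ τ = 1 := by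
  unfold bw
  have h := Finset.prod_univ_sum (t := fun _ : Fin N => (Finset.univ : Finset Bool))
    (f := fun i b => if σ i = b then x else 1 - x)
  rw [Fintype.piFinset_univ] at h
  rw [← h]
  apply Finset.prod_eq_one
  intro i _
  cases σ i <;> simp

lemma exp_neg_binEntropy {N k : ℕ} (hN : 0 < N) (hk : k ≤ N) :
    Real.exp (-(N * Real.binEntropy ((k : ℝ) / N))) =
      ((k : ℝ) / N) ^ k * (1 - (k : ℝ) / N) ^ (N - k) := by
  have hN' : (0 : ℝ) < N := by positivity
  have key : ∀ (x : ℝ) (j : ℕ), 0 ≤ x → (x = 0 → j = 0) → Real.exp (j * Real.log x) = x ^ j := by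
    intro x j hx h
    rcases eq_or_lt_of_le hx with h0 | h0
    · rw [h h0.symm]; simp
    · rw [mul_comm, Real.exp_mul, Real.exp_log h0, Real.rpow_natCast]
  have e1 : -((N : ℝ) * Real.binEntropy ((k : ℝ) / N)) =
      k * Real.log ((k : ℝ) / N) + ((N - k : ℕ) : ℝ) * Real.log (1 - (k : ℝ) / N) := by
    rw [Real.binEntropy, Real.log_inv, Real.log_inv, Nat.cast_sub hk]
    field_simp
    ring
  rw [e1, Real.exp_add, key, key]
  · rw [sub_nonneg, div_le_one hN']; exact_mod_cast hk
  · intro h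
    have : (k : ℝ) = N := by
      have : (k : ℝ) / N = 1 := by linarith
      rwa [div_eq_one_iff_eq hN'.ne'] at this
    have : k = N := by exact_mod_cast this
    omega
  · positivity
  · intro h
    rw [div_eq_zero_iff] at h
    rcases h with h | h
    · exact_mod_cast h
    · exact absurd h hN'.ne'

/-- The entropy sum over one row of the overlap table. -/
lemma sum_exp_neg_entropy_le {N : ℕ} (hN : 0 < N) (σ : Fin N → Bool) :
    ∑ τ : Fin N → Bool, Real.exp (-(N * Real.binEntropy ((1 + ovl σ τ) / 2))) ≤ N + 1 := by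
  have hN' : (0 : ℝ) < N := by positivity
  have h1 : ∀ τ : Fin N → Bool, Real.exp (-(N * Real.binEntropy ((1 + ovl σ τ) / 2))) ≤
      ∑ j ∈ Finset.range (N + 1), bw ((j : ℝ) / N) σ τ := by
    intro τ
    rw [half_ovl hN, exp_neg_binEntropy hN (agree_le σ τ), ← bw_eq]
    refine Finset.single_le_sum (f := fun j : ℕ => bw ((j : ℝ) / N) σ τ) ?_ ?_
    · intro j hj
      have hj' : j ≤ N := by simpa [Nat.lt_succ_iff] using hj
      apply bw_nonneg
      · positivity
      · rw [div_le_one hN']; exact_mod_cast hj'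
    · simpa [Nat.lt_succ_iff] using agree_le σ τ
  calc ∑ τ : Fin N → Bool, Real.exp (-(N * Real.binEntropy ((1 + ovl σ τ) / 2)))
      ≤ ∑ τ : Fin N → Bool, ∑ j ∈ Finset.range (N + 1), bw ((j : ℝ) / N) σ τ :=
        Finset.sum_le_sum fun τ _ => h1 τ
    _ = ∑ j ∈ Finset.range (N + 1), ∑ τ : Fin N → Bool, bw ((j : ℝ) / N) σ τ :=
        Finset.sum_comm
    _ = N + 1 := by
        simp_rw [sum_bw]
        simp

end Vale.Agent.P157
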