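import Mathlib

open MeasureTheory ProbabilityTheory

namespace Vale.Agent.P157

/-- `E φ(G) φ(G')` for two standard Gaussian variables `G`, `G'` of correlation `ρ`. -/
noncomputable def pairInt (φ : ℝ → ℝ) (ρ : ℝ) : ℝ :=
  ∫ z, φ z.1 * φ (ρ * z.1 + √(1 - ρ ^ 2) * z.2) ∂((gaussianReal 0 1).prod (gaussianReal 0 1))

/-- The values `(log 2 + α log E exp(m f(G))) / m - log 2` for `0 < m ≤ 1`. -/
noncomputable def remValues (α : ℝ) (f : ℝ → ℝ) : Set ℝ :=
  (fun m : ℝ => (Real.log 2 + α * Real.log (∫ x, Real.exp (m * f x) ∂(gaussianReal 0 1))) / m -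
    Real.log 2) '' Set.Ioc 0 1

/-- The log-density `f - log E exp(f(G))` of the tilted law. -/
noncomputable def tilt (f : ℝ → ℝ) (x : ℝ) : ℝ :=
  f x - Real.log (∫ y, Real.exp (f y) ∂(gaussianReal 0 1))

/-- The relative entropy of the tilted law with respect to the standard Gaussian law. -/
noncomputable def relEnt (f : ℝ → ℝ) : ℝ :=
  ∫ x, tilt f x * Real.exp (tilt f x) ∂(gaussianReal 0 1)

end Vale.Agent.P157
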