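import Mathlib

open MeasureTheory ProbabilityTheory

namespace Vale.Agent.P157

section
variable {E : Type*} [MeasurableSpace E] (μ : Measure E) [IsProbabilityMeasure μ]

lemma integrable_of_bdd {Ω : Type*} [MeasurableSpace Ω] {P : Measure Ω} [IsFiniteMeasure P]
    {F : Ω → ℝ} (hF : Measurable F) {C : ℝ} (hC : ∀ x, |F x| ≤ C) : Integrable F P :=
  Integrable.of_bound hF.aestronglyMeasurable C (Filter.Eventually.of_forall fun x => by
    simpa [Real.norm_eq_abs] using hC x)

lemma sum_sq_exp (M : ℕ) {l : E → ℝ} (hl : Measurable l) {B : ℝ} (hB : ∀ x, |l x| ≤ B)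
    (h1 : ∫ x, Real.exp (l x) ∂μ = 1) {K : ℝ} (hK : ∫ x, l x * Real.exp (l x) ∂μ = K) :
    ∫ s, (∑ a, (l (s a) - K)) ^ 2 * Real.exp (∑ a, l (s a)) ∂(Measure.pi fun _ : Fin M => μ) =
      M * ∫ x, (l x - K) ^ 2 * Real.exp (l x) ∂μ := by
  classical
  have hexp : ∀ x, |Real.exp (l x)| ≤ Real.exp B := fun x => by
    rw [abs_of_pos (Real.exp_pos _)]
    exact Real.exp_le_exp.2 ((le_abs_self _).trans (hB x))
  have hY : ∀ x, |l x - K| ≤ B + |K| := fun x =>
    (abs_sub _ _).trans (add_le_add (hB x) le_rfl)
  have hint1 : Integrable (fun x => Real.exp (l x)) μ :=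
    integrable_of_bdd (by fun_prop) hexp
  have hint2 : Integrable (fun x => l x * Real.exp (l x)) μ := by
    refine integrable_of_bdd (C := B * Real.exp B) (by fun_prop) fun x => ?_
    rw [abs_mul]
    exact mul_le_mul (hB x) (hexp x) (abs_nonneg _) ((abs_nonneg _).trans (hB x))
  have hY0 : ∫ x, Real.exp (l x) * (l x - K) ∂μ = 0 := by
    have : ∀ x, Real.exp (l x) * (l x - K) = l x * Real.exp (l x) - K * Real.exp (l x) := by
      intro x; ring
    simp_rw [this]
    rw [integral_sub hint2 (hint1.const_mul K), hK, integral_const_mul, h1]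
    ring
  have e1 : ∀ s : Fin M → E, (∑ a, (l (s a) - K)) ^ 2 * Real.exp (∑ a, l (s a)) =
      ∑ a, ∑ b, ∏ c, (Real.exp (l (s c)) * (if c = a then l (s c) - K else 1) *
        (if c = b then l (s c) - K else 1)) := by
    intro s
    rw [pow_two, Finset.sum_mul_sum, Finset.sum_mul]
    refine Finset.sum_congr rfl fun a _ => ?_
    rw [Finset.sum_mul]
    refine Finset.sum_congr rfl fun b _ => ?_
    rw [Finset.prod_mul_distrib, Finset.prod_mul_distrib, ← Real.exp_sum,
      Finset.prod_ite_eq' Finset.univ a, Finset.prod_ite_eq' Finset.univ b]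
    simp only [Finset.mem_univ, if_true]
    ring
  simp_rw [e1]
  have hmeas : ∀ a b : Fin M, Measurable fun s : Fin M → E =>
      ∏ c, (Real.exp (l (s c)) * (if c = a then l (s c) - K else 1) *
        (if c = b then l (s c) - K else 1)) := by
    intro a b
    refine Finset.measurable_prod _ fun c _ => ?_
    have hc : Measurable fun s : Fin M → E => l (s c) := hl.comp (measurable_pi_apply c)
    refine Measurable.mul (Measurable.mul (Real.measurable_exp.comp hc) ?_) ?_
    · by_cases h : c = a
      · simp only [h, if_true]; rw [← h]; exact hc.sub_const _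
      · simp only [h, if_false]; exact measurable_const
    · by_cases h : c = b
      · simp only [h, if_true]; rw [← h]; exact hc.sub_const _
      · simp only [h, if_false]; exact measurable_const
  have hif : ∀ (c a : Fin M) (x : E), |(if c = a then l x - K else 1)| ≤ B + |K| + 1 := by
    intro c a x
    have h0 : 0 ≤ B + |K| := (abs_nonneg _).trans (hY x)
    split_ifs
    · exact (hY x).trans (by linarith)
    · rw [abs_one]; linarith
  have hint : ∀ a b : Fin M, Integrable (fun s : Fin M → E =>
      ∏ c, (Real.exp (l (s c)) * (if c = a then l (s c) - K else 1) *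
        (if c = b then l (s c) - K else 1))) (Measure.pi fun _ : Fin M => μ) := by
    intro a b
    refine integrable_of_bdd (hmeas a b) (C := ∏ _c : Fin M,
      (Real.exp B * (B + |K| + 1) * (B + |K| + 1))) fun s => ?_
    rw [Finset.abs_prod]
    refine Finset.prod_le_prod (fun c _ => abs_nonneg _) fun c _ => ?_
    rw [abs_mul, abs_mul]
    have h0 : 0 ≤ B + |K| + 1 := (abs_nonneg _).trans (hif c a (s c))
    exact mul_le_mul (mul_le_mul (hexp _) (hif c a _) (abs_nonneg _) (Real.exp_pos _).le)
      (hif c b _) (abs_nonneg _) (by positivity)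
  rw [integral_finsetSum]
  · have e2 : ∀ a : Fin M, ∫ s, ∑ b, ∏ c, (Real.exp (l (s c)) *
        (if c = a then l (s c) - K else 1) * (if c = b then l (s c) - K else 1))
          ∂(Measure.pi fun _ : Fin M => μ) = ∫ x, (l x - K) ^ 2 * Real.exp (l x) ∂μ := by
      intro a
      rw [integral_finsetSum _ fun b _ => hint a b]
      have e3 : ∀ b : Fin M, ∫ s : Fin M → E, ∏ c, (Real.exp (l (s c)) *
          (if c = a then l (s c) - K else 1) * (if c = b then l (s c) - K else 1))
            ∂(Measure.pi fun _ : Fin M => μ) =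
          ∏ c : Fin M, ∫ x, (Real.exp (l x) *
          (if c = a then l x - K else 1) * (if c = b then l x - K else 1)) ∂μ := by
        intro b
        exact integral_fintype_prod_eq_prod (f := fun c x => (Real.exp (l x) *
          (if c = a then l x - K else 1) * (if c = b then l x - K else 1)))
      simp_rw [e3]
      rw [Finset.sum_eq_single a]
      · rw [Finset.prod_eq_single a]
        · simp only [if_true]
          refine integral_congr_ae (Filter.Eventually.of_forall fun x => ?_)
          simp only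
          ring
        · intro c _ hc
          simp only [hc, if_false, mul_one]
          exact h1
        · intro h; exact absurd (Finset.mem_univ _) h
      · intro b _ hb
        apply Finset.prod_eq_zero (Finset.mem_univ a)
        have : ¬ (a = b) := fun h => hb h.symm
        simp only [if_true, this, if_false, mul_one]
        exact hY0
      · intro h; exact absurd (Finset.mem_univ _) h
    simp_rw [e2]
    simp
  · intro a _
    exact integrable_finsetSum _ fun b _ => hint a b

/-- Law of large numbers for the tilted product measure. -/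
lemma tilted_mass {M : ℕ} (hM : 0 < M) {l : E → ℝ} (hl : Measurable l) {B : ℝ}
    (hB : ∀ x, |l x| ≤ B)
    (h1 : ∫ x, Real.exp (l x) ∂μ = 1) {K : ℝ} (hK : ∫ x, l x * Real.exp (l x) ∂μ = K)
    {δ : ℝ} (hδ : 0 < δ) :
    1 - (∫ x, (l x - K) ^ 2 * Real.exp (l x) ∂μ) / (δ ^ 2 * M) ≤
      ∫ s, (if |∑ a, l (s a) - M * K| ≤ δ * M then Real.exp (∑ a, l (s a)) else 0)
        ∂(Measure.pi fun _ : Fin M => μ) := by
  have hM' : (0 : ℝ) < M := by positivity
  have hmS : Measurable fun s : Fin M → E => ∑ a, l (s a) :=
    Finset.measurable_sum _ fun a _ => hl.comp (measurable_pi_apply a)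
  have hmS2 : Measurable fun s : Fin M → E => ∑ a, (l (s a) - K) :=
    Finset.measurable_sum _ fun a _ => (hl.comp (measurable_pi_apply a)).sub_const _
  have hbS : ∀ s : Fin M → E, |∑ a, l (s a)| ≤ M * B := fun s => by
    refine (Finset.abs_sum_le_sum_abs _ _).trans ?_
    calc ∑ a, |l (s a)| ≤ ∑ _a : Fin M, B := Finset.sum_le_sum fun a _ => hB _
      _ = M * B := by simp
  have hbE : ∀ s : Fin M → E, Real.exp (∑ a, l (s a)) ≤ Real.exp (M * B) := fun s =>
    Real.exp_le_exp.2 ((le_abs_self _).trans (hbS s))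
  have hbS2 : ∀ s : Fin M → E, |∑ a, (l (s a) - K)| ≤ M * (B + |K|) := fun s => by
    refine (Finset.abs_sum_le_sum_abs _ _).trans ?_
    calc ∑ a, |l (s a) - K| ≤ ∑ _a : Fin M, (B + |K|) :=
          Finset.sum_le_sum fun a _ => (abs_sub _ _).trans (add_le_add (hB _) le_rfl)
      _ = M * (B + |K|) := by simp; ring
  have hi1 : Integrable (fun s : Fin M → E => Real.exp (∑ a, l (s a)))
      (Measure.pi fun _ : Fin M => μ) :=
    integrable_of_bdd (by fun_prop) fun s => by
      rw [abs_of_pos (Real.exp_pos _)]; exact hbE s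
  have hi2 : Integrable (fun s : Fin M → E => (∑ a, (l (s a) - K)) ^ 2 *
      Real.exp (∑ a, l (s a))) (Measure.pi fun _ : Fin M => μ) :=
    integrable_of_bdd (C := (M * (B + |K|)) ^ 2 * Real.exp (M * B)) (by fun_prop) fun s => by
      rw [abs_mul, abs_of_pos (Real.exp_pos _), abs_pow]
      exact mul_le_mul (pow_le_pow_left₀ (abs_nonneg _) (hbS2 s) 2) (hbE s)
        (Real.exp_pos _).le (by positivity)
  have hE1 : ∫ s, Real.exp (∑ a, l (s a)) ∂(Measure.pi fun _ : Fin M => μ) = 1 := by
    simp_rw [Real.exp_sum]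
    rw [integral_fintype_prod_eq_pow (f := fun x => Real.exp (l x)), h1, one_pow]
  have hE2 := sum_sq_exp μ M hl hB h1 hK
  set C := ∫ x, (l x - K) ^ 2 * Real.exp (l x) ∂μ with hC
  have hlow : 1 - C / (δ ^ 2 * M) =
      ∫ s, (Real.exp (∑ a, l (s a)) - (1 / (δ * M) ^ 2) * ((∑ a, (l (s a) - K)) ^ 2 *
        Real.exp (∑ a, l (s a)))) ∂(Measure.pi fun _ : Fin M => μ) := by
    rw [integral_sub hi1 (hi2.const_mul _), hE1, integral_const_mul, hE2]
    field_simp
  rw [hlow]
  refine integral_mono (hi1.sub (hi2.const_mul _)) ?_ fun s => ?_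
  · refine integrable_of_bdd (C := Real.exp (M * B)) ?_ fun s => ?_
    · refine Measurable.ite ?_ (by fun_prop) measurable_const
      exact measurableSet_le (by fun_prop) measurable_const
    · split_ifs
      · rw [abs_of_pos (Real.exp_pos _)]; exact hbE s
      · rw [abs_zero]; exact (Real.exp_pos _).le
  · simp only
    have hs : ∑ a, (l (s a) - K) = ∑ a, l (s a) - M * K := by
      rw [Finset.sum_sub_distrib]; simp
    split_ifs with h
    · have : 0 ≤ (1 / (δ * M) ^ 2) * ((∑ a, (l (s a) - K)) ^ 2 * Real.exp (∑ a, l (s a))) := by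
        positivity
      linarith
    · rw [not_le] at h
      have h2 : (δ * M) ^ 2 ≤ (∑ a, (l (s a) - K)) ^ 2 := by
        rw [hs, ← sq_abs (∑ a, l (s a) - M * K)]
        exact pow_le_pow_left₀ (by positivity) h.le 2
      have h3 : 1 ≤ (1 / (δ * M) ^ 2) * (∑ a, (l (s a) - K)) ^ 2 := by
        rw [one_div, inv_mul_eq_div, le_div_iff₀ (by positivity)]
        linarith
      have h4 : Real.exp (∑ a, l (s a)) ≤
          (1 / (δ * M) ^ 2) * ((∑ a, (l (s a) - K)) ^ 2 * Real.exp (∑ a, l (s a))) := by
        rw [← mul_assoc]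
        exact le_mul_of_one_le_left (Real.exp_pos _).le h3
      linarith
end

end Vale.Agent.P157
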