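import Vale.Agent.P157.RemBasic

open MeasureTheory ProbabilityTheory Complex

namespace Vale.Agent.P157

lemma integral_cexp_gaussian (t : ℝ) :
    ∫ x : ℝ, Complex.exp ((t * x : ℝ) * I) ∂(gaussianReal 0 1) = Complex.exp (-(t ^ 2 / 2 : ℝ)) := by
  have h := charFun_gaussianReal (μ := 0) (v := 1) t
  rw [charFun_apply_real] at h
  simp only [ofReal_mul] at *
  rw [h]
  congr 1
  push_cast
  ring

lemma integral_cexp_gvec {N : ℕ} (c : Fin N → ℝ) :
    ∫ g, Complex.exp (((∑ i, c i * g i : ℝ) : ℂ) * I) ∂(gvec N) =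
      Complex.exp (-((∑ i, c i ^ 2) / 2 : ℝ)) := by
  have h1 : ∀ g : Fin N → ℝ, Complex.exp (((∑ i, c i * g i : ℝ) : ℂ) * I) =
      ∏ i, Complex.exp (((c i * g i : ℝ) : ℂ) * I) := by
    intro g
    rw [← Complex.exp_sum, ofReal_sum, Finset.sum_mul]
  simp_rw [h1]
  unfold gvec
  rw [integral_fintype_prod_eq_prod (f := fun i (x : ℝ) => Complex.exp (((c i * x : ℝ) : ℂ) * I))]
  simp_rw [integral_cexp_gaussian]
  rw [← Complex.exp_sum]
  congr 1
  rw [Finset.sum_div]
  push_cast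
  rw [Finset.sum_neg_distrib]

/-- Joint law of two Gaussian projections. -/
lemma map_pair_gvec {N : ℕ} (a b : Fin N → ℝ) (ρ : ℝ) (ha : ∑ i, a i ^ 2 = 1)
    (hb : ∑ i, b i ^ 2 = 1) (hab : ∑ i, a i * b i = ρ) :
    (gvec N).map (fun g => (∑ i, g i * a i, ∑ i, g i * b i)) =
      ((gaussianReal 0 1).prod (gaussianReal 0 1)).map
        (fun z => (z.1, ρ * z.1 + √(1 - ρ ^ 2) * z.2)) := by
  have hρ : ρ ^ 2 ≤ 1 := by
    have h := Finset.sum_mul_sq_le_sq_mul_sq Finset.univ a b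
    rw [hab, ha, hb] at h
    simpa using h
  have hm1 : Measurable (fun g : Fin N → ℝ => (∑ i, g i * a i, ∑ i, g i * b i)) := by fun_prop
  have hm2 : Measurable (fun z : ℝ × ℝ => (z.1, ρ * z.1 + √(1 - ρ ^ 2) * z.2)) := by fun_prop
  have : IsFiniteMeasure ((gvec N).map (fun g => (∑ i, g i * a i, ∑ i, g i * b i))) :=
    Measure.isFiniteMeasure_map _ _
  have : IsFiniteMeasure (((gaussianReal 0 1).prod (gaussianReal 0 1)).map
        (fun z : ℝ × ℝ => (z.1, ρ * z.1 + √(1 - ρ ^ 2) * z.2))) :=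
    Measure.isFiniteMeasure_map _ _
  apply Measure.ext_of_charFunDual
  ext L
  have hL : ∀ u v : ℝ, L (u, v) = u * L (1, 0) + v * L (0, 1) := by
    intro u v
    have : ((u, v) : ℝ × ℝ) = u • (1, 0) + v • (0, 1) := by simp
    rw [this, map_add, map_smul, map_smul]
    simp
  set α := L (1, 0) with hα
  set β := L (0, 1) with hβ
  rw [charFunDual_apply, charFunDual_apply, integral_map hm1.aemeasurable,
    integral_map hm2.aemeasurable]
  · simp_rw [hL]
    have e1 : ∀ g : Fin N → ℝ, ((∑ i, g i * a i) * α + (∑ i, g i * b i) * β) =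
        ∑ i, (a i * α + b i * β) * g i := by
      intro g
      rw [Finset.sum_mul, Finset.sum_mul, ← Finset.sum_add_distrib]
      refine Finset.sum_congr rfl fun i _ => by ring
    simp_rw [e1]
    rw [integral_cexp_gvec]
    have e2 : ∑ i, (a i * α + b i * β) ^ 2 = α ^ 2 + 2 * α * β * ρ + β ^ 2 := by
      have : ∀ i, (a i * α + b i * β) ^ 2 =
          α ^ 2 * a i ^ 2 + (2 * α * β) * (a i * b i) + β ^ 2 * b i ^ 2 := by intro i; ring
      simp_rw [this]
      rw [Finset.sum_add_distrib, Finset.sum_add_distrib, ← Finset.mul_sum, ← Finset.mul_sum,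
        ← Finset.mul_sum, ha, hb, hab]
      ring
    rw [e2]
    have e3 : ∀ z : ℝ × ℝ, Complex.exp (((z.1 * α + (ρ * z.1 + √(1 - ρ ^ 2) * z.2) * β : ℝ) : ℂ) * I)
        = Complex.exp ((((α + ρ * β) * z.1 : ℝ) : ℂ) * I) *
          Complex.exp ((((√(1 - ρ ^ 2) * β) * z.2 : ℝ) : ℂ) * I) := by
      intro z
      rw [← Complex.exp_add]
      congr 1
      push_cast
      ring
    simp_rw [e3]
    rw [integral_prod_mul (fun x : ℝ => Complex.exp ((((α + ρ * β) * x : ℝ) : ℂ) * I))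
      (fun x : ℝ => Complex.exp ((((√(1 - ρ ^ 2) * β) * x : ℝ) : ℂ) * I)),
      integral_cexp_gaussian, integral_cexp_gaussian, ← Complex.exp_add]
    congr 1
    have hs : √(1 - ρ ^ 2) ^ 2 = 1 - ρ ^ 2 := Real.sq_sqrt (by linarith)
    rw [← Complex.ofReal_neg, ← Complex.ofReal_neg, ← Complex.ofReal_neg, ← Complex.ofReal_add]
    congr 1
    rw [mul_pow, hs]
    ring
  · exact (Continuous.aestronglyMeasurable (by fun_prop))
  · exact (Continuous.aestronglyMeasurable (by fun_prop))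

end Vale.Agent.P157
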