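import Vale.Agent.P157.RemDefs
import Vale.Agent.P157.RemPair
import Vale.Agent.P157.RemComb

open MeasureTheory ProbabilityTheory

namespace Vale.Agent.P157

/-- `(g · x)/√N` -/
noncomputable def proj {N : ℕ} (x g : Fin N → ℝ) : ℝ := (∑ i, g i * x i) / √(N : ℝ)

@[fun_prop]
lemma measurable_proj {N : ℕ} (x : Fin N → ℝ) : Measurable (proj x) := by
  unfold proj; fun_prop

lemma map_proj_pair {N : ℕ} (hN : 0 < N) (σ τ : Fin N → Bool) :
    (gvec N).map (fun g => (proj (spin σ) g, proj (spin τ) g)) =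
      ((gaussianReal 0 1).prod (gaussianReal 0 1)).map
        (fun z => (z.1, ovl σ τ * z.1 + √(1 - ovl σ τ ^ 2) * z.2)) := by
  have hN' : (0 : ℝ) < N := by positivity
  have hs : √(N : ℝ) * √(N : ℝ) = N := Real.mul_self_sqrt hN'.le
  have hs0 : √(N : ℝ) ≠ 0 := (Real.sqrt_pos.2 hN').ne'
  have h := map_pair_gvec (fun i => spin σ i / √(N : ℝ)) (fun i => spin τ i / √(N : ℝ))
    (ovl σ τ) ?_ ?_ ?_
  · have e : (fun g : Fin N → ℝ => (proj (spin σ) g, proj (spin τ) g)) =
        fun g => (∑ i, g i * (spin σ i / √(N : ℝ)), ∑ i, g i * (spin τ i / √(N : ℝ))) := by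
      funext g
      unfold proj
      rw [Finset.sum_div, Finset.sum_div]
      congr 1 <;> exact Finset.sum_congr rfl fun i _ => by ring
    rw [e]
    exact h
  · have : ∀ i, (spin σ i / √(N : ℝ)) ^ 2 = 1 / N := by
      intro i
      rw [div_pow, pow_two, pow_two, spin_sq, hs]
    simp_rw [this]
    simp [hN'.ne']
  · have : ∀ i, (spin τ i / √(N : ℝ)) ^ 2 = 1 / N := by
      intro i
      rw [div_pow, pow_two, pow_two, spin_sq, hs]
    simp_rw [this]
    simp [hN'.ne']
  · unfold ovl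
    rw [Finset.sum_div]
    refine Finset.sum_congr rfl fun i _ => ?_
    rw [div_mul_div_comm, hs]

lemma map_proj {N : ℕ} (hN : 0 < N) (σ : Fin N → Bool) :
    (gvec N).map (proj (spin σ)) = gaussianReal 0 1 := by
  have h := congrArg (fun μ => Measure.map (Prod.fst : ℝ × ℝ → ℝ) μ) (map_proj_pair hN σ σ)
  beta_reduce at h
  rw [Measure.map_map (by fun_prop) (by fun_prop), Measure.map_map (by fun_prop) (by fun_prop)] at h
  have e1 : (Prod.fst ∘ fun g => (proj (spin σ) g, proj (spin σ) g)) = proj (spin σ) := rfl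
  have e2 : (Prod.fst ∘ fun z : ℝ × ℝ => (z.1, ovl σ σ * z.1 + √(1 - ovl σ σ ^ 2) * z.2)) =
    Prod.fst := rfl
  rw [e1, e2] at h
  rw [h]
  have := Measure.map_fst_prod (μ := gaussianReal 0 1) (ν := gaussianReal 0 1)
  rw [this]
  simp

/-- Law of the vector of local fields at one cube point. -/
lemma map_patterns {N : ℕ} (hN : 0 < N) (M : ℕ) (σ : Fin N → Bool) :
    (patterns M N).map (fun g a => proj (spin σ) (g a)) =
      Measure.pi fun _ : Fin M => gaussianReal 0 1 := by
  rw [patterns_eq]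
  have := Measure.pi_map_pi (μ := fun _ : Fin M => gvec N) (f := fun _ => proj (spin σ))
    (hf := fun _ => (measurable_proj _).aemeasurable)
  rw [this]
  simp_rw [map_proj hN]

lemma integral_gvec_pair {N : ℕ} (hN : 0 < N) (σ τ : Fin N → Bool) {φ : ℝ → ℝ}
    (hφ : Measurable φ) :
    ∫ g, φ (proj (spin σ) g) * φ (proj (spin τ) g) ∂(gvec N) = pairInt φ (ovl σ τ) := by
  have h1 : ∫ g, φ (proj (spin σ) g) * φ (proj (spin τ) g) ∂(gvec N) =
      ∫ w, φ w.1 * φ w.2 ∂((gvec N).map (fun g => (proj (spin σ) g, proj (spin τ) g))) := by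
    rw [integral_map (by fun_prop)]
    exact (by fun_prop : Measurable fun w : ℝ × ℝ => φ w.1 * φ w.2).aestronglyMeasurable
  rw [h1, map_proj_pair hN, integral_map (by fun_prop)]
  · rfl
  · exact (by fun_prop : Measurable fun w : ℝ × ℝ => φ w.1 * φ w.2).aestronglyMeasurable

lemma integral_patterns_pair {N : ℕ} (hN : 0 < N) (M : ℕ) (σ τ : Fin N → Bool) {φ : ℝ → ℝ}
    (hφ : Measurable φ) :
    ∫ g, ∏ a, (φ (proj (spin σ) (g a)) * φ (proj (spin τ) (g a))) ∂(patterns M N) =
      (pairInt φ (ovl σ τ)) ^ M := by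
  rw [patterns_eq, integral_fintype_prod_eq_pow
    (f := fun g : Fin N → ℝ => φ (proj (spin σ) g) * φ (proj (spin τ) g)),
    integral_gvec_pair hN σ τ hφ, Fintype.card_fin]

lemma integral_patterns_one {N : ℕ} (hN : 0 < N) (M : ℕ) (σ : Fin N → Bool)
    {Φ : (Fin M → ℝ) → ℝ} (hΦ : Measurable Φ) :
    ∫ g, Φ (fun a => proj (spin σ) (g a)) ∂(patterns M N) =
      ∫ s, Φ s ∂(Measure.pi fun _ : Fin M => gaussianReal 0 1) := by
  rw [← map_patterns hN M σ, integral_map]
  · exact (measurable_pi_lambda _ fun a =>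
      (measurable_proj _).comp (measurable_pi_apply a)).aemeasurable
  · exact hΦ.aestronglyMeasurable

end Vale.Agent.P157
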