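import Vale.Agent.P157.RemMoment
import Vale.Agent.P157.RemLLN

open MeasureTheory ProbabilityTheory

namespace Vale.Agent.P157

/-- truncated exponential weight -/
noncomputable def tw (M : ℕ) (l : ℝ → ℝ) (K δ : ℝ) (s : Fin M → ℝ) : ℝ :=
  if |∑ a, l (s a) - M * K| ≤ δ * M then Real.exp (∑ a, l (s a)) else 0

/-- truncated partition function -/
noncomputable def trZ (M N : ℕ) (l : ℝ → ℝ) (K δ : ℝ) (g : Fin M → Fin N → ℝ) : ℝ :=
  (1 / 2 : ℝ) ^ N * ∑ σ : Fin N → Bool, tw M l K δ (fun a => proj (spin σ) (g a))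

lemma measurable_tw (M : ℕ) {l : ℝ → ℝ} (hl : Measurable l) (K δ : ℝ) :
    Measurable (tw M l K δ) := by
  unfold tw
  have hmS : Measurable fun s : Fin M → ℝ => ∑ a, l (s a) :=
    Finset.measurable_sum _ fun a _ => hl.comp (measurable_pi_apply a)
  refine Measurable.ite ?_ (by fun_prop) measurable_const
  exact measurableSet_le (by fun_prop) measurable_const

lemma tw_nonneg (M : ℕ) (l : ℝ → ℝ) (K δ : ℝ) (s : Fin M → ℝ) : 0 ≤ tw M l K δ s := by
  unfold tw; split_ifs
  · exact (Real.exp_pos _).le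
  · exact le_rfl

lemma abs_sum_le {M : ℕ} {l : ℝ → ℝ} {B : ℝ} (hB : ∀ x, |l x| ≤ B) (s : Fin M → ℝ) :
    |∑ a, l (s a)| ≤ M * B := by
  refine (Finset.abs_sum_le_sum_abs _ _).trans ?_
  calc ∑ a, |l (s a)| ≤ ∑ _a : Fin M, B := Finset.sum_le_sum fun a _ => hB _
    _ = M * B := by simp

lemma tw_le {M : ℕ} {l : ℝ → ℝ} {B : ℝ} (hB : ∀ x, |l x| ≤ B) (K δ : ℝ) (s : Fin M → ℝ) :
    tw M l K δ s ≤ Real.exp (M * B) := by
  unfold tw; split_ifs
  · exact Real.exp_le_exp.2 ((le_abs_self _).trans (abs_sum_le hB s))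
  · exact (Real.exp_pos _).le

lemma measurable_field {M N : ℕ} (x : Fin N → ℝ) :
    Measurable fun (g : Fin M → Fin N → ℝ) (a : Fin M) => proj x (g a) :=
  measurable_pi_lambda _ fun a => (measurable_proj _).comp (measurable_pi_apply a)

lemma measurable_trZ (M N : ℕ) {l : ℝ → ℝ} (hl : Measurable l) (K δ : ℝ) :
    Measurable (trZ M N l K δ) := by
  unfold trZ
  refine Measurable.const_mul (Finset.measurable_sum _ fun σ _ => ?_) _
  exact (measurable_tw M hl K δ).comp (measurable_field _)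

lemma trZ_nonneg (M N : ℕ) (l : ℝ → ℝ) (K δ : ℝ) (g : Fin M → Fin N → ℝ) :
    0 ≤ trZ M N l K δ g := by
  unfold trZ
  exact mul_nonneg (by positivity) (Finset.sum_nonneg fun σ _ => tw_nonneg _ _ _ _ _)

lemma trZ_le {M N : ℕ} {l : ℝ → ℝ} {B : ℝ} (hB : ∀ x, |l x| ≤ B) (K δ : ℝ)
    (g : Fin M → Fin N → ℝ) : trZ M N l K δ g ≤ Real.exp (M * B) := by
  unfold trZ
  calc (1 / 2 : ℝ) ^ N * ∑ σ : Fin N → Bool, tw M l K δ (fun a => proj (spin σ) (g a))
      ≤ (1 / 2 : ℝ) ^ N * ∑ _σ : Fin N → Bool, Real.exp (M * B) := by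
        refine mul_le_mul_of_nonneg_left (Finset.sum_le_sum fun σ _ => tw_le hB _ _ _)
          (by positivity)
    _ = Real.exp (M * B) := by
        simp only [Finset.sum_const, Finset.card_univ, Fintype.card_fun, Fintype.card_bool,
          Fintype.card_fin, nsmul_eq_mul]
        push_cast
        rw [← mul_assoc, ← mul_pow]
        norm_num

lemma trZ_mean {M N : ℕ} (hM : 0 < M) (hN : 0 < N) {l : ℝ → ℝ} (hl : Measurable l) {B : ℝ}
    (hB : ∀ x, |l x| ≤ B)
    (h1 : ∫ x, Real.exp (l x) ∂(gaussianReal 0 1) = 1) {K : ℝ}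
    (hK : ∫ x, l x * Real.exp (l x) ∂(gaussianReal 0 1) = K) {δ : ℝ} (hδ : 0 < δ) :
    1 - (∫ x, (l x - K) ^ 2 * Real.exp (l x) ∂(gaussianReal 0 1)) / (δ ^ 2 * M) ≤
      ∫ g, trZ M N l K δ g ∂(patterns M N) := by
  unfold trZ
  rw [integral_const_mul, integral_finsetSum]
  · have h2 : ∀ σ : Fin N → Bool, ∫ g, tw M l K δ (fun a => proj (spin σ) (g a)) ∂(patterns M N) =
        ∫ s, tw M l K δ s ∂(Measure.pi fun _ : Fin M => gaussianReal 0 1) := fun σ =>
      integral_patterns_one hN M σ (measurable_tw M hl K δ)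
    simp_rw [h2]
    simp only [Finset.sum_const, Finset.card_univ, Fintype.card_fun, Fintype.card_bool,
          Fintype.card_fin, nsmul_eq_mul]
    push_cast
    rw [← mul_assoc, ← mul_pow, one_div, inv_mul_cancel₀ (by norm_num : (2 : ℝ) ≠ 0), one_pow,
      one_mul]
    exact tilted_mass (gaussianReal 0 1) hM hl hB h1 hK hδ
  · intro σ _
    refine integrable_of_bdd (C := Real.exp (M * B))
      ((measurable_tw M hl K δ).comp (measurable_field _)) fun g => ?_
    rw [abs_of_nonneg (tw_nonneg _ _ _ _ _)]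
    exact tw_le hB _ _ _

lemma tw_mul_le {M : ℕ} {l : ℝ → ℝ} {K δ s : ℝ} (hs1 : s ≤ 1)
    (u v : Fin M → ℝ) :
    tw M l K δ u * tw M l K δ v ≤ Real.exp (2 * (1 - s) * ((K + δ) * M)) *
      ∏ a, (Real.exp (s * l (u a)) * Real.exp (s * l (v a))) := by
  have hr : 0 ≤ Real.exp (2 * (1 - s) * ((K + δ) * M)) *
      ∏ a, (Real.exp (s * l (u a)) * Real.exp (s * l (v a))) := by
    refine mul_nonneg (Real.exp_pos _).le (Finset.prod_nonneg fun a _ => by positivity)
  unfold tw
  split_ifs with h1 h2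
  · have e : ∏ a, (Real.exp (s * l (u a)) * Real.exp (s * l (v a))) =
        Real.exp (s * (∑ a, l (u a) + ∑ a, l (v a))) := by
      rw [mul_add, Finset.mul_sum, Finset.mul_sum, Real.exp_add, Real.exp_sum, Real.exp_sum,
        ← Finset.prod_mul_distrib]
    rw [e, ← Real.exp_add, ← Real.exp_add]
    apply Real.exp_le_exp.2
    have h1' := (abs_le.1 h1).2
    have h2' := (abs_le.1 h2).2
    nlinarith
  · rw [mul_zero]; exact hr
  · rw [zero_mul]; exact hr
  · rw [zero_mul]; exact hr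

lemma trZ_second {M N : ℕ} (hN : 0 < N) {l : ℝ → ℝ} (hl : Measurable l) {B : ℝ}
    (hB : ∀ x, |l x| ≤ B) {K δ : ℝ} (hδ : 0 ≤ δ)
    (hpair : ∀ ρ ∈ Set.Icc (-1 : ℝ) 1, ∃ s ∈ Set.Icc (0 : ℝ) 1,
      M * (2 * (1 - s) * K + Real.log (pairInt (fun x => Real.exp (s * l x)) ρ)) ≤
        N * (Real.log 2 - Real.binEntropy ((1 + ρ) / 2))) :
    ∫ g, (trZ M N l K δ g) ^ 2 ∂(patterns M N) ≤ (N + 1) * Real.exp (2 * δ * M) := by
  have hB0 : 0 ≤ B := (abs_nonneg _).trans (hB 0)
  have hm : ∀ σ : Fin N → Bool, Measurable fun g : Fin M → Fin N → ℝ =>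
      tw M l K δ (fun a => proj (spin σ) (g a)) := fun σ =>
    (measurable_tw M hl K δ).comp (measurable_field _)
  have hb : ∀ (σ : Fin N → Bool) (g : Fin M → Fin N → ℝ),
      |tw M l K δ (fun a => proj (spin σ) (g a))| ≤ Real.exp (M * B) := fun σ g => by
    rw [abs_of_nonneg (tw_nonneg _ _ _ _ _)]; exact tw_le hB _ _ _
  have e1 : ∀ g : Fin M → Fin N → ℝ, (trZ M N l K δ g) ^ 2 =
      ((1 / 2 : ℝ) ^ N * (1 / 2 : ℝ) ^ N) * ∑ σ : Fin N → Bool, ∑ τ : Fin N → Bool,
        tw M l K δ (fun a => proj (spin σ) (g a)) * tw M l K δ (fun a => proj (spin τ) (g a)) := by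
    intro g
    unfold trZ
    rw [← Finset.sum_mul_sum]
    ring
  have hpw : ∀ σ τ : Fin N → Bool,
      ∫ g, tw M l K δ (fun a => proj (spin σ) (g a)) *
        tw M l K δ (fun a => proj (spin τ) (g a)) ∂(patterns M N) ≤
      Real.exp (2 * δ * M) * (2 ^ N *
        Real.exp (-(N * Real.binEntropy ((1 + ovl σ τ) / 2)))) := by
    intro σ τ
    obtain ⟨s, ⟨hs0, hs1⟩, hs⟩ := hpair (ovl σ τ) (ovl_mem hN σ τ)
    set φ : ℝ → ℝ := fun x => Real.exp (s * l x) with hφ
    have hφm : Measurable φ := by fun_prop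
    have hφb : ∀ x, |φ x| ≤ Real.exp B := fun x => by
      rw [hφ, abs_of_pos (Real.exp_pos _)]
      apply Real.exp_le_exp.2
      calc s * l x ≤ |s * l x| := le_abs_self _
        _ = s * |l x| := by rw [abs_mul, abs_of_nonneg hs0]
        _ ≤ 1 * B := mul_le_mul hs1 (hB x) (abs_nonneg _) zero_le_one
        _ = B := one_mul B
    have hstep : ∫ g, tw M l K δ (fun a => proj (spin σ) (g a)) *
        tw M l K δ (fun a => proj (spin τ) (g a)) ∂(patterns M N) ≤
        ∫ g, Real.exp (2 * (1 - s) * ((K + δ) * M)) *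
          ∏ a, (φ (proj (spin σ) (g a)) * φ (proj (spin τ) (g a))) ∂(patterns M N) := by
      refine integral_mono ?_ ?_ fun g => tw_mul_le hs1 _ _
      · refine integrable_of_bdd (C := Real.exp (M * B) * Real.exp (M * B))
          ((hm σ).mul (hm τ)) fun g => ?_
        rw [abs_mul]
        exact mul_le_mul (hb σ g) (hb τ g) (abs_nonneg _) (Real.exp_pos _).le
      · refine Integrable.const_mul ?_ _
        refine integrable_of_bdd (C := ∏ _a : Fin M, (Real.exp B * Real.exp B)) ?_ fun g => ?_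
        · refine Finset.measurable_prod _ fun a _ => ?_
          exact ((hφm.comp ((measurable_proj _).comp (measurable_pi_apply a)))).mul
            (hφm.comp ((measurable_proj _).comp (measurable_pi_apply a)))
        · rw [Finset.abs_prod]
          refine Finset.prod_le_prod (fun a _ => abs_nonneg _) fun a _ => ?_
          rw [abs_mul]
          exact mul_le_mul (hφb _) (hφb _) (abs_nonneg _) (Real.exp_pos _).le
    rw [integral_const_mul, integral_patterns_pair hN M σ τ hφm] at hstep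
    refine hstep.trans ?_
    have hpos : 0 < pairInt φ (ovl σ τ) := by
      unfold pairInt
      simp only [hφ, ← Real.exp_add]
      apply integral_exp_pos
      simp only [Real.exp_add]
      refine integrable_of_bdd (C := Real.exp B * Real.exp B) (by fun_prop) fun z => ?_
      rw [abs_mul]
      exact mul_le_mul (hφb _) (hφb _) (abs_nonneg _) (Real.exp_pos _).le
    have e2 : (pairInt φ (ovl σ τ)) ^ M = Real.exp (M * Real.log (pairInt φ (ovl σ τ))) := by
      rw [mul_comm, Real.exp_mul, Real.exp_log hpos, Real.rpow_natCast]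
    have e3 : (2 : ℝ) ^ N = Real.exp (N * Real.log 2) := by
      rw [mul_comm, Real.exp_mul, Real.exp_log (by norm_num), Real.rpow_natCast]
    rw [e2, e3, ← Real.exp_add, ← Real.exp_add, ← Real.exp_add]
    apply Real.exp_le_exp.2
    have hM0 : (0 : ℝ) ≤ M := by positivity
    have h5 : 2 * (1 - s) * (δ * M) ≤ 2 * δ * M := by
      have : 0 ≤ s * (δ * M) := mul_nonneg hs0 (mul_nonneg hδ hM0)
      nlinarith
    have h6 : 2 * (1 - s) * ((K + δ) * M) = M * (2 * (1 - s) * K) + 2 * (1 - s) * (δ * M) := by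
      ring
    rw [h6]
    have h7 := hs
    rw [mul_add] at h7
    linarith
  simp_rw [e1]
  rw [integral_const_mul, integral_finsetSum]
  · have hsum : ∑ σ : Fin N → Bool, ∫ g, ∑ τ : Fin N → Bool,
        tw M l K δ (fun a => proj (spin σ) (g a)) *
          tw M l K δ (fun a => proj (spin τ) (g a)) ∂(patterns M N) ≤
        ∑ _σ : Fin N → Bool, Real.exp (2 * δ * M) * (2 ^ N * (N + 1)) := by
      refine Finset.sum_le_sum fun σ _ => ?_
      rw [integral_finsetSum]
      · calc ∑ τ : Fin N → Bool, ∫ g, tw M l K δ (fun a => proj (spin σ) (g a)) *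
              tw M l K δ (fun a => proj (spin τ) (g a)) ∂(patterns M N)
            ≤ ∑ τ : Fin N → Bool, Real.exp (2 * δ * M) * (2 ^ N *
              Real.exp (-(N * Real.binEntropy ((1 + ovl σ τ) / 2)))) :=
              Finset.sum_le_sum fun τ _ => hpw σ τ
          _ = Real.exp (2 * δ * M) * (2 ^ N * ∑ τ : Fin N → Bool,
              Real.exp (-(N * Real.binEntropy ((1 + ovl σ τ) / 2)))) := by
              rw [Finset.mul_sum, Finset.mul_sum]
          _ ≤ Real.exp (2 * δ * M) * (2 ^ N * (N + 1)) := by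
              refine mul_le_mul_of_nonneg_left ?_ (Real.exp_pos _).le
              exact mul_le_mul_of_nonneg_left (sum_exp_neg_entropy_le hN σ) (by positivity)
      · intro τ _
        refine integrable_of_bdd (C := Real.exp (M * B) * Real.exp (M * B))
          ((hm σ).mul (hm τ)) fun g => ?_
        rw [abs_mul]
        exact mul_le_mul (hb σ g) (hb τ g) (abs_nonneg _) (Real.exp_pos _).le
    refine (mul_le_mul_of_nonneg_left hsum (by positivity)).trans (le_of_eq ?_)
    simp only [Finset.sum_const, Finset.card_univ, Fintype.card_fun, Fintype.card_bool,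
          Fintype.card_fin, nsmul_eq_mul]
    push_cast
    have : ((1 / 2 : ℝ) ^ N) * (2 : ℝ) ^ N = 1 := by rw [← mul_pow]; norm_num
    calc (1 / 2 : ℝ) ^ N * (1 / 2 : ℝ) ^ N * (2 ^ N * (Real.exp (2 * δ * M) * (2 ^ N * (N + 1))))
        = ((1 / 2 : ℝ) ^ N * 2 ^ N) * ((1 / 2 : ℝ) ^ N * 2 ^ N) *
          ((N + 1) * Real.exp (2 * δ * M)) := by ring
      _ = (N + 1) * Real.exp (2 * δ * M) := by rw [this]; ring
  · intro σ _
    refine integrable_finsetSum _ fun τ _ => ?_
    refine integrable_of_bdd (C := Real.exp (M * B) * Real.exp (M * B))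
      ((hm σ).mul (hm τ)) fun g => ?_
    rw [abs_mul]
    exact mul_le_mul (hb σ g) (hb τ g) (abs_nonneg _) (Real.exp_pos _).le

end Vale.Agent.P157
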