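import Vale.Agent.P157.RemLower

open MeasureTheory ProbabilityTheory

namespace Vale.Agent.P157

lemma integral_exp_sum_one {M N : ℕ} (hN : 0 < N) {h : ℝ → ℝ} (hh : Measurable h)
    (σ : Fin N → Bool) :
    ∫ g, Real.exp (∑ a, h (proj (spin σ) (g a))) ∂(patterns M N) =
      (∫ x, Real.exp (h x) ∂(gaussianReal 0 1)) ^ M := by
  have h1 := integral_patterns_one hN M σ (Φ := fun s => Real.exp (∑ a, h (s a))) (by fun_prop)
  rw [h1]
  simp_rw [Real.exp_sum]
  rw [integral_fintype_prod_eq_pow (f := fun x => Real.exp (h x)), Fintype.card_fin]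

lemma rpow_sum_le {ι : Type*} (s : Finset ι) (a : ι → ℝ) (ha : ∀ i ∈ s, 0 < a i)
    (hs : s.Nonempty) {m : ℝ} (hm1 : m ≤ 1) :
    (∑ i ∈ s, a i) ^ m ≤ ∑ i ∈ s, (a i) ^ m := by
  set S := ∑ i ∈ s, a i with hS
  have hSpos : 0 < S := Finset.sum_pos ha hs
  have h1 : ∀ i ∈ s, S ^ m * (a i / S) ≤ (a i) ^ m := by
    intro i hi
    have hle : a i / S ≤ 1 := by
      rw [div_le_one hSpos]
      exact Finset.single_le_sum (f := a) (fun j hj => (ha j hj).le) hi
    have hpos : 0 < a i / S := div_pos (ha i hi) hSpos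
    have h2 : a i / S ≤ (a i / S) ^ m := by
      calc a i / S = (a i / S) ^ (1 : ℝ) := (Real.rpow_one _).symm
        _ ≤ (a i / S) ^ m := Real.rpow_le_rpow_of_exponent_ge hpos hle hm1
    calc S ^ m * (a i / S) ≤ S ^ m * (a i / S) ^ m :=
          mul_le_mul_of_nonneg_left h2 (Real.rpow_nonneg hSpos.le _)
      _ = (S * (a i / S)) ^ m := (Real.mul_rpow hSpos.le hpos.le).symm
      _ = (a i) ^ m := by rw [mul_div_cancel₀ _ hSpos.ne']
  calc S ^ m = ∑ i ∈ s, S ^ m * (a i / S) := by
        rw [← Finset.mul_sum, ← Finset.sum_div, div_self hSpos.ne', mul_one]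
    _ ≤ _ := Finset.sum_le_sum h1

/-- Fractional moment upper bound. -/
theorem logZ_upper {M N : ℕ} (hN : 0 < N) {f : ℝ → ℝ} (hf : Measurable f) {D : ℝ}
    (hD : ∀ x, |f x| ≤ D) {m : ℝ} (hm0 : 0 < m) (hm1 : m ≤ 1) {Λ : ℝ}
    (hΛ : Real.exp Λ = ∫ x, Real.exp (m * f x) ∂(gaussianReal 0 1)) :
    ∫ g, logZ f g ∂(patterns M N) ≤ N * ((1 / m - 1) * Real.log 2) + M * (Λ / m) := by
  set W : (Fin M → Fin N → ℝ) → ℝ := fun g =>
    Real.exp (-(N * (m * Real.log 2))) *
      ∑ σ : Fin N → Bool, Real.exp (∑ a, m * f (proj (spin σ) (g a))) with hW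
  have hWpos : ∀ g, 0 < W g := fun g =>
    mul_pos (Real.exp_pos _) (Finset.sum_pos (fun σ _ => Real.exp_pos _) Finset.univ_nonempty)
  have hfb : ∀ x, |m * f x| ≤ D := fun x => by
    rw [abs_mul, abs_of_pos hm0]
    calc m * |f x| ≤ 1 * D := mul_le_mul hm1 (hD x) (abs_nonneg _) zero_le_one
      _ = D := one_mul D
  have hmeas : ∀ σ : Fin N → Bool, Measurable fun g : Fin M → Fin N → ℝ =>
      Real.exp (∑ a, m * f (proj (spin σ) (g a))) := fun σ => by
    refine Real.measurable_exp.comp (Finset.measurable_sum _ fun a _ => ?_)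
    exact (hf.comp ((measurable_proj _).comp (measurable_pi_apply a))).const_mul m
  have hbd : ∀ (σ : Fin N → Bool) (g : Fin M → Fin N → ℝ),
      |Real.exp (∑ a, m * f (proj (spin σ) (g a)))| ≤ Real.exp (M * D) := fun σ g => by
    rw [abs_of_pos (Real.exp_pos _)]
    exact Real.exp_le_exp.2 ((le_abs_self _).trans
      (abs_sum_le (l := fun x => m * f x) hfb (fun a => proj (spin σ) (g a))))
  have hint : ∀ σ : Fin N → Bool, Integrable (fun g : Fin M → Fin N → ℝ =>
      Real.exp (∑ a, m * f (proj (spin σ) (g a)))) (patterns M N) := fun σ =>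
    integrable_of_bdd (hmeas σ) (hbd σ)
  have hWint : Integrable W (patterns M N) :=
    (integrable_finsetSum _ fun σ _ => hint σ).const_mul _
  have hEW : ∫ g, W g ∂(patterns M N) =
      Real.exp (-(N * (m * Real.log 2)) + N * Real.log 2 + M * Λ) := by
    rw [hW]
    simp only
    rw [integral_const_mul, integral_finsetSum _ fun σ _ => hint σ]
    have h1 : ∀ σ : Fin N → Bool, ∫ g, Real.exp (∑ a, m * f (proj (spin σ) (g a)))
        ∂(patterns M N) = (Real.exp Λ) ^ M := fun σ => by
      rw [integral_exp_sum_one hN (h := fun x => m * f x) (by fun_prop), ← hΛ]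
    simp_rw [h1]
    simp only [Finset.sum_const, Finset.card_univ, Fintype.card_fun, Fintype.card_bool,
      Fintype.card_fin, nsmul_eq_mul]
    push_cast
    have h2 : (2 : ℝ) ^ N = Real.exp (N * Real.log 2) := by
      rw [mul_comm, Real.exp_mul, Real.exp_log (by norm_num), Real.rpow_natCast]
    rw [h2, ← Real.exp_nat_mul, ← Real.exp_add, ← Real.exp_add]
    congr 1; ring
  have hpt : ∀ g, m * logZ f g ≤ Real.log (W g) := by
    intro g
    unfold logZ
    rw [← Real.log_rpow (Z_pos f g)]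
    refine Real.log_le_log (Real.rpow_pos_of_pos (Z_pos f g) _) ?_
    rw [Real.mul_rpow (by positivity) (Finset.sum_nonneg fun σ _ => (Real.exp_pos _).le)]
    have h1 : ((1 / 2 : ℝ) ^ N) ^ m = Real.exp (-(N * (m * Real.log 2))) := by
      rw [← Real.rpow_natCast, ← Real.rpow_mul (by norm_num), Real.rpow_def_of_pos (by norm_num),
        one_div, Real.log_inv]
      congr 1; ring
    rw [h1]
    refine mul_le_mul_of_nonneg_left ?_ (Real.exp_pos _).le
    refine (rpow_sum_le _ _ (fun σ _ => Real.exp_pos _) Finset.univ_nonempty hm1).trans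
      (le_of_eq ?_)
    refine Finset.sum_congr rfl fun σ _ => ?_
    rw [← Real.exp_mul, mul_comm, Finset.mul_sum]
  set c := -(N * (m * Real.log 2)) + N * Real.log 2 + M * Λ with hc
  have hpt2 : ∀ g, m * logZ f g ≤ W g * Real.exp (-c) - 1 + c := by
    intro g
    refine (hpt g).trans ?_
    have h1 : Real.log (W g * Real.exp (-c)) ≤ W g * Real.exp (-c) - 1 :=
      Real.log_le_sub_one_of_pos (mul_pos (hWpos g) (Real.exp_pos _))
    rw [Real.log_mul (hWpos g).ne' (Real.exp_pos _).ne', Real.log_exp] at h1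
    linarith
  have hi : Integrable (fun g => m * logZ f g) (patterns M N) :=
    (integrable_of_bdd (measurable_logZ hf) (logZ_bdd hD)).const_mul m
  have hmono := integral_mono hi
    (((hWint.mul_const (Real.exp (-c))).sub (integrable_const 1)).add (integrable_const c)) hpt2
  have e1 : ∫ g, (W g * Real.exp (-c) - 1 + c) ∂(patterns M N) = c := by
    have hi2 : Integrable (fun g => W g * Real.exp (-c) - 1) (patterns M N) :=
      (hWint.mul_const (Real.exp (-c))).sub (integrable_const 1)
    rw [integral_add hi2 (integrable_const c),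
      integral_sub (hWint.mul_const (Real.exp (-c))) (integrable_const 1), integral_mul_const,
      hEW, ← Real.exp_add]
    simp [hc]
  have hmono' : ∫ g, m * logZ f g ∂(patterns M N) ≤ c := by
    rw [← e1]; exact hmono
  rw [integral_const_mul] at hmono'
  have h5 : ∫ g, logZ f g ∂(patterns M N) ≤ c / m := by
    rw [le_div_iff₀ hm0]; linarith
  refine h5.trans (le_of_eq ?_)
  rw [hc]; field_simp; ring

end Vale.Agent.P157
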